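import Claimed.Agent.Lib.Gmt.BvAnisoA

/-!
# Lib/Gmt [BvAniso part B] G1d: anisotropic total variation, lattice inequality.   (architect: helper75)

`gmtVarA A u U = sup { ∫ u div T : T ∈ C¹_c(U), T(x)·ξ ≤ √(A x ξ ξ) }`, so that
`gmtPer A S U = gmtVarA A (gmtChi S) U` and `gmtVar = gmtVarA (Euclidean)`.

PLAN OF PROOFS
* `gmtVarA_of_contDiffOn`: as `gmtVar_of_contDiffOn`.  `≤`: `-∫ ∇u·T ≤ ∫ √(A ∇u ∇u)` by admissibility with `ξ = -∇u`.
  `≥`: the optimal field is `T = - A ∇u / √(A ∇u ∇u)` (Cauchy-Schwarz for the form `A x` shows admissibility);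
  regularise: `T_{δ} = - χ A∇u / √(δ² + A∇u∇u)` is continuous, admissible with a factor `< 1` on compact sets;
  approximate uniformly by `C¹` fields (`gmtMolV_tendsto`) and rescale by `1 - η` (ellipticity on the compact support).
* `gmtVarA_gmtMol_le`: for `T` admissible in `U'`, `∫ u_ε div T = ∫ u div (T_ε)` and `T_ε` is
  `(1 + η)`-admissible as soon as `√(A y ξ ξ) ≤ (1 + η) √(A x ξ ξ)` for `|x - y| < ε`, `x, y` in the compact set `cthickening ε (closure U')`
  (uniform continuity + ellipticity).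
* `gmtPer_lattice`: `u_ε = gmtMol ε χ_S`, `v_ε = gmtMol ε χ_{S'}` have values in `[0,1]`;
  `φ(∇(uv)) + φ(∇(u + v - uv)) ≤ φ(∇u) + φ(∇v)` pointwise for the seminorm `φ = √(A x · ·)`
  (`∇(uv) = v∇u + u∇v`, `∇(u+v-uv) = (1-v)∇u + (1-u)∇v`); `u_ε v_ε → χ_{S ∩ S'}`,
  `u_ε + v_ε - u_ε v_ε → χ_{S ∪ S'}` in `L¹_loc`; lower semicontinuity on `U' ⋐ U`, `gmtVarA_gmtMol_le`,
  `η → 0`, then `U' ↑ U` (`gmtPer_iUnion_mono`).
-/

set_option autoImplicit false
open scoped ContDiff ENNReal RealInnerProductSpace Topology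
open MeasureTheory Metric Set Filter

namespace Claimed.Agent.Gmt

variable {m : ℕ}

theorem gmtVarA_gmtMol_le {U U' : Set (E m)} {A : E m → Bil m} (hU : IsOpen U) (hA : GmtInt U A)
    (hU' : GmtCC U' U) {η : ℝ} (hη : 0 < η) :
    ∃ ε₀ > 0, ∀ ε, 0 < ε → ε < ε₀ → ∀ u : E m → ℝ, LocallyIntegrable u →
      gmtVarA A (gmtMol ε u) U' ≤ ENNReal.ofReal (1 + η) * gmtVarA A u U := by
  obtain ⟨hU'o, hU'c, hU'U⟩ := hU'
  obtain ⟨δ, hδ, hδU⟩ := hU'c.exists_cthickening_subset_open hU hU'U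
  set K : Set (E m) := cthickening δ (closure U') with hK
  have hKc : IsCompact K := hU'c.cthickening
  obtain ⟨ε₁, hε₁, hosc⟩ := gmtInt_osc hU hA hKc hδU hη
  refine ⟨min δ ε₁, lt_min hδ hε₁, fun ε hε hεε u hu => ?_⟩
  have hεδ : ε < δ := hεε.trans_le (min_le_left _ _)
  have hεε₁ : ε < ε₁ := hεε.trans_le (min_le_right _ _)
  have h1η : 0 < 1 + η := by linarith
  by_cases hfin : gmtVarA A u U = ⊤
  · rw [hfin, ENNReal.mul_top (by simpa using h1η)]
    exact le_top
  conv_lhs => unfold gmtVarA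
  refine iSup_le fun T => iSup_le fun hT => iSup_le fun h1 => ?_
  have e : ENNReal.ofReal (1 + η) * gmtVarA A u U
      = ENNReal.ofReal ((1 + η) * (gmtVarA A u U).toReal) := by
    rw [ENNReal.ofReal_mul h1η.le, ENNReal.ofReal_toReal hfin]
  rw [e]
  refine ENNReal.ofReal_le_ofReal ?_
  obtain ⟨hc, hcs, -⟩ := continuous_gmtDiv hT
  refine integral_gmtMol_mul_le hε hu hc hcs (by positivity) fun z hz => ?_
  have hmemK : ∀ x ∈ U', x - z ∈ K := by
    intro x hx
    rw [hK]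
    refine mem_cthickening_of_dist_le (x - z) x δ _ (subset_closure hx) ?_
    rw [dist_eq_norm]
    have : x - z - x = -z := by abel
    rw [this, norm_neg]
    exact (hz.trans hεδ).le
  have htest : GmtTest U (fun y => T (y + z)) := hT.translate z fun x hx => hδU (hmemK x hx)
  have hadm : GmtAdm A (fun y => (1 + η)⁻¹ • T (y + z)) := by
    intro y ξ
    by_cases hy : y + z ∈ tsupport T
    · have hyU' : y + z ∈ U' := hT.sub hy
      have hyK : y ∈ K := by
        have := hmemK _ hyU'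
        simpa using this
      have hyzK : y + z ∈ K := by
        rw [hK]
        exact self_subset_cthickening _ (subset_closure hyU')
      have h2 := hosc y hyK (y + z) hyzK (by
        have : y - (y + z) = -z := by abel
        rw [this, norm_neg]
        exact hz.trans hεε₁) ξ
      rw [real_inner_smul_left]
      calc (1 + η)⁻¹ * ⟪T (y + z), ξ⟫ ≤ (1 + η)⁻¹ * ((1 + η) * Real.sqrt (A y ξ ξ)) := by
            gcongr
            exact (h1 (y + z) ξ).trans h2
        _ = Real.sqrt (A y ξ ξ) := by field_simp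
    · have : T (y + z) = 0 := image_eq_zero_of_notMem_tsupport hy
      simp [this]
  have h3 := integral_le_gmtVarA (u := u) (htest.const_smul (1 + η)⁻¹) hadm
  rw [ENNReal.ofReal_le_iff_le_toReal hfin] at h3
  have e2 : ∫ x, u x * gmtDiv (fun y => (1 + η)⁻¹ • T (y + z)) x
      = (1 + η)⁻¹ * ∫ y, u y * gmtDiv T (y + z) := by
    rw [← integral_const_mul]
    congr 1
    ext x
    rw [gmtDiv_const_smul _ (htest.differentiable x), gmtDiv_translate]
    ring
  rw [e2, inv_mul_le_iff₀ h1η] at h3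
  exact h3

theorem gradient_mul' {u v : E m → ℝ} {x : E m} (hu : DifferentiableAt ℝ u x)
    (hv : DifferentiableAt ℝ v x) :
    gradient (fun y => u y * v y) x = v x • gradient u x + u x • gradient v x := by
  unfold gradient
  rw [fderiv_fun_mul hu hv, map_add, map_smul, map_smul, add_comm]

theorem gradient_lat' {u v : E m → ℝ} {x : E m} (hu : DifferentiableAt ℝ u x)
    (hv : DifferentiableAt ℝ v x) :
    gradient (fun y => u y + v y - u y * v y) x
      = (1 - v x) • gradient u x + (1 - u x) • gradient v x := by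
  unfold gradient
  have h1 : DifferentiableAt ℝ (fun y => u y + v y) x := hu.add hv
  have h2 : DifferentiableAt ℝ (fun y => u y * v y) x := hu.mul hv
  rw [fderiv_fun_sub h1 h2, fderiv_fun_add hu hv, fderiv_fun_mul hu hv, map_sub,
    map_add, map_add, map_smul, map_smul]
  module

theorem gmtDens_lattice {U : Set (E m)} {A : E m → Bil m} (hA : GmtInt U A) {x : E m}
    (hx : x ∈ U) {u v : E m → ℝ} (hu : DifferentiableAt ℝ u x) (hv : DifferentiableAt ℝ v x)
    (hu01 : u x ∈ Icc (0 : ℝ) 1) (hv01 : v x ∈ Icc (0 : ℝ) 1) :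
    gmtDens A (fun y => u y * v y) x + gmtDens A (fun y => u y + v y - u y * v y) x ≤
      gmtDens A u x + gmtDens A v x := by
  unfold gmtDens
  rw [gradient_mul' hu hv, gradient_lat' hu hv]
  have h1 := gmtInt_sqrt_add_le hA hx (v x • gradient u x) (u x • gradient v x)
  have h2 := gmtInt_sqrt_add_le hA hx ((1 - v x) • gradient u x) ((1 - u x) • gradient v x)
  rw [gmtInt_sqrt_smul x hv01.1, gmtInt_sqrt_smul x hu01.1] at h1
  rw [gmtInt_sqrt_smul x (sub_nonneg.2 hv01.2), gmtInt_sqrt_smul x (sub_nonneg.2 hu01.2)] at h2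
  linarith

/-- lattice inequality for `C¹` functions with values in `[0,1]`. -/
theorem gmtVarA_lattice_c1 {W : Set (E m)} {A : E m → Bil m} (hW : IsOpen W) (hA : GmtInt W A)
    {u v : E m → ℝ} (hu : ContDiffOn ℝ 1 u W) (hv : ContDiffOn ℝ 1 v W)
    (hu01 : ∀ x ∈ W, u x ∈ Icc (0 : ℝ) 1) (hv01 : ∀ x ∈ W, v x ∈ Icc (0 : ℝ) 1) :
    gmtVarA A (fun y => u y * v y) W + gmtVarA A (fun y => u y + v y - u y * v y) W ≤
      gmtVarA A u W + gmtVarA A v W := by
  have hp : ContDiffOn ℝ 1 (fun y => u y * v y) W := hu.mul hv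
  have hq : ContDiffOn ℝ 1 (fun y => u y + v y - u y * v y) W := (hu.add hv).sub hp
  rw [gmtVarA_of_contDiffOn hW hA hp, gmtVarA_of_contDiffOn hW hA hq,
    gmtVarA_of_contDiffOn hW hA hu, gmtVarA_of_contDiffOn hW hA hv]
  have hm : ∀ {w : E m → ℝ}, ContDiffOn ℝ 1 w W →
      AEMeasurable (fun x => ENNReal.ofReal (gmtDens A w x)) (volume.restrict W) := fun hw =>
    ((continuousOn_gmtDens hW hA hw).aemeasurable hW.measurableSet).ennreal_ofReal
  change (∫⁻ x in W, ENNReal.ofReal (gmtDens A (fun y => u y * v y) x)) +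
      (∫⁻ x in W, ENNReal.ofReal (gmtDens A (fun y => u y + v y - u y * v y) x))
    ≤ (∫⁻ x in W, ENNReal.ofReal (gmtDens A u x)) + ∫⁻ x in W, ENNReal.ofReal (gmtDens A v x)
  rw [← lintegral_add_left' (hm hp), ← lintegral_add_left' (hm hu)]
  refine setLIntegral_mono' hW.measurableSet fun x hx => ?_
  rw [← ENNReal.ofReal_add (gmtDens_nonneg _ _ _) (gmtDens_nonneg _ _ _),
    ← ENNReal.ofReal_add (gmtDens_nonneg _ _ _) (gmtDens_nonneg _ _ _)]
  refine ENNReal.ofReal_le_ofReal ?_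
  exact gmtDens_lattice hA hx ((hu.contDiffAt (hW.mem_nhds hx)).differentiableAt one_ne_zero)
    ((hv.contDiffAt (hW.mem_nhds hx)).differentiableAt one_ne_zero) (hu01 x hx) (hv01 x hx)

theorem gmtChi_inter (S S' : Set (E m)) (x : E m) :
    gmtChi (S ∩ S') x = gmtChi S x * gmtChi S' x := by
  by_cases h : x ∈ S <;> by_cases h' : x ∈ S' <;> simp [gmtChi, h, h']

theorem gmtChi_union (S S' : Set (E m)) (x : E m) :
    gmtChi (S ∪ S') x = gmtChi S x + gmtChi S' x - gmtChi S x * gmtChi S' x := by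
  by_cases h : x ∈ S <;> by_cases h' : x ∈ S' <;> simp [gmtChi, h, h']

theorem gmtChi_mem_Icc (S : Set (E m)) (x : E m) : gmtChi S x ∈ Icc (0 : ℝ) 1 := by
  by_cases h : x ∈ S <;> simp [gmtChi, h]

theorem gmt_enorm_mul_sub_le {u v a b : ℝ} (hv : v ∈ Icc (0 : ℝ) 1) (ha : a ∈ Icc (0 : ℝ) 1) :
    ‖u * v - a * b‖ₑ ≤ ‖u - a‖ₑ + ‖v - b‖ₑ := by
  rw [Real.enorm_eq_ofReal_abs, Real.enorm_eq_ofReal_abs, Real.enorm_eq_ofReal_abs,
    ← ENNReal.ofReal_add (abs_nonneg _) (abs_nonneg _)]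
  refine ENNReal.ofReal_le_ofReal ?_
  have e : u * v - a * b = (u - a) * v + a * (v - b) := by ring
  rw [e]
  refine (abs_add_le _ _).trans ?_
  rw [abs_mul, abs_mul, abs_of_nonneg hv.1, abs_of_nonneg ha.1]
  have h1 : |u - a| * v ≤ |u - a| * 1 := mul_le_mul_of_nonneg_left hv.2 (abs_nonneg _)
  have h2 : a * |v - b| ≤ 1 * |v - b| := mul_le_mul_of_nonneg_right ha.2 (abs_nonneg _)
  linarith

theorem gmt_enorm_lat_sub_le {u v a b : ℝ} (hv : v ∈ Icc (0 : ℝ) 1) (ha : a ∈ Icc (0 : ℝ) 1) :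
    ‖(u + v - u * v) - (a + b - a * b)‖ₑ ≤ ‖u - a‖ₑ + ‖v - b‖ₑ := by
  rw [Real.enorm_eq_ofReal_abs, Real.enorm_eq_ofReal_abs, Real.enorm_eq_ofReal_abs,
    ← ENNReal.ofReal_add (abs_nonneg _) (abs_nonneg _)]
  refine ENNReal.ofReal_le_ofReal ?_
  have e : (u + v - u * v) - (a + b - a * b) = (u - a) * (1 - v) + (1 - a) * (v - b) := by ring
  rw [e]
  refine (abs_add_le _ _).trans ?_
  rw [abs_mul, abs_mul, abs_of_nonneg (sub_nonneg.2 hv.2), abs_of_nonneg (sub_nonneg.2 ha.2)]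
  have h1 : |u - a| * (1 - v) ≤ |u - a| * 1 :=
    mul_le_mul_of_nonneg_left (by linarith [hv.1]) (abs_nonneg _)
  have h2 : (1 - a) * |v - b| ≤ 1 * |v - b| :=
    mul_le_mul_of_nonneg_right (by linarith [ha.1]) (abs_nonneg _)
  linarith

theorem gmt_liminf_add_le (a b : ℕ → ℝ≥0∞) :
    liminf a atTop + liminf b atTop ≤ liminf (fun i => a i + b i) atTop := by
  rw [liminf_eq_iSup_iInf_of_nat, liminf_eq_iSup_iInf_of_nat, liminf_eq_iSup_iInf_of_nat]
  rw [ENNReal.iSup_add_iSup_of_monotone]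
  · refine iSup_mono fun n => ?_
    refine le_iInf fun i => le_iInf fun hi => ?_
    exact add_le_add (iInf₂_le i hi) (iInf₂_le i hi)
  · intro n n' hnn
    exact le_iInf fun i => le_iInf fun hi => iInf₂_le i (hnn.trans hi)
  · intro n n' hnn
    exact le_iInf fun i => le_iInf fun hi => iInf₂_le i (hnn.trans hi)

theorem gmt_le_of_forall_one_add {a c : ℝ≥0∞}
    (h : ∀ η : ℝ, 0 < η → a ≤ ENNReal.ofReal (1 + η) * c) : a ≤ c := by
  have ht : Tendsto (fun η : ℝ => ENNReal.ofReal (1 + η) * c) (𝓝[>] 0) (𝓝 (ENNReal.ofReal (1 + 0) * c)) := by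
    refine ENNReal.Tendsto.mul_const ?_ (Or.inl (by simp))
    refine (ENNReal.continuous_ofReal.tendsto _).comp ?_
    exact ((continuous_const.add continuous_id).tendsto (0 : ℝ)).mono_left nhdsWithin_le_nhds
  have h2 := ge_of_tendsto ht (by
    filter_upwards [self_mem_nhdsWithin] with η hη
    exact h η hη)
  simpa using h2

/-- the lattice inequality on `W ⋐ U`, up to the factor `1 + η`. -/
theorem gmtPer_lattice_cc {U W : Set (E m)} {A : E m → Bil m} (hU : IsOpen U) (hA : GmtInt U A)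
    (hW : GmtCC W U) {S S' : Set (E m)} (hS : MeasurableSet S) (hS' : MeasurableSet S') {η : ℝ}
    (hη : 0 < η) :
    gmtPer A (S ∩ S') W + gmtPer A (S ∪ S') W ≤
      ENNReal.ofReal (1 + η) * (gmtPer A S U + gmtPer A S' U) := by
  obtain ⟨ε₀, hε₀, hmol⟩ := gmtVarA_gmtMol_le hU hA hW hη
  have hWo : IsOpen W := hW.1
  have hWU : W ⊆ U := subset_closure.trans hW.2.2
  have hAW : GmtInt W A := hA.mono hWU
  set ε : ℕ → ℝ := fun n => ε₀ / (n + 2) with hε
  have hεpos : ∀ n, 0 < ε n := fun n => by positivity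
  have hεlt : ∀ n, ε n < ε₀ := fun n => by
    rw [hε]
    refine div_lt_self hε₀ ?_
    have : (0 : ℝ) ≤ n := Nat.cast_nonneg n
    linarith
  have hεlim : Tendsto ε atTop (𝓝[>] 0) := by
    rw [tendsto_nhdsWithin_iff]
    refine ⟨?_, Eventually.of_forall hεpos⟩
    have h1 : Tendsto (fun n : ℕ => (n : ℝ) + 2) atTop atTop :=
      tendsto_atTop_add_const_right _ _ tendsto_natCast_atTop_atTop
    exact h1.const_div_atTop ε₀
  have hl : LocallyIntegrable (gmtChi S) := gmtChi_locallyIntegrable hS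
  have hl' : LocallyIntegrable (gmtChi S') := gmtChi_locallyIntegrable hS'
  set u : ℕ → E m → ℝ := fun n => gmtMol (ε n) (gmtChi S) with hu
  set v : ℕ → E m → ℝ := fun n => gmtMol (ε n) (gmtChi S') with hv
  have hus : ∀ n, ContDiff ℝ 1 (u n) := fun n =>
    (gmtMol_contDiff (hεpos n) hl).of_le (by exact_mod_cast le_top)
  have hvs : ∀ n, ContDiff ℝ 1 (v n) := fun n =>
    (gmtMol_contDiff (hεpos n) hl').of_le (by exact_mod_cast le_top)
  have hu01 : ∀ n x, u n x ∈ Icc (0 : ℝ) 1 := fun n x =>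
    gmtMol_mem_Icc (hεpos n) hl (Eventually.of_forall (gmtChi_mem_Icc S)) x
  have hv01 : ∀ n x, v n x ∈ Icc (0 : ℝ) 1 := fun n x =>
    gmtMol_mem_Icc (hεpos n) hl' (Eventually.of_forall (gmtChi_mem_Icc S')) x
  have hbd : ∀ T : Set (E m), ∀ᵐ x, |gmtChi T x| ≤ 1 := fun T => Eventually.of_forall fun x => by
    rw [abs_of_nonneg (gmtChi_mem_Icc T x).1]
    exact (gmtChi_mem_Icc T x).2
  have hsum : ∀ K : Set (E m), IsCompact K → Tendsto (fun n =>
      (∫⁻ x in K, ‖u n x - gmtChi S x‖ₑ) + ∫⁻ x in K, ‖v n x - gmtChi S' x‖ₑ) atTop (𝓝 0) := by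
    intro K hK
    have h1 := (gmtMol_tendsto hl (hbd S) hK).comp hεlim
    have h2 := (gmtMol_tendsto hl' (hbd S') hK).comp hεlim
    simpa using h1.add h2
  have hmeas : ∀ n (K : Set (E m)),
      AEMeasurable (fun x => ‖u n x - gmtChi S x‖ₑ) (volume.restrict K) := fun n K =>
    (((hus n).continuous.measurable.sub
      (measurable_const.indicator hS)).enorm).aemeasurable
  have hcp : GmtConvF W (fun n y => u n y * v n y) (gmtChi (S ∩ S')) := by
    intro K hK _
    refine tendsto_of_tendsto_of_tendsto_of_le_of_le tendsto_const_nhds (hsum K hK)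
      (fun _ => zero_le) fun n => ?_
    show ∫⁻ x in K, ‖u n x * v n x - gmtChi (S ∩ S') x‖ₑ ≤ _
    rw [← lintegral_add_left' (hmeas n K)]
    refine lintegral_mono fun x => ?_
    rw [gmtChi_inter]
    exact gmt_enorm_mul_sub_le (hv01 n x) (gmtChi_mem_Icc S x)
  have hcq : GmtConvF W (fun n y => u n y + v n y - u n y * v n y) (gmtChi (S ∪ S')) := by
    intro K hK _
    refine tendsto_of_tendsto_of_tendsto_of_le_of_le tendsto_const_nhds (hsum K hK)
      (fun _ => zero_le) fun n => ?_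
    show ∫⁻ x in K, ‖u n x + v n x - u n x * v n x - gmtChi (S ∪ S') x‖ₑ ≤ _
    rw [← lintegral_add_left' (hmeas n K)]
    refine lintegral_mono fun x => ?_
    rw [gmtChi_union]
    exact gmt_enorm_lat_sub_le (hv01 n x) (gmtChi_mem_Icc S x)
  have hlp := gmtVarA_lsc A hWo
    (fun n => (((hus n).continuous.mul (hvs n).continuous).locallyIntegrable).locallyIntegrableOn W)
    ((gmtChi_locallyIntegrable (hS.inter hS')).locallyIntegrableOn W) hcp
  have hlq := gmtVarA_lsc A hWo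
    (fun n => ((((hus n).continuous.add (hvs n).continuous).sub
      ((hus n).continuous.mul (hvs n).continuous)).locallyIntegrable).locallyIntegrableOn W)
    ((gmtChi_locallyIntegrable (hS.union hS')).locallyIntegrableOn W) hcq
  rw [gmtPer_eq_gmtVarA A (hS.inter hS'), gmtPer_eq_gmtVarA A (hS.union hS'),
    gmtPer_eq_gmtVarA A hS, gmtPer_eq_gmtVarA A hS']
  refine (add_le_add hlp hlq).trans ((gmt_liminf_add_le _ _).trans ?_)
  refine liminf_le_of_le (by isBoundedDefault) fun b hb => ?_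
  obtain ⟨n, hn⟩ := hb.exists
  refine hn.trans ?_
  refine (gmtVarA_lattice_c1 hWo hAW (hus n).contDiffOn (hvs n).contDiffOn
    (fun x _ => hu01 n x) (fun x _ => hv01 n x)).trans ?_
  rw [mul_add]
  exact add_le_add (hmol (ε n) (hεpos n) (hεlt n) _ hl) (hmol (ε n) (hεpos n) (hεlt n) _ hl')

/-- LATTICE INEQUALITY. -/
theorem gmtPer_lattice {U : Set (E m)} {A : E m → Bil m} (hU : IsOpen U) (hA : GmtInt U A)
    {S S' : Set (E m)} (hS : MeasurableSet S) (hS' : MeasurableSet S') :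
    gmtPer A (S ∩ S') U + gmtPer A (S ∪ S') U ≤ gmtPer A S U + gmtPer A S' U := by
  obtain ⟨W, hW, hWm, hWU⟩ := gmt_exists_open_exhaustion hU
  rw [← hWU, gmtPer_iUnion_mono A _ (fun n => (hW n).1) hWm,
    gmtPer_iUnion_mono A _ (fun n => (hW n).1) hWm, hWU,
    ENNReal.iSup_add_iSup_of_monotone (fun _ _ h => gmtPer_mono A _ (hWm h))
      (fun _ _ h => gmtPer_mono A _ (hWm h))]
  refine iSup_le fun n => ?_
  exact gmt_le_of_forall_one_add fun η hη => gmtPer_lattice_cc hU hA (hW n) hS hS' hη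

theorem gmtP_lattice {U : Set (E m)} (hU : IsOpen U) {S S' : Set (E m)} (hS : MeasurableSet S)
    (hS' : MeasurableSet S') : gmtP (S ∩ S') U + gmtP (S ∪ S') U ≤ gmtP S U + gmtP S' U :=
  gmtPer_lattice hU (gmtInt_eu U) hS hS'

theorem gmtP_diff_le {U : Set (E m)} (hU : IsOpen U) {S S' : Set (E m)} (hS : MeasurableSet S)
    (hS' : MeasurableSet S') : gmtP (S \ S') U ≤ gmtP S U + gmtP S' U := by
  have h := gmtP_lattice hU hS hS'.compl
  rw [gmtP_compl hS'] at h
  exact le_self_add.trans h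

theorem GmtLF.inter {U S S' : Set (E m)} (hU : IsOpen U) (hS : GmtLF S U) (hS' : GmtLF S' U) :
    GmtLF (S ∩ S') U := by
  refine ⟨hS.1.inter hS'.1, fun W hW => ?_⟩
  have h := gmtP_lattice hW.1 hS.1 hS'.1
  exact ne_top_of_le_ne_top (ENNReal.add_ne_top.2 ⟨hS.2 W hW, hS'.2 W hW⟩) (le_self_add.trans h)

theorem GmtLF.union {U S S' : Set (E m)} (hU : IsOpen U) (hS : GmtLF S U) (hS' : GmtLF S' U) :
    GmtLF (S ∪ S') U := by
  refine ⟨hS.1.union hS'.1, fun W hW => ?_⟩
  have h := gmtP_lattice hW.1 hS.1 hS'.1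
  exact ne_top_of_le_ne_top (ENNReal.add_ne_top.2 ⟨hS.2 W hW, hS'.2 W hW⟩) (le_add_self.trans h)

theorem GmtLF.compl {U S : Set (E m)} (hS : GmtLF S U) : GmtLF Sᶜ U :=
  ⟨hS.1.compl, fun W hW => by rw [gmtP_compl hS.1]; exact hS.2 W hW⟩

theorem GmtLF.mono {U U' S : Set (E m)} (hS : GmtLF S U) (h : U' ⊆ U) : GmtLF S U' :=
  ⟨hS.1, fun W hW => hS.2 W ⟨hW.1, hW.2.1, hW.2.2.trans h⟩⟩

theorem gmtPer_empty_set (A : E m → Bil m) (S : Set (E m)) : gmtPer A S ∅ = 0 := by
  unfold gmtPer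
  refine le_antisymm (iSup_le fun T => iSup_le fun hT => iSup_le fun _ => ?_) zero_le
  have hT0 : ∀ x, T x = 0 := fun x =>
    image_eq_zero_of_notMem_tsupport fun h' => (hT.sub h').elim
  have : T = fun _ => 0 := funext hT0
  have h0 : ∀ x, gmtDiv T x = 0 := by
    intro x
    rw [this]
    unfold gmtDiv
    simp
  simp [h0]

/-- finite subadditivity. -/
theorem gmtPer_biUnion_le (A : E m → Bil m) {S : Set (E m)} (hS : MeasurableSet S) {ι : Type*}
    (s : Finset ι) (V : ι → Set (E m)) (hV : ∀ i, IsOpen (V i)) :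
    gmtPer A S (⋃ i ∈ s, V i) ≤ ∑ i ∈ s, gmtPer A S (V i) := by
  classical
  induction s using Finset.induction_on with
  | empty => simp [gmtPer_empty_set]
  | insert a s ha ih =>
    rw [Finset.set_biUnion_insert, Finset.sum_insert ha]
    exact (gmtPer_union_le A hS (hV a) (isOpen_biUnion fun i _ => hV i)).trans
      (add_le_add le_rfl ih)

/-- locally finite perimeter is a local property. -/
theorem gmtLF_iff_local {U S : Set (E m)} (hU : IsOpen U) (hS : MeasurableSet S) :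
    GmtLF S U ↔ ∀ x ∈ U, ∃ r > 0, gmtP S (ball x r) ≠ ⊤ := by
  constructor
  · intro h x hx
    obtain ⟨r, hr, hrU⟩ := Metric.nhds_basis_closedBall.mem_iff.1 (hU.mem_nhds hx)
    refine ⟨r, hr, h.2 _ ⟨isOpen_ball, ?_, ?_⟩⟩
    · exact (isCompact_closedBall x r).of_isClosed_subset isClosed_closure closure_ball_subset_closedBall
    · exact closure_ball_subset_closedBall.trans hrU
  · intro h
    refine ⟨hS, fun W hW => ?_⟩
    choose! r hr hfin using h
    obtain ⟨t, htW, hcov⟩ := hW.2.1.elim_nhds_subcover (fun x => ball x (r x))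
      fun x hx => ball_mem_nhds x (hr x (hW.2.2 hx))
    have h1 : gmtP S W ≤ gmtP S (⋃ x ∈ t, ball x (r x)) :=
      gmtPer_mono _ S (subset_closure.trans hcov)
    have h2 := gmtPer_biUnion_le (fun _ => gmtEu m) hS t (fun x => ball x (r x))
      fun _ => isOpen_ball
    refine ne_top_of_le_ne_top ?_ (h1.trans h2)
    exact ENNReal.sum_ne_top.2 fun x hx => hfin x (hW.2.2 (htW x hx))

end Claimed.Agent.Gmt
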