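import Claimed.Agent.Lib.Gmt.BvC1

/-!
# Lib/Gmt [BvBasic part B] G1a: total variation of functions, elementary properties.   (architect: helper75)

`gmtVar u U = sup { ∫ u div T : T ∈ C¹_c(U; E m), |T| ≤ 1 }` (values in `[0,∞]`), so that
`gmtP S U = gmtVar (indicator S 1) U`.  Everything here is "soft": linearity of the integral,
`∫ div T = 0`, partitions of unity, and for `gmtVar_of_contDiffOn` one integration by parts.

PROVED (helper75): the general (anisotropic) versions are in `BvVarA.lean`, `BvC1.lean`.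

PLAN OF PROOFS (historical)
* `integral_gmtDiv_eq_zero`: each `∫ ∂_i T_i = 0` (`integral_fderiv_eq_zero`-type lemma: Mathlib
  `MeasureTheory.integral_mul_fderiv_eq_neg_fderiv_mul_of_integrable` with the second function a
  cut-off that is `1` on the support, or `integral_eq_zero_of_hasDerivAt...` after Fubini).
* `gmtVar_lsc`: for a fixed admissible `T`, `∫ u_i div T → ∫ u div T` because `div T` is bounded with
  compact support in `U`; then `le_liminf` of a supremum.
* `gmtVar_union_le`: smooth partition of unity subordinate to `{U, V}` on `tsupport T`.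
* `gmtVar_iUnion_mono`: `tsupport T` is compact, hence inside one `U k`.
* `gmtVar_of_contDiffOn`: `≤`: integrate by parts, `|∫ ∇u·T| ≤ ∫_U |∇u|`.  `≥`: exhaust `U` by compact
  sets `K`, take `T = - χ ∇u / √(ε² + |∇u|²)` mollified (or: approximate the continuous field
  uniformly by `C¹` fields), let `ε → 0`.
-/

set_option autoImplicit false
open scoped ContDiff ENNReal RealInnerProductSpace Topology
open MeasureTheory Metric Set Filter

namespace Claimed.Agent.Gmt

variable {m : ℕ}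

/-- inner regularity: a test field lives in one member of an increasing open exhaustion. -/
theorem gmtVar_iUnion_mono (u : E m → ℝ) {U : ℕ → Set (E m)} (hU : ∀ k, IsOpen (U k))
    (hmono : Monotone U) : gmtVar u (⋃ k, U k) = ⨆ k, gmtVar u (U k) := by
  simp_rw [← gmtVarA_eu]
  exact gmtVarA_iUnion_mono _ u hU hmono

theorem gmtVar_union_le {u : E m → ℝ} {U V : Set (E m)} (hU : IsOpen U) (hV : IsOpen V)
    (hu : LocallyIntegrableOn u (U ∪ V)) : gmtVar u (U ∪ V) ≤ gmtVar u U + gmtVar u V := by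
  simp_rw [← gmtVarA_eu]
  exact gmtVarA_union_le _ hU hV hu

theorem gmtVar_add_le_union {u : E m → ℝ} {U V : Set (E m)} (hU : IsOpen U) (hV : IsOpen V)
    (hUV : Disjoint U V) (hu : LocallyIntegrableOn u (U ∪ V)) :
    gmtVar u U + gmtVar u V ≤ gmtVar u (U ∪ V) := by
  simp_rw [← gmtVarA_eu]
  exact gmtVarA_add_le_union _ hU hV hUV hu

/-- lower semicontinuity with respect to `L¹_loc(U)` convergence. -/
theorem gmtVar_lsc {U : Set (E m)} (hU : IsOpen U) {u : ℕ → E m → ℝ} {u' : E m → ℝ}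
    (hu : ∀ i, LocallyIntegrableOn (u i) U) (hu' : LocallyIntegrableOn u' U)
    (h : GmtConvF U u u') : gmtVar u' U ≤ liminf (fun i => gmtVar (u i) U) atTop := by
  simp_rw [← gmtVarA_eu]
  exact gmtVarA_lsc _ hU hu hu' h

theorem gmtP_lsc {U : Set (E m)} (hU : IsOpen U) {S : ℕ → Set (E m)} {S' : Set (E m)}
    (hS : ∀ i, MeasurableSet (S i)) (hS' : MeasurableSet S') (h : GmtConv U S S') :
    gmtP S' U ≤ liminf (fun i => gmtP (S i) U) atTop := gmtPer_lsc _ hU hS hS' h

theorem norm_gradient (u : E m → ℝ) (x : E m) : ‖gradient u x‖ = ‖fderiv ℝ u x‖ := by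
  unfold gradient
  simp

/-- total variation of a `C¹` function. -/
theorem gmtVar_of_contDiffOn {u : E m → ℝ} {U : Set (E m)} (hU : IsOpen U)
    (hu : ContDiffOn ℝ 1 u U) : gmtVar u U = ∫⁻ x in U, ‖fderiv ℝ u x‖ₑ := by
  rw [← gmtVarA_eu, gmtVarA_of_contDiffOn hU (gmtInt_eu U) hu]
  congr 1
  ext x
  rw [gmtEu_apply, real_inner_self_eq_norm_sq, Real.sqrt_sq (norm_nonneg _), norm_gradient,
    ofReal_norm]

/-- rescaling of admissible fields. -/
theorem gmtAdm_scale {A B : E m → Bil m} {U : Set (E m)} {c : ℝ} (hc : 0 < c)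
    (h : ∀ x ∈ U, ∀ ξ : E m, A x ξ ξ ≤ c ^ 2 * B x ξ ξ) {T : E m → E m} (hT : GmtTest U T)
    (h1 : GmtAdm A T) : GmtAdm B (fun x => c⁻¹ • T x) := by
  intro x ξ
  by_cases hx : x ∈ U
  · rw [real_inner_smul_left]
    have h2 : Real.sqrt (A x ξ ξ) ≤ c * Real.sqrt (B x ξ ξ) := by
      calc Real.sqrt (A x ξ ξ) ≤ Real.sqrt (c ^ 2 * B x ξ ξ) := Real.sqrt_le_sqrt (h x hx ξ)
        _ = c * Real.sqrt (B x ξ ξ) := by rw [Real.sqrt_mul (sq_nonneg c), Real.sqrt_sq hc.le]
    calc c⁻¹ * ⟪T x, ξ⟫ ≤ c⁻¹ * (c * Real.sqrt (B x ξ ξ)) := by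
          gcongr
          exact (h1 x ξ).trans h2
      _ = Real.sqrt (B x ξ ξ) := by field_simp
  · have : T x = 0 := image_eq_zero_of_notMem_tsupport fun h' => hx (hT.sub h')
    simp [this]

/-- comparison of two integrands. -/
theorem gmtPer_le_mul_gmtPer {A B : E m → Bil m} {U : Set (E m)} {c : ℝ} (hc : 0 < c)
    (h : ∀ x ∈ U, ∀ ξ : E m, A x ξ ξ ≤ c ^ 2 * B x ξ ξ) (S : Set (E m)) :
    gmtPer A S U ≤ ENNReal.ofReal c * gmtPer B S U := by
  conv_lhs => unfold gmtPer
  refine iSup_le fun T => iSup_le fun hT => iSup_le fun h1 => ?_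
  have e : (∫ x in S, gmtDiv T x) = c * ∫ x in S, gmtDiv (fun y => c⁻¹ • T y) x := by
    rw [← integral_const_mul]
    congr 1
    ext x
    rw [gmtDiv_const_smul _ (hT.differentiable x)]
    field_simp
  rw [e, ENNReal.ofReal_mul hc.le]
  gcongr
  exact integral_le_gmtPer (hT.const_smul c⁻¹) (gmtAdm_scale hc h hT h1)

theorem gmtVarA_le_mul_gmtVarA {A B : E m → Bil m} {U : Set (E m)} {c : ℝ} (hc : 0 < c)
    (h : ∀ x ∈ U, ∀ ξ : E m, A x ξ ξ ≤ c ^ 2 * B x ξ ξ) (u : E m → ℝ) :
    gmtVarA A u U ≤ ENNReal.ofReal c * gmtVarA B u U := by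
  conv_lhs => unfold gmtVarA
  refine iSup_le fun T => iSup_le fun hT => iSup_le fun h1 => ?_
  have e : (∫ x, u x * gmtDiv T x) = c * ∫ x, u x * gmtDiv (fun y => c⁻¹ • T y) x := by
    rw [← integral_const_mul]
    congr 1
    ext x
    rw [gmtDiv_const_smul _ (hT.differentiable x)]
    field_simp
  rw [e, ENNReal.ofReal_mul hc.le]
  gcongr
  exact integral_le_gmtVarA (hT.const_smul c⁻¹) (gmtAdm_scale hc h hT h1)

/-- comparison of the `A`-perimeter with the Euclidean one. -/
theorem gmtPer_le_mul_gmtP {A : E m → Bil m} {U : Set (E m)} {c : ℝ} (hc : 0 ≤ c)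
    (hA : ∀ x ∈ U, ∀ ξ : E m, A x ξ ξ ≤ c ^ 2 * ‖ξ‖ ^ 2) (S : Set (E m)) :
    gmtPer A S U ≤ ENNReal.ofReal c * gmtP S U := by
  rcases hc.eq_or_lt with rfl | hc0
  · conv_lhs => unfold gmtPer
    refine iSup_le fun T => iSup_le fun hT => iSup_le fun h1 => ?_
    have hT0 : T = fun _ => 0 := by
      ext1 x
      by_cases hx : x ∈ U
      · have h2 := h1 x (T x)
        have h3 : A x (T x) (T x) ≤ 0 := by simpa using hA x hx (T x)
        rw [Real.sqrt_eq_zero_of_nonpos h3, real_inner_self_eq_norm_sq] at h2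
        have h4 : ‖T x‖ = 0 := by nlinarith [norm_nonneg (T x)]
        exact norm_eq_zero.1 h4
      · exact image_eq_zero_of_notMem_tsupport fun h' => hx (hT.sub h')
    have : ∀ x, gmtDiv T x = 0 := by
      intro x
      rw [hT0]
      unfold gmtDiv
      simp
    simp [this]
  · refine gmtPer_le_mul_gmtPer hc0 (fun x hx ξ => ?_) S
    rw [gmtEu_apply, real_inner_self_eq_norm_sq]
    exact hA x hx ξ

theorem mul_gmtP_le_gmtPer {A : E m → Bil m} {U : Set (E m)} {c : ℝ} (hc : 0 ≤ c)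
    (hA : ∀ x ∈ U, ∀ ξ : E m, c ^ 2 * ‖ξ‖ ^ 2 ≤ A x ξ ξ) (S : Set (E m)) :
    ENNReal.ofReal c * gmtP S U ≤ gmtPer A S U := by
  rcases hc.eq_or_lt with rfl | hc0
  · simp
  · have h := gmtPer_le_mul_gmtPer (A := fun _ => gmtEu m) (B := A) (U := U) (c := c⁻¹)
      (inv_pos.2 hc0) (fun x hx ξ => by
        rw [gmtEu_apply, real_inner_self_eq_norm_sq]
        have := hA x hx ξ
        rw [inv_pow, inv_mul_eq_div, le_div_iff₀ (by positivity)]
        linarith) S
    calc ENNReal.ofReal c * gmtP S U ≤ ENNReal.ofReal c * (ENNReal.ofReal c⁻¹ * gmtPer A S U) := by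
          gcongr
          exact h
      _ = gmtPer A S U := by
          rw [← mul_assoc, ← ENNReal.ofReal_mul hc, mul_inv_cancel₀ hc0.ne']
          simp

end Claimed.Agent.Gmt
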