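import Claimed.Agent.Lib.Gmt.Defs

/-!
# Lib/Gmt [BvBasic part A] G1a: total variation of functions, elementary properties.   (architect: helper75)

`gmtVar u U = sup { ∫ u div T : T ∈ C¹_c(U; E m), |T| ≤ 1 }` (values in `[0,∞]`), so that
`gmtP S U = gmtVar (indicator S 1) U`.  Everything here is "soft": linearity of the integral,
`∫ div T = 0`, partitions of unity, and for `gmtVar_of_contDiffOn` one integration by parts.

PLAN OF PROOFS
* `integral_gmtDiv_eq_zero`: each `∫ ∂_i T_i = 0` (`integral_fderiv_eq_zero`-type lemma: Mathlib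
  `MeasureTheory.integral_mul_fderiv_eq_neg_fderiv_mul_of_integrable` with the second function a
  cut-off that is `1` on the support, or `integral_eq_zero_of_hasDerivAt...` after Fubini).
* `gmtVar_lsc`: for a fixed admissible `T`, `∫ u_i div T → ∫ u div T` because `div T` is bounded with
  compact support in `U`; then `le_liminf` of a supremum.
* `gmtVar_union_le`: smooth partition of unity subordinate to `{U, V}` on `tsupport T`.
* `gmtVar_iUnion_mono`: `tsupport T` is compact, hence inside one `U k`.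
* `gmtVar_of_contDiffOn`: `≤`: integrate by parts, `|∫ ∇u·T| ≤ ∫_U |∇u|`.  `≥`: exhaust `U` by compact
  sets `K`, take `T = - χ ∇u / √(ε² + |∇u|²)` mollified (or: approximate the continuous field
  uniformly by `C¹` fields), let `ε → 0`.
-/

set_option autoImplicit false
open scoped ContDiff ENNReal RealInnerProductSpace Topology
open MeasureTheory Metric Set Filter

namespace Claimed.Agent.Gmt

variable {m : ℕ}

/-- total variation of `u` in the open set `U`. -/
noncomputable def gmtVar (u : E m → ℝ) (U : Set (E m)) : ℝ≥0∞ :=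
  ⨆ (T : E m → E m) (_ : GmtTest U T) (_ : ∀ x, ‖T x‖ ≤ 1), ENNReal.ofReal (∫ x, u x * gmtDiv T x)

/-- the characteristic function. -/
noncomputable def gmtChi (S : Set (E m)) : E m → ℝ := S.indicator fun _ => 1

/-- `L¹_loc(U)` convergence of functions. -/
def GmtConvF (U : Set (E m)) (u : ℕ → E m → ℝ) (u' : E m → ℝ) : Prop :=
  ∀ K, IsCompact K → K ⊆ U → Tendsto (fun i => ∫⁻ x in K, ‖u i x - u' x‖ₑ) atTop (𝓝 0)

theorem gmtEu_apply (v w : E m) : gmtEu m v w = ⟪v, w⟫ := rfl

theorem gmtAdm_eu_iff (T : E m → E m) : GmtAdm (fun _ => gmtEu m) T ↔ ∀ x, ‖T x‖ ≤ 1 := by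
  unfold GmtAdm
  constructor
  · intro h x
    have := h x (T x)
    simp only [gmtEu_apply] at this
    rw [real_inner_self_eq_norm_sq, Real.sqrt_sq (norm_nonneg _)] at this
    nlinarith [norm_nonneg (T x)]
  · intro h x ξ
    simp only [gmtEu_apply]
    rw [real_inner_self_eq_norm_sq, Real.sqrt_sq (norm_nonneg _)]
    calc ⟪T x, ξ⟫ ≤ ‖T x‖ * ‖ξ‖ := real_inner_le_norm _ _
      _ ≤ 1 * ‖ξ‖ := by gcongr; exact h x
      _ = ‖ξ‖ := one_mul _

theorem gmtP_eq_gmtVar {S : Set (E m)} (hS : MeasurableSet S) (U : Set (E m)) :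
    gmtP S U = gmtVar (gmtChi S) U := by
  unfold gmtP gmtPer gmtVar
  congr 1
  ext T
  congr 1
  ext hT
  have e : (∫ x in S, gmtDiv T x) = ∫ x, gmtChi S x * gmtDiv T x := by
    rw [← integral_indicator hS]
    congr 1
    ext x
    by_cases hx : x ∈ S <;> simp [gmtChi, hx]
  rw [e]
  apply iSup_congr_Prop (gmtAdm_eu_iff T)
  intro _
  rfl

theorem gmtDiv_eq_zero_of_notMem {T : E m → E m} {x : E m} (hx : x ∉ tsupport T) :
    gmtDiv T x = 0 := by
  unfold gmtDiv
  simp [fderiv_of_notMem_tsupport (𝕜 := ℝ) hx]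

theorem continuous_gmtDiv {U : Set (E m)} {T : E m → E m} (hT : GmtTest U T) :
    Continuous (gmtDiv T) ∧ HasCompactSupport (gmtDiv T) ∧ tsupport (gmtDiv T) ⊆ U := by
  have hs : Function.support (gmtDiv T) ⊆ tsupport T := by
    intro x hx
    by_contra h
    exact hx (gmtDiv_eq_zero_of_notMem h)
  refine ⟨?_, hT.cpt.mono' hs, ?_⟩
  · unfold gmtDiv
    have h1 : Continuous (fderiv ℝ T) := hT.c1.continuous_fderiv one_ne_zero
    refine continuous_finsetSum _ fun i _ => ?_
    have h2 : Continuous fun x => fderiv ℝ T x (eb i) := h1.clm_apply continuous_const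
    exact (EuclideanSpace.proj i : E m →L[ℝ] ℝ).continuous.comp h2
  · exact (closure_minimal hs (isClosed_tsupport T)).trans hT.sub

theorem integral_gmtDiv_eq_zero {U : Set (E m)} {T : E m → E m} (hT : GmtTest U T) :
    ∫ x, gmtDiv T x = 0 := by
  unfold gmtDiv
  have h1 : Continuous (fderiv ℝ T) := hT.c1.continuous_fderiv one_ne_zero
  have hd : Differentiable ℝ T := hT.c1.differentiable (by norm_num)
  have key : ∀ i : Fin m, Integrable (fun x => fderiv ℝ T x (eb i) i) ∧
      ∫ x, fderiv ℝ T x (eb i) i = 0 := by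
    intro i
    set g : E m → ℝ := fun x => T x i with hg
    have hgd : Differentiable ℝ g := fun x =>
      ((EuclideanSpace.proj i : E m →L[ℝ] ℝ).differentiableAt).comp x (hd x)
    have hfg : ∀ x, fderiv ℝ g x (eb i) = fderiv ℝ T x (eb i) i := by
      intro x
      have : HasFDerivAt g ((EuclideanSpace.proj i : E m →L[ℝ] ℝ).comp (fderiv ℝ T x)) x :=
        (EuclideanSpace.proj i : E m →L[ℝ] ℝ).hasFDerivAt.comp x (hd x).hasFDerivAt
      rw [this.fderiv]
      rfl
    have hc : Continuous fun x => fderiv ℝ T x (eb i) i :=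
      (EuclideanSpace.proj i : E m →L[ℝ] ℝ).continuous.comp (h1.clm_apply continuous_const)
    have hcs : HasCompactSupport fun x => fderiv ℝ T x (eb i) i := by
      refine hT.cpt.mono' ?_
      intro x hx
      by_contra h
      apply hx
      simp [fderiv_of_notMem_tsupport (𝕜 := ℝ) h]
    have hint : Integrable (fun x => fderiv ℝ T x (eb i) i) := hc.integrable_of_hasCompactSupport hcs
    refine ⟨hint, ?_⟩
    have hgc : Continuous g := hgd.continuous
    have hgcs : HasCompactSupport g := by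
      refine hT.cpt.mono' ?_
      intro x hx
      by_contra h
      apply hx
      simp [hg, image_eq_zero_of_notMem_tsupport h]
    have := integral_mul_fderiv_eq_neg_fderiv_mul_of_integrable (μ := (volume : Measure (E m)))
      (f := fun _ => (1 : ℝ)) (g := g) (v := eb i) (by simp)
      (by simpa [hfg] using hint) (by simpa using hgc.integrable_of_hasCompactSupport hgcs)
      (fun x _ => differentiableAt_const _) (fun x _ => hgd x)
    simpa [hfg] using this
  rw [integral_finsetSum _ fun i _ => (key i).1]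
  exact Finset.sum_eq_zero fun i _ => (key i).2


theorem gmt_sum_eb (v : E m) : ∑ i, v i • (eb i : E m) = v := by
  ext j
  simp [Pi.single_apply]

/-- product rule. -/
theorem gmtDiv_smul {φ : E m → ℝ} {T : E m → E m} {x : E m} (hφ : DifferentiableAt ℝ φ x)
    (hT : DifferentiableAt ℝ T x) :
    gmtDiv (fun y => φ y • T y) x = φ x * gmtDiv T x + fderiv ℝ φ x (T x) := by
  unfold gmtDiv
  have h : fderiv ℝ (fun y => φ y • T y) x
      = φ x • fderiv ℝ T x + (fderiv ℝ φ x).smulRight (T x) :=
    (hφ.hasFDerivAt.smul hT.hasFDerivAt).fderiv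
  rw [h]
  have h2 : fderiv ℝ φ x (T x) = ∑ i, fderiv ℝ φ x (eb i) * T x i := by
    conv_lhs => rw [← gmt_sum_eb (T x)]
    rw [map_sum]
    refine Finset.sum_congr rfl fun i _ => ?_
    rw [map_smul, smul_eq_mul, mul_comm]
  rw [h2, Finset.mul_sum, ← Finset.sum_add_distrib]
  refine Finset.sum_congr rfl fun i _ => ?_
  simp

theorem gmtDiv_const_smul (c : ℝ) {T : E m → E m} {x : E m} (hT : DifferentiableAt ℝ T x) :
    gmtDiv (fun y => c • T y) x = c * gmtDiv T x := by
  have := gmtDiv_smul (φ := fun _ => c) (differentiableAt_const c) hT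
  simpa using this

theorem gmtDiv_neg (T : E m → E m) (x : E m) : gmtDiv (fun y => -T y) x = -gmtDiv T x := by
  unfold gmtDiv
  have : fderiv ℝ (fun y => -T y) x = -fderiv ℝ T x := fderiv_fun_neg
  rw [this]
  simp

theorem gmtDiv_add {T T' : E m → E m} {x : E m} (hT : DifferentiableAt ℝ T x)
    (hT' : DifferentiableAt ℝ T' x) :
    gmtDiv (fun y => T y + T' y) x = gmtDiv T x + gmtDiv T' x := by
  unfold gmtDiv
  rw [fderiv_fun_add hT hT', ← Finset.sum_add_distrib]
  simp

theorem GmtTest.differentiable {U : Set (E m)} {T : E m → E m} (hT : GmtTest U T) :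
    Differentiable ℝ T := hT.c1.differentiable (by norm_num)

theorem GmtTest.mono {U V : Set (E m)} {T : E m → E m} (hT : GmtTest U T) (h : U ⊆ V) :
    GmtTest V T := ⟨hT.c1, hT.cpt, hT.sub.trans h⟩

theorem GmtTest.neg {U : Set (E m)} {T : E m → E m} (hT : GmtTest U T) :
    GmtTest U (fun x => -T x) := by
  have e : tsupport (fun x => -T x) = tsupport T := by
    unfold tsupport
    congr 1
    ext x
    simp
  refine ⟨hT.c1.neg, ?_, e ▸ hT.sub⟩
  unfold HasCompactSupport
  rw [e]
  exact hT.cpt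

theorem GmtTest.const_smul {U : Set (E m)} {T : E m → E m} (hT : GmtTest U T) (c : ℝ) :
    GmtTest U (fun x => c • T x) := by
  have hs : Function.support (fun x => c • T x) ⊆ tsupport T := by
    intro x hx
    apply subset_tsupport
    intro h
    apply hx
    simp [h]
  exact ⟨hT.c1.const_smul c, hT.cpt.mono' hs,
    (closure_minimal hs (isClosed_tsupport T)).trans hT.sub⟩

theorem GmtTest.add {U : Set (E m)} {T T' : E m → E m} (hT : GmtTest U T) (hT' : GmtTest U T') :
    GmtTest U (fun x => T x + T' x) :=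
  ⟨hT.c1.add hT'.c1, hT.cpt.add hT'.cpt,
    (tsupport_add T T').trans (union_subset hT.sub hT'.sub)⟩

theorem gmtTest_zero (U : Set (E m)) : GmtTest U (fun _ => (0 : E m)) := by
  refine ⟨contDiff_const, HasCompactSupport.zero, ?_⟩
  have : tsupport (fun _ : E m => (0 : E m)) = ∅ := by
    simp [tsupport]
  rw [this]
  exact empty_subset _

/-- basic inequality. -/
theorem integral_le_gmtVar {u : E m → ℝ} {U : Set (E m)} {T : E m → E m} (hT : GmtTest U T)
    (h1 : ∀ x, ‖T x‖ ≤ 1) : ENNReal.ofReal (∫ x, u x * gmtDiv T x) ≤ gmtVar u U :=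
  le_iSup_of_le T (le_iSup_of_le hT (le_iSup_of_le h1 le_rfl))

/-- scaled form of the basic inequality. -/
theorem integral_le_mul_gmtVar {u : E m → ℝ} {U : Set (E m)} {T : E m → E m} (hT : GmtTest U T)
    {c : ℝ} (hc : 0 ≤ c) (h1 : ∀ x, ‖T x‖ ≤ c) :
    ENNReal.ofReal (∫ x, u x * gmtDiv T x) ≤ ENNReal.ofReal c * gmtVar u U := by
  rcases hc.eq_or_lt with rfl | hc0
  · have hT0 : T = fun _ => 0 := by
      ext1 x
      exact norm_le_zero_iff.1 (h1 x)
    have : ∀ x, gmtDiv T x = 0 := by
      intro x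
      rw [hT0]
      unfold gmtDiv
      simp
    simp [this]
  · have h2 : ∀ x, ‖c⁻¹ • T x‖ ≤ 1 := by
      intro x
      rw [norm_smul, Real.norm_eq_abs, abs_of_pos (inv_pos.2 hc0)]
      calc c⁻¹ * ‖T x‖ ≤ c⁻¹ * c := by gcongr; exact h1 x
        _ = 1 := inv_mul_cancel₀ hc0.ne'
    have h3 := integral_le_gmtVar (u := u) (hT.const_smul c⁻¹) h2
    have e : (∫ x, u x * gmtDiv T x) = c * ∫ x, u x * gmtDiv (fun y => c⁻¹ • T y) x := by
      rw [← integral_const_mul]
      congr 1
      ext x
      rw [gmtDiv_const_smul _ (hT.differentiable x)]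
      field_simp
    rw [e, ENNReal.ofReal_mul hc]
    gcongr

theorem gmtVar_mono (u : E m → ℝ) {U V : Set (E m)} (h : U ⊆ V) : gmtVar u U ≤ gmtVar u V := by
  unfold gmtVar
  refine iSup_mono fun T => ?_
  refine iSup_le fun hT => ?_
  exact le_iSup_of_le (hT.mono h) le_rfl

theorem gmtVar_congr {u v : E m → ℝ} {U : Set (E m)} (h : u =ᵐ[volume.restrict U] v) :
    gmtVar u U = gmtVar v U := by
  unfold gmtVar
  congr 1
  ext T
  congr 1
  ext hT
  congr 1
  ext _
  congr 1
  apply integral_congr_ae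
  filter_upwards [ae_imp_of_ae_restrict h] with x hx
  by_cases hxU : x ∈ U
  · rw [hx hxU]
  · have : gmtDiv T x = 0 := gmtDiv_eq_zero_of_notMem fun h' => hxU (hT.sub h')
    simp [this]

/-- `u g` is integrable if `u ∈ L¹_loc(U)` and `g ∈ C_c(U)`. -/
theorem gmt_integrable_mul {u g : E m → ℝ} {U : Set (E m)} (hu : LocallyIntegrableOn u U)
    (hg : Continuous g) (hc : HasCompactSupport g) (hs : tsupport g ⊆ U) :
    Integrable fun x => u x * g x := by
  have h1 : IntegrableOn u (tsupport g) := hu.integrableOn_compact_subset hs hc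
  have h2 : IntegrableOn (fun x => u x * g x) (tsupport g) :=
    h1.mul_continuousOn hg.continuousOn hc
  refine (integrableOn_iff_integrable_of_support_subset ?_).1 h2
  intro x hx
  apply subset_tsupport
  intro h
  apply hx
  simp [h]

theorem gmt_integrable_mul_div {u : E m → ℝ} {U : Set (E m)} {T : E m → E m}
    (hu : LocallyIntegrableOn u U) (hT : GmtTest U T) : Integrable fun x => u x * gmtDiv T x :=
  gmt_integrable_mul hu (continuous_gmtDiv hT).1 (continuous_gmtDiv hT).2.1 (continuous_gmtDiv hT).2.2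

theorem gmtVar_add_le {u v : E m → ℝ} {U : Set (E m)} (hU : IsOpen U)
    (hu : LocallyIntegrableOn u U) (hv : LocallyIntegrableOn v U) :
    gmtVar (fun x => u x + v x) U ≤ gmtVar u U + gmtVar v U := by
  unfold gmtVar
  refine iSup_le fun T => iSup_le fun hT => iSup_le fun h1 => ?_
  have e : (∫ x, (u x + v x) * gmtDiv T x) = (∫ x, u x * gmtDiv T x) + ∫ x, v x * gmtDiv T x := by
    rw [← integral_add (gmt_integrable_mul_div hu hT) (gmt_integrable_mul_div hv hT)]
    congr 1
    ext x
    ring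
  rw [e]
  exact ENNReal.ofReal_add_le.trans
    (add_le_add (integral_le_gmtVar hT h1) (integral_le_gmtVar hT h1))

theorem gmtVar_neg_le (u : E m → ℝ) (U : Set (E m)) : gmtVar (fun x => -u x) U ≤ gmtVar u U := by
  conv_lhs => unfold gmtVar
  refine iSup_le fun T => iSup_le fun hT => iSup_le fun h1 => ?_
  have e : (∫ x, -u x * gmtDiv T x) = ∫ x, u x * gmtDiv (fun y => -T y) x := by
    congr 1
    ext x
    rw [gmtDiv_neg]
    ring
  rw [e]
  exact integral_le_gmtVar hT.neg (by simpa using h1)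

theorem gmtVar_neg (u : E m → ℝ) (U : Set (E m)) : gmtVar (fun x => -u x) U = gmtVar u U := by
  refine le_antisymm (gmtVar_neg_le u U) ?_
  have := gmtVar_neg_le (fun x => -u x) U
  simpa using this

theorem gmtVar_const_mul (c : ℝ) (u : E m → ℝ) (U : Set (E m)) :
    gmtVar (fun x => c * u x) U = ENNReal.ofReal |c| * gmtVar u U := by
  have pos : ∀ c : ℝ, 0 ≤ c → ∀ u : E m → ℝ,
      gmtVar (fun x => c * u x) U = ENNReal.ofReal c * gmtVar u U := by
    intro c hc u
    unfold gmtVar
    simp_rw [ENNReal.mul_iSup]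
    congr 1
    ext T
    congr 1
    ext hT
    congr 1
    ext _
    rw [← ENNReal.ofReal_mul hc, ← integral_const_mul]
    congr 2
    ext x
    ring
  rcases le_total 0 c with hc | hc
  · rw [abs_of_nonneg hc]
    exact pos c hc u
  · rw [abs_of_nonpos hc, ← pos (-c) (by linarith) u, ← gmtVar_neg]
    congr 1
    ext x
    ring

theorem gmtVar_const (c : ℝ) (U : Set (E m)) : gmtVar (fun _ => c) U = 0 := by
  unfold gmtVar
  simp only [ENNReal.iSup_eq_zero]
  intro T hT _
  rw [integral_const_mul, integral_gmtDiv_eq_zero hT]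
  simp

theorem gmtVar_const_sub (c : ℝ) {u : E m → ℝ} {U : Set (E m)} (hU : IsOpen U)
    (hu : LocallyIntegrableOn u U) : gmtVar (fun x => c - u x) U = gmtVar u U := by
  rw [← gmtVar_neg u U]
  unfold gmtVar
  congr 1
  ext T
  congr 1
  ext hT
  congr 1
  ext _
  congr 1
  have hi : Integrable fun x => c * gmtDiv T x :=
    ((continuous_gmtDiv hT).1.integrable_of_hasCompactSupport (continuous_gmtDiv hT).2.1).const_mul c
  have e : (∫ x, (c - u x) * gmtDiv T x) = (∫ x, c * gmtDiv T x) - ∫ x, u x * gmtDiv T x := by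
    rw [← integral_sub hi (gmt_integrable_mul_div hu hT)]
    congr 1
    ext x
    ring
  rw [e, integral_const_mul, integral_gmtDiv_eq_zero hT, mul_zero, zero_sub, ← integral_neg]
  congr 1
  ext x
  ring

theorem gmtAdm_neg {A : E m → Bil m} {T : E m → E m} (h : GmtAdm A T) :
    GmtAdm A (fun x => -T x) := by
  intro x ξ
  have := h x (-ξ)
  simpa using this

theorem gmtPer_compl_le (A : E m → Bil m) {S : Set (E m)} (hS : MeasurableSet S) (U : Set (E m)) :
    gmtPer A Sᶜ U ≤ gmtPer A S U := by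
  conv_lhs => unfold gmtPer
  refine iSup_le fun T => iSup_le fun hT => iSup_le fun h1 => ?_
  have hi : Integrable (gmtDiv T) :=
    (continuous_gmtDiv hT).1.integrable_of_hasCompactSupport (continuous_gmtDiv hT).2.1
  have e : (∫ x in Sᶜ, gmtDiv T x) = ∫ x in S, gmtDiv (fun y => -T y) x := by
    have := integral_add_compl hS hi
    rw [integral_gmtDiv_eq_zero hT] at this
    simp_rw [gmtDiv_neg]
    rw [integral_neg]
    linarith
  rw [e]
  exact le_iSup_of_le _ (le_iSup_of_le hT.neg (le_iSup_of_le (gmtAdm_neg h1) le_rfl))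

theorem gmtPer_compl (A : E m → Bil m) {S : Set (E m)} (hS : MeasurableSet S) (U : Set (E m)) :
    gmtPer A Sᶜ U = gmtPer A S U := by
  refine le_antisymm (gmtPer_compl_le A hS U) ?_
  have := gmtPer_compl_le A hS.compl U
  rwa [compl_compl] at this

theorem gmtP_compl {S : Set (E m)} (hS : MeasurableSet S) (U : Set (E m)) :
    gmtP Sᶜ U = gmtP S U := gmtPer_compl _ hS U

theorem gmtPer_congr (A : E m → Bil m) {S S' : Set (E m)} {U : Set (E m)} (hS : MeasurableSet S)
    (hS' : MeasurableSet S') (h : (S ∩ U : Set (E m)) =ᵐ[volume] (S' ∩ U : Set (E m))) :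
    gmtPer A S U = gmtPer A S' U := by
  unfold gmtPer
  congr 1
  ext T
  congr 1
  ext hT
  congr 1
  ext _
  congr 1
  rw [← integral_indicator hS, ← integral_indicator hS']
  apply integral_congr_ae
  filter_upwards [h] with x hx
  by_cases hxU : x ∈ U
  · have hx' : x ∈ S ↔ x ∈ S' := by
      have : (x ∈ S ∩ U) ↔ (x ∈ S' ∩ U) := Iff.of_eq hx
      simpa [hxU] using this
    by_cases hxS : x ∈ S
    · simp [hxS, hx'.1 hxS]
    · have hxS' : x ∉ S' := fun h' => hxS (hx'.2 h')
      simp [hxS, hxS']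
  · have : gmtDiv T x = 0 := gmtDiv_eq_zero_of_notMem fun h' => hxU (hT.sub h')
    simp [indicator, this]

theorem gmtP_congr {S S' : Set (E m)} {U : Set (E m)} (hS : MeasurableSet S)
    (hS' : MeasurableSet S') (h : (S ∩ U : Set (E m)) =ᵐ[volume] (S' ∩ U : Set (E m))) :
    gmtP S U = gmtP S' U := gmtPer_congr _ hS hS' h

theorem gmtPer_mono (A : E m → Bil m) (S : Set (E m)) {U V : Set (E m)} (h : U ⊆ V) :
    gmtPer A S U ≤ gmtPer A S V := by
  unfold gmtPer
  refine iSup_mono fun T => ?_
  refine iSup_le fun hT => ?_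
  exact le_iSup_of_le (hT.mono h) le_rfl

end Claimed.Agent.Gmt
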