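import Claimed.Agent.Lib.Gmt.BvBasicA

/-!
# Lib/Gmt G1d-0: the seminorm `ξ ↦ √(A x ξ ξ)` of an elliptic integrand.   (helper75)
Cauchy-Schwarz, triangle inequality, local ellipticity bounds, multiplicative continuity.
-/

set_option autoImplicit false
open scoped ContDiff ENNReal RealInnerProductSpace Topology
open MeasureTheory Metric Set Filter

namespace Claimed.Agent.Gmt

variable {m : ℕ}

theorem GmtInt.nonneg {U : Set (E m)} {A : E m → Bil m} (hA : GmtInt U A) {x : E m} (hx : x ∈ U)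
    (ξ : E m) : 0 ≤ A x ξ ξ := by
  rcases eq_or_ne ξ 0 with rfl | h
  · simp
  · exact (hA.pos x hx ξ h).le

theorem GmtInt.mono {U V : Set (E m)} {A : E m → Bil m} (hA : GmtInt U A) (h : V ⊆ U) :
    GmtInt V A :=
  ⟨hA.smooth.mono h, fun x hx => hA.symm x (h hx), fun x hx => hA.pos x (h hx)⟩

theorem gmtInt_sq_le {U : Set (E m)} {A : E m → Bil m} (hA : GmtInt U A) {x : E m}
    (hx : x ∈ U) (ξ η : E m) : (A x ξ η) ^ 2 ≤ A x ξ ξ * A x η η := by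
  have h : ∀ t : ℝ, 0 ≤ A x η η * (t * t) + (2 * A x ξ η) * t + A x ξ ξ := by
    intro t
    have := hA.nonneg hx (ξ + t • η)
    have e : A x (ξ + t • η) (ξ + t • η) = A x η η * (t * t) + (2 * A x ξ η) * t + A x ξ ξ := by
      simp only [map_add, map_smul, _root_.add_apply, _root_.smul_apply,
        smul_eq_mul]
      rw [hA.symm x hx η ξ]
      ring
    rwa [e] at this
  have := discrim_le_zero h
  unfold discrim at this
  nlinarith

theorem gmtInt_cauchy {U : Set (E m)} {A : E m → Bil m} (hA : GmtInt U A) {x : E m}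
    (hx : x ∈ U) (ξ η : E m) : A x ξ η ≤ Real.sqrt (A x ξ ξ) * Real.sqrt (A x η η) := by
  rw [← Real.sqrt_mul (hA.nonneg hx ξ)]
  exact Real.le_sqrt_of_sq_le (gmtInt_sq_le hA hx ξ η)

/-- the seminorm `√(A x ξ ξ)`: triangle inequality. -/
theorem gmtInt_sqrt_add_le {U : Set (E m)} {A : E m → Bil m} (hA : GmtInt U A) {x : E m}
    (hx : x ∈ U) (ξ η : E m) :
    Real.sqrt (A x (ξ + η) (ξ + η)) ≤ Real.sqrt (A x ξ ξ) + Real.sqrt (A x η η) := by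
  apply Real.sqrt_le_iff.2
  refine ⟨by positivity, ?_⟩
  have e : A x (ξ + η) (ξ + η) = A x ξ ξ + 2 * A x ξ η + A x η η := by
    simp only [map_add, _root_.add_apply]
    rw [hA.symm x hx η ξ]
    ring
  rw [e, add_sq, Real.sq_sqrt (hA.nonneg hx ξ), Real.sq_sqrt (hA.nonneg hx η)]
  have := gmtInt_cauchy hA hx ξ η
  linarith

theorem gmtInt_sqrt_smul {A : E m → Bil m} (x : E m) {t : ℝ} (ht : 0 ≤ t) (ξ : E m) :
    Real.sqrt (A x (t • ξ) (t • ξ)) = t * Real.sqrt (A x ξ ξ) := by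
  have e : A x (t • ξ) (t • ξ) = t ^ 2 * A x ξ ξ := by
    simp only [map_smul, _root_.smul_apply, smul_eq_mul]
    ring
  rw [e, Real.sqrt_mul (sq_nonneg t), Real.sqrt_sq ht]

theorem GmtInt.continuousOn {U : Set (E m)} {A : E m → Bil m} (hA : GmtInt U A) :
    ContinuousOn A U := hA.smooth.continuousOn

/-- local ellipticity bounds. -/
theorem gmtInt_bounds {U K : Set (E m)} {A : E m → Bil m} (hU : IsOpen U) (hA : GmtInt U A)
    (hK : IsCompact K) (hKU : K ⊆ U) :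
    ∃ c C : ℝ, 0 < c ∧ c ≤ C ∧ ∀ x ∈ K, ∀ ξ : E m,
      c ^ 2 * ‖ξ‖ ^ 2 ≤ A x ξ ξ ∧ A x ξ ξ ≤ C ^ 2 * ‖ξ‖ ^ 2 := by
  set P : Set (E m × E m) := K ×ˢ sphere (0 : E m) 1 with hP
  have hPc : IsCompact P := hK.prod (isCompact_sphere 0 1)
  have hQ : ContinuousOn (fun p : E m × E m => A p.1 p.2 p.2) P := by
    have h1 : ContinuousOn (fun p : E m × E m => A p.1) P :=
      (hA.continuousOn.mono hKU).comp continuousOn_fst fun p hp => hp.1
    exact (h1.clm_apply continuousOn_snd).clm_apply continuousOn_snd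
  rcases P.eq_empty_or_nonempty with hPe | hPne
  · refine ⟨1, 1, one_pos, le_rfl, fun x hx ξ => ?_⟩
    rcases eq_or_ne ξ 0 with rfl | hξ
    · simp
    · exfalso
      have : (x, ‖ξ‖⁻¹ • ξ) ∈ P := ⟨hx, by simp [norm_smul, hξ]⟩
      rw [hPe] at this
      exact this
  · obtain ⟨p₀, hp₀, hmin⟩ := hPc.exists_isMinOn hPne hQ
    obtain ⟨p₁, hp₁, hmax⟩ := hPc.exists_isMaxOn hPne hQ
    set q₀ := A p₀.1 p₀.2 p₀.2 with hq₀
    set q₁ := A p₁.1 p₁.2 p₁.2 with hq₁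
    have hq₀pos : 0 < q₀ := by
      apply hA.pos _ (hKU hp₀.1)
      intro h
      have := hp₀.2
      simp [h] at this
    have hq01 : q₀ ≤ q₁ := hmax hp₀
    refine ⟨Real.sqrt q₀, Real.sqrt q₁, Real.sqrt_pos.2 hq₀pos, Real.sqrt_le_sqrt hq01,
      fun x hx ξ => ?_⟩
    rw [Real.sq_sqrt hq₀pos.le, Real.sq_sqrt (hq₀pos.le.trans hq01)]
    rcases eq_or_ne ξ 0 with rfl | hξ
    · simp
    · have hmem : (x, ‖ξ‖⁻¹ • ξ) ∈ P := ⟨hx, by simp [norm_smul, hξ]⟩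
      have hn : ‖ξ‖ ≠ 0 := norm_ne_zero_iff.2 hξ
      have e : A x ξ ξ = ‖ξ‖ ^ 2 * A x (‖ξ‖⁻¹ • ξ) (‖ξ‖⁻¹ • ξ) := by
        simp only [map_smul, _root_.smul_apply, smul_eq_mul]
        field_simp
      have h1 : q₀ ≤ A x (‖ξ‖⁻¹ • ξ) (‖ξ‖⁻¹ • ξ) := hmin hmem
      have h2 : A x (‖ξ‖⁻¹ • ξ) (‖ξ‖⁻¹ • ξ) ≤ q₁ := hmax hmem
      rw [e]
      constructor
      · nlinarith [sq_nonneg ‖ξ‖]
      · nlinarith [sq_nonneg ‖ξ‖]

theorem gmt_bil_sub_le (B B' : Bil m) (ξ : E m) : B ξ ξ ≤ B' ξ ξ + ‖B - B'‖ * ‖ξ‖ ^ 2 := by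
  have h1 : (B - B') ξ ξ ≤ ‖B - B'‖ * ‖ξ‖ * ‖ξ‖ :=
    (le_abs_self _).trans ((B - B').le_opNorm₂ ξ ξ)
  have h2 : (B - B') ξ ξ = B ξ ξ - B' ξ ξ := by simp
  nlinarith

/-- local multiplicative continuity. -/
theorem gmtInt_osc {U K : Set (E m)} {A : E m → Bil m} (hU : IsOpen U) (hA : GmtInt U A)
    (hK : IsCompact K) (hKU : K ⊆ U) {η : ℝ} (hη : 0 < η) :
    ∃ ε > 0, ∀ x ∈ K, ∀ y ∈ K, ‖x - y‖ < ε → ∀ ξ : E m,
      Real.sqrt (A y ξ ξ) ≤ (1 + η) * Real.sqrt (A x ξ ξ) := by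
  obtain ⟨c, C, hc, -, hb⟩ := gmtInt_bounds hU hA hK hKU
  have huc : UniformContinuousOn A K :=
    hK.uniformContinuousOn_of_continuous (hA.continuousOn.mono hKU)
  obtain ⟨ε, hε, h⟩ := (Metric.uniformContinuousOn_iff (α := E m) (β := Bil m) (f := A)
    (s := K)).1 huc (c ^ 2 * η) (by positivity)
  refine ⟨ε, hε, fun x hx y hy hxy ξ => ?_⟩
  have h1 : ‖A y - A x‖ < c ^ 2 * η := by
    have h0 := h y hy x hx (by rw [dist_comm, dist_eq_norm]; exact hxy)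
    have h0' : dist (A y) (A x) < c ^ 2 * η := h0
    have e : dist (A y) (A x) = ‖A y - A x‖ := dist_eq_norm (A y) (A x)
    rwa [e] at h0'
  have h2 := gmt_bil_sub_le (A y) (A x) ξ
  have h3 := (hb x hx ξ).1
  have h4 : A y ξ ξ ≤ (1 + η) ^ 2 * A x ξ ξ := by
    have : ‖A y - A x‖ * ‖ξ‖ ^ 2 ≤ c ^ 2 * η * ‖ξ‖ ^ 2 := by gcongr
    have h5 : 0 ≤ A x ξ ξ := hA.nonneg (hKU hx) ξ
    nlinarith [mul_nonneg hη.le h5, mul_nonneg (sq_nonneg η) h5]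
  calc Real.sqrt (A y ξ ξ) ≤ Real.sqrt ((1 + η) ^ 2 * A x ξ ξ) := Real.sqrt_le_sqrt h4
    _ = (1 + η) * Real.sqrt (A x ξ ξ) := by
      rw [Real.sqrt_mul (sq_nonneg _), Real.sqrt_sq (by positivity)]

theorem gmtInt_eu (U : Set (E m)) : GmtInt U (fun _ => gmtEu m) := by
  refine ⟨contDiffOn_const, fun x _ ξ η => ?_, fun x _ ξ hξ => ?_⟩
  · simp only [gmtEu_apply]
    exact real_inner_comm _ _
  · simp only [gmtEu_apply]
    exact real_inner_self_pos.2 hξ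

end Claimed.Agent.Gmt
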