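import Claimed.Agent.Lib.Gmt.BvVarA
import Claimed.Agent.Lib.Gmt.BvInt

/-!
# Lib/Gmt G1a: integration by parts; the (anisotropic) total variation of a `C¹` function.
(helper75)
-/

set_option autoImplicit false
open scoped ContDiff ENNReal RealInnerProductSpace Topology
open MeasureTheory Metric Set Filter

namespace Claimed.Agent.Gmt

variable {m : ℕ}

theorem gmt_inner_gradient (u : E m → ℝ) (x v : E m) : ⟪gradient u x, v⟫ = fderiv ℝ u x v := by
  unfold gradient
  simp

/-- coordinates of a test field are scalar test functions. -/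
theorem GmtTest.coord {U : Set (E m)} {T : E m → E m} (hT : GmtTest U T) (i : Fin m) :
    GmtTest0 U (fun x => T x i) := by
  have hs : Function.support (fun x => T x i) ⊆ tsupport T := by
    intro x hx
    apply subset_tsupport
    intro h
    apply hx
    simp [h]
  refine ⟨?_, hT.cpt.mono' hs, (closure_minimal hs (isClosed_tsupport T)).trans hT.sub⟩
  exact (EuclideanSpace.proj i : E m →L[ℝ] ℝ).contDiff.comp hT.c1

theorem fderiv_coord {T : E m → E m} {x : E m} (hT : DifferentiableAt ℝ T x) (i : Fin m)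
    (v : E m) : fderiv ℝ (fun y => T y i) x v = fderiv ℝ T x v i := by
  have : HasFDerivAt (fun y => T y i)
      ((EuclideanSpace.proj i : E m →L[ℝ] ℝ).comp (fderiv ℝ T x)) x :=
    (EuclideanSpace.proj i : E m →L[ℝ] ℝ).hasFDerivAt.comp x hT.hasFDerivAt
  rw [this.fderiv]
  rfl

theorem GmtTest0.fderiv_apply {U : Set (E m)} {g : E m → ℝ} (hg : GmtTest0 U g) (v : E m) :
    Continuous (fun x => fderiv ℝ g x v) ∧ HasCompactSupport (fun x => fderiv ℝ g x v) ∧
      tsupport (fun x => fderiv ℝ g x v) ⊆ U := by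
  have hs : Function.support (fun x => fderiv ℝ g x v) ⊆ tsupport g := by
    intro x hx
    by_contra h
    apply hx
    simp [fderiv_of_notMem_tsupport (𝕜 := ℝ) h]
  exact ⟨(hg.c1.continuous_fderiv one_ne_zero).clm_apply continuous_const, hg.cpt.mono' hs,
    (closure_minimal hs (isClosed_tsupport g)).trans hg.sub⟩

/-- scalar integration by parts against a function which is `C¹` on `U` only. -/
theorem gmt_ibp0 {U : Set (E m)} (hU : IsOpen U) {u : E m → ℝ} (hu : ContDiffOn ℝ 1 u U)
    {g : E m → ℝ} (hg : GmtTest0 U g) (v : E m) :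
    ∫ x, u x * fderiv ℝ g x v = -∫ x, fderiv ℝ u x v * g x := by
  have hul : LocallyIntegrableOn u U := hu.continuousOn.locallyIntegrableOn hU.measurableSet
  have hdu : ContinuousOn (fun x => fderiv ℝ u x v) U :=
    (hu.continuousOn_fderiv_of_isOpen hU le_rfl).clm_apply continuousOn_const
  have hdul : LocallyIntegrableOn (fun x => fderiv ℝ u x v) U :=
    hdu.locallyIntegrableOn hU.measurableSet
  obtain ⟨h1, h2, h3⟩ := hg.fderiv_apply v
  refine integral_mul_fderiv_eq_neg_fderiv_mul_of_integrable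
    (gmt_integrable_mul hdul hg.c1.continuous hg.cpt hg.sub) (gmt_integrable_mul hul h1 h2 h3)
    (gmt_integrable_mul hul hg.c1.continuous hg.cpt hg.sub) ?_ ?_
  · intro x hx
    exact (hu.differentiableOn (by norm_num)).differentiableAt (hU.mem_nhds (hg.sub hx))
  · intro x _
    exact hg.c1.differentiable (by norm_num) x

/-- `x ↦ Du(x)(T x)` is continuous with compact support. -/
theorem gmt_fderiv_apply_test {U : Set (E m)} (hU : IsOpen U) {u : E m → ℝ}
    (hu : ContDiffOn ℝ 1 u U) {T : E m → E m} (hT : GmtTest U T) :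
    Continuous (fun x => fderiv ℝ u x (T x)) ∧ HasCompactSupport (fun x => fderiv ℝ u x (T x)) := by
  have hs : Function.support (fun x => fderiv ℝ u x (T x)) ⊆ tsupport T := by
    intro x hx
    apply subset_tsupport
    intro h
    apply hx
    simp [h]
  refine ⟨?_, hT.cpt.mono' hs⟩
  apply continuous_of_tsupport
  intro x hx
  have hxU : x ∈ U := hT.sub (closure_minimal hs (isClosed_tsupport T) hx)
  have h1 : ContinuousAt (fderiv ℝ u) x :=
    (hu.continuousOn_fderiv_of_isOpen hU le_rfl).continuousAt (hU.mem_nhds hxU)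
  exact h1.clm_apply hT.c1.continuous.continuousAt

/-- INTEGRATION BY PARTS. -/
theorem integral_mul_gmtDiv {U : Set (E m)} (hU : IsOpen U) {u : E m → ℝ}
    (hu : ContDiffOn ℝ 1 u U) {T : E m → E m} (hT : GmtTest U T) :
    ∫ x, u x * gmtDiv T x = -∫ x, fderiv ℝ u x (T x) := by
  have hul : LocallyIntegrableOn u U := hu.continuousOn.locallyIntegrableOn hU.measurableSet
  have hdul : ∀ v, LocallyIntegrableOn (fun x => fderiv ℝ u x v) U := fun v =>
    ((hu.continuousOn_fderiv_of_isOpen hU le_rfl).clm_apply continuousOn_const).locallyIntegrableOn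
      hU.measurableSet
  have e1 : ∀ x, u x * gmtDiv T x = ∑ i, u x * fderiv ℝ (fun y => T y i) x (eb i) := by
    intro x
    unfold gmtDiv
    rw [Finset.mul_sum]
    refine Finset.sum_congr rfl fun i _ => ?_
    rw [fderiv_coord (hT.differentiable x)]
  have e2 : ∀ x, fderiv ℝ u x (T x) = ∑ i, fderiv ℝ u x (eb i) * T x i := by
    intro x
    conv_lhs => rw [← gmt_sum_eb (T x)]
    rw [map_sum]
    refine Finset.sum_congr rfl fun i _ => ?_
    rw [map_smul, smul_eq_mul, mul_comm]
  simp_rw [e1, e2]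
  rw [integral_finsetSum, integral_finsetSum, ← Finset.sum_neg_distrib]
  · exact Finset.sum_congr rfl fun i _ => gmt_ibp0 hU hu (hT.coord i) (eb i)
  · intro i _
    exact gmt_integrable_mul (hdul _) (hT.coord i).c1.continuous (hT.coord i).cpt (hT.coord i).sub
  · intro i _
    obtain ⟨h1, h2, h3⟩ := (hT.coord i).fderiv_apply (eb i)
    exact gmt_integrable_mul hul h1 h2 h3

/-- `ofReal (∫ h) ≤ ∫⁻ ofReal h`. -/
theorem gmt_ofReal_integral_le {μ : Measure (E m)} {h : E m → ℝ} (hh : Integrable h μ) :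
    ENNReal.ofReal (∫ x, h x ∂μ) ≤ ∫⁻ x, ENNReal.ofReal (h x) ∂μ := by
  rw [integral_eq_lintegral_pos_part_sub_lintegral_neg_part hh]
  refine (ENNReal.ofReal_le_ofReal (sub_le_self _ ENNReal.toReal_nonneg)).trans ?_
  exact ENNReal.ofReal_toReal_le

theorem gmtVarA_le_of_contDiffOn {U : Set (E m)} (A : E m → Bil m) (hU : IsOpen U)
    {u : E m → ℝ} (hu : ContDiffOn ℝ 1 u U) :
    gmtVarA A u U ≤ ∫⁻ x in U, ENNReal.ofReal (Real.sqrt (A x (gradient u x) (gradient u x))) := by
  conv_lhs => unfold gmtVarA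
  refine iSup_le fun T => iSup_le fun hT => iSup_le fun h1 => ?_
  rw [integral_mul_gmtDiv hU hu hT, ← integral_neg]
  obtain ⟨hc, hcs⟩ := gmt_fderiv_apply_test hU hu hT
  refine (gmt_ofReal_integral_le (hc.integrable_of_hasCompactSupport hcs).neg).trans ?_
  rw [← lintegral_indicator hU.measurableSet]
  refine lintegral_mono fun x => ?_
  by_cases hx : x ∈ U
  · rw [indicator_of_mem hx]
    apply ENNReal.ofReal_le_ofReal
    have := h1 x (-gradient u x)
    rw [inner_neg_right, real_inner_comm, gmt_inner_gradient] at this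
    simpa using this
  · have : T x = 0 := image_eq_zero_of_notMem_tsupport fun h' => hx (hT.sub h')
    simp [this]

/-- the density `√(A ∇u ∇u)`. -/
noncomputable def gmtDens (A : E m → Bil m) (u : E m → ℝ) (x : E m) : ℝ :=
  Real.sqrt (A x (gradient u x) (gradient u x))

theorem gmtDens_nonneg (A : E m → Bil m) (u : E m → ℝ) (x : E m) : 0 ≤ gmtDens A u x :=
  Real.sqrt_nonneg _

theorem continuousOn_gradient {U : Set (E m)} (hU : IsOpen U) {u : E m → ℝ}
    (hu : ContDiffOn ℝ 1 u U) : ContinuousOn (gradient u) U := by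
  unfold gradient
  exact (InnerProductSpace.toDual ℝ (E m)).symm.continuous.comp_continuousOn
    (hu.continuousOn_fderiv_of_isOpen hU le_rfl)

theorem continuousOn_gmtDens {U : Set (E m)} {A : E m → Bil m} (hU : IsOpen U) (hA : GmtInt U A)
    {u : E m → ℝ} (hu : ContDiffOn ℝ 1 u U) : ContinuousOn (gmtDens A u) U := by
  unfold gmtDens
  have hg := continuousOn_gradient hU hu
  exact ((hA.continuousOn.clm_apply hg).clm_apply hg).sqrt

/-- local multiplicative continuity at a point. -/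
theorem gmtInt_osc_at {U : Set (E m)} {A : E m → Bil m} (hU : IsOpen U) (hA : GmtInt U A)
    {x₀ : E m} (hx₀ : x₀ ∈ U) {η : ℝ} (hη : 0 < η) :
    ∀ᶠ y in 𝓝 x₀, ∀ ξ : E m, Real.sqrt (A x₀ ξ ξ) ≤ (1 + η) * Real.sqrt (A y ξ ξ) := by
  obtain ⟨r, hr, hrU⟩ := Metric.nhds_basis_closedBall.mem_iff.1 (hU.mem_nhds hx₀)
  obtain ⟨ε, hε, h⟩ := gmtInt_osc hU hA (isCompact_closedBall x₀ r) hrU hη
  filter_upwards [Metric.ball_mem_nhds x₀ (lt_min hr hε)] with y hy ξ
  rw [mem_ball, dist_eq_norm] at hy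
  refine h y ?_ x₀ (mem_closedBall_self hr.le) (hy.trans_le (min_le_right _ _)) ξ
  rw [mem_closedBall, dist_eq_norm]
  exact (hy.trans_le (min_le_left _ _)).le

/-- almost optimal smooth admissible fields. -/
theorem gmt_exists_field {U : Set (E m)} {A : E m → Bil m} (hU : IsOpen U) (hA : GmtInt U A)
    {u : E m → ℝ} (hu : ContDiffOn ℝ 1 u U) {χ : E m → ℝ} (hχc : Continuous χ)
    (hχs : HasCompactSupport χ) (hχU : tsupport χ ⊆ U) (h01 : ∀ x, χ x ∈ Icc (0 : ℝ) 1) {ε : ℝ}
    (hε : 0 < ε) :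
    ∃ T : E m → E m, GmtTestS U T ∧ GmtAdm A T ∧ (∀ x ∉ tsupport χ, T x = 0) ∧
      ∀ x, χ x * gmtDens A u x - ε ≤ -fderiv ℝ u x (T x) := by
  set t : E m → Set (E m) := fun x => {v | (∀ ξ : E m, ⟪v, ξ⟫ ≤ χ x * Real.sqrt (A x ξ ξ)) ∧
    χ x * gmtDens A u x - ε ≤ -fderiv ℝ u x v} with ht
  have hconv : ∀ x, Convex ℝ (t x) := by
    intro x v hv w hw a b ha hb hab
    constructor
    · intro ξ
      rw [inner_add_left, real_inner_smul_left, real_inner_smul_left]
      have h1 := mul_le_mul_of_nonneg_left (hv.1 ξ) ha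
      have h2 := mul_le_mul_of_nonneg_left (hw.1 ξ) hb
      have h3 : a * (χ x * Real.sqrt (A x ξ ξ)) + b * (χ x * Real.sqrt (A x ξ ξ))
          = χ x * Real.sqrt (A x ξ ξ) := by rw [← add_mul, hab, one_mul]
      linarith
    · rw [map_add, map_smul, map_smul, smul_eq_mul, smul_eq_mul]
      have h1 := mul_le_mul_of_nonneg_left hv.2 ha
      have h2 := mul_le_mul_of_nonneg_left hw.2 hb
      have h3 : a * (χ x * gmtDens A u x - ε) + b * (χ x * gmtDens A u x - ε)
          = χ x * gmtDens A u x - ε := by rw [← add_mul, hab, one_mul]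
      linarith
  have h0 : ∀ x ∉ tsupport χ, t x ⊆ {0} := by
    intro x hx v hv
    have hχ0 : χ x = 0 := image_eq_zero_of_notMem_tsupport hx
    have := hv.1 v
    rw [hχ0, zero_mul, real_inner_self_eq_norm_sq] at this
    have h2 : ‖v‖ = 0 := by nlinarith [norm_nonneg v]
    exact norm_eq_zero.1 h2
  have Hloc : ∀ x, ∃ c : E m, ∀ᶠ y in 𝓝 x, c ∈ t y := by
    intro x₀
    by_cases hx₀ : x₀ ∈ tsupport χ
    swap
    · refine ⟨0, ?_⟩
      have : ∀ᶠ y in 𝓝 x₀, y ∉ tsupport χ := (isClosed_tsupport χ).isOpen_compl.mem_nhds hx₀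
      filter_upwards [this] with y hy
      have hχ0 : χ y = 0 := image_eq_zero_of_notMem_tsupport hy
      refine ⟨fun ξ => by simp [hχ0], by simp [hχ0, hε.le]⟩
    have hxU : x₀ ∈ U := hχU hx₀
    have hFc : ContinuousAt (gmtDens A u) x₀ :=
      (continuousOn_gmtDens hU hA hu).continuousAt (hU.mem_nhds hxU)
    have hχF : ContinuousAt (fun y => χ y * gmtDens A u y) x₀ := hχc.continuousAt.mul hFc
    have hdu : ∀ c : E m, ContinuousAt (fun y => fderiv ℝ u y c) x₀ := fun c =>
      ((hu.continuousOn_fderiv_of_isOpen hU le_rfl).continuousAt (hU.mem_nhds hxU)).clm_apply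
        continuousAt_const
    rcases (mul_nonneg (h01 x₀).1 (gmtDens_nonneg A u x₀)).eq_or_lt with hz | hpos
    · refine ⟨0, ?_⟩
      have : ∀ᶠ y in 𝓝 x₀, χ y * gmtDens A u y < ε :=
        hχF.eventually_lt continuousAt_const (by rw [← hz]; exact hε)
      filter_upwards [this] with y hy
      refine ⟨fun ξ => ?_, by simp; linarith⟩
      rw [inner_zero_left]
      exact mul_nonneg (h01 y).1 (Real.sqrt_nonneg _)
    · set χ₀ := χ x₀ with hχ₀
      set F₀ := gmtDens A u x₀ with hF₀
      set g₀ := gradient u x₀ with hg₀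
      have hχ₀pos : 0 < χ₀ := by
        rcases (h01 x₀).1.eq_or_lt with h | h
        · rw [← hχ₀] at h
          rw [← h, zero_mul] at hpos
          exact absurd hpos (lt_irrefl _)
        · exact h
      have hF₀pos : 0 < F₀ := (pos_iff_pos_of_mul_pos hpos).1 hχ₀pos
      set θ : ℝ := min (1 / 2) (ε / (2 * (χ₀ * F₀))) with hθ
      have hθpos : 0 < θ := lt_min (by norm_num) (by positivity)
      have hθhalf : θ ≤ 1 / 2 := min_le_left _ _
      have hθε : θ * (χ₀ * F₀) < ε := by
        have h1 : θ ≤ ε / (2 * (χ₀ * F₀)) := min_le_right _ _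
        calc θ * (χ₀ * F₀) ≤ ε / (2 * (χ₀ * F₀)) * (χ₀ * F₀) := by gcongr
          _ = ε / 2 := by field_simp
          _ < ε := by linarith
      have h1θ : 0 < 1 - θ := by linarith
      set lam : ℝ := χ₀ * (1 - θ) with hlam
      have hlampos : 0 < lam := by positivity
      set a₀ : E m := (InnerProductSpace.toDual ℝ (E m)).symm (A x₀ g₀) with ha₀
      have ha₀i : ∀ ξ, ⟪a₀, ξ⟫ = A x₀ g₀ ξ := fun ξ => by rw [ha₀]; simp
      set c : E m := (-(lam / F₀)) • a₀ with hc
      have hF₀sq : A x₀ g₀ g₀ = F₀ ^ 2 := by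
        rw [hF₀]
        unfold gmtDens
        rw [Real.sq_sqrt (hA.nonneg hxU _)]
      have hci : ∀ ξ, ⟪c, ξ⟫ ≤ lam * Real.sqrt (A x₀ ξ ξ) := by
        intro ξ
        rw [hc, real_inner_smul_left, ha₀i]
        have h1 := gmtInt_cauchy hA hxU g₀ (-ξ)
        have h2 : A x₀ (-ξ) (-ξ) = A x₀ ξ ξ := by simp
        have h3 : Real.sqrt (A x₀ g₀ g₀) = F₀ := rfl
        rw [h2, h3, map_neg] at h1
        calc -(lam / F₀) * A x₀ g₀ ξ = (lam / F₀) * (-(A x₀ g₀ ξ)) := by ring
          _ ≤ (lam / F₀) * (F₀ * Real.sqrt (A x₀ ξ ξ)) := by gcongr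
          _ = lam * Real.sqrt (A x₀ ξ ξ) := by field_simp
      have hcii : -fderiv ℝ u x₀ c = lam * F₀ := by
        rw [hc, map_smul, smul_eq_mul, ← gmt_inner_gradient, real_inner_comm, ha₀i, hF₀sq]
        field_simp
      have ev1 : ∀ᶠ y in 𝓝 x₀, χ y * gmtDens A u y - ε < -fderiv ℝ u y c := by
        apply ContinuousAt.eventually_lt (hχF.sub continuousAt_const) (hdu c).neg
        show χ₀ * F₀ - ε < -fderiv ℝ u x₀ c
        rw [hcii, hlam]
        nlinarith
      have ev2 := gmtInt_osc_at hU hA hxU (η := θ / 2) (by positivity)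
      have ev3 : ∀ᶠ y in 𝓝 x₀, χ₀ / (1 + θ / 2) < χ y := by
        apply ContinuousAt.eventually_lt continuousAt_const hχc.continuousAt
        rw [div_lt_iff₀ (by positivity)]
        nlinarith
      refine ⟨c, ?_⟩
      filter_upwards [ev1, ev2, ev3] with y h1 h2 h3
      refine ⟨fun ξ => ?_, h1.le⟩
      have h4 := hci ξ
      have h5 := h2 ξ
      have hR : 0 ≤ Real.sqrt (A y ξ ξ) := Real.sqrt_nonneg _
      have h6 : χ₀ < χ y * (1 + θ / 2) := by rwa [div_lt_iff₀ (by positivity)] at h3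
      have hk : 0 ≤ (1 - θ) * (1 + θ / 2) := by positivity
      have h8 : (1 - θ) * (1 + θ / 2) * (1 + θ / 2) ≤ 1 := by
        nlinarith [sq_nonneg θ, mul_nonneg hθpos.le (sq_nonneg θ)]
      have h7 : lam * (1 + θ / 2) ≤ χ y := by
        calc lam * (1 + θ / 2) = χ₀ * ((1 - θ) * (1 + θ / 2)) := by rw [hlam]; ring
          _ ≤ (χ y * (1 + θ / 2)) * ((1 - θ) * (1 + θ / 2)) := by gcongr
          _ = χ y * ((1 - θ) * (1 + θ / 2) * (1 + θ / 2)) := by ring
          _ ≤ χ y * 1 := by
            gcongr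
            exact (h01 y).1
          _ = χ y := mul_one _
      calc ⟪c, ξ⟫ ≤ lam * Real.sqrt (A x₀ ξ ξ) := h4
        _ ≤ lam * ((1 + θ / 2) * Real.sqrt (A y ξ ξ)) := by gcongr
        _ = (lam * (1 + θ / 2)) * Real.sqrt (A y ξ ξ) := by ring
        _ ≤ χ y * Real.sqrt (A y ξ ξ) := by gcongr
  obtain ⟨T, hT, hTt⟩ := gmt_exists_section hχs hχU hconv h0 Hloc
  refine ⟨T, hT, fun x ξ => ?_, fun x hx => h0 x hx (hTt x), fun x => (hTt x).2⟩
  calc ⟪T x, ξ⟫ ≤ χ x * Real.sqrt (A x ξ ξ) := (hTt x).1 ξ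
    _ ≤ 1 * Real.sqrt (A x ξ ξ) := mul_le_mul_of_nonneg_right (h01 x).2 (Real.sqrt_nonneg _)
    _ = _ := one_mul _

theorem lintegral_compact_le_gmtVarA {U : Set (E m)} {A : E m → Bil m} (hU : IsOpen U)
    (hA : GmtInt U A) {u : E m → ℝ} (hu : ContDiffOn ℝ 1 u U) {K : Set (E m)} (hK : IsCompact K)
    (hKU : K ⊆ U) : ∫⁻ x in K, ENNReal.ofReal (gmtDens A u x) ≤ gmtVarA A u U := by
  obtain ⟨χ, hχ, hχs, hχU, h01, h1⟩ := gmt_exists_cutoff hK hU hKU
  have hχ1 : ∀ x ∈ K, χ x = 1 := fun x hx => h1.self_of_nhdsSet x hx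
  have hGsupp : Function.support (fun x => χ x * gmtDens A u x) ⊆ tsupport χ := by
    intro x hx
    apply subset_tsupport
    intro h
    apply hx
    simp [h]
  have hGc : Continuous (fun x => χ x * gmtDens A u x) := by
    apply continuous_of_tsupport
    intro x hx
    have hxU : x ∈ U := hχU (closure_minimal hGsupp (isClosed_tsupport χ) hx)
    exact hχ.continuous.continuousAt.mul
      ((continuousOn_gmtDens hU hA hu).continuousAt (hU.mem_nhds hxU))
  have hGs : HasCompactSupport (fun x => χ x * gmtDens A u x) := hχs.mono' hGsupp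
  have hGi : Integrable (fun x => χ x * gmtDens A u x) := hGc.integrable_of_hasCompactSupport hGs
  have hG0 : ∀ x, 0 ≤ χ x * gmtDens A u x := fun x => mul_nonneg (h01 x).1 (gmtDens_nonneg A u x)
  have hLm : MeasurableSet (tsupport χ) := (isClosed_tsupport χ).measurableSet
  have hLfin : volume (tsupport χ) ≠ ⊤ := (IsCompact.measure_lt_top hχs).ne
  have first : ∫⁻ x in K, ENNReal.ofReal (gmtDens A u x)
      ≤ ENNReal.ofReal (∫ x, χ x * gmtDens A u x) := by
    rw [ofReal_integral_eq_lintegral_ofReal hGi (Eventually.of_forall hG0),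
      ← lintegral_indicator hK.measurableSet]
    refine lintegral_mono fun x => ?_
    by_cases hx : x ∈ K
    · simp [hx, hχ1 x hx]
    · simp [hx]
  have step : ∀ ε : ℝ, 0 < ε → ENNReal.ofReal (∫ x, χ x * gmtDens A u x)
      ≤ gmtVarA A u U + ENNReal.ofReal (ε * (volume (tsupport χ)).toReal) := by
    intro ε hε
    obtain ⟨T, hT, hadm, hT0, hTi⟩ := gmt_exists_field hU hA hu hχ.continuous hχs hχU h01 hε
    obtain ⟨hc, hcs⟩ := gmt_fderiv_apply_test hU hu hT.test
    have hhi : Integrable (fun x => -fderiv ℝ u x (T x)) :=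
      (hc.integrable_of_hasCompactSupport hcs).neg
    have hind : Integrable ((tsupport χ).indicator fun _ : E m => ε) :=
      (integrable_indicator_iff hLm).2 (integrableOn_const hLfin)
    have hle : (∫ x, χ x * gmtDens A u x) ≤
        (∫ x, -fderiv ℝ u x (T x)) + ε * (volume (tsupport χ)).toReal := by
      have e : (∫ x, (tsupport χ).indicator (fun _ : E m => ε) x)
          = ε * (volume (tsupport χ)).toReal := by
        rw [integral_indicator_const _ hLm, smul_eq_mul, mul_comm]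
        rfl
      rw [← e, ← integral_add hhi hind]
      refine integral_mono hGi (hhi.add hind) fun x => ?_
      by_cases hx : x ∈ tsupport χ
      · simp only [indicator_of_mem hx]
        linarith [hTi x]
      · simp [hx, hT0 x hx, image_eq_zero_of_notMem_tsupport hx]
    refine (ENNReal.ofReal_le_ofReal hle).trans (ENNReal.ofReal_add_le.trans ?_)
    gcongr
    rw [integral_neg, ← integral_mul_gmtDiv hU hu hT.test]
    exact integral_le_gmtVarA hT.test hadm
  refine first.trans ?_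
  apply ENNReal.le_of_forall_pos_le_add
  intro δ hδ _
  set c := (volume (tsupport χ)).toReal with hc
  have hc0 : 0 ≤ c := ENNReal.toReal_nonneg
  refine (step (δ / (c + 1)) (by positivity)).trans ?_
  gcongr
  rw [← ENNReal.ofReal_coe_nnreal]
  apply ENNReal.ofReal_le_ofReal
  rw [div_mul_eq_mul_div, div_le_iff₀ (by positivity)]
  nlinarith [NNReal.coe_nonneg δ]

/-- THE ANISOTROPIC TOTAL VARIATION OF A `C¹` FUNCTION. -/
theorem gmtVarA_of_contDiffOn {U : Set (E m)} {A : E m → Bil m} (hU : IsOpen U)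
    (hA : GmtInt U A) {u : E m → ℝ} (hu : ContDiffOn ℝ 1 u U) :
    gmtVarA A u U = ∫⁻ x in U, ENNReal.ofReal (Real.sqrt (A x (gradient u x) (gradient u x))) := by
  refine le_antisymm (gmtVarA_le_of_contDiffOn A hU hu) ?_
  obtain ⟨K, hK, hKU, hKK, hun⟩ := gmt_exists_exhaustion hU
  have hmono : Monotone K := monotone_nat_of_le_succ fun n => (hKK n).trans interior_subset
  set f : E m → ℝ≥0∞ := fun x => ENNReal.ofReal (gmtDens A u x) with hf
  have e : ∫⁻ x in U, f x = ⨆ n, ∫⁻ x in K n, f x := by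
    rw [← withDensity_apply f hU.measurableSet, ← hun, hmono.measure_iUnion]
    congr 1
    ext n
    exact withDensity_apply f (hK n).measurableSet
  show ∫⁻ x in U, f x ≤ _
  rw [e]
  exact iSup_le fun n => lintegral_compact_le_gmtVarA hU hA hu (hK n) (hKU n)

end Claimed.Agent.Gmt
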