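import Claimed.Agent.Lib.Gmt.BvCompactB

/-!
# Lib/Gmt [BvCompact part B] G1c: `L¹_loc` compactness of `BV` functions and of sets of finite perimeter.
(architect: helper75)

PLAN OF PROOFS
* `gmt_totallyBounded_step` (one compact set, one `η`): choose `ε` with `ε C < η`; the functions
  `gmtMol ε (u i)` are uniformly bounded and equi-Lipschitz on `K` (`|ρ_ε * u| ≤ sup ρ_ε ‖u‖_{L¹(U)}`,
  same for the gradient), so by Arzelà-Ascoli (`BoundedContinuousFunction.arzela_ascoli` on the compact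
  space `K`, or a direct finite `η`-net argument on a finite grid) a subsequence is uniformly Cauchy on `K`; with
  `lintegral_gmtMol_sub_le` the subsequence satisfies `limsup_{i,j} ‖u_i - u_j‖_{L¹(K)} ≤ 2 η`.
* `gmtVar_compactness`: exhaust `W` by compact sets `K_n ⊆ interior K_{n+1}`, diagonal argument over `(n, η = 1/n)`;
  the diagonal sequence is Cauchy in `L¹(K_n)` for all `n`; completeness of `L¹(K_n)` (`MeasureTheory.Lp`)
  gives limits which agree a.e. on overlaps; glue.
* `gmtP_compactness`: apply it to the characteristic functions; an `L¹_loc` limit of characteristic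
  functions is a.e. `{0,1}`-valued (a.e. convergent subsequence); put `S' = {u' > 1/2}`.
-/

set_option autoImplicit false
open scoped ContDiff ENNReal RealInnerProductSpace Topology
open MeasureTheory Metric Set Filter

namespace Claimed.Agent.Gmt

variable {m : ℕ}

theorem gmt_tendsto_zero_of_le {a b c : ℕ → ℝ≥0∞} (hb : Tendsto b atTop (𝓝 0))
    (hc : Tendsto c atTop (𝓝 0)) (h : ∀ i, a i ≤ b i + c i) : Tendsto a atTop (𝓝 0) := by
  have := hb.add hc
  rw [add_zero] at this
  exact tendsto_of_tendsto_of_tendsto_of_le_of_le tendsto_const_nhds this (fun _ => zero_le) h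

/-- limits are unique. -/
theorem gmtConv_unique {W : Set (E m)} (hW : IsOpen W) {S : ℕ → Set (E m)} {S' S'' : Set (E m)}
    (h' : GmtConv W S S') (h'' : GmtConv W S S'') :
    (S' ∩ W : Set (E m)) =ᵐ[volume] (S'' ∩ W : Set (E m)) := by
  have key : ∀ K, IsCompact K → K ⊆ W → volume (symmDiff S' S'' ∩ K) = 0 := by
    intro K hK hKW
    have h1 : Tendsto (fun _ : ℕ => volume (symmDiff S' S'' ∩ K)) atTop (𝓝 0) := by
      refine gmt_tendsto_zero_of_le (h' K hK hKW) (h'' K hK hKW) fun i => ?_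
      refine (measure_mono ?_).trans (measure_union_le _ _)
      rintro x ⟨hx, hxK⟩
      have : x ∈ symmDiff S' (S i) ∪ symmDiff (S i) S'' := symmDiff_triangle S' (S i) S'' hx
      rcases this with h | h
      · exact Or.inl ⟨by rwa [symmDiff_comm], hxK⟩
      · exact Or.inr ⟨h, hxK⟩
    exact tendsto_nhds_unique tendsto_const_nhds h1
  obtain ⟨K, hK, hKU, -, hun⟩ := gmt_exists_exhaustion hW
  have h0 : volume (symmDiff S' S'' ∩ W) = 0 := by
    rw [← hun, inter_iUnion]
    exact measure_iUnion_null fun n => key (K n) (hK n) (hKU n)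
  rw [ae_eq_set]
  constructor
  · refine measure_mono_null ?_ h0
    rintro x ⟨⟨hx, hxW⟩, hx2⟩
    exact ⟨Or.inl ⟨hx, fun h => hx2 ⟨h, hxW⟩⟩, hxW⟩
  · refine measure_mono_null ?_ h0
    rintro x ⟨⟨hx, hxW⟩, hx2⟩
    exact ⟨Or.inr ⟨hx, fun h => hx2 ⟨h, hxW⟩⟩, hxW⟩

/-- subsequence principle: if every subsequence has a further subsequence converging to `S'`, the
whole sequence converges. -/
theorem gmtConv_of_subseq {W : Set (E m)} {S : ℕ → Set (E m)} {S' : Set (E m)}
    (h : ∀ φ : ℕ → ℕ, StrictMono φ → ∃ ψ : ℕ → ℕ, StrictMono ψ ∧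
      GmtConv W (fun i => S (φ (ψ i))) S') : GmtConv W S S' := by
  intro K hK hKW
  apply tendsto_of_subseq_tendsto
  intro ns hns
  obtain ⟨φ, hφ, hφ'⟩ := strictMono_subseq_of_tendsto_atTop hns
  obtain ⟨ψ, hψ, hc⟩ := h (ns ∘ φ) hφ'
  exact ⟨φ ∘ ψ, hc K hK hKW⟩

theorem GmtConv.comp {W : Set (E m)} {S : ℕ → Set (E m)} {S' : Set (E m)} (h : GmtConv W S S')
    {φ : ℕ → ℕ} (hφ : StrictMono φ) : GmtConv W (fun i => S (φ i)) S' :=
  fun K hK hKW => (h K hK hKW).comp hφ.tendsto_atTop

theorem GmtConv.mono {W W' : Set (E m)} {S : ℕ → Set (E m)} {S' : Set (E m)} (h : GmtConv W S S')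
    (hW : W' ⊆ W) : GmtConv W' S S' := fun K hK hKW => h K hK (hKW.trans hW)

/-- set operations are continuous. -/
theorem GmtConv.inter {W : Set (E m)} {S T : ℕ → Set (E m)} {S' T' : Set (E m)}
    (hS : GmtConv W S S') (hT : GmtConv W T T') :
    GmtConv W (fun i => S i ∩ T i) (S' ∩ T') := by
  intro K hK hKW
  refine gmt_tendsto_zero_of_le (hS K hK hKW) (hT K hK hKW) fun i => ?_
  refine (measure_mono ?_).trans (measure_union_le _ _)
  rintro x ⟨hx, hxK⟩
  simp only [mem_symmDiff, mem_inter_iff, mem_union] at hx ⊢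
  tauto

theorem GmtConv.union {W : Set (E m)} {S T : ℕ → Set (E m)} {S' T' : Set (E m)}
    (hS : GmtConv W S S') (hT : GmtConv W T T') :
    GmtConv W (fun i => S i ∪ T i) (S' ∪ T') := by
  intro K hK hKW
  refine gmt_tendsto_zero_of_le (hS K hK hKW) (hT K hK hKW) fun i => ?_
  refine (measure_mono ?_).trans (measure_union_le _ _)
  rintro x ⟨hx, hxK⟩
  simp only [mem_symmDiff, mem_inter_iff, mem_union] at hx ⊢
  tauto

theorem GmtConv.compl {W : Set (E m)} {S : ℕ → Set (E m)} {S' : Set (E m)}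
    (hS : GmtConv W S S') : GmtConv W (fun i => (S i)ᶜ) S'ᶜ := by
  intro K hK hKW
  have e : ∀ i, symmDiff (S i)ᶜ S'ᶜ = symmDiff (S i) S' := fun i => by
    ext x
    simp only [mem_symmDiff, mem_compl_iff]
    tauto
  simp_rw [e]
  exact hS K hK hKW

/-- convergence of volumes on relatively compact measurable sets. -/
theorem GmtConv.tendsto_volume {W : Set (E m)} {S : ℕ → Set (E m)} {S' : Set (E m)}
    (hS : GmtConv W S S') {B K : Set (E m)} (hK : IsCompact K) (hKW : K ⊆ W) (hB : B ⊆ K) :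
    Tendsto (fun i => volume (S i ∩ B)) atTop (𝓝 (volume (S' ∩ B))) := by
  have hd := hS K hK hKW
  have hfin : volume (S' ∩ B) ≠ ⊤ :=
    ((measure_mono (inter_subset_right.trans hB)).trans_lt hK.measure_lt_top).ne
  have hup : Tendsto (fun i => volume (S' ∩ B) + volume (symmDiff (S i) S' ∩ K)) atTop
      (𝓝 (volume (S' ∩ B))) := by
    simpa using tendsto_const_nhds.add hd
  have hlo : Tendsto (fun i => volume (S' ∩ B) - volume (symmDiff (S i) S' ∩ K)) atTop
      (𝓝 (volume (S' ∩ B))) := by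
    have := ENNReal.Tendsto.sub (tendsto_const_nhds (x := volume (S' ∩ B))) hd (Or.inl hfin)
    simpa using this
  refine tendsto_of_tendsto_of_tendsto_of_le_of_le hlo hup (fun i => ?_) (fun i => ?_)
  · rw [tsub_le_iff_right]
    refine (measure_mono ?_).trans (measure_union_le _ _)
    rintro x ⟨hx, hxB⟩
    by_cases h : x ∈ S i
    · exact Or.inl ⟨h, hxB⟩
    · exact Or.inr ⟨Or.inr ⟨hx, h⟩, hB hxB⟩
  · refine (measure_mono ?_).trans (measure_union_le _ _)
    rintro x ⟨hx, hxB⟩
    by_cases h : x ∈ S'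
    · exact Or.inl ⟨h, hxB⟩
    · exact Or.inr ⟨Or.inl ⟨hx, h⟩, hB hxB⟩

end Claimed.Agent.Gmt
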