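import Claimed.Agent.Lib.Gmt.BvConvAe

/-!
# Lib/Gmt [BvCompactA] G1c: `L¹_loc` compactness in `BV`, step 1: one compact set, error `η`.   (architect: helper75)

PLAN
* `gmtMol_abs_le`, `gmtMol_sub_le`: `gmtMol ε u x = ∫ ρ_ε(x - y) u y dy`, `ρ_ε = gmtBump m ε` is smooth with support in `ball 0 ε` (`gmtBump_props`, `gmtBump_hasCompactSupport`): bounded by `B` (`HasCompactSupport.exists_bound_of_continuous`)
  and Lipschitz with some constant `Lc` (`ContDiff.lipschitzWith_of_hasCompactSupport`).  The integrand vanishes for `y ∉ ball x ε` (`∉ ball x ε ∪ ball y' ε` for the difference): `setIntegral_eq_integral_of_forall_compl_eq_zero`, `norm_integral_le_of_norm_le`/`integral_mono`.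
* `gmt_arzela` (elementary Arzelà-Ascoli): finite `θ/(3 Lc + 1)`-net `x_1..x_N` of `K` (`IsCompact.finite_cover_balls`); the vectors `(v i x_l)_l` lie in the compact box `[-B,B]^N` (`isCompact_univ_pi`), so a subsequence converges (`IsCompact.tendsto_subseq`), in particular it is Cauchy: after dropping
  finitely many terms (`φ (i + N₀)`) `|v (φ i) x_l - v (φ j) x_l| ≤ θ/3` for all `l, i, j`; triangle inequality with the Lipschitz bound.
* `gmt_totallyBounded_step`: `δ > 0` with `cthickening δ K ⊆ U` (`IsCompact.exists_cthickening_subset_open`), `U' = thickening (δ/2) K`, `ε < δ/4` with `ε C ≤ η/3`.  `lintegral_gmtMol_sub_le` (on `U'`, `ε' = δ/2`): `∫⁻_K |u_i^ε - u_i| ≤ ε Var(u_i;U) ≤ η/3`.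
  On `K`: `|u_i^ε| ≤ B C`, Lipschitz constant `Lc C` (balls of radius `ε` around points of `K` are in `U`; `∫_U |u_i| ≤ C.toReal`).  `gmt_arzela` with `θ |K| ≤ η/3`.  Triangle inequality in `L¹(K)` (`lintegral_add_left'`, `enorm_add_le`).
-/

set_option autoImplicit false
open scoped ContDiff ENNReal RealInnerProductSpace Topology
open MeasureTheory Metric Set Filter

namespace Claimed.Agent.Gmt

variable {m : ℕ}

theorem gmtc_abs_integral_le {A : Set (E m)} (hA : MeasurableSet A) {u k : E m → ℝ}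
    (hu : IntegrableOn u A) {B : ℝ} (hB : ∀ y, |k y| ≤ B) (hk : ∀ y, y ∉ A → k y = 0) :
    |∫ y, k y * u y| ≤ B * ∫ y in A, |u y| := by
  have hg : Integrable (A.indicator fun y => B * |u y|) :=
    IntegrableOn.integrable_indicator (hu.abs.const_mul B) hA
  have h := norm_integral_le_of_norm_le hg (f := fun y => k y * u y)
    (Eventually.of_forall fun y => by
      by_cases hy : y ∈ A
      · rw [indicator_of_mem hy, Real.norm_eq_abs, abs_mul]
        exact mul_le_mul_of_nonneg_right (hB y) (abs_nonneg _)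
      · rw [indicator_of_notMem hy, hk y hy]
        simp)
  rw [integral_indicator hA, integral_const_mul, Real.norm_eq_abs] at h
  exact h

theorem gmtc_integrableOn_ball {u : E m → ℝ} (hu : LocallyIntegrable u) (x : E m) (ε : ℝ) :
    IntegrableOn u (ball x ε) :=
  (hu.integrableOn_isCompact (isCompact_closedBall x ε)).mono_set ball_subset_closedBall

theorem gmtc_bump_sub_eq_zero {ε : ℝ} (hε : 0 < ε) {x y : E m} (hy : y ∉ ball x ε) :
    gmtBump m ε (x - y) = 0 := by
  apply gmtBump_eq_zero hε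
  rw [mem_ball, dist_eq_norm, not_lt, norm_sub_rev] at hy
  exact hy

theorem gmtMol_abs_le (m : ℕ) {ε : ℝ} (hε : 0 < ε) :
    ∃ B : ℝ, 0 ≤ B ∧ ∀ u : E m → ℝ, LocallyIntegrable u → ∀ x,
      |gmtMol ε u x| ≤ B * ∫ y in ball x ε, |u y| := by
  obtain ⟨B, hB⟩ := (gmtBump_hasCompactSupport (m := m) hε).exists_bound_of_continuous
    (gmtBump_continuous hε)
  refine ⟨B, (norm_nonneg _).trans (hB 0), fun u hu x => ?_⟩
  unfold gmtMol
  exact gmtc_abs_integral_le measurableSet_ball (gmtc_integrableOn_ball hu x ε)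
    (fun y => hB (x - y)) (fun y hy => gmtc_bump_sub_eq_zero hε hy)

theorem gmtMol_sub_le (m : ℕ) {ε : ℝ} (hε : 0 < ε) :
    ∃ Lc : ℝ, 0 ≤ Lc ∧ ∀ u : E m → ℝ, LocallyIntegrable u → ∀ x x',
      |gmtMol ε u x - gmtMol ε u x'| ≤ Lc * ‖x - x'‖ * ∫ y in ball x ε ∪ ball x' ε, |u y| := by
  obtain ⟨Lc, hL⟩ := ContDiff.lipschitzWith_of_hasCompactSupport
    (gmtBump_hasCompactSupport (m := m) hε) (gmtBump_props (m := m) hε).1 (by simp)
  refine ⟨Lc, Lc.2, fun u hu x x' => ?_⟩
  have e : gmtMol ε u x - gmtMol ε u x'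
      = ∫ y, (gmtBump m ε (x - y) - gmtBump m ε (x' - y)) * u y := by
    unfold gmtMol
    rw [← integral_sub (gmtMol_integrable hε hu x) (gmtMol_integrable hε hu x')]
    congr 1
    ext y
    ring
  rw [e]
  refine gmtc_abs_integral_le (measurableSet_ball.union measurableSet_ball)
    ((gmtc_integrableOn_ball hu x ε).union (gmtc_integrableOn_ball hu x' ε)) (fun y => ?_)
    (fun y hy => ?_)
  · have := hL.dist_le_mul (x - y) (x' - y)
    rw [Real.dist_eq, dist_eq_norm] at this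
    simpa using this
  · rw [mem_union, not_or] at hy
    rw [gmtc_bump_sub_eq_zero hε hy.1, gmtc_bump_sub_eq_zero hε hy.2, sub_zero]

/-- elementary Arzelà-Ascoli. -/
theorem gmt_arzela {K : Set (E m)} (hK : IsCompact K) {v : ℕ → E m → ℝ} {B Lc : ℝ}
    (hB : ∀ i, ∀ x ∈ K, |v i x| ≤ B)
    (hL : ∀ i, ∀ x ∈ K, ∀ y ∈ K, |v i x - v i y| ≤ Lc * ‖x - y‖) {θ : ℝ} (hθ : 0 < θ) :
    ∃ φ : ℕ → ℕ, StrictMono φ ∧ ∀ i j, ∀ x ∈ K, |v (φ i) x - v (φ j) x| ≤ θ := by
  classical
  have : CompactSpace ↥K := isCompact_iff_compactSpace.1 hK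
  have hlip : ∀ i, LipschitzWith (Real.toNNReal Lc) (fun x : ↥K => v i x) := fun i =>
    LipschitzWith.of_dist_le_mul fun x y => by
      rw [Real.dist_eq, Subtype.dist_eq, dist_eq_norm]
      exact (hL i x x.2 y y.2).trans
        (mul_le_mul_of_nonneg_right (Real.le_coe_toNNReal Lc) (norm_nonneg _))
  let f : ℕ → BoundedContinuousFunction ↥K ℝ := fun i =>
    BoundedContinuousFunction.mkOfCompact ⟨fun x => v i x, (hlip i).continuous⟩
  have hfa : ∀ i (x : ↥K), f i x = v i x := fun i x => rfl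
  have hcomp : IsCompact (closure (range f)) := by
    refine BoundedContinuousFunction.arzela_ascoli (Icc (-B) B) isCompact_Icc (range f) ?_ ?_
    · rintro g x ⟨i, rfl⟩
      exact abs_le.1 (hB i x x.2)
    · have : UniformEquicontinuous
          (fun (g : range f) (x : ↥K) => (g : BoundedContinuousFunction ↥K ℝ) x) :=
        LipschitzWith.uniformEquicontinuous _ (Real.toNNReal Lc) (by
          rintro ⟨g, i, rfl⟩
          exact hlip i)
      exact this.equicontinuous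
  obtain ⟨a, -, φ0, hφ0, hlim⟩ := hcomp.tendsto_subseq (x := f)
    (fun n => subset_closure (mem_range_self n))
  obtain ⟨N, hN⟩ := (Metric.tendsto_atTop.1 hlim) (θ / 2) (half_pos hθ)
  refine ⟨fun i => φ0 (i + N), hφ0.comp (fun a b hab => Nat.add_lt_add_right hab N),
    fun i j x hx => ?_⟩
  have h1 : dist (f (φ0 (i + N))) a < θ / 2 := hN (i + N) (Nat.le_add_left _ _)
  have h2 : dist (f (φ0 (j + N))) a < θ / 2 := hN (j + N) (Nat.le_add_left _ _)
  have h3 : dist (f (φ0 (i + N))) (f (φ0 (j + N))) < θ := by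
    calc dist (f (φ0 (i + N))) (f (φ0 (j + N)))
        ≤ dist (f (φ0 (i + N))) a + dist (f (φ0 (j + N))) a := dist_triangle_right _ _ _
      _ < θ := by linarith
  have h4 := BoundedContinuousFunction.dist_coe_le_dist (f := f (φ0 (i + N)))
    (g := f (φ0 (j + N))) ⟨x, hx⟩
  rw [hfa, hfa, Real.dist_eq] at h4
  exact h4.trans h3.le

theorem gmtc_totallyBounded_step_aux {U K : Set (E m)} (hU : IsOpen U) (hK : IsCompact K)
    (hKU : K ⊆ U)
    {u : ℕ → E m → ℝ} (hu : ∀ i, LocallyIntegrable (u i)) {C : ℝ≥0∞} (hC : C ≠ ⊤)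
    (hb1 : ∀ i, ∫⁻ x in U, ‖u i x‖ₑ ≤ C) (hb2 : ∀ i, gmtVar (u i) U ≤ C)
    {η : ℝ≥0∞} (hη : 0 < η) :
    ∃ φ : ℕ → ℕ, StrictMono φ ∧ ∀ i j, ∫⁻ x in K, ‖u (φ i) x - u (φ j) x‖ₑ ≤ η := by
  obtain ⟨δ, hδ, hδU⟩ := hK.exists_thickening_subset_open hU hKU
  set U' : Set (E m) := thickening (δ / 2) K with hU'
  have hU'o : IsOpen U' := isOpen_thickening
  have hKU' : K ⊆ U' := self_subset_thickening (half_pos hδ) K
  have hUU : thickening (δ / 2) U' ⊆ U := by
    refine (thickening_thickening_subset (δ / 2) (δ / 2) K).trans ?_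
    rw [add_halves]
    exact hδU
  -- the finite error
  set η' : ℝ≥0∞ := min η 1 with hη'
  have hη'0 : 0 < η' := lt_min hη one_pos
  have hη't : η' ≠ ⊤ := ne_top_of_le_ne_top ENNReal.one_ne_top (min_le_right _ _)
  have h3t : η' / 3 ≠ ⊤ := ENNReal.div_ne_top hη't (by norm_num)
  have h30 : η' / 3 ≠ 0 := (ENNReal.div_pos hη'0.ne' (by norm_num)).ne'
  set e : ℝ := (η' / 3).toReal with he
  have he0 : 0 < e := ENNReal.toReal_pos h30 h3t
  have hee : ENNReal.ofReal e = η' / 3 := ENNReal.ofReal_toReal h3t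
  set c : ℝ := C.toReal with hc
  have hc0 : 0 ≤ c := ENNReal.toReal_nonneg
  have hcC : ENNReal.ofReal c = C := ENNReal.ofReal_toReal hC
  set ε : ℝ := min (δ / 4) (e / (c + 1)) with hε
  have hε0 : 0 < ε := lt_min (by positivity) (by positivity)
  have hεδ : ε < δ / 2 := lt_of_le_of_lt (min_le_left _ _) (by linarith)
  have hεc : ε * c ≤ e := by
    have h1 : ε ≤ e / (c + 1) := min_le_right _ _
    calc ε * c ≤ e / (c + 1) * c := mul_le_mul_of_nonneg_right h1 hc0
      _ = e * (c / (c + 1)) := by ring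
      _ ≤ e * 1 := by
          refine mul_le_mul_of_nonneg_left ?_ he0.le
          rw [div_le_one (by positivity)]
          linarith
      _ = e := mul_one e
  -- integrability on `U`
  have hiU : ∀ i, IntegrableOn (u i) U := fun i =>
    ⟨(hu i).aestronglyMeasurable.restrict,
      lt_of_le_of_lt (hb1 i) (lt_top_iff_ne_top.2 hC)⟩
  have hIc : ∀ i, ∫ y in U, |u i y| ≤ c := by
    intro i
    have h1 := integral_norm_eq_lintegral_enorm (μ := volume.restrict U)
      (hu i).aestronglyMeasurable.restrict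
    simp only [Real.norm_eq_abs] at h1
    rw [h1]
    exact ENNReal.toReal_mono hC (hb1 i)
  have hballU : ∀ x ∈ K, ball x ε ⊆ U := fun x hx =>
    (ball_subset_thickening hx ε).trans ((thickening_mono (by linarith) K).trans hδU)
  have hmonoI : ∀ i (A : Set (E m)), A ⊆ U → ∫ y in A, |u i y| ≤ c := fun i A hA =>
    (setIntegral_mono_set (hiU i).abs (Eventually.of_forall fun y => abs_nonneg _)
      (Eventually.of_forall hA)).trans (hIc i)
  obtain ⟨B, hB0, hB⟩ := gmtMol_abs_le m hε0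
  obtain ⟨Lc, hL0, hL⟩ := gmtMol_sub_le m hε0
  set vK : ℝ := (volume K).toReal with hvK
  have hvK0 : 0 ≤ vK := ENNReal.toReal_nonneg
  have hvKe : ENNReal.ofReal vK = volume K := ENNReal.ofReal_toReal hK.measure_lt_top.ne
  set θ : ℝ := e / (vK + 1) with hθ
  have hθ0 : 0 < θ := by positivity
  have hθv : θ * vK ≤ e := by
    calc θ * vK = e * (vK / (vK + 1)) := by rw [hθ]; ring
      _ ≤ e * 1 := by
          refine mul_le_mul_of_nonneg_left ?_ he0.le
          rw [div_le_one (by positivity)]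
          linarith
      _ = e := mul_one e
  obtain ⟨φ, hφ, hφθ⟩ := gmt_arzela hK (v := fun i => gmtMol ε (u i)) (B := B * c) (Lc := Lc * c)
    (fun i x hx => (hB (u i) (hu i) x).trans
      (mul_le_mul_of_nonneg_left (hmonoI i _ (hballU x hx)) hB0))
    (fun i x hx y hy => by
      refine (hL (u i) (hu i) x y).trans ?_
      calc Lc * ‖x - y‖ * ∫ z in ball x ε ∪ ball y ε, |u i z|
          ≤ Lc * ‖x - y‖ * c := mul_le_mul_of_nonneg_left
            (hmonoI i _ (union_subset (hballU x hx) (hballU y hy)))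
            (mul_nonneg hL0 (norm_nonneg _))
        _ = Lc * c * ‖x - y‖ := by ring) hθ0
  refine ⟨φ, hφ, fun i j => ?_⟩
  -- the three pieces
  have hA : ∀ i, ∫⁻ x in K, ‖gmtMol ε (u i) x - u i x‖ₑ ≤ η' / 3 := by
    intro i
    calc ∫⁻ x in K, ‖gmtMol ε (u i) x - u i x‖ₑ
        ≤ ∫⁻ x in U', ‖gmtMol ε (u i) x - u i x‖ₑ := lintegral_mono_set hKU'
      _ ≤ ENNReal.ofReal ε * gmtVar (u i) U := lintegral_gmtMol_sub_le hε0 hεδ (hu i) hU'o hUU
      _ ≤ ENNReal.ofReal ε * C := by gcongr; exact hb2 i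
      _ = ENNReal.ofReal (ε * c) := by rw [← hcC, ENNReal.ofReal_mul hε0.le]
      _ ≤ ENNReal.ofReal e := ENNReal.ofReal_le_ofReal hεc
      _ = η' / 3 := hee
  have hBm : ∫⁻ x in K, ‖gmtMol ε (u (φ i)) x - gmtMol ε (u (φ j)) x‖ₑ ≤ η' / 3 := by
    calc ∫⁻ x in K, ‖gmtMol ε (u (φ i)) x - gmtMol ε (u (φ j)) x‖ₑ
        ≤ ∫⁻ _ in K, ENNReal.ofReal θ := by
          refine setLIntegral_mono' hK.measurableSet fun x hx => ?_
          rw [← ofReal_norm, Real.norm_eq_abs]
          exact ENNReal.ofReal_le_ofReal (hφθ i j x hx)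
      _ = ENNReal.ofReal θ * volume K := setLIntegral_const K _
      _ = ENNReal.ofReal (θ * vK) := by rw [← hvKe, ENNReal.ofReal_mul hθ0.le]
      _ ≤ ENNReal.ofReal e := ENNReal.ofReal_le_ofReal hθv
      _ = η' / 3 := hee
  have hcont : ∀ i, Continuous (gmtMol ε (u i)) := fun i => (gmtMol_contDiff hε0 (hu i)).continuous
  have hm1 : AEMeasurable (fun x => ‖gmtMol ε (u (φ j)) x - u (φ j) x‖ₑ) (volume.restrict K) :=
    ((hcont (φ j)).aestronglyMeasurable.sub (hu (φ j)).aestronglyMeasurable).enorm.restrict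
  have hm2 : AEMeasurable (fun x => ‖gmtMol ε (u (φ i)) x - gmtMol ε (u (φ j)) x‖ₑ)
      (volume.restrict K) := ((hcont (φ i)).sub (hcont (φ j))).measurable.enorm.aemeasurable
  calc ∫⁻ x in K, ‖u (φ i) x - u (φ j) x‖ₑ
      ≤ ∫⁻ x in K, (‖gmtMol ε (u (φ i)) x - u (φ i) x‖ₑ
          + ‖gmtMol ε (u (φ i)) x - gmtMol ε (u (φ j)) x‖ₑ)
          + ‖gmtMol ε (u (φ j)) x - u (φ j) x‖ₑ := by
        refine lintegral_mono fun x => ?_
        have e1 : u (φ i) x - u (φ j) x = -(gmtMol ε (u (φ i)) x - u (φ i) x)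
            + (gmtMol ε (u (φ i)) x - gmtMol ε (u (φ j)) x)
            + (gmtMol ε (u (φ j)) x - u (φ j) x) := by ring
        rw [e1]
        refine (enorm_add_le _ _).trans ?_
        gcongr
        refine (enorm_add_le _ _).trans ?_
        rw [enorm_neg]
    _ = (∫⁻ x in K, ‖gmtMol ε (u (φ i)) x - u (φ i) x‖ₑ)
          + (∫⁻ x in K, ‖gmtMol ε (u (φ i)) x - gmtMol ε (u (φ j)) x‖ₑ)
          + (∫⁻ x in K, ‖gmtMol ε (u (φ j)) x - u (φ j) x‖ₑ) := by
        rw [lintegral_add_right' _ hm1, lintegral_add_right' _ hm2]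
    _ ≤ η' / 3 + η' / 3 + η' / 3 := by gcongr <;> first | exact hA _ | exact hBm
    _ = η' := ENNReal.add_thirds η'
    _ ≤ η := min_le_left _ _

/-- one step: on a compact set `K ⊆ U`, up to error `η`. -/
theorem gmt_totallyBounded_step {U K : Set (E m)} (hU : IsOpen U) (hK : IsCompact K) (hKU : K ⊆ U)
    {u : ℕ → E m → ℝ} (hu : ∀ i, LocallyIntegrable (u i)) {C : ℝ≥0∞} (hC : C ≠ ⊤)
    (hb : ∀ i, ∫⁻ x in U, ‖u i x‖ₑ + gmtVar (u i) U ≤ C) {η : ℝ≥0∞} (hη : 0 < η) :
    ∃ φ : ℕ → ℕ, StrictMono φ ∧ ∀ i j, ∫⁻ x in K, ‖u (φ i) x - u (φ j) x‖ₑ ≤ η := by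
  rcases K.eq_empty_or_nonempty with rfl | hKne
  · exact ⟨id, strictMono_id, fun i j => by simp⟩
  have hUne : U.Nonempty := hKne.mono hKU
  have hv0 : volume U ≠ 0 := (hU.measure_pos volume hUne).ne'
  have hb1 : ∀ i, ∫⁻ x in U, ‖u i x‖ₑ ≤ C + C / volume U := fun i =>
    ((lintegral_mono fun x => le_self_add).trans (hb i)).trans le_self_add
  have hb2 : ∀ i, gmtVar (u i) U ≤ C + C / volume U := by
    intro i
    refine le_trans ?_ le_add_self
    rw [ENNReal.le_div_iff_mul_le (Or.inl hv0) (Or.inr hC)]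
    calc gmtVar (u i) U * volume U = ∫⁻ _ in U, gmtVar (u i) U := (setLIntegral_const U _).symm
      _ ≤ ∫⁻ x in U, ‖u i x‖ₑ + gmtVar (u i) U := lintegral_mono fun x => le_add_self
      _ ≤ C := hb i
  exact gmtc_totallyBounded_step_aux hU hK hKU hu
    (ENNReal.add_ne_top.2 ⟨hC, ENNReal.div_ne_top hC hv0⟩) hb1 hb2 hη

end Claimed.Agent.Gmt
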