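import Claimed.Agent.Lib.Gmt.BvCompactA
import Claimed.Agent.Lib.Gmt.BvAniso

/-!
# Lib/Gmt [BvCompactB] G1c: `L¹_loc` compactness of `BV` functions and of sets of finite perimeter.   (architect: helper75)

PLAN
* `gmt_step_ball`: the sequence `i ↦ u (φ₀ (i + N))` satisfies the bound for ALL `i` (`N` from `∀ᶠ` and `φ₀ i ≥ i`); `gmt_totallyBounded_step` with `U = ball x r`, `K = closedBall x (r/2)`; `ψ i = φ i + N`.
* `gmt_exists_cauchy_subseq`: Lindelöf: countably many balls `ball (x k) (r k / 2)` cover `W` (`TopologicalSpace.isOpen_iUnion_countable`; index them by `ℕ`, repeating if necessary).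
  `gmt_diag` for the countable family indexed by `n = Nat.pair k l`: `P n φ := ∃ N, ∀ i ≥ N, ∀ j ≥ N, ∫⁻_{closedBall (x k) (r k/2)} ‖u (φ i) - u (φ j)‖ₑ ≤ 1/(l+1)`.  Existence: `gmt_step_ball`.  Heredity: if `φ'` is strictly increasing with values eventually in `range φ`, then for large `i`, `φ' i = φ (a i)` with `a i → ∞` (see the proof of `gmt_tendsto_of_range`).
  A compact `K ⊆ W` is covered by finitely many of the balls: add the integrals (`lintegral_mono_set`, `lintegral_union_le`/`lintegral_iUnion_le` on a finite union), choose `l` with `(#balls)/(l+1) ≤ η`.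
* `gmt_exists_fast_subseq`: `Filter.extraction_forall_of_eventually'`-type recursion: choose `ψ` strictly increasing with `ψ i ≥ N(K i, 2^{-i})`; then for `n ≤ i`: `K n ⊆ K i` and both `ψ i, ψ (i+1) ≥ N(K i, 2^{-i})`.
* `gmtVar_compactness`: `gmt_exists_cauchy_subseq`, exhaustion `gmt_exists_exhaustion hW`, `gmt_exists_fast_subseq`, `gmt_L1loc_complete` (`BvConvAe.lean`).
* `gmtP_compactness`: `u i = gmtChi (S i)`: `∫⁻_{ball} ‖χ‖ₑ ≤ volume (ball x r) < ∞`, `gmtVar (gmtChi S) = gmtP S` (`gmtPer_eq_gmtVarA`, `gmtVarA_eu`); `S' = {1/2 < u'}` (`gmtConvF_chi_limit`);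
  `GmtLF S' W`: `gmtLF_iff_local` + lower semicontinuity `gmtPer_lsc` on `ball x r` (`liminf ≤ C` from the eventual bound: `Filter.liminf_le_of_frequently_le'`/`liminf_le_of_le`).
-/

set_option autoImplicit false
open scoped ContDiff ENNReal RealInnerProductSpace Topology
open MeasureTheory Metric Set Filter

namespace Claimed.Agent.Gmt

variable {m : ℕ}

theorem gmt_step_ball {x : E m} {r : ℝ} (hr : 0 < r) {u : ℕ → E m → ℝ}
    (hu : ∀ i, LocallyIntegrable (u i)) {C : ℝ≥0∞} (hC : C ≠ ⊤)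
    (hb : ∀ᶠ i in atTop, ∫⁻ y in ball x r, ‖u i y‖ₑ + gmtVar (u i) (ball x r) ≤ C) {η : ℝ≥0∞}
    (hη : 0 < η) {φ₀ : ℕ → ℕ} (hφ₀ : StrictMono φ₀) :
    ∃ ψ : ℕ → ℕ, StrictMono ψ ∧ ∀ i j,
      ∫⁻ y in closedBall x (r / 2), ‖u (φ₀ (ψ i)) y - u (φ₀ (ψ j)) y‖ₑ ≤ η := by
  obtain ⟨N, hN⟩ := eventually_atTop.1 hb
  obtain ⟨φ, hφ, h⟩ := gmt_totallyBounded_step (U := ball x r) (K := closedBall x (r / 2))
    isOpen_ball (isCompact_closedBall x _) (closedBall_subset_ball (by linarith))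
    (u := fun i => u (φ₀ (i + N))) (fun i => hu _) hC
    (fun i => hN _ ((Nat.le_add_left N i).trans (hφ₀.le_apply))) hη
  exact ⟨fun i => φ i + N, fun a b hab => Nat.add_lt_add_right (hφ hab) N, h⟩

theorem gmtc_lintegral_biUnion_finset_le {α : Type*} [MeasurableSpace α] {μ : Measure α}
    (t : Finset ℕ) (s : ℕ → Set α) (f : α → ℝ≥0∞) :
    ∫⁻ y in ⋃ k ∈ t, s k, f y ∂μ ≤ ∑ k ∈ t, ∫⁻ y in s k, f y ∂μ := by
  classical
  induction t using Finset.induction_on with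
  | empty => simp
  | insert a t ha ih =>
    rw [Finset.set_biUnion_insert, Finset.sum_insert ha]
    exact (lintegral_union_le f _ _).trans (add_le_add le_rfl ih)

theorem gmt_exists_cauchy_subseq {W : Set (E m)} (hW : IsOpen W) {u : ℕ → E m → ℝ}
    (hu : ∀ i, LocallyIntegrable (u i))
    (hb : ∀ x ∈ W, ∃ r > 0, ∃ C : ℝ≥0∞, C ≠ ⊤ ∧
      ∀ᶠ i in atTop, ∫⁻ y in ball x r, ‖u i y‖ₑ + gmtVar (u i) (ball x r) ≤ C) :
    ∃ φ : ℕ → ℕ, StrictMono φ ∧ ∀ K, IsCompact K → K ⊆ W → ∀ η : ℝ≥0∞, 0 < η →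
      ∃ N, ∀ i ≥ N, ∀ j ≥ N, ∫⁻ y in K, ‖u (φ i) y - u (φ j) y‖ₑ ≤ η := by
  classical
  rcases W.eq_empty_or_nonempty with rfl | hWne
  · refine ⟨id, strictMono_id, fun K _ hKW η _ => ⟨0, fun i _ j _ => ?_⟩⟩
    rw [subset_empty_iff.1 hKW]
    simp
  choose! r hr C hC hbd using hb
  -- countable subcover
  obtain ⟨T, hTW, hTc, hTU⟩ := TopologicalSpace.isOpen_biUnion_countable W
    (fun x => ball x (r x / 2)) (fun x _ => isOpen_ball)
  have hWcov : W ⊆ ⋃ x ∈ T, ball x (r x / 2) := by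
    rw [hTU]
    intro x hx
    exact mem_biUnion hx (mem_ball_self (half_pos (hr x hx)))
  have hTne : T.Nonempty := by
    obtain ⟨x, hx⟩ := hWne
    obtain ⟨y, hy, -⟩ := mem_iUnion₂.1 (hWcov hx)
    exact ⟨y, hy⟩
  obtain ⟨c, hc⟩ := hTc.exists_eq_range hTne
  have hcW : ∀ k, c k ∈ W := fun k => hTW (hc ▸ mem_range_self k)
  have hWcov' : W ⊆ ⋃ k, ball (c k) (r (c k) / 2) := by
    refine hWcov.trans (iUnion₂_subset fun x hx => ?_)
    rw [hc] at hx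
    obtain ⟨k, rfl⟩ := hx
    exact subset_iUnion (fun k => ball (c k) (r (c k) / 2)) k
  obtain ⟨φ, hφ, hP⟩ := gmt_diag
    (fun n φ => ∃ N, ∀ i ≥ N, ∀ j ≥ N,
      ∫⁻ y in closedBall (c n.unpair.1) (r (c n.unpair.1) / 2), ‖u (φ i) y - u (φ j) y‖ₑ
        ≤ ((n.unpair.2 : ℕ) : ℝ≥0∞)⁻¹)
    (by
      intro n φ hφ
      obtain ⟨ψ, hψ, h⟩ := gmt_step_ball (hr _ (hcW n.unpair.1)) hu (hC _ (hcW n.unpair.1))
        (hbd _ (hcW n.unpair.1))
        (η := ((n.unpair.2 : ℕ) : ℝ≥0∞)⁻¹) (ENNReal.inv_pos.2 (ENNReal.natCast_ne_top _)) hφ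
      exact ⟨ψ, hψ, 0, fun i _ j _ => h i j⟩)
    (by
      rintro n φ φ' hφ ⟨N, hN⟩ hφ' hr'
      obtain ⟨M, hM⟩ := eventually_atTop.1 hr'
      have key : ∀ i ≥ max M (φ N), ∃ a ≥ N, φ a = φ' i := by
        intro i hi
        obtain ⟨a, ha⟩ := hM i ((le_max_left _ _).trans hi)
        refine ⟨a, ?_, ha⟩
        have h1 : φ N ≤ φ a := by
          rw [ha]
          exact ((le_max_right _ _).trans hi).trans hφ'.le_apply
        exact hφ.le_iff_le.1 h1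
      refine ⟨max M (φ N), fun i hi j hj => ?_⟩
      obtain ⟨a, ha, hai⟩ := key i hi
      obtain ⟨b, hb', hbj⟩ := key j hj
      rw [← hai, ← hbj]
      exact hN a ha b hb')
  refine ⟨φ, hφ, fun K hK hKW η hη => ?_⟩
  obtain ⟨t, ht⟩ := hK.elim_finite_subcover (fun k => ball (c k) (r (c k) / 2))
    (fun k => isOpen_ball) (hKW.trans hWcov')
  have hlim : Tendsto (fun l : ℕ => (t.card : ℝ≥0∞) * ((l : ℕ) : ℝ≥0∞)⁻¹) atTop (𝓝 0) := by
    have := ENNReal.Tendsto.const_mul (a := (t.card : ℝ≥0∞)) ENNReal.tendsto_inv_nat_nhds_zero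
      (Or.inr (ENNReal.natCast_ne_top _))
    simpa using this
  obtain ⟨l, hl⟩ := (hlim.eventually_le_const hη).exists
  choose N hN using fun k => hP (Nat.pair k l)
  simp only [Nat.unpair_pair] at hN
  refine ⟨t.sup N, fun i hi j hj => ?_⟩
  calc ∫⁻ y in K, ‖u (φ i) y - u (φ j) y‖ₑ
      ≤ ∫⁻ y in ⋃ k ∈ t, closedBall (c k) (r (c k) / 2), ‖u (φ i) y - u (φ j) y‖ₑ :=
        lintegral_mono_set (ht.trans (iUnion₂_mono fun k _ => ball_subset_closedBall))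
    _ ≤ ∑ k ∈ t, ∫⁻ y in closedBall (c k) (r (c k) / 2), ‖u (φ i) y - u (φ j) y‖ₑ :=
        gmtc_lintegral_biUnion_finset_le t _ _
    _ ≤ ∑ _k ∈ t, ((l : ℕ) : ℝ≥0∞)⁻¹ := Finset.sum_le_sum fun k hk =>
        hN k i ((Finset.le_sup hk).trans hi) j ((Finset.le_sup hk).trans hj)
    _ = (t.card : ℝ≥0∞) * ((l : ℕ) : ℝ≥0∞)⁻¹ := by rw [Finset.sum_const, nsmul_eq_mul]
    _ ≤ η := hl

theorem gmt_exists_fast_subseq {u : ℕ → E m → ℝ} {K : ℕ → Set (E m)} (hKm : Monotone K)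
    (h : ∀ n, ∀ η : ℝ≥0∞, 0 < η → ∃ N, ∀ i ≥ N, ∀ j ≥ N, ∫⁻ y in K n, ‖u i y - u j y‖ₑ ≤ η) :
    ∃ ψ : ℕ → ℕ, StrictMono ψ ∧ ∀ n i, n ≤ i →
      ∫⁻ y in K n, ‖u (ψ (i + 1)) y - u (ψ i) y‖ₑ ≤ (2 : ℝ≥0∞)⁻¹ ^ i := by
  choose N hN using fun n => h n ((2 : ℝ≥0∞)⁻¹ ^ n) (ENNReal.pow_pos (by norm_num) n)
  obtain ⟨ψ, hψ, hψN⟩ := extraction_forall_of_eventually' (P := fun n k => N n ≤ k)
    (fun n => ⟨N n, fun k hk => hk⟩)
  refine ⟨ψ, hψ, fun n i hni => ?_⟩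
  exact (lintegral_mono_set (hKm hni)).trans
    (hN i _ ((hψN i).trans (hψ.monotone (Nat.le_succ i))) _ (hψN i))

/-- `BV_loc` compactness. -/
theorem gmtVar_compactness {W : Set (E m)} (hW : IsOpen W) {u : ℕ → E m → ℝ}
    (hu : ∀ i, LocallyIntegrable (u i))
    (hb : ∀ x ∈ W, ∃ r > 0, ∃ C : ℝ≥0∞, C ≠ ⊤ ∧
      ∀ᶠ i in atTop, ∫⁻ y in ball x r, ‖u i y‖ₑ + gmtVar (u i) (ball x r) ≤ C) :
    ∃ (φ : ℕ → ℕ) (u' : E m → ℝ), StrictMono φ ∧ Measurable u' ∧ LocallyIntegrableOn u' W ∧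
      GmtConvF W (fun i => u (φ i)) u' := by
  obtain ⟨φ, hφ, hc⟩ := gmt_exists_cauchy_subseq hW hu hb
  obtain ⟨K, hK, hKW, hKK, hun⟩ := gmt_exists_exhaustion hW
  have hmono : Monotone K := monotone_nat_of_le_succ fun n => (hKK n).trans interior_subset
  obtain ⟨ψ, hψ, hf⟩ := gmt_exists_fast_subseq (u := fun i => u (φ i)) hmono
    (fun n η hη => hc (K n) (hK n) (hKW n) η hη)
  obtain ⟨u', h1, h2, h3, -⟩ := gmt_L1loc_complete hK hKK hun (u := fun i => u (φ (ψ i)))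
    (fun i => hu _) hf
  exact ⟨φ ∘ ψ, u', hφ.comp hψ, h1, h2, h3⟩

/-- compactness for sets of locally uniformly bounded perimeter. -/
theorem gmtP_compactness {W : Set (E m)} (hW : IsOpen W) {S : ℕ → Set (E m)}
    (hS : ∀ i, MeasurableSet (S i))
    (hb : ∀ x ∈ W, ∃ r > 0, ∃ C : ℝ≥0∞, C ≠ ⊤ ∧ ∀ᶠ i in atTop, gmtP (S i) (ball x r) ≤ C) :
    ∃ (φ : ℕ → ℕ) (S' : Set (E m)), StrictMono φ ∧ MeasurableSet S' ∧ GmtLF S' W ∧
      GmtConv W (fun i => S (φ i)) S' := by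
  obtain ⟨φ, u', hφ, hm, hu', hconv⟩ := gmtVar_compactness hW (u := fun i => gmtChi (S i))
    (fun i => gmtChi_locallyIntegrable (hS i)) (by
      intro x hx
      obtain ⟨r, hr, C, hC, hbd⟩ := hb x hx
      refine ⟨r, hr, (1 + C) * volume (ball x r),
        ENNReal.mul_ne_top (ENNReal.add_ne_top.2 ⟨ENNReal.one_ne_top, hC⟩)
          measure_ball_lt_top.ne, ?_⟩
      filter_upwards [hbd] with i hi
      rw [← setLIntegral_const]
      refine lintegral_mono fun y => add_le_add ?_ ?_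
      · by_cases a : y ∈ S i <;> simp [gmtChi, a]
      · rw [← gmtP_eq_gmtVar (hS i)]
        exact hi)
  have hS' : MeasurableSet {x | 1 / 2 < u' x} := measurableSet_lt measurable_const hm
  have hc : GmtConv W (fun i => S (φ i)) {x | 1 / 2 < u' x} :=
    gmtConvF_chi_limit hW (fun i => hS (φ i)) hm hu' hconv
  refine ⟨φ, {x | 1 / 2 < u' x}, hφ, hS', ?_, hc⟩
  rw [gmtLF_iff_local hW hS']
  intro x hx
  obtain ⟨r, hr, C, hC, hbd⟩ := hb x hx
  obtain ⟨ρ, hρ, hρW⟩ := Metric.isOpen_iff.1 hW x hx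
  refine ⟨min r ρ, lt_min hr hρ, ?_⟩
  have hsubW : ball x (min r ρ) ⊆ W := (ball_subset_ball (min_le_right _ _)).trans hρW
  have h1 := gmtP_lsc (U := ball x (min r ρ)) isOpen_ball (fun i => hS (φ i)) hS'
    (fun K hK hKW => hc K hK (hKW.trans hsubW))
  refine ne_top_of_le_ne_top hC (h1.trans ?_)
  refine liminf_le_of_frequently_le' (Eventually.frequently ?_)
  filter_upwards [hφ.tendsto_atTop.eventually hbd] with i hi
  exact (gmtPer_mono _ _ (ball_subset_ball (min_le_left _ _))).trans hi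

end Claimed.Agent.Gmt
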