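import Claimed.Agent.Lib.Gmt.BvMoll

/-!
# Lib/Gmt [BvPoinc]: the Poincaré inequality on balls in double integral form.

`∫_{B'} ∫_{B'} |u(y') - u(y)| dy' dy ≤ 2 r' |B_{2r'}| Var(u; B)` for concentric balls `B' = B_{r'} ⊂ B = B_r`, `r' < r`.
Proof: `y' = y + z`, Tonelli, and for fixed `z` the translation estimate inside the convex set `B'`
(`lintegral_translate_sub_le_of_contDiff` for the mollified functions + Fatou).
Consumers: `BvConst.lean` (constancy), `BvIsoA.lean` (weak relative isoperimetric inequality).
-/

set_option autoImplicit false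
open scoped ContDiff ENNReal RealInnerProductSpace Topology
open MeasureTheory Metric Set Filter

namespace Claimed.Agent.Gmt

variable {m : ℕ}

/-- translation estimate inside a ball (no room is needed in the direction of the translation, by convexity). -/
theorem lintegral_translate_sub_ball_le {u : E m → ℝ} (hu : LocallyIntegrable u) (x z : E m)
    {r' r : ℝ} (hr : r' < r) :
    ∫⁻ y in ball x r' ∩ {y | y + z ∈ ball x r'}, ‖u (y + z) - u y‖ₑ
      ≤ ENNReal.ofReal ‖z‖ * gmtVar u (ball x r) := by
  set U' : Set (E m) := ball x r' ∩ {y | y + z ∈ ball x r'} with hU'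
  have hU'o : IsOpen U' := isOpen_ball.inter (isOpen_ball.preimage (continuous_add_const z))
  set δ : ℕ → ℝ := fun n => (r - r') / (n + 2) with hδ
  have hδpos : ∀ n, 0 < δ n := fun n => div_pos (by linarith) (by positivity)
  have hδlt : ∀ n, δ n < r - r' := fun n => by
    rw [hδ]
    simp only
    rw [div_lt_iff₀ (by positivity)]
    have : (0 : ℝ) ≤ n := Nat.cast_nonneg n
    nlinarith
  have hδlim : Tendsto δ atTop (𝓝[>] 0) := by
    rw [tendsto_nhdsWithin_iff]
    refine ⟨?_, Eventually.of_forall hδpos⟩
    have h1 : Tendsto (fun n : ℕ => (n : ℝ) + 2) atTop atTop :=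
      tendsto_atTop_add_const_right _ _ tendsto_natCast_atTop_atTop
    exact h1.const_div_atTop _
  have hbound : ∀ n, ∫⁻ y in U', ‖gmtMol (δ n) u (y + z) - gmtMol (δ n) u y‖ₑ
      ≤ ENNReal.ofReal ‖z‖ * gmtVar u (ball x r) := by
    intro n
    have hsm : ContDiff ℝ 1 (gmtMol (δ n) u) :=
      (gmtMol_contDiff (hδpos n) hu).of_le (by exact_mod_cast le_top)
    refine (lintegral_translate_sub_le_of_contDiff hsm hU'o.measurableSet
      (isOpen_ball (x := x) (ε := r')).measurableSet (V := ball x r') ?_).trans ?_
    · intro y hy t ht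
      exact (convex_ball x r').add_smul_mem hy.1 hy.2 ⟨ht.1.le, ht.2⟩
    · rw [← ofReal_norm]
      gcongr
      refine lintegral_fderiv_gmtMol_le (hδpos n) hu isOpen_ball ?_
      intro y hy
      rw [mem_thickening_iff] at hy
      obtain ⟨w, hw, hyw⟩ := hy
      rw [mem_ball] at hw ⊢
      have := dist_triangle y w x
      linarith [hδlt n]
  have hae := gmtMol_tendsto_ae hu
  have hae' : ∀ᵐ y, Tendsto (fun ε => gmtMol ε u (y + z)) (𝓝[>] 0) (𝓝 (u (y + z))) :=
    (quasiMeasurePreserving_add_right volume z).ae hae
  calc ∫⁻ y in U', ‖u (y + z) - u y‖ₑ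
      = ∫⁻ y in U', liminf (fun n => ‖gmtMol (δ n) u (y + z) - gmtMol (δ n) u y‖ₑ) atTop := by
        apply lintegral_congr_ae
        apply ae_restrict_of_ae
        filter_upwards [hae, hae'] with y h1 h2
        exact (((h2.comp hδlim).sub (h1.comp hδlim)).enorm.liminf_eq).symm
    _ ≤ liminf (fun n => ∫⁻ y in U', ‖gmtMol (δ n) u (y + z) - gmtMol (δ n) u y‖ₑ) atTop := by
        apply lintegral_liminf_le
        intro n
        have hc := (gmtMol_contDiff (hδpos n) hu).continuous
        exact ((hc.comp (by fun_prop)).sub hc).measurable.enorm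
    _ ≤ ENNReal.ofReal ‖z‖ * gmtVar u (ball x r) := by
        refine liminf_le_of_le (by isBoundedDefault) fun b hb => ?_
        obtain ⟨n, hn⟩ := hb.exists
        exact hn.trans (hbound n)

/-- **Poincaré inequality on balls**, double integral form. -/
theorem lintegral_lintegral_sub_ball_le {u : E m → ℝ} (hum : Measurable u)
    (hu : LocallyIntegrable u) (x : E m) {r' r : ℝ} (hr : r' < r) :
    ∫⁻ y in ball x r', ∫⁻ y' in ball x r', ‖u y' - u y‖ₑ
      ≤ ENNReal.ofReal (2 * r') * gmtVar u (ball x r) * volume (ball (0 : E m) (2 * r')) := by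
  classical
  have hB : MeasurableSet (ball x r') := isOpen_ball.measurableSet
  calc ∫⁻ y in ball x r', ∫⁻ y' in ball x r', ‖u y' - u y‖ₑ
      = ∫⁻ y in ball x r', ∫⁻ z, (ball x r').indicator (fun y' => ‖u y' - u y‖ₑ) (y + z) := by
        refine lintegral_congr fun y => ?_
        rw [lintegral_add_left_eq_self (fun y' => (ball x r').indicator (fun y' => ‖u y' - u y‖ₑ) y') y,
          lintegral_indicator hB]
    _ = ∫⁻ z, ∫⁻ y in ball x r', (ball x r').indicator (fun y' => ‖u y' - u y‖ₑ) (y + z) := by
        apply lintegral_lintegral_swap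
        apply Measurable.aemeasurable
        have h1 : Measurable fun p : E m × E m => ‖u (p.1 + p.2) - u p.1‖ₑ :=
          ((hum.comp (measurable_fst.add measurable_snd)).sub (hum.comp measurable_fst)).enorm
        have h2 : MeasurableSet {p : E m × E m | p.1 + p.2 ∈ ball x r'} :=
          (measurable_fst.add measurable_snd) hB
        have h3 := h1.indicator h2
        have e : (Function.uncurry fun (y z : E m) =>
            (ball x r').indicator (fun y' => ‖u y' - u y‖ₑ) (y + z)) =
            {p : E m × E m | p.1 + p.2 ∈ ball x r'}.indicator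
              fun p => ‖u (p.1 + p.2) - u p.1‖ₑ := by
          ext p
          simp [Function.uncurry, indicator_apply]
        rw [e]
        exact h3
    _ ≤ ∫⁻ z, (ball (0 : E m) (2 * r')).indicator
          (fun _ => ENNReal.ofReal (2 * r') * gmtVar u (ball x r)) z := by
        refine lintegral_mono fun z => ?_
        have hz : MeasurableSet {y : E m | y + z ∈ ball x r'} :=
          (isOpen_ball.preimage (continuous_add_const z)).measurableSet
        have e : ∫⁻ y in ball x r', (ball x r').indicator (fun y' => ‖u y' - u y‖ₑ) (y + z)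
            = ∫⁻ y in ball x r' ∩ {y | y + z ∈ ball x r'}, ‖u (y + z) - u y‖ₑ := by
          rw [inter_comm, ← setLIntegral_indicator hz]
          refine lintegral_congr fun y => ?_
          simp [indicator_apply]
        rw [e]
        by_cases hzz : z ∈ ball (0 : E m) (2 * r')
        · rw [indicator_of_mem hzz]
          refine (lintegral_translate_sub_ball_le hu x z hr).trans ?_
          gcongr
          rw [mem_ball_zero_iff] at hzz
          exact hzz.le
        · rw [indicator_of_notMem hzz]
          have hemp : ball x r' ∩ {y | y + z ∈ ball x r'} = ∅ := by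
            rw [eq_empty_iff_forall_notMem]
            rintro y ⟨h1, h2⟩
            apply hzz
            rw [mem_ball_zero_iff]
            rw [mem_ball, dist_eq_norm] at h1
            rw [mem_ofPred_eq, mem_ball, dist_eq_norm] at h2
            have : z = (y + z - x) - (y - x) := by abel
            calc ‖z‖ = ‖(y + z - x) - (y - x)‖ := by rw [← this]
              _ ≤ ‖y + z - x‖ + ‖y - x‖ := norm_sub_le _ _
              _ < 2 * r' := by linarith
          rw [hemp]
          simp
    _ = ENNReal.ofReal (2 * r') * gmtVar u (ball x r) * volume (ball (0 : E m) (2 * r')) := by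
        rw [lintegral_indicator isOpen_ball.measurableSet, setLIntegral_const]

end Claimed.Agent.Gmt
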