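import Claimed.Agent.Lib.Gmt.BvGlue
import Claimed.Agent.Lib.Gmt.BvCompact
import Claimed.Agent.Lib.Gmt.BvPoinc

/-!
# Lib/Gmt [BvConst = part 1/4 of the former BvIsoA] [BvIso part A] G1f: constancy, isoperimetric and relative isoperimetric inequalities, scaling.
(architect: helper75)

PLAN OF PROOFS
* `gmtVar_eq_zero_iff_const`: `∇(u_ε) = 0` on `U' ⋐ U` by `lintegral_fderiv_gmtMol_le`; `u_ε` is locally constant, hence constant on
  connected `U'`; let `ε → 0`, exhaust the connected open set `U` by connected open `U' ⋐ U` (or: chain of balls).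
* `gmt_sobolev`: `MeasureTheory.eLpNorm_le_eLpNorm_fderiv_one` for `χ_R · u_ε` / directly for `u_ε` when `u` has bounded support;
  Fatou as `ε → 0`.  `gmt_isoperimetric` is the case `u = χ_S`; if `S` is unbounded with finite volume cut by balls
  (`gmtP_inter_ball_le` and `liminf_r d/dr |S ∩ B_r| = 0` since the integral of the derivative is finite).
* `gmt_rel_iso_weak` (the sharp exponent is NOT needed anywhere): Poincaré inequality on the ball for `C¹` functions
  `∫_B |u - u_B| ≤ C r ∫_B |∇u|` (convexity of `B`: `|u(x)-u(y)| ≤ ∫_0^1 |∇u(x+t(y-x))| |x-y| dt`, change of variables as in GT Lemma 7.16), applied to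
  `u_ε = gmtMol ε χ_S` on `B_{r-ε}`, `ε → 0`: `∫_B |χ_S - a| ≤ C r P(S;B)` for some `a ∈ [0,1]`, and `∫_B |χ_S - a| ≥ min(|S∩B|,|B\S|)/2`... (`= (1-a)|S∩B| + a|B\S| ≥ min`).
* scaling/translation: change of variables in the definition.
-/

set_option autoImplicit false
open scoped ContDiff ENNReal RealInnerProductSpace Topology
open MeasureTheory Metric Set Filter

namespace Claimed.Agent.Gmt

variable {m : ℕ}

/-- local constancy on concentric balls. -/
theorem gmtVar_eq_zero_const_ball {u : E m → ℝ} (hum : Measurable u) (hu : LocallyIntegrable u)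
    (x : E m) {r' r : ℝ} (hr' : 0 < r') (hr : r' < r) (h0 : gmtVar u (ball x r) = 0) :
    ∃ c : ℝ, ∀ᵐ y ∂(volume.restrict (ball x r')), u y = c := by
  have h := lintegral_lintegral_sub_ball_le hum hu x hr
  rw [h0, mul_zero, zero_mul, nonpos_iff_eq_zero] at h
  have hm2 : Measurable fun p : E m × E m => ‖u p.2 - u p.1‖ₑ :=
    ((hum.comp measurable_snd).sub (hum.comp measurable_fst)).enorm
  have hm1 : Measurable fun y : E m => ∫⁻ y' in ball x r', ‖u y' - u y‖ₑ :=
    hm2.lintegral_prod_right'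
  rw [lintegral_eq_zero_iff hm1] at h
  have hne : (ae (volume.restrict (ball x r'))).NeBot := by
    rw [ae_neBot, Ne, Measure.restrict_eq_zero]
    exact (measure_ball_pos volume x hr').ne'
  obtain ⟨y, hy⟩ := h.exists
  simp only [Pi.zero_apply] at hy
  rw [lintegral_eq_zero_iff ((hum.sub_const _).enorm)] at hy
  refine ⟨u y, ?_⟩
  filter_upwards [hy] with y' hy'
  simpa [sub_eq_zero] using hy'

theorem gmtVar_eq_zero_const_aux {U : Set (E m)} (hU : IsOpen U) (hc : IsPreconnected U)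
    {u : E m → ℝ} (hum : Measurable u) (hu : LocallyIntegrable u) (h0 : gmtVar u U = 0) :
    ∃ c : ℝ, u =ᵐ[volume.restrict U] fun _ => c := by
  rcases U.eq_empty_or_nonempty with rfl | ⟨x0, hx0⟩
  · exact ⟨0, by simp [Filter.EventuallyEq]⟩
  set W : ℝ → Set (E m) := fun c =>
    {x | ∃ ρ > 0, ∀ᵐ y ∂(volume.restrict (ball x ρ)), u y = c} with hW
  have hWo : ∀ c, IsOpen (W c) := by
    intro c
    rw [Metric.isOpen_iff]
    rintro x ⟨ρ, hρ, hx⟩
    refine ⟨ρ, hρ, fun x' hx' => ?_⟩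
    rw [mem_ball] at hx'
    refine ⟨ρ - dist x' x, by linarith, ?_⟩
    refine ae_restrict_of_ae_restrict_of_subset ?_ hx
    exact ball_subset_ball' (by linarith)
  have hcov : ∀ x ∈ U, ∃ c, x ∈ W c := by
    intro x hx
    obtain ⟨r, hr, hxr⟩ := Metric.isOpen_iff.1 hU x hx
    have h1 : gmtVar u (ball x r) = 0 := by
      have := gmtVar_mono u hxr
      rw [h0, nonpos_iff_eq_zero] at this
      exact this
    obtain ⟨c, hc'⟩ := gmtVar_eq_zero_const_ball hum hu x (half_pos hr) (half_lt_self hr) h1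
    exact ⟨c, r / 2, half_pos hr, hc'⟩
  have hdis : ∀ c c' x, x ∈ W c → x ∈ W c' → c = c' := by
    rintro c c' x ⟨ρ, hρ, h1⟩ ⟨ρ', hρ', h2⟩
    have hmin : 0 < min ρ ρ' := lt_min hρ hρ'
    have h1' := ae_restrict_of_ae_restrict_of_subset
      (ball_subset_ball (x := x) (min_le_left ρ ρ')) h1
    have h2' := ae_restrict_of_ae_restrict_of_subset
      (ball_subset_ball (x := x) (min_le_right ρ ρ')) h2
    have hne : (ae (volume.restrict (ball x (min ρ ρ')))).NeBot := by
      rw [ae_neBot, Ne, Measure.restrict_eq_zero]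
      exact (measure_ball_pos volume x hmin).ne'
    obtain ⟨y, hy1, hy2⟩ := (h1'.and h2').exists
    rw [← hy1, ← hy2]
  obtain ⟨c0, hc0⟩ := hcov x0 hx0
  have hsub : U ⊆ W c0 := by
    by_contra hcon
    rw [not_subset] at hcon
    obtain ⟨x1, hx1, hx1'⟩ := hcon
    obtain ⟨c1, hc1⟩ := hcov x1 hx1
    have hne : c1 ≠ c0 := fun e => hx1' (e ▸ hc1)
    obtain ⟨z, -, hz0, hz1⟩ := hc (W c0) (⋃ c ∈ {c : ℝ | c ≠ c0}, W c) (hWo c0)
      (isOpen_biUnion fun c _ => hWo c)
      (by
        intro x hx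
        obtain ⟨c, hc'⟩ := hcov x hx
        by_cases e : c = c0
        · exact Or.inl (e ▸ hc')
        · exact Or.inr (mem_biUnion (show c ∈ {c : ℝ | c ≠ c0} from e) hc'))
      ⟨x0, hx0, hc0⟩ ⟨x1, hx1, mem_biUnion (show c1 ∈ {c : ℝ | c ≠ c0} from hne) hc1⟩
    rw [mem_iUnion₂] at hz1
    obtain ⟨c, hcne, hzc⟩ := hz1
    exact hcne (hdis c c0 z hzc hz0)
  refine ⟨c0, ?_⟩
  rw [Filter.EventuallyEq, ae_restrict_iff' hU.measurableSet, ae_iff]
  apply measure_null_of_locally_null
  intro x hx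
  have hxU : x ∈ U := by
    by_contra hcon
    exact hx fun h => absurd h hcon
  obtain ⟨ρ, hρ, hxρ⟩ := hsub hxU
  refine ⟨_, inter_mem_nhdsWithin _ (ball_mem_nhds x hρ), ?_⟩
  rw [ae_restrict_iff' isOpen_ball.measurableSet, ae_iff] at hxρ
  refine measure_mono_null ?_ hxρ
  rintro y ⟨hy1, hy2⟩ hcon
  exact hy1 fun _ => hcon hy2

/-- CONSTANCY. -/
theorem gmtVar_eq_zero_const {U : Set (E m)} (hU : IsOpen U) (hc : IsPreconnected U)
    {u : E m → ℝ} (hu : LocallyIntegrable u) (h0 : gmtVar u U = 0) :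
    ∃ c : ℝ, u =ᵐ[volume.restrict U] fun _ => c := by
  set u' := hu.aestronglyMeasurable.mk u with hu'
  have hu'm : Measurable u' := hu.aestronglyMeasurable.stronglyMeasurable_mk.measurable
  have heq : u =ᵐ[volume] u' := hu.aestronglyMeasurable.ae_eq_mk
  have hu'l : LocallyIntegrable u' := hu.congr heq
  have h0' : gmtVar u' U = 0 := by
    rw [← gmtVar_congr (ae_restrict_of_ae heq)]
    exact h0
  obtain ⟨c, hc'⟩ := gmtVar_eq_zero_const_aux hU hc hu'm hu'l h0'
  exact ⟨c, Filter.EventuallyEq.trans (ae_restrict_of_ae heq) hc'⟩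

theorem gmtP_eq_zero_const {U : Set (E m)} (hU : IsOpen U) (hc : IsPreconnected U)
    {S : Set (E m)} (hS : MeasurableSet S) (h0 : gmtP S U = 0) :
    volume (S ∩ U) = 0 ∨ volume (U \ S) = 0 := by
  rw [gmtP_eq_gmtVar hS] at h0
  obtain ⟨c, hc'⟩ := gmtVar_eq_zero_const hU hc (gmtChi_locallyIntegrable hS) h0
  rw [Filter.EventuallyEq, ae_restrict_iff' hU.measurableSet, ae_iff] at hc'
  by_cases e : c = 0
  · left
    refine measure_mono_null ?_ hc'
    rintro y ⟨hy1, hy2⟩ hcon
    have := hcon hy2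
    rw [e] at this
    simp [gmtChi, hy1] at this
  · right
    refine measure_mono_null ?_ hc'
    rintro y ⟨hy1, hy2⟩ hcon
    have := hcon hy1
    apply e
    rw [← this]
    simp [gmtChi, hy2]

end Claimed.Agent.Gmt
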