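import Mathlib

/-!
# Lib/Gmt [BvDiag]: the diagonal subsequence principle.   (architect + prover: helper75)

`gmt_diag`: a countable family of properties `P k` of subsequences such that
* every subsequence has a further subsequence with `P k`,
* `P k` passes to every strictly increasing sequence which eventually takes its values in the range of a sequence with `P k`,
has a common subsequence.  `gmt_tendsto_of_range` is the standard way to check the second hypothesis.
-/

set_option autoImplicit false
open Filter Set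

namespace Claimed.Agent.Gmt

/-- the iterated subsequences of the diagonal argument. -/
noncomputable def gmtDiagSeq (ψ : ℕ → (ℕ → ℕ) → ℕ → ℕ) : ℕ → ℕ → ℕ
  | 0 => id ∘ ψ 0 id
  | k + 1 => gmtDiagSeq ψ k ∘ ψ (k + 1) (gmtDiagSeq ψ k)

theorem gmt_diag (P : ℕ → (ℕ → ℕ) → Prop)
    (hex : ∀ (k : ℕ) (φ : ℕ → ℕ), StrictMono φ → ∃ ψ : ℕ → ℕ, StrictMono ψ ∧ P k (φ ∘ ψ))
    (hher : ∀ (k : ℕ) (φ φ' : ℕ → ℕ), StrictMono φ → P k φ → StrictMono φ' →
      (∀ᶠ i in atTop, φ' i ∈ range φ) → P k φ') :
    ∃ φ : ℕ → ℕ, StrictMono φ ∧ ∀ k, P k φ := by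
  classical
  choose! ψ hψ1 hψ2 using hex
  set Φ := gmtDiagSeq ψ with hΦ
  have hmono : ∀ k, StrictMono (Φ k) := by
    intro k
    induction k with
    | zero => exact strictMono_id.comp (hψ1 0 id strictMono_id)
    | succ k ih => exact ih.comp (hψ1 (k + 1) _ ih)
  have hP : ∀ k, P k (Φ k) := by
    intro k
    cases k with
    | zero => exact hψ2 0 id strictMono_id
    | succ k => exact hψ2 (k + 1) _ (hmono k)
  have hrange : ∀ k j, k ≤ j → range (Φ j) ⊆ range (Φ k) := by
    intro k j hkj
    induction j, hkj using Nat.le_induction with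
    | base => exact Subset.rfl
    | succ j _ ih =>
      refine Subset.trans ?_ ih
      rintro _ ⟨i, rfl⟩
      exact ⟨ψ (j + 1) (Φ j) i, rfl⟩
  refine ⟨fun i => Φ i i, ?_, fun k => ?_⟩
  · refine strictMono_nat_of_lt_succ fun i => ?_
    show Φ i i < Φ i (ψ (i + 1) (Φ i) (i + 1))
    refine hmono i ?_
    exact lt_of_lt_of_le (Nat.lt_succ_self i) ((hψ1 (i + 1) _ (hmono i)).le_apply)
  · refine hher k (Φ k) _ (hmono k) (hP k) ?_ ?_
    · refine strictMono_nat_of_lt_succ fun i => ?_
      show Φ i i < Φ i (ψ (i + 1) (Φ i) (i + 1))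
      refine hmono i ?_
      exact lt_of_lt_of_le (Nat.lt_succ_self i) ((hψ1 (i + 1) _ (hmono i)).le_apply)
    · filter_upwards [eventually_ge_atTop k] with i hi
      exact hrange k i hi ⟨i, rfl⟩

/-- convergence along `φ` passes to strictly increasing sequences with values (eventually) in the
range of `φ`. -/
theorem gmt_tendsto_of_range {X : Type*} {x : ℕ → X} {l : Filter X} {φ φ' : ℕ → ℕ}
    (hφ : StrictMono φ) (h : Tendsto (fun i => x (φ i)) atTop l) (hφ' : StrictMono φ')
    (hr : ∀ᶠ i in atTop, φ' i ∈ range φ) : Tendsto (fun i => x (φ' i)) atTop l := by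
  classical
  -- `j i` = index with `φ (j i) = φ' i`
  let j : ℕ → ℕ := fun i => if hi : φ' i ∈ range φ then hi.choose else 0
  have hj : ∀ᶠ i in atTop, φ (j i) = φ' i := by
    filter_upwards [hr] with i hi
    simp only [j, hi, dif_pos]
    exact hi.choose_spec
  have hjt : Tendsto j atTop atTop := by
    refine tendsto_atTop.2 fun N => ?_
    filter_upwards [hj, hφ'.tendsto_atTop.eventually_ge_atTop (φ N)] with i hi hi2
    rw [← hi] at hi2
    exact hφ.le_iff_le.1 hi2
  refine (h.comp hjt).congr' ?_
  filter_upwards [hj] with i hi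
  show x (φ (j i)) = x (φ' i)
  rw [hi]

end Claimed.Agent.Gmt
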