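import Claimed.Agent.Lib.Gmt.BvMoll
import Claimed.Agent.Lib.Gmt.BvDiag

/-!
# Lib/Gmt [BvConvAe] G1c: `L¹_loc` convergence versus a.e. convergence; completeness of `L¹_loc`.   (architect: helper75)

PLAN
* `gmt_L1loc_complete` (the textbook proof of Riesz-Fischer, local version).  `g x = ∑' i, ‖u (i+1) x - u i x‖ₑ`; `∫⁻_{K n} g ≤ ∑_{i<n} (finite terms) + ∑_{i ≥ n} 2^{-i} < ∞`
  (`lintegral_tsum`; the finitely many first terms are finite because the `u i` are locally integrable), so `g < ∞` a.e. on `K n` (`ae_lt_top'`), hence a.e. on `W = ⋃ K n`.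
  Where `g x < ∞` the sequence `u i x` is Cauchy (`cauchySeq_of_summable_dist` / `cauchySeq_of_edist_le_of_tsum_ne_top`), so it converges.  `u' x = limUnder atTop (u · x)` on the (measurable, `measurableSet_exists_tendsto`) convergence set of measurable
  representatives..., simplest: `aemeasurable_of_tendsto_metrizable_ae` on `volume.restrict W` and take `AEMeasurable.mk`.
  `∫⁻_{K n} ‖u i - u'‖ₑ ≤ liminf_j ∫⁻_{K n} ‖u i - u j‖ₑ ≤ ∑_{l ≥ i} 2^{-l} = 2^{1-i}` for `i ≥ n` (Fatou `lintegral_liminf_le'`, triangle inequality).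
* `GmtConvF.exists_subseq_ae`: choose `φ` strictly increasing with `∫⁻_{K n} ‖u (φ i) - u'‖ₑ ≤ 2^{-i}` for `n ≤ i` (`K` = `gmt_exists_exhaustion`; `Filter.extraction_forall_of_eventually'`), then `∑_i ∫⁻_{K n} ‖u (φ i) - u'‖ₑ < ∞`, so `‖u (φ i) x - u' x‖ₑ → 0` a.e. (`ENNReal.tendsto_atTop_zero_of_tsum_ne_top`).
* `GmtConv.exists_subseq_ae`: the previous lemma for `gmtChi` (`gmtConvF_chi`): `|χ_{S_i}(x) - χ_{S'}(x)| → 0` and integer valued ⟹ eventually `0`.
* `gmtConv_of_ae`: dominated convergence on `K` (`tendsto_measure_iInter`-free: `tendsto_lintegral_of_dominated_convergence` with bound `1_K`, `lintegral_gmtChi_sub`).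
-/

set_option autoImplicit false
open scoped ContDiff ENNReal RealInnerProductSpace Topology
open MeasureTheory Metric Set Filter

namespace Claimed.Agent.Gmt

variable {m : ℕ}

theorem gmtc_ae_tsum_ne_top {α : Type*} [MeasurableSpace α] {μ : Measure α} {f : ℕ → α → ℝ≥0∞}
    (hf : ∀ i, AEMeasurable (f i) μ) (h : ∑' i, ∫⁻ x, f i x ∂μ ≠ ⊤) :
    ∀ᵐ x ∂μ, ∑' i, f i x ≠ ⊤ := by
  have h1 : ∫⁻ x, ∑' i, f i x ∂μ ≠ ⊤ := by rwa [lintegral_tsum hf]
  filter_upwards [ae_lt_top' (AEMeasurable.tsum hf) h1] with x hx using hx.ne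

theorem gmtc_tsum_geom_shift (n : ℕ) :
    ∑' i : ℕ, ((2 : ℝ≥0∞)⁻¹) ^ (n + i) = 2 * ((2 : ℝ≥0∞)⁻¹) ^ n := by
  simp_rw [pow_add]
  rw [ENNReal.tsum_mul_left, ENNReal.tsum_geometric, ENNReal.one_sub_inv_two, inv_inv, mul_comm]

theorem gmtc_geom_ne_top (n : ℕ) : 2 * ((2 : ℝ≥0∞)⁻¹) ^ n ≠ ⊤ :=
  ENNReal.mul_ne_top (by norm_num) (ENNReal.pow_ne_top (by norm_num))

theorem gmtc_geom_tendsto : Tendsto (fun n : ℕ => 2 * ((2 : ℝ≥0∞)⁻¹) ^ n) atTop (𝓝 0) := by
  have h := ENNReal.Tendsto.const_mul (a := (2 : ℝ≥0∞))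
    (ENNReal.tendsto_pow_atTop_nhds_zero_of_lt_one (r := (2 : ℝ≥0∞)⁻¹)
      (by rw [ENNReal.inv_lt_one]; norm_num)) (Or.inr (by norm_num))
  simpa using h

theorem gmtc_compact_subset_exhaustion {W : Set (E m)} {K : ℕ → Set (E m)}
    (hKK : ∀ n, K n ⊆ interior (K (n + 1))) (hKW : ⋃ n, K n = W) {L : Set (E m)}
    (hL : IsCompact L) (hLW : L ⊆ W) : ∃ n, L ⊆ K n := by
  have hmono : Monotone K := monotone_nat_of_le_succ fun n => (hKK n).trans interior_subset
  obtain ⟨n, hn⟩ := hL.elim_directed_cover (fun n => interior (K n)) (fun n => isOpen_interior)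
    (by
      rw [← hKW] at hLW
      refine hLW.trans (iUnion_subset fun n => ?_)
      exact (hKK n).trans (subset_iUnion (fun n => interior (K n)) (n + 1)))
    ((monotone_nat_of_le_succ fun n => interior_mono (hmono (Nat.le_succ n))).directed_le)
  exact ⟨n, hn.trans interior_subset⟩

/-- completeness of `L¹_loc(W)`, fast Cauchy form. -/
theorem gmt_L1loc_complete {W : Set (E m)} {K : ℕ → Set (E m)} (hK : ∀ n, IsCompact (K n))
    (hKK : ∀ n, K n ⊆ interior (K (n + 1))) (hKW : ⋃ n, K n = W) {u : ℕ → E m → ℝ}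
    (hu : ∀ i, LocallyIntegrable (u i))
    (h : ∀ n i, n ≤ i → ∫⁻ x in K n, ‖u (i + 1) x - u i x‖ₑ ≤ (2 : ℝ≥0∞)⁻¹ ^ i) :
    ∃ u' : E m → ℝ, Measurable u' ∧ LocallyIntegrableOn u' W ∧ GmtConvF W u u' ∧
      ∀ᵐ x, x ∈ W → Tendsto (fun i => u i x) atTop (𝓝 (u' x)) := by
  have hWm : MeasurableSet W := by
    rw [← hKW]
    exact MeasurableSet.iUnion fun n => (hK n).measurableSet
  set d : ℕ → E m → ℝ≥0∞ := fun i x => ‖u (i + 1) x - u i x‖ₑ with hd
  have hdm : ∀ i (μ : Measure (E m)), μ ≤ volume → AEMeasurable (d i) μ := fun i μ hμ =>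
    (((hu (i + 1)).aestronglyMeasurable.sub (hu i).aestronglyMeasurable).enorm).mono_measure hμ
  have hdist : ∀ x i, edist (u i x) (u (i + 1) x) ≤ d i x := fun x i => by
    rw [edist_comm, edist_eq_enorm_sub]
  -- the tails are integrable on `K n`
  have htail : ∀ n i, n ≤ i → ∫⁻ x in K n, ∑' l, d (i + l) x ≤ 2 * ((2 : ℝ≥0∞)⁻¹) ^ i := by
    intro n i hni
    rw [lintegral_tsum fun l => hdm _ _ Measure.restrict_le_self, ← gmtc_tsum_geom_shift]
    exact ENNReal.tsum_le_tsum fun l => h n (i + l) (hni.trans (Nat.le_add_right _ _))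
  -- a.e. convergence
  have hconvK : ∀ n, ∀ᵐ x ∂(volume.restrict (K n)), ∃ l, Tendsto (fun i => u i x) atTop (𝓝 l) := by
    intro n
    have h1 : ∀ᵐ x ∂(volume.restrict (K n)), ∑' l, d (n + l) x < ⊤ :=
      ae_lt_top' (AEMeasurable.tsum fun l => hdm _ _ Measure.restrict_le_self)
        (ne_top_of_le_ne_top (gmtc_geom_ne_top n) (htail n n le_rfl))
    filter_upwards [h1] with x hx
    have hc : CauchySeq (fun l => u (n + l) x) :=
      cauchySeq_of_edist_le_of_tsum_ne_top (fun l => d (n + l) x)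
        (fun l => hdist x (n + l)) hx.ne
    obtain ⟨l, hl⟩ := cauchySeq_tendsto_of_complete hc
    refine ⟨l, ?_⟩
    have h2 : Tendsto (fun i => u (i + n) x) atTop (𝓝 l) := by
      simpa only [add_comm] using hl
    exact (tendsto_add_atTop_iff_nat n).1 h2
  have hconvW : ∀ᵐ x ∂(volume.restrict W), ∃ l, Tendsto (fun i => u i x) atTop (𝓝 l) := by
    rw [← hKW, ae_restrict_iUnion_iff]
    exact hconvK
  obtain ⟨u', hu'm, hu't⟩ := measurable_limit_of_tendsto_metrizable_ae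
    (fun i => ((hu i).aestronglyMeasurable.aemeasurable).mono_measure Measure.restrict_le_self)
    hconvW
  have hKnW : ∀ n, K n ⊆ W := fun n => hKW ▸ subset_iUnion K n
  -- the `L¹` estimate
  have hest : ∀ n i, n ≤ i → ∫⁻ x in K n, ‖u i x - u' x‖ₑ ≤ 2 * ((2 : ℝ≥0∞)⁻¹) ^ i := by
    intro n i hni
    refine le_trans (lintegral_mono_ae ?_) (htail n i hni)
    filter_upwards [ae_restrict_of_ae_restrict_of_subset (hKnW n) hu't] with x hx
    rw [← edist_eq_enorm_sub]
    exact edist_le_tsum_of_edist_le_of_tendsto (fun l => d l x) (hdist x) hx i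
  refine ⟨u', hu'm, ?_, ?_, (ae_restrict_iff' hWm).1 hu't⟩
  · intro x hx
    rw [← hKW] at hx
    obtain ⟨n, hn⟩ := mem_iUnion.1 hx
    refine ⟨K (n + 1), mem_nhdsWithin_of_mem_nhds (mem_interior_iff_mem_nhds.1 (hKK n hn)), ?_⟩
    have h1 : IntegrableOn (u (n + 1)) (K (n + 1)) := (hu (n + 1)).integrableOn_isCompact (hK _)
    have h2 : IntegrableOn (fun x => u (n + 1) x - u' x) (K (n + 1)) :=
      ⟨h1.aestronglyMeasurable.sub hu'm.aestronglyMeasurable,
        lt_of_le_of_lt (hest (n + 1) (n + 1) le_rfl) (lt_top_iff_ne_top.2 (gmtc_geom_ne_top _))⟩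
    have h3 := h1.sub h2
    refine h3.congr (Eventually.of_forall fun x => ?_)
    simp
  · intro L hL hLW
    obtain ⟨n, hn⟩ := gmtc_compact_subset_exhaustion hKK hKW hL hLW
    refine tendsto_of_tendsto_of_tendsto_of_le_of_le' tendsto_const_nhds gmtc_geom_tendsto
      (Eventually.of_forall fun i => zero_le) ?_
    filter_upwards [eventually_ge_atTop n] with i hi
    exact (lintegral_mono_set hn).trans (hest n i hi)

theorem GmtConvF.exists_subseq_ae {W : Set (E m)} (hW : IsOpen W) {u : ℕ → E m → ℝ}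
    {u' : E m → ℝ} (hu : ∀ i, LocallyIntegrableOn (u i) W) (hu' : LocallyIntegrableOn u' W)
    (h : GmtConvF W u u') :
    ∃ φ : ℕ → ℕ, StrictMono φ ∧ ∀ᵐ x, x ∈ W → Tendsto (fun i => u (φ i) x) atTop (𝓝 (u' x)) := by
  obtain ⟨K, hK, hKW, hKK, hun⟩ := gmt_exists_exhaustion hW
  have hmono : Monotone K := monotone_nat_of_le_succ fun n => (hKK n).trans interior_subset
  obtain ⟨φ, hφ, hφK⟩ := extraction_forall_of_eventually'
    (P := fun n k => ∫⁻ x in K n, ‖u k x - u' x‖ₑ ≤ ((2 : ℝ≥0∞)⁻¹) ^ n) (fun n =>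
      eventually_atTop.1 ((h (K n) (hK n) (hKW n)).eventually_le_const
        (ENNReal.pow_pos (a := (2 : ℝ≥0∞)⁻¹) (by norm_num) n)))
  refine ⟨φ, hφ, ?_⟩
  rw [← ae_restrict_iff' hW.measurableSet, ← hun, ae_restrict_iUnion_iff]
  intro n
  have hm : ∀ i, AEMeasurable (fun x => ‖u (φ (n + i)) x - u' x‖ₑ) (volume.restrict (K n)) :=
    fun i => (((hu _).integrableOn_compact_subset (hKW n) (hK n)).aestronglyMeasurable.sub
      (hu'.integrableOn_compact_subset (hKW n) (hK n)).aestronglyMeasurable).enorm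
  have h1 : ∑' i, ∫⁻ x in K n, ‖u (φ (n + i)) x - u' x‖ₑ ≠ ⊤ := by
    refine ne_top_of_le_ne_top (gmtc_geom_ne_top n) ?_
    rw [← gmtc_tsum_geom_shift]
    exact ENNReal.tsum_le_tsum fun i =>
      (lintegral_mono_set (hmono (Nat.le_add_right n i))).trans (hφK (n + i))
  filter_upwards [gmtc_ae_tsum_ne_top hm h1] with x hx
  have h2 := ENNReal.tendsto_atTop_zero_of_tsum_ne_top hx
  have h3 : Tendsto (fun i => u (φ (n + i)) x) atTop (𝓝 (u' x)) := by
    rw [tendsto_iff_edist_tendsto_0]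
    simpa only [edist_eq_enorm_sub] using h2
  have h4 : Tendsto (fun i => u (φ (i + n)) x) atTop (𝓝 (u' x)) := by
    simpa only [add_comm] using h3
  exact (tendsto_add_atTop_iff_nat (f := fun i => u (φ i) x) n).1 h4

theorem GmtConv.exists_subseq_ae {W : Set (E m)} (hW : IsOpen W) {S : ℕ → Set (E m)}
    {S' : Set (E m)} (hS : ∀ i, MeasurableSet (S i)) (hS' : MeasurableSet S')
    (h : GmtConv W S S') :
    ∃ φ : ℕ → ℕ, StrictMono φ ∧ ∀ᵐ x, x ∈ W → ∀ᶠ i in atTop, (x ∈ S (φ i) ↔ x ∈ S') := by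
  obtain ⟨φ, hφ, hae⟩ := GmtConvF.exists_subseq_ae hW
    (fun i => (gmtChi_locallyIntegrable (hS i)).locallyIntegrableOn _)
    ((gmtChi_locallyIntegrable hS').locallyIntegrableOn _) ((gmtConvF_chi hS hS').2 h)
  refine ⟨φ, hφ, ?_⟩
  filter_upwards [hae] with x hx hxW
  have h1 := (Metric.tendsto_atTop.1 (hx hxW)) (1 / 2) (by norm_num)
  obtain ⟨N, hN⟩ := h1
  filter_upwards [eventually_ge_atTop N] with i hi
  have h2 := hN i hi
  rw [Real.dist_eq] at h2
  by_cases a : x ∈ S (φ i) <;> by_cases b : x ∈ S' <;> simp [gmtChi, a, b] at h2 ⊢ <;>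
    norm_num at h2

theorem gmtConv_of_ae {W : Set (E m)} {S : ℕ → Set (E m)} {S' : Set (E m)}
    (hS : ∀ i, MeasurableSet (S i)) (hS' : MeasurableSet S')
    (h : ∀ᵐ x, x ∈ W → ∀ᶠ i in atTop, (x ∈ S i ↔ x ∈ S')) : GmtConv W S S' := by
  intro K hK hKW
  have h1 : Tendsto (fun i => ∫⁻ x in K, (symmDiff (S i) S').indicator (fun _ => (1 : ℝ≥0∞)) x)
      atTop (𝓝 (∫⁻ _ in K, 0)) := by
    refine tendsto_lintegral_of_dominated_convergence (fun _ => (1 : ℝ≥0∞))
      (fun i => measurable_const.indicator ((hS i).symmDiff hS'))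
      (fun i => Eventually.of_forall fun x => indicator_le_self' (fun _ _ => zero_le) x) ?_ ?_
    · simp only [lintegral_const, Measure.restrict_apply, MeasurableSet.univ, univ_inter, one_mul]
      exact hK.measure_lt_top.ne
    · rw [ae_restrict_iff' hK.measurableSet]
      filter_upwards [h] with x hx hxK
      refine tendsto_const_nhds.congr' ?_
      filter_upwards [hx (hKW hxK)] with i hi
      rw [indicator_of_notMem]
      rw [mem_symmDiff]
      tauto
  simp only [lintegral_zero] at h1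
  refine h1.congr fun i => ?_
  rw [lintegral_indicator ((hS i).symmDiff hS')]
  simp [Measure.restrict_apply ((hS i).symmDiff hS')]

/-- an `L¹_loc` limit of characteristic functions is a characteristic function. -/
theorem gmtConvF_chi_limit {W : Set (E m)} (hW : IsOpen W) {S : ℕ → Set (E m)}
    (hS : ∀ i, MeasurableSet (S i)) {u' : E m → ℝ} (hm : Measurable u')
    (hu' : LocallyIntegrableOn u' W) (h : GmtConvF W (fun i => gmtChi (S i)) u') :
    GmtConv W S {x | 1 / 2 < u' x} := by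
  have hS' : MeasurableSet {x | 1 / 2 < u' x} := measurableSet_lt measurable_const hm
  obtain ⟨φ, hφ, hae⟩ := GmtConvF.exists_subseq_ae hW
    (fun i => (gmtChi_locallyIntegrable (hS i)).locallyIntegrableOn _) hu' h
  have heq : ∀ᵐ x, x ∈ W → u' x = gmtChi {x | 1 / 2 < u' x} x := by
    filter_upwards [hae] with x hx hxW
    have hcl : IsClosed ({0, 1} : Set ℝ) := (Set.toFinite _).isClosed
    have h1 : u' x ∈ ({0, 1} : Set ℝ) := hcl.mem_of_tendsto (hx hxW)
      (Eventually.of_forall fun i => by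
        by_cases a : x ∈ S (φ i) <;> simp [gmtChi, a])
    rcases h1 with h1 | h1
    · simp [gmtChi, h1]
    · rw [mem_singleton_iff] at h1
      have h2 : x ∈ {x | 1 / 2 < u' x} := by
        show 1 / 2 < u' x
        rw [h1]
        norm_num
      rw [gmtChi, indicator_of_mem h2, h1]
  rw [← gmtConvF_chi hS hS']
  intro K hK hKW
  refine (h K hK hKW).congr fun i => ?_
  refine lintegral_congr_ae ?_
  rw [Filter.EventuallyEq, ae_restrict_iff' hK.measurableSet]
  filter_upwards [heq] with x hx hxK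
  rw [← hx (hKW hxK)]

end Claimed.Agent.Gmt
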