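import Claimed.Agent.Lib.Gmt.BvGlueL

/-!
# Lib/Gmt [BvGlue part B] G1e: gluing two sets along almost every level of a function; cutting by balls.
(architect: helper75; PROVED from BvGlueL: helper6)

No traces, no spheres, no Hausdorff measure: the interface cost at the level `t` is the DERIVATIVE at `t` of the monotone function
`gmtIface f D a s = ∫_{D ∩ {a < f < s}} |∇f|` (`D = (S₁ △ S₂) ∩ U`); for balls it is the derivative of `r ↦ |D ∩ B_r|`.
Its integral over `(a,b)` is `≤ ∫_{D ∩ {a<f<b}} |∇f|` by `MonotoneOn.intervalIntegral_deriv_mem_uIcc`.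

PLAN OF PROOF of `gmtPer_glue_level`.  Fix `t ∈ (a,b)` such that (i) `s ↦ gmtIface .. s` is differentiable at `t`
(a.e. `t`: `Monotone.ae_differentiableAt`), (ii) the monotone function `s ↦ gmtPer A S₂ (U ∩ {s < f})` is continuous at `t`
(all but countably many `t`: `Monotone.countable_not_continuousAt`).  For small `ε` let `h_ε : ℝ → [0,1]` be `C¹`, `= 1` on `(-∞, t-ε]`,
`= 0` on `[t-ε², ∞)`, `|h_ε'| ≤ (1+ε)/(ε-ε²)`; `φ = h_ε ∘ f` is `C¹` on `U` (locally constant off `{a<f<b}`).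
`w_ε = φ χ₁ + (1-φ) χ₂ → χ_G` in `L¹_loc(U)` (dominated convergence).  For `T` admissible in `U`:
`∫ w_ε div T = ∫ χ₁ div(φT) + ∫ χ₂ div((1-φ)T) - ∫ (χ₁-χ₂) ∇φ·T`, `φT` is admissible in `U ∩ {f<t}`, `(1-φ)T` is admissible in
`U ∩ {t-2ε<f}`, `|T| ≤ c`, and `∫_D |∇φ| ≤ (1+ε)/(ε-ε²) (I(t-ε²) - I(t-ε)) → I'(t)`.  Conclude by `gmtVarA_lsc`.
-/

set_option autoImplicit false
open scoped ContDiff ENNReal RealInnerProductSpace Topology
open MeasureTheory Metric Set Filter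

namespace Claimed.Agent.Gmt

variable {m : ℕ}

/-! ### balls -/

/-- `|D ∩ B_r(x)|` as a real number. -/
noncomputable def gmtVolB (D : Set (E m)) (x : E m) (r : ℝ) : ℝ := (volume (D ∩ ball x r)).toReal

theorem gmtVolB_ne_top (D : Set (E m)) (x : E m) (r : ℝ) : volume (D ∩ ball x r) ≠ ⊤ :=
  ne_top_of_le_ne_top measure_ball_lt_top.ne (measure_mono inter_subset_right)

theorem gmtVolB_mono (D : Set (E m)) (x : E m) : Monotone (gmtVolB D x) := by
  intro r r' h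
  unfold gmtVolB
  apply ENNReal.toReal_mono (gmtVolB_ne_top D x r')
  exact measure_mono (inter_subset_inter_right _ (ball_subset_ball h))

theorem deriv_gmtVolB_nonneg (D : Set (E m)) (x : E m) (r : ℝ) : 0 ≤ deriv (gmtVolB D x) r :=
  (gmtVolB_mono D x).deriv_nonneg

theorem gmtOm_nonneg (k : ℕ) : 0 ≤ gmtOm k := ENNReal.toReal_nonneg

theorem gmtVolB_univ (x : E m) {r : ℝ} (hr : 0 < r) : gmtVolB univ x r = gmtOm m * r ^ m := by
  unfold gmtVolB gmtOm
  rw [univ_inter, Measure.addHaar_ball_of_pos volume x hr, finrank_euclideanSpace_fin,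
    ENNReal.toReal_mul, ENNReal.toReal_ofReal (by positivity), mul_comm]

theorem gmtVolB_univ_hasDerivAt (x : E m) {r : ℝ} (hr : 0 < r) :
    HasDerivAt (gmtVolB univ x) (m * gmtOm m * r ^ (m - 1)) r := by
  have h1 : HasDerivAt (fun s : ℝ => gmtOm m * s ^ m) (gmtOm m * (m * r ^ (m - 1))) r :=
    (hasDerivAt_pow m r).const_mul (gmtOm m)
  have h2 : gmtVolB univ x =ᶠ[𝓝 r] fun s : ℝ => gmtOm m * s ^ m := by
    filter_upwards [lt_mem_nhds hr] with s hs
    exact gmtVolB_univ x hs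
  have h3 := h1.congr_of_eventuallyEq h2
  have e : (m : ℝ) * gmtOm m * r ^ (m - 1) = gmtOm m * (m * r ^ (m - 1)) := by ring
  rw [e]
  exact h3

theorem gmtVolB_compl {D : Set (E m)} (hD : MeasurableSet D) (x : E m) (r : ℝ) :
    gmtVolB Dᶜ x r = gmtVolB univ x r - gmtVolB D x r := by
  unfold gmtVolB
  have h := measure_inter_add_sdiff (μ := volume) (ball x r) hD
  have e1 : ball x r ∩ D = D ∩ ball x r := inter_comm _ _
  have e2 : ball x r \ D = Dᶜ ∩ ball x r := by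
    rw [sdiff_eq, inter_comm]
  rw [e1, e2] at h
  rw [univ_inter, ← h, ENNReal.toReal_add (gmtVolB_ne_top D x r) (gmtVolB_ne_top Dᶜ x r)]
  ring

/-- `d/dr |D ∩ B_r| ≤ d/dr |B_r| = m ω_m r^{m-1}`. -/
theorem deriv_gmtVolB_le {D : Set (E m)} (hD : MeasurableSet D) (x : E m) :
    ∀ᵐ r : ℝ, 0 < r → deriv (gmtVolB D x) r ≤ m * gmtOm m * r ^ (m - 1) := by
  refine Eventually.of_forall fun r hr => ?_
  by_cases hd : DifferentiableAt ℝ (gmtVolB D x) r
  · have h1 : gmtVolB Dᶜ x = fun s => gmtVolB univ x s - gmtVolB D x s :=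
      funext fun s => gmtVolB_compl hD x s
    have h2 : HasDerivAt (gmtVolB Dᶜ x) (m * gmtOm m * r ^ (m - 1) - deriv (gmtVolB D x) r) r := by
      rw [h1]
      exact (gmtVolB_univ_hasDerivAt x hr).sub hd.hasDerivAt
    have h3 := deriv_gmtVolB_nonneg Dᶜ x r
    rw [h2.deriv] at h3
    linarith
  · rw [deriv_zero_of_not_differentiableAt hd]
    have := gmtOm_nonneg m
    positivity

theorem integral_deriv_gmtVolB_le (D : Set (E m)) (x : E m) {a b : ℝ} (hab : a ≤ b) :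
    ∫ r in a..b, deriv (gmtVolB D x) r ≤ gmtVolB D x b - gmtVolB D x a := by
  have hm : MonotoneOn (gmtVolB D x) (uIcc a b) := (gmtVolB_mono D x).monotoneOn _
  have h := hm.intervalIntegral_deriv_mem_uIcc
  rw [uIcc_of_le (sub_nonneg.2 (gmtVolB_mono D x hab))] at h
  exact h.2

/-! ### the distance function -/

theorem gmt_dist_contDiffAt (x₀ : E m) {x : E m} (hx : x ≠ x₀) :
    ContDiffAt ℝ 1 (fun y : E m => ‖y - x₀‖) x :=
  (contDiffAt_id.sub contDiffAt_const).norm ℝ (sub_ne_zero.2 hx)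

theorem gmt_dist_norm_fderiv (x₀ : E m) {x : E m} (hx : x ≠ x₀) :
    ‖fderiv ℝ (fun y : E m => ‖y - x₀‖) x‖ = 1 := by
  have : Nontrivial (E m) := ⟨x, x₀, hx⟩
  rw [fderiv_comp_sub (f := fun y : E m => ‖y‖) x₀]
  have hd : DifferentiableAt ℝ (fun y : E m => ‖y‖) (x - x₀) :=
    (contDiffAt_norm (n := 1) ℝ (sub_ne_zero.2 hx)).differentiableAt (by norm_num)
  exact norm_fderiv_norm hd

theorem gmt_dist_contDiffOn (x₀ : E m) (U : Set (E m)) {a : ℝ} (ha : 0 ≤ a) (b : ℝ) :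
    ContDiffOn ℝ 1 (fun y : E m => ‖y - x₀‖) (U ∩ (fun y : E m => ‖y - x₀‖) ⁻¹' Ioo a b) := by
  rintro x ⟨_, hx⟩
  apply ContDiffAt.contDiffWithinAt
  apply gmt_dist_contDiffAt
  rintro rfl
  have : a < ‖x - x‖ := hx.1
  simp at this
  linarith

theorem gmtIfaceW_one (f : E m → ℝ) (D : Set (E m)) (a s : ℝ) :
    gmtIfaceW (fun _ => 1) f D a s = (volume (D ∩ f ⁻¹' Ioo a s)).toReal := by
  simp [gmtIfaceW]

theorem gmtIface_dist {D : Set (E m)} (hD : MeasurableSet D) (x₀ : E m) (s : ℝ) :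
    gmtIface (fun y : E m => ‖y - x₀‖) D 0 s =
      gmtIfaceW (fun _ => 1) (fun y : E m => ‖y - x₀‖) D 0 s := by
  unfold gmtIface gmtIfaceW
  congr 1
  have hc : Continuous (fun y : E m => ‖y - x₀‖) := by fun_prop
  refine setLIntegral_congr_fun (hD.inter (hc.measurable measurableSet_Ioo)) ?_
  rintro x ⟨_, hx⟩
  have hne : x ≠ x₀ := by
    rintro rfl
    have : 0 < ‖x - x‖ := hx.1
    simp at this
  simp only
  rw [← ofReal_norm, gmt_dist_norm_fderiv x₀ hne]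

theorem gmtVolB_eq_add (D : Set (E m)) (x₀ : E m) {s : ℝ} (hs : 0 < s) :
    gmtVolB D x₀ s = gmtIfaceW (fun _ => 1) (fun y : E m => ‖y - x₀‖) D 0 s +
      (volume (D ∩ {x₀})).toReal := by
  rw [gmtIfaceW_one]
  unfold gmtVolB
  have hu : D ∩ ball x₀ s = (D ∩ (fun y : E m => ‖y - x₀‖) ⁻¹' Ioo 0 s) ∪ (D ∩ {x₀}) := by
    ext x
    simp only [mem_inter_iff, mem_ball, mem_union, mem_preimage, mem_Ioo, mem_singleton_iff,
      dist_eq_norm]
    constructor
    · rintro ⟨h1, h2⟩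
      by_cases hx : x = x₀
      · exact Or.inr ⟨h1, hx⟩
      · exact Or.inl ⟨h1, norm_pos_iff.2 (sub_ne_zero.2 hx), h2⟩
    · rintro (⟨h1, _, h2⟩ | ⟨h1, rfl⟩)
      · exact ⟨h1, h2⟩
      · exact ⟨h1, by simpa using hs⟩
  have hd : Disjoint (D ∩ (fun y : E m => ‖y - x₀‖) ⁻¹' Ioo 0 s) (D ∩ {x₀}) := by
    rw [disjoint_left]
    rintro x ⟨_, hx⟩ ⟨_, hx'⟩
    rw [mem_singleton_iff] at hx'
    subst hx'
    have : 0 < ‖x - x‖ := hx.1
    simp at this
  have hm : MeasurableSet (D ∩ {x₀}) :=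
    (subsingleton_singleton.anti inter_subset_right).measurableSet
  have h := gmtVolB_ne_top D x₀ s
  rw [hu, measure_union hd hm] at h
  rw [hu, measure_union hd hm, ENNReal.toReal_add (ENNReal.add_ne_top.1 h).1
    (ENNReal.add_ne_top.1 h).2]

theorem gmtVolB_deriv_eq (D : Set (E m)) (x₀ : E m) {r : ℝ} (hr : 0 < r) :
    deriv (gmtIfaceW (fun _ => 1) (fun y : E m => ‖y - x₀‖) D 0) r = deriv (gmtVolB D x₀) r := by
  have h : gmtVolB D x₀ =ᶠ[𝓝 r] fun s => gmtIfaceW (fun _ => 1) (fun y : E m => ‖y - x₀‖) D 0 s +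
      (volume (D ∩ {x₀})).toReal := by
    filter_upwards [lt_mem_nhds hr] with s hs
    exact gmtVolB_eq_add D x₀ hs
  rw [h.deriv_eq, deriv_add_const]

theorem gmt_dist_lintegral_ne_top (D : Set (E m)) (x₀ : E m) (a b : ℝ) :
    ∫⁻ x in D ∩ (fun y : E m => ‖y - x₀‖) ⁻¹' Ioo a b,
      ‖fderiv ℝ (fun y : E m => ‖y - x₀‖) x‖ₑ ≠ ⊤ := by
  have hl : LipschitzWith 1 (fun y : E m => ‖y - x₀‖) :=
    lipschitzWith_one_norm.comp (LipschitzWith.id.sub (LipschitzWith.const x₀)) |>.weaken (by simp)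
  have h1 : ∀ x, ‖fderiv ℝ (fun y : E m => ‖y - x₀‖) x‖ₑ ≤ 1 := by
    intro x
    rw [← ofReal_norm, ← ENNReal.ofReal_one]
    exact ENNReal.ofReal_le_ofReal (by simpa using norm_fderiv_le_of_lipschitz ℝ hl)
  refine ne_top_of_le_ne_top ?_ (lintegral_mono fun x => h1 x)
  rw [setLIntegral_one]
  refine ne_top_of_le_ne_top (measure_ball_lt_top (x := x₀) (r := b)).ne (measure_mono ?_)
  rintro x ⟨_, hx⟩
  rw [mem_ball, dist_eq_norm]
  exact hx.2


theorem gmtPer_set_empty (A : E m → Bil m) (U : Set (E m)) : gmtPer A ∅ U = 0 := by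
  unfold gmtPer
  simp

theorem gmtPer_set_univ (A : E m → Bil m) (U : Set (E m)) : gmtPer A univ U = 0 := by
  unfold gmtPer
  simp only [ENNReal.iSup_eq_zero]
  intro T hT _
  rw [setIntegral_univ, integral_gmtDiv_eq_zero hT]
  simp

theorem gmtEu_le_one (U : Set (E m)) :
    ∀ x ∈ U, ∀ ξ : E m, (fun _ : E m => gmtEu m) x ξ ξ ≤ (1 : ℝ) ^ 2 * ‖ξ‖ ^ 2 := by
  intro x _ ξ
  simp only [gmtEu_apply]
  rw [real_inner_self_eq_norm_sq]
  simp

/-- gluing along almost every sphere. -/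
theorem gmtPer_glue_ball {U : Set (E m)} (hU : IsOpen U) {A : E m → Bil m} {c : ℝ} (hc : 0 ≤ c)
    (hA : ∀ x ∈ U, ∀ ξ : E m, A x ξ ξ ≤ c ^ 2 * ‖ξ‖ ^ 2) (x₀ : E m) {S₁ S₂ : Set (E m)}
    (h₁ : MeasurableSet S₁) (h₂ : MeasurableSet S₂) (hp₂ : gmtPer A S₂ U ≠ ⊤) :
    ∀ᵐ r : ℝ, 0 < r →
      gmtPer A ((S₁ ∩ ball x₀ r) ∪ (S₂ \ ball x₀ r)) U ≤ gmtPer A S₁ (U ∩ ball x₀ r) +
        gmtPer A S₂ (U \ closedBall x₀ r) +
        ENNReal.ofReal (c * deriv (gmtVolB (symmDiff S₁ S₂ ∩ U) x₀) r) := by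
  set f : E m → ℝ := fun y => ‖y - x₀‖ with hf
  have hfc : Continuous f := by fun_prop
  have hD : MeasurableSet (symmDiff S₁ S₂ ∩ U) := (h₁.symmDiff h₂).inter hU.measurableSet
  have key := fun n : ℕ =>
    gmtPer_glue_level hU hc hA hfc (gmt_dist_contDiffOn x₀ U le_rfl n) h₁ h₂
      (gmt_dist_lintegral_ne_top _ x₀ 0 n)
  rw [← ae_all_iff] at key
  filter_upwards [key] with r hr hr0
  obtain ⟨n, hn⟩ := exists_nat_gt r
  have h := hr n ⟨hr0, hn⟩
  have e1 : {x | f x < r} = ball x₀ r := by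
    ext x
    simp [hf, dist_eq_norm]
  have e2 : U ∩ {x | r < f x} = U \ closedBall x₀ r := by
    ext x
    simp [hf, dist_eq_norm]
  have e3 : gmtIface f (symmDiff S₁ S₂ ∩ U) 0 = gmtIfaceW (fun _ => 1) f (symmDiff S₁ S₂ ∩ U) 0 :=
    funext fun s => gmtIface_dist hD x₀ s
  unfold gmtGlue at h
  rw [e1, e2, e3, gmtVolB_deriv_eq _ x₀ hr0] at h
  exact h

/-- `P(S ∩ B_r) ≤ P(S; B_r) + d/dr |S ∩ B_r|` for a.e. `r`. -/
theorem gmtP_inter_ball_le {S : Set (E m)} (hS : MeasurableSet S) (x₀ : E m) :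
    ∀ᵐ r : ℝ, 0 < r →
      gmtP (S ∩ ball x₀ r) univ ≤ gmtP S (ball x₀ r) +
        ENNReal.ofReal (deriv (gmtVolB S x₀) r) := by
  have h := gmtPer_glue_ball isOpen_univ zero_le_one (gmtEu_le_one univ) x₀ hS
    MeasurableSet.empty (by rw [gmtPer_set_empty]; exact ENNReal.zero_ne_top)
  filter_upwards [h] with r hr hr0
  have h' := hr hr0
  rw [gmtPer_set_empty, add_zero, empty_sdiff, union_empty, univ_inter, one_mul] at h'
  have e : symmDiff S ∅ ∩ univ = S := by simp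
  rw [e] at h'
  exact h'

/-- `P(S \ B_r; U) ≤ P(S; U \ closedBall) + d/dr |S ∩ U ∩ B_r|` for a.e. `r`. -/
theorem gmtP_diff_ball_le {U : Set (E m)} (hU : IsOpen U) {S : Set (E m)} (hS : MeasurableSet S)
    (hp : gmtP S U ≠ ⊤) (x₀ : E m) :
    ∀ᵐ r : ℝ, 0 < r →
      gmtP (S \ ball x₀ r) U ≤ gmtP S (U \ closedBall x₀ r) +
        ENNReal.ofReal (deriv (gmtVolB (S ∩ U) x₀) r) := by
  have h := gmtPer_glue_ball hU zero_le_one (gmtEu_le_one U) x₀ MeasurableSet.empty hS hp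
  filter_upwards [h] with r hr hr0
  have h' := hr hr0
  rw [gmtPer_set_empty, zero_add, empty_inter, empty_union, one_mul] at h'
  have e : symmDiff ∅ S ∩ U = S ∩ U := by rw [← bot_eq_empty, bot_symmDiff]
  rw [e] at h'
  exact h'

/-- `P(S ∪ B_r; U) ≤ P(S; U \ closedBall) + d/dr |(U ∩ B_r) \ S|` for a.e. `r`. -/
theorem gmtP_union_ball_le {U : Set (E m)} (hU : IsOpen U) {S : Set (E m)} (hS : MeasurableSet S)
    (hp : gmtP S U ≠ ⊤) (x₀ : E m) :
    ∀ᵐ r : ℝ, 0 < r →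
      gmtP (S ∪ ball x₀ r) U ≤ gmtP S (U \ closedBall x₀ r) +
        ENNReal.ofReal (deriv (gmtVolB (U \ S) x₀) r) := by
  have h := gmtPer_glue_ball hU zero_le_one (gmtEu_le_one U) x₀ MeasurableSet.univ hS hp
  filter_upwards [h] with r hr hr0
  have h' := hr hr0
  rw [gmtPer_set_univ, zero_add, univ_inter, one_mul] at h'
  have e : symmDiff univ S ∩ U = U \ S := by
    ext x
    simp [mem_symmDiff, and_comm]
  have e' : ball x₀ r ∪ S \ ball x₀ r = S ∪ ball x₀ r := by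
    rw [union_sdiff_self, union_comm]
  rw [e, e'] at h'
  exact h'

/-- localisation: a set of locally finite perimeter in `U` agrees in a small ball with a set of
finite perimeter in `E m`. -/
theorem GmtLF.exists_inter_ball {U S : Set (E m)} (hU : IsOpen U) (hS : GmtLF S U) {x₀ : E m}
    {R : ℝ} (hR : closedBall x₀ R ⊆ U) :
    ∀ᵐ r : ℝ, r ∈ Ioo 0 R → gmtP (S ∩ ball x₀ r) univ ≠ ⊤ := by
  filter_upwards [gmtP_inter_ball_le hS.1 x₀] with r hr hrR
  refine ne_top_of_le_ne_top ?_ (hr hrR.1)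
  have hsub : closure (ball x₀ r) ⊆ closedBall x₀ r := closure_ball_subset_closedBall
  refine ENNReal.add_ne_top.2 ⟨hS.2 _ ⟨isOpen_ball, ?_, ?_⟩, ENNReal.ofReal_ne_top⟩
  · exact (isCompact_closedBall x₀ r).of_isClosed_subset isClosed_closure hsub
  · exact hsub.trans ((closedBall_subset_closedBall hrR.2.le).trans hR)


theorem gmtDiv_smul_sub (c : ℝ) (x₀ x : E m) : gmtDiv (fun y => c • (y - x₀)) x = c * m := by
  unfold gmtDiv
  have h : HasFDerivAt (fun y : E m => c • (y - x₀)) (c • ContinuousLinearMap.id ℝ (E m)) x :=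
    ((hasFDerivAt_id x).sub_const x₀).const_smul c
  rw [h.fderiv]
  simp [mul_comm]

theorem gmtP_ball_ge_aux (x₀ : E m) {r δ : ℝ} (hr : 0 < r) (hδ : 0 < δ) (hδ1 : δ < 1) :
    ENNReal.ofReal ((1 - δ) * (m * gmtOm m * r ^ (m - 1))) ≤ gmtP (ball x₀ r) univ := by
  have h1δ : 0 < 1 - δ := by linarith
  have hρ : r < r / (1 - δ) := by
    rw [lt_div_iff₀ h1δ]
    nlinarith
  obtain ⟨ψ, hψ, hψc, hψs, hψ01, hψ1⟩ := gmt_exists_cutoff (isCompact_closedBall x₀ r)
    isOpen_ball (closedBall_subset_ball hρ)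
  set T : E m → E m := fun x => ψ x • (((1 - δ) / r) • (x - x₀)) with hT
  have hψ1' : ContDiff ℝ 1 ψ := hψ.of_le (by exact_mod_cast le_top)
  have hTest : GmtTest univ T := by
    refine ⟨?_, ?_, subset_univ _⟩
    · exact hψ1'.smul ((contDiff_id.sub contDiff_const).const_smul _)
    · exact hψc.smul_right
  have hnorm : ∀ x, ‖T x‖ ≤ 1 := by
    intro x
    by_cases hx : x ∈ ball x₀ (r / (1 - δ))
    · rw [mem_ball, dist_eq_norm] at hx
      simp only [hT]
      rw [norm_smul, norm_smul, Real.norm_eq_abs, Real.norm_eq_abs, abs_of_nonneg (hψ01 x).1,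
        abs_of_pos (by positivity)]
      have h2 : (1 - δ) / r * ‖x - x₀‖ ≤ 1 := by
        calc (1 - δ) / r * ‖x - x₀‖ ≤ (1 - δ) / r * (r / (1 - δ)) := by gcongr
          _ = 1 := by field_simp
      calc ψ x * ((1 - δ) / r * ‖x - x₀‖) ≤ 1 * 1 :=
            mul_le_mul (hψ01 x).2 h2 (by positivity) zero_le_one
        _ = 1 := one_mul 1
    · have : ψ x = 0 := image_eq_zero_of_notMem_tsupport fun h => hx (hψs h)
      simp [hT, this]
  have hdiv : ∀ x ∈ ball x₀ r, gmtDiv T x = (1 - δ) / r * m := by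
    intro x hx
    rw [← gmtDiv_smul_sub ((1 - δ) / r) x₀ x]
    have he : T =ᶠ[𝓝 x] fun y => ((1 - δ) / r) • (y - x₀) := by
      have h3 : ∀ᶠ y in 𝓝 x, ψ y = 1 :=
        hψ1.filter_mono (nhds_le_nhdsSet (ball_subset_closedBall hx))
      filter_upwards [h3] with y hy
      simp [hT, hy]
    unfold gmtDiv
    rw [he.fderiv_eq]
  have h4 := integral_le_gmtPer (S := ball x₀ r) hTest ((gmtAdm_eu_iff T).2 hnorm)
  have h5 : ∫ x in ball x₀ r, gmtDiv T x = (1 - δ) * (m * gmtOm m * r ^ (m - 1)) := by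
    rw [setIntegral_congr_fun measurableSet_ball hdiv, setIntegral_const, smul_eq_mul]
    have h6 : volume.real (ball x₀ r) = gmtOm m * r ^ m := by
      rw [← gmtVolB_univ x₀ hr]
      unfold gmtVolB
      rw [univ_inter]
      rfl
    rw [h6]
    rcases m with _ | k
    · simp
    · simp only [Nat.add_sub_cancel]
      field_simp
      ring
  rw [h5] at h4
  exact h4

theorem gmtP_ball_le (x₀ : E m) {r : ℝ} (hr : 0 < r) :
    gmtP (ball x₀ r) univ ≤ ENNReal.ofReal (m * gmtOm m * r ^ (m - 1)) := by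
  set f : E m → ℝ := fun y => ‖y - x₀‖ with hf
  have hfc : Continuous f := by fun_prop
  have eD : symmDiff (univ : Set (E m)) ∅ ∩ univ = univ := by simp
  have hc : ∀ x ∈ univ ∩ f ⁻¹' Ioo 0 (r + 1),
      gmtDens (fun _ => gmtEu m) f x ≤ (fun _ : E m => (1 : ℝ)) x := by
    rintro x ⟨_, hx⟩
    have hne : x ≠ x₀ := by
      rintro rfl
      have : 0 < ‖x - x‖ := hx.1
      simp at this
    unfold gmtDens
    rw [gmtEu_apply, real_inner_self_eq_norm_sq, Real.sqrt_sq (norm_nonneg _), norm_gradient,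
      gmt_dist_norm_fderiv x₀ hne]
  have hfin : ∫⁻ x in (symmDiff (univ : Set (E m)) ∅ ∩ univ) ∩ f ⁻¹' Ioo 0 (r + 1),
      ENNReal.ofReal ((fun _ : E m => (1 : ℝ)) x) ≠ ⊤ := by
    simp only [ENNReal.ofReal_one]
    rw [setLIntegral_one]
    refine ne_top_of_le_ne_top (measure_ball_lt_top (x := x₀) (r := r + 1)).ne (measure_mono ?_)
    rintro x ⟨_, hx⟩
    rw [mem_ball, dist_eq_norm]
    exact hx.2
  have hder : HasDerivAt (gmtIfaceW (fun _ => 1) f (symmDiff (univ : Set (E m)) ∅ ∩ univ) 0)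
      (m * gmtOm m * r ^ (m - 1)) r := by
    rw [eD]
    have h1 : gmtIfaceW (fun _ => 1) f univ 0 =ᶠ[𝓝 r]
        fun s => gmtVolB univ x₀ s - (volume ((univ : Set (E m)) ∩ {x₀})).toReal := by
      filter_upwards [lt_mem_nhds hr] with s hs
      rw [gmtVolB_eq_add univ x₀ hs]
      ring
    exact ((gmtVolB_univ_hasDerivAt x₀ hr).sub_const _).congr_of_eventuallyEq h1
  have h := gmtPer_glue_at (A := fun _ => gmtEu m) isOpen_univ hfc.measurable hfc.continuousOn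
    (gmt_dist_contDiffOn x₀ univ le_rfl (r + 1)) hc MeasurableSet.univ MeasurableSet.empty hfin
    (t := r) ⟨hr, by linarith⟩ hder.differentiableAt (by
      simp only [gmtPer_set_empty]
      exact continuousAt_const)
  rw [gmtPer_set_univ, gmtPer_set_empty, zero_add, zero_add, hder.deriv] at h
  have e1 : gmtGlue f r univ ∅ = ball x₀ r := by
    unfold gmtGlue
    ext x
    simp [hf, dist_eq_norm]
  rw [e1] at h
  exact h

/-- perimeter of a ball. -/
theorem gmtP_ball (x₀ : E m) {r : ℝ} (hr : 0 < r) :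
    gmtP (ball x₀ r) univ = ENNReal.ofReal (m * gmtOm m * r ^ (m - 1)) := by
  refine le_antisymm (gmtP_ball_le x₀ hr) ?_
  set M : ℝ := m * gmtOm m * r ^ (m - 1) with hM
  have ht : Tendsto (fun n : ℕ => ENNReal.ofReal ((1 - 1 / ((n : ℝ) + 2)) * M)) atTop
      (𝓝 (ENNReal.ofReal M)) := by
    have h1 : Tendsto (fun n : ℕ => 1 / ((n : ℝ) + 2)) atTop (𝓝 0) := by
      have := tendsto_one_div_add_atTop_nhds_zero_nat (𝕜 := ℝ)
      have h2 := (tendsto_add_atTop_iff_nat 1).2 this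
      refine h2.congr fun n => ?_
      push_cast
      ring_nf
    have h3 : Tendsto (fun n : ℕ => (1 - 1 / ((n : ℝ) + 2)) * M) atTop (𝓝 ((1 - 0) * M)) :=
      (tendsto_const_nhds.sub h1).mul_const M
    rw [sub_zero, one_mul] at h3
    exact (ENNReal.continuous_ofReal.tendsto _).comp h3
  refine le_of_tendsto' ht fun n => ?_
  have hn : (0 : ℝ) < (n : ℝ) + 2 := by positivity
  apply gmtP_ball_ge_aux x₀ hr (by positivity)
  rw [div_lt_one hn]
  linarith

end Claimed.Agent.Gmt
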