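import Claimed.Agent.Lib.Gmt.BvAniso

/-!
# Lib/Gmt [BvGlueA] G1e: gluing two sets along a level of a function, TOOLS.   (architect: helper75; PROVED: helper6)

No traces, no spheres, no Hausdorff measure: the interface cost at the level `t` is the DERIVATIVE at `t` of the monotone function
`gmtIfaceW c f D a s = ∫_{D ∩ {a < f < s}} c`, where `c ≥ √(A ∇f ∇f)` is a cost density and `D = (S₁ △ S₂) ∩ U`.
(`c = √(A ∇f ∇f)`: sharp anisotropic cost; `c = c₀ |∇f|`: `gmtIface`.)  NO positivity / regularity of the integrand `A` is used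
anywhere in `BvGlueA`, `BvGlueL` (degenerate integrands `w² • A` are needed by `GgWeight`).

PLAN (each item = one lemma below)
* `gmtIfaceW_mono`: `lintegral_mono_set` + `ENNReal.toReal_mono` (finiteness by `hfin` and monotonicity in the set).
* `gmtIfaceW_sub`: `D ∩ f⁻¹(a,s') = D ∩ f⁻¹(a,s) ⊔ D ∩ f⁻¹[s,s')` (measurable, disjoint): `lintegral_union`, then `ENNReal.ofReal_sub`/`toReal_add`.
* `integral_deriv_gmtIfaceW_le`: `MonotoneOn.intervalIntegral_deriv_mem_uIcc` (Mathlib) on `[a,b]`, `gmtIfaceW .. a = 0` (`Ioo a a = ∅`).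
* `gmt_exists_ramp`: `k₀ s = max 0 (min 1 (min (s-α) (β-s) / θ))` (continuous, `0 ≤ k₀ ≤ 1`, `= 0` off `[α,β]`, `= 1` on `[α+θ, β-θ]`), `J = ∫_α^β k₀ ≥ β-α-2θ`;
  `h s = 1 - J⁻¹ ∫_α^s k₀`; `deriv h = -k₀/J` (`intervalIntegral.integral_hasDerivAt_right` / `Continuous.deriv_integral`), `contDiff_one_iff_deriv`; choose `θ` with `(β-α)/(β-α-2θ) ≤ 1+η`.
* `gmt_ramp_comp`: near `x ∈ U` with `f x ∈ (a,b)`: chain rule; if `f x ≤ a` (`≥ b`): `f < α` (`> β`) near `x` by continuity on the open set `U`, `h ∘ f` is locally constant.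
* `gmt_quot_tendsto`: `(I(t-ε²)-I(t-ε))/ε = ε (I(t-ε²)-I t)/ε² - (I(t-ε)-I t)/ε → 0·(-I') + I'` (`hasDerivAt_iff_tendsto_slope`), `(1+ε) ε/(ε-2ε²) → 1`.
* `GmtTest.smul_on`: `φ • T` is `C¹`: at `x ∈ U` product of `C¹` germs (`ContDiffOn.contDiffAt`), at `x ∉ tsupport T` it vanishes near `x`.  Support as in `GmtTest.smul`.
* `gmtDiv_smul_on`: product rule `div (φ T) = φ div T + ∇φ·T` on `U` (both sides vanish off `tsupport T`).
* `GmtTest.smul_on_of_eventually`: if moreover `φ = 0` near every point of `U \ V` then `tsupport (φ • T) ⊆ U ∩ V`.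
* `gmtVarA_mix_le`: for `T` admissible in `U`:
  `∫ w div T = ∫_{S₁} div(φT) + ∫_{S₂} div((1-φ)T) - ∫ (χ₁-χ₂) ∇φ·T`  (`w = φ χ₁ + (1-φ) χ₂`, `gmtDiv_smul_on` twice), `φT`, `(1-φ)T` are admissible (`gmtAdm_smul`-argument: only values on `tsupport T ⊆ U` matter),
  `-(χ₁-χ₂) ∇φ·T ≤ 1_D √(A ∇φ ∇φ)` (admissibility with `ξ = ±∇φ`; `A x (-ξ) (-ξ) = A x ξ ξ`); `gmt_ofReal_integral_le`, `ENNReal.ofReal_add_le`.
-/

set_option autoImplicit false
open scoped ContDiff ENNReal RealInnerProductSpace Topology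
open MeasureTheory Metric Set Filter

namespace Claimed.Agent.Gmt

variable {m : ℕ}

/-- `S₁` inside `{f < t}`, `S₂` outside. -/
def gmtGlue (f : E m → ℝ) (t : ℝ) (S₁ S₂ : Set (E m)) : Set (E m) :=
  (S₁ ∩ {x | f x < t}) ∪ (S₂ \ {x | f x < t})

/-- `∫_{D ∩ {a < f < s}} c` as a real number. -/
noncomputable def gmtIfaceW (c : E m → ℝ) (f : E m → ℝ) (D : Set (E m)) (a s : ℝ) : ℝ :=
  (∫⁻ x in D ∩ f ⁻¹' Ioo a s, ENNReal.ofReal (c x)).toReal

/-- `∫_{D ∩ {a < f < s}} |∇f|` as a real number. -/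
noncomputable def gmtIface (f : E m → ℝ) (D : Set (E m)) (a s : ℝ) : ℝ :=
  (∫⁻ x in D ∩ f ⁻¹' Ioo a s, ‖fderiv ℝ f x‖ₑ).toReal

/-- the interpolation `φ χ₁ + (1 - φ) χ₂`. -/
noncomputable def gmtMix (φ : E m → ℝ) (S₁ S₂ : Set (E m)) (x : E m) : ℝ :=
  φ x * gmtChi S₁ x + (1 - φ x) * gmtChi S₂ x

theorem measurableSet_gmtGlue {f : E m → ℝ} (hf : Measurable f) (t : ℝ) {S₁ S₂ : Set (E m)}
    (h₁ : MeasurableSet S₁) (h₂ : MeasurableSet S₂) : MeasurableSet (gmtGlue f t S₁ S₂) := by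
  have h : MeasurableSet {x | f x < t} := measurableSet_lt hf measurable_const
  exact (h₁.inter h).union (h₂.diff h)

theorem gmtIface_eq (f : E m → ℝ) (D : Set (E m)) (a s : ℝ) :
    gmtIface f D a s = gmtIfaceW (fun x => ‖fderiv ℝ f x‖) f D a s := by
  unfold gmtIface gmtIfaceW
  simp_rw [ofReal_norm]

theorem gmtIfaceW_const_mul {c₀ : ℝ} (hc₀ : 0 ≤ c₀) (c : E m → ℝ) (f : E m → ℝ) (D : Set (E m))
    (a s : ℝ) : gmtIfaceW (fun x => c₀ * c x) f D a s = c₀ * gmtIfaceW c f D a s := by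
  unfold gmtIfaceW
  simp_rw [ENNReal.ofReal_mul hc₀]
  rw [lintegral_const_mul' _ _ ENNReal.ofReal_ne_top, ENNReal.toReal_mul,
    ENNReal.toReal_ofReal hc₀]

theorem gmtIfaceW_mono {c f : E m → ℝ} {D : Set (E m)} {a b : ℝ}
    (hfin : ∫⁻ x in D ∩ f ⁻¹' Ioo a b, ENNReal.ofReal (c x) ≠ ⊤) :
    MonotoneOn (gmtIfaceW c f D a) (Iic b) := by
  intro s _ s' hs' hss'
  have hsub : ∀ {s s' : ℝ}, s ≤ s' → D ∩ f ⁻¹' Ioo a s ⊆ D ∩ f ⁻¹' Ioo a s' := fun h =>
    inter_subset_inter_right _ (preimage_mono (Ioo_subset_Ioo_right h))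
  unfold gmtIfaceW
  apply ENNReal.toReal_mono
  · exact ne_top_of_le_ne_top hfin (lintegral_mono_set (hsub hs'))
  · exact lintegral_mono_set (hsub hss')

theorem gmtIfaceW_sub {c f : E m → ℝ} {D : Set (E m)} {a b : ℝ} (hf : Measurable f)
    (hD : MeasurableSet D) (hfin : ∫⁻ x in D ∩ f ⁻¹' Ioo a b, ENNReal.ofReal (c x) ≠ ⊤)
    {s s' : ℝ} (has : a < s) (hss' : s ≤ s') (hs'b : s' ≤ b) :
    ∫⁻ x in D ∩ f ⁻¹' Ico s s', ENNReal.ofReal (c x) =
      ENNReal.ofReal (gmtIfaceW c f D a s' - gmtIfaceW c f D a s) := by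
  have hu : D ∩ f ⁻¹' Ioo a s' = (D ∩ f ⁻¹' Ioo a s) ∪ (D ∩ f ⁻¹' Ico s s') := by
    rw [← inter_union_distrib_left, ← preimage_union, Ioo_union_Ico_eq_Ioo has hss']
  have hd : Disjoint (D ∩ f ⁻¹' Ioo a s) (D ∩ f ⁻¹' Ico s s') := by
    rw [disjoint_left]
    rintro x ⟨_, hx⟩ ⟨_, hx'⟩
    exact absurd hx.2 (not_lt.2 hx'.1)
  have hm : MeasurableSet (D ∩ f ⁻¹' Ico s s') := hD.inter (hf measurableSet_Ico)
  have e := lintegral_union (μ := volume) (f := fun x => ENNReal.ofReal (c x)) hm hd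
  have hfin' : ∫⁻ x in D ∩ f ⁻¹' Ioo a s', ENNReal.ofReal (c x) ≠ ⊤ :=
    ne_top_of_le_ne_top hfin (lintegral_mono_set
      (inter_subset_inter_right _ (preimage_mono (Ioo_subset_Ioo_right hs'b))))
  rw [hu, e] at hfin'
  have h1 := (ENNReal.add_ne_top.1 hfin').1
  have h2 := (ENNReal.add_ne_top.1 hfin').2
  unfold gmtIfaceW
  rw [hu, e, ENNReal.toReal_add h1 h2, add_sub_cancel_left, ENNReal.ofReal_toReal h2]

theorem integral_deriv_gmtIfaceW_le {c f : E m → ℝ} {D : Set (E m)} {a b : ℝ} (hab : a ≤ b)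
    (hfin : ∫⁻ x in D ∩ f ⁻¹' Ioo a b, ENNReal.ofReal (c x) ≠ ⊤) :
    ∫ s in a..b, deriv (gmtIfaceW c f D a) s ≤ gmtIfaceW c f D a b := by
  have hm : MonotoneOn (gmtIfaceW c f D a) (uIcc a b) := by
    rw [uIcc_of_le hab]
    exact (gmtIfaceW_mono hfin).mono Icc_subset_Iic_self
  have h := hm.intervalIntegral_deriv_mem_uIcc
  have h0 : gmtIfaceW c f D a a = 0 := by
    unfold gmtIfaceW
    simp
  have h1 : 0 ≤ gmtIfaceW c f D a b := ENNReal.toReal_nonneg
  rw [h0, sub_zero, uIcc_of_le h1] at h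
  exact h.2

theorem gmtIface_mono {f : E m → ℝ} {D : Set (E m)} {a b : ℝ}
    (hfin : ∫⁻ x in D ∩ f ⁻¹' Ioo a b, ‖fderiv ℝ f x‖ₑ ≠ ⊤) :
    MonotoneOn (gmtIface f D a) (Iic b) := by
  have e : gmtIface f D a = gmtIfaceW (fun x => ‖fderiv ℝ f x‖) f D a :=
    funext fun s => gmtIface_eq f D a s
  rw [e]
  apply gmtIfaceW_mono
  simpa only [ofReal_norm] using hfin

theorem integral_deriv_gmtIface_le {f : E m → ℝ} {D : Set (E m)} {a b : ℝ} (hab : a ≤ b)
    (hfin : ∫⁻ x in D ∩ f ⁻¹' Ioo a b, ‖fderiv ℝ f x‖ₑ ≠ ⊤) :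
    ∫ s in a..b, deriv (gmtIface f D a) s ≤ gmtIface f D a b := by
  have e : gmtIface f D a = gmtIfaceW (fun x => ‖fderiv ℝ f x‖) f D a :=
    funext fun s => gmtIface_eq f D a s
  rw [e]
  apply integral_deriv_gmtIfaceW_le hab
  simpa only [ofReal_norm] using hfin

/-- a `C¹` ramp with almost optimal slope. -/
theorem gmt_exists_ramp {α β η : ℝ} (hαβ : α < β) (hη : 0 < η) :
    ∃ h : ℝ → ℝ, ContDiff ℝ 1 h ∧ (∀ s, h s ∈ Icc (0 : ℝ) 1) ∧ (∀ s, s ≤ α → h s = 1) ∧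
      (∀ s, β ≤ s → h s = 0) ∧ ∀ s, |deriv h s| ≤ (1 + η) / (β - α) := by
  set L := β - α with hL
  have hL0 : 0 < L := sub_pos.2 hαβ
  set θ := η * L / (2 * (1 + η)) with hθ
  have hθ0 : 0 < θ := by positivity
  have hLθ : L - 2 * θ = L / (1 + η) := by
    rw [hθ]
    field_simp
    ring
  have hLθ0 : 0 < L - 2 * θ := by
    rw [hLθ]
    positivity
  set k : ℝ → ℝ := fun s => max 0 (min 1 (min (s - α) (β - s) / θ)) with hk
  have hkc : Continuous k := by
    rw [hk]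
    fun_prop
  have hk0 : ∀ s, 0 ≤ k s := fun s => le_max_left _ _
  have hk1 : ∀ s, k s ≤ 1 := fun s => max_le zero_le_one (min_le_left _ _)
  have hkl : ∀ s, s ≤ α → k s = 0 := by
    intro s hs
    apply max_eq_left
    apply (min_le_right _ _).trans
    apply div_nonpos_of_nonpos_of_nonneg _ hθ0.le
    exact (min_le_left _ _).trans (by linarith)
  have hkr : ∀ s, β ≤ s → k s = 0 := by
    intro s hs
    apply max_eq_left
    apply (min_le_right _ _).trans
    apply div_nonpos_of_nonpos_of_nonneg _ hθ0.le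
    exact (min_le_right _ _).trans (by linarith)
  have hkm : ∀ s, α + θ ≤ s → s ≤ β - θ → k s = 1 := by
    intro s h1 h2
    have : 1 ≤ min (s - α) (β - s) / θ := by
      rw [le_div_iff₀ hθ0, one_mul]
      exact le_min (by linarith) (by linarith)
    simp only [hk]
    rw [min_eq_left this]
    exact max_eq_right zero_le_one
  set K : ℝ → ℝ := fun s => ∫ u in α..s, k u with hK
  have hKd : ∀ s, HasDerivAt K (k s) s := fun s =>
    intervalIntegral.integral_hasDerivAt_right (hkc.intervalIntegrable _ _)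
      (hkc.stronglyMeasurableAtFilter _ _) hkc.continuousAt
  have hKm : Monotone K := monotone_of_deriv_nonneg (fun s => (hKd s).differentiableAt)
    (fun s => by rw [(hKd s).deriv]; exact hk0 s)
  have hKsub : ∀ s s', K s' - K s = ∫ u in s..s', k u := fun s s' =>
    intervalIntegral.integral_interval_sub_left (hkc.intervalIntegrable _ _)
      (hkc.intervalIntegrable _ _)
  have hKα : K α = 0 := by simp [hK]
  have hKl : ∀ s, s ≤ α → K s = 0 := by
    intro s hs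
    have h1 := hKsub s α
    have h2 : ∫ u in s..α, k u = ∫ u in s..α, (0 : ℝ) := by
      apply intervalIntegral.integral_congr
      intro u hu
      rw [uIcc_of_le hs] at hu
      exact hkl u hu.2
    rw [h2, intervalIntegral.integral_zero, hKα] at h1
    linarith
  have hKr : ∀ s, β ≤ s → K s = K β := by
    intro s hs
    have h1 := hKsub β s
    have h2 : ∫ u in β..s, k u = ∫ u in β..s, (0 : ℝ) := by
      apply intervalIntegral.integral_congr
      intro u hu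
      rw [uIcc_of_le hs] at hu
      exact hkr u hu.1
    rw [h2, intervalIntegral.integral_zero] at h1
    linarith
  have hJ : L - 2 * θ ≤ K β := by
    have h1 := hKsub (α + θ) (β - θ)
    have h2 : ∫ u in (α + θ)..(β - θ), k u = ∫ u in (α + θ)..(β - θ), (1 : ℝ) := by
      apply intervalIntegral.integral_congr
      intro u hu
      rw [uIcc_of_le (by linarith)] at hu
      exact hkm u hu.1 hu.2
    rw [h2, intervalIntegral.integral_const, smul_eq_mul, mul_one] at h1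
    have h3 : K α ≤ K (α + θ) := hKm (by linarith)
    have h4 : K (β - θ) ≤ K β := hKm (by linarith)
    rw [hKα] at h3
    linarith
  have hJ0 : 0 < K β := hLθ0.trans_le hJ
  have hd : ∀ s, HasDerivAt (fun s => 1 - (K β)⁻¹ * K s) (-((K β)⁻¹ * k s)) s := fun s => by
    simpa using ((hKd s).const_mul (K β)⁻¹).const_sub 1
  refine ⟨fun s => 1 - (K β)⁻¹ * K s, ?_, ?_, ?_, ?_, ?_⟩
  · rw [contDiff_one_iff_deriv]
    refine ⟨fun s => (hd s).differentiableAt, ?_⟩
    have : deriv (fun s => 1 - (K β)⁻¹ * K s) = fun s => -((K β)⁻¹ * k s) :=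
      funext fun s => (hd s).deriv
    rw [this]
    fun_prop
  · intro s
    have h1 : 0 ≤ K s := by
      have := hKm (min_le_left s α)
      rwa [hKl _ (min_le_right s α)] at this
    have h2 : K s ≤ K β := by
      have := hKm (le_max_left s β)
      rwa [hKr _ (le_max_right s β)] at this
    have h3 : (K β)⁻¹ * K s ≤ 1 := by
      rw [inv_mul_le_iff₀ hJ0, mul_one]
      exact h2
    have h4 : 0 ≤ (K β)⁻¹ * K s := by positivity
    exact ⟨by linarith, by linarith⟩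
  · intro s hs
    simp [hKl s hs]
  · intro s hs
    simp only [hKr s hs]
    rw [inv_mul_cancel₀ hJ0.ne', sub_self]
  · intro s
    rw [(hd s).deriv, abs_neg, abs_of_nonneg (mul_nonneg (inv_pos.2 hJ0).le (hk0 s))]
    calc (K β)⁻¹ * k s ≤ (K β)⁻¹ * 1 := by
          gcongr
          exact hk1 s
      _ = (K β)⁻¹ := mul_one _
      _ ≤ (L - 2 * θ)⁻¹ := by gcongr
      _ = (1 + η) / L := by
          rw [hLθ, inv_div]

/-- composition of a ramp with `f`. -/
theorem gmt_ramp_comp {U : Set (E m)} (hU : IsOpen U) {f : E m → ℝ} (hf : ContinuousOn f U)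
    {a b α β : ℝ} (haα : a < α) (hαβ : α < β) (hβb : β < b)
    (hf1 : ContDiffOn ℝ 1 f (U ∩ f ⁻¹' Ioo a b)) {h : ℝ → ℝ} (hh : ContDiff ℝ 1 h)
    (h1 : ∀ s, s ≤ α → h s = 1) (h0 : ∀ s, β ≤ s → h s = 0) :
    ContDiffOn ℝ 1 (h ∘ f) U ∧
      (∀ x ∈ U, f x < α → (h ∘ f) =ᶠ[𝓝 x] fun _ => 1) ∧
      (∀ x ∈ U, β < f x → (h ∘ f) =ᶠ[𝓝 x] fun _ => 0) ∧
      ∀ x ∈ U, f x ∈ Ioo a b → gradient (h ∘ f) x = deriv h (f x) • gradient f x := by
  have hc : ∀ x ∈ U, ContinuousAt f x := fun x hx => hf.continuousAt (hU.mem_nhds hx)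
  have hA : ∀ x ∈ U, f x < α → (h ∘ f) =ᶠ[𝓝 x] fun _ => 1 := by
    intro x hx hxα
    filter_upwards [(hc x hx).eventually (gt_mem_nhds hxα)] with y hy
    exact h1 _ hy.le
  have hB : ∀ x ∈ U, β < f x → (h ∘ f) =ᶠ[𝓝 x] fun _ => 0 := by
    intro x hx hxβ
    filter_upwards [(hc x hx).eventually (lt_mem_nhds hxβ)] with y hy
    exact h0 _ hy.le
  have hW : IsOpen (U ∩ f ⁻¹' Ioo a b) := hf.isOpen_inter_preimage hU isOpen_Ioo
  have hfa : ∀ x ∈ U, f x ∈ Ioo a b → ContDiffAt ℝ 1 f x := fun x hx hx' =>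
    hf1.contDiffAt (hW.mem_nhds ⟨hx, hx'⟩)
  refine ⟨?_, hA, hB, ?_⟩
  · intro x hx
    apply ContDiffAt.contDiffWithinAt
    rcases lt_or_ge (f x) α with h2 | h2
    · exact contDiffAt_const.congr_of_eventuallyEq (hA x hx h2)
    rcases lt_or_ge β (f x) with h3 | h3
    · exact contDiffAt_const.congr_of_eventuallyEq (hB x hx h3)
    exact hh.contDiffAt.comp x (hfa x hx ⟨haα.trans_le h2, h3.trans_lt hβb⟩)
  · intro x hx hx'
    have hd : HasFDerivAt f (fderiv ℝ f x) x :=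
      ((hfa x hx hx').differentiableAt (by norm_num)).hasFDerivAt
    have hd' : HasDerivAt h (deriv h (f x)) (f x) :=
      (hh.differentiable (by norm_num) (f x)).hasDerivAt
    have := (hd'.comp_hasFDerivAt x hd).fderiv
    unfold gradient
    rw [this]
    simp

/-- the difference quotients which appear in the gluing lemma. -/
theorem gmt_quot_tendsto {I : ℝ → ℝ} {t : ℝ} (h : DifferentiableAt ℝ I t) :
    Tendsto (fun ε : ℝ => (1 + ε) / (ε - 2 * ε ^ 2) * (I (t - ε ^ 2) - I (t - ε)))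
      (𝓝[>] 0) (𝓝 (deriv I t)) := by
  have hd := h.hasDerivAt.tendsto_slope
  have hid : Tendsto (fun ε : ℝ => ε) (𝓝[>] 0) (𝓝 0) :=
    tendsto_nhdsWithin_of_tendsto_nhds tendsto_id
  have hpos : ∀ᶠ ε : ℝ in 𝓝[>] 0, 0 < ε := self_mem_nhdsWithin
  have hsm : ∀ᶠ ε : ℝ in 𝓝[>] 0, ε < 1 / 2 :=
    hid.eventually (gt_mem_nhds (by norm_num))
  have t1 : Tendsto (fun ε : ℝ => t - ε) (𝓝[>] 0) (𝓝[≠] t) := by
    rw [tendsto_nhdsWithin_iff]
    refine ⟨by simpa using (tendsto_const_nhds (x := t)).sub hid, ?_⟩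
    filter_upwards [hpos] with ε hε
    have : t - ε ≠ t := by
      intro h'
      linarith
    exact this
  have t2 : Tendsto (fun ε : ℝ => t - ε ^ 2) (𝓝[>] 0) (𝓝[≠] t) := by
    rw [tendsto_nhdsWithin_iff]
    refine ⟨by simpa using (tendsto_const_nhds (x := t)).sub (hid.pow 2), ?_⟩
    filter_upwards [hpos] with ε hε
    have : t - ε ^ 2 ≠ t := by
      intro h'
      have : 0 < ε ^ 2 := by positivity
      linarith
    exact this
  have s1 := hd.comp t1
  have s2 := hd.comp t2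
  have c1 : Tendsto (fun ε : ℝ => (1 + ε) / (1 - 2 * ε)) (𝓝[>] 0) (𝓝 1) := by
    have : Tendsto (fun ε : ℝ => (1 + ε) / (1 - 2 * ε)) (𝓝[>] 0)
        (𝓝 ((1 + 0) / (1 - 2 * 0))) :=
      (tendsto_const_nhds.add hid).div (tendsto_const_nhds.sub (tendsto_const_nhds.mul hid))
        (by norm_num)
    simpa using this
  have main : Tendsto (fun ε : ℝ => (1 + ε) / (1 - 2 * ε) *
      (-ε * slope I t (t - ε ^ 2) + slope I t (t - ε))) (𝓝[>] 0)
      (𝓝 (1 * (-0 * deriv I t + deriv I t))) :=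
    c1.mul ((hid.neg.mul s2).add s1)
  have e : (1 * (-0 * deriv I t + deriv I t)) = deriv I t := by ring
  rw [e] at main
  refine main.congr' ?_
  filter_upwards [hpos, hsm] with ε hε hε2
  have h1 : (1 - 2 * ε) ≠ 0 := by
    intro h'
    linarith
  have h2 : ε - 2 * ε ^ 2 = ε * (1 - 2 * ε) := by ring
  rw [slope_def_field, slope_def_field, h2]
  have h3 : t - ε ^ 2 - t = -ε ^ 2 := by ring
  have h4 : t - ε - t = -ε := by ring
  rw [h3, h4]
  field_simp
  ring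

theorem gmt_support_smul_subset (φ : E m → ℝ) (T : E m → E m) :
    Function.support (fun x => φ x • T x) ⊆ tsupport T := by
  intro x hx
  apply subset_tsupport
  intro h
  apply hx
  simp [h]

/-- multiplication of a test field in `U` by a function which is `C¹` on `U`. -/
theorem GmtTest.smul_on {U : Set (E m)} (hU : IsOpen U) {T : E m → E m} (hT : GmtTest U T)
    {φ : E m → ℝ} (hφ : ContDiffOn ℝ 1 φ U) : GmtTest U (fun x => φ x • T x) := by
  have hs := gmt_support_smul_subset φ T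
  refine ⟨?_, hT.cpt.mono' hs, (closure_minimal hs (isClosed_tsupport T)).trans hT.sub⟩
  rw [contDiff_iff_contDiffAt]
  intro x
  by_cases hx : x ∈ U
  · exact (hφ.contDiffAt (hU.mem_nhds hx)).smul hT.c1.contDiffAt
  · have hx' : x ∉ tsupport T := fun h => hx (hT.sub h)
    rw [notMem_tsupport_iff_eventuallyEq] at hx'
    have : (fun x => φ x • T x) =ᶠ[𝓝 x] fun _ => 0 := by
      filter_upwards [hx'] with y hy
      simp [hy]
    exact contDiffAt_const.congr_of_eventuallyEq this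

theorem gmtDiv_smul_on {U : Set (E m)} (hU : IsOpen U) {T : E m → E m} (hT : GmtTest U T)
    {φ : E m → ℝ} (hφ : ContDiffOn ℝ 1 φ U) (x : E m) :
    gmtDiv (fun y => φ y • T y) x = φ x * gmtDiv T x + ⟪gradient φ x, T x⟫ := by
  by_cases hx : x ∈ U
  · rw [gmt_inner_gradient]
    exact gmtDiv_smul ((hφ.contDiffAt (hU.mem_nhds hx)).differentiableAt (by norm_num))
      (hT.differentiable x)
  · have hx' : x ∉ tsupport T := fun h => hx (hT.sub h)
    have hx'' : x ∉ tsupport (fun y => φ y • T y) := fun h =>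
      hx' (closure_minimal (gmt_support_smul_subset φ T) (isClosed_tsupport T) h)
    rw [gmtDiv_eq_zero_of_notMem hx', gmtDiv_eq_zero_of_notMem hx'',
      image_eq_zero_of_notMem_tsupport hx']
    simp

theorem GmtTest.smul_on_of_eventually {U V : Set (E m)} (hU : IsOpen U) {T : E m → E m}
    (hT : GmtTest U T) {φ : E m → ℝ} (hφ : ContDiffOn ℝ 1 φ U)
    (hV : ∀ x ∈ U \ V, φ =ᶠ[𝓝 x] fun _ => 0) : GmtTest (U ∩ V) (fun x => φ x • T x) := by
  have h := hT.smul_on hU hφ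
  refine ⟨h.c1, h.cpt, fun x hx => ⟨h.sub hx, ?_⟩⟩
  by_contra hxV
  have h1 := hV x ⟨h.sub hx, hxV⟩
  have h2 : x ∉ tsupport (fun x => φ x • T x) := by
    rw [notMem_tsupport_iff_eventuallyEq]
    filter_upwards [h1] with y hy
    simp [hy]
  exact h2 hx

theorem gmtAdm_smul_on {U : Set (E m)} {A : E m → Bil m} {T : E m → E m} (hT : GmtTest U T)
    (h : GmtAdm A T) {φ : E m → ℝ} (h01 : ∀ x ∈ U, φ x ∈ Icc (0 : ℝ) 1) :
    GmtAdm A (fun x => φ x • T x) := by
  intro x ξ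
  by_cases hx : x ∈ U
  · rw [real_inner_smul_left]
    have h1 := h x ξ
    have h2 := Real.sqrt_nonneg (A x ξ ξ)
    calc φ x * ⟪T x, ξ⟫ ≤ φ x * Real.sqrt (A x ξ ξ) := mul_le_mul_of_nonneg_left h1 (h01 x hx).1
      _ ≤ 1 * Real.sqrt (A x ξ ξ) := mul_le_mul_of_nonneg_right (h01 x hx).2 h2
      _ = _ := one_mul _
  · have : T x = 0 := image_eq_zero_of_notMem_tsupport fun h' => hx (hT.sub h')
    simp [this]

/-- THE BASIC ESTIMATE for the interpolation `φ χ₁ + (1 - φ) χ₂`. -/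
theorem gmtVarA_mix_le {U V₁ V₂ : Set (E m)} (hU : IsOpen U) (A : E m → Bil m) {φ : E m → ℝ}
    (hφ : ContDiffOn ℝ 1 φ U) (h01 : ∀ x ∈ U, φ x ∈ Icc (0 : ℝ) 1)
    (hV₁ : ∀ x ∈ U \ V₁, φ =ᶠ[𝓝 x] fun _ => 0) (hV₂ : ∀ x ∈ U \ V₂, φ =ᶠ[𝓝 x] fun _ => 1)
    {S₁ S₂ : Set (E m)} (h₁ : MeasurableSet S₁) (h₂ : MeasurableSet S₂) :
    gmtVarA A (gmtMix φ S₁ S₂) U ≤ gmtPer A S₁ (U ∩ V₁) + gmtPer A S₂ (U ∩ V₂) +
      ∫⁻ x in symmDiff S₁ S₂ ∩ U, ENNReal.ofReal (gmtDens A φ x) := by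
  conv_lhs => unfold gmtVarA
  refine iSup_le fun T => iSup_le fun hT => iSup_le fun hadm => ?_
  have hψ : ContDiffOn ℝ 1 (fun x => 1 - φ x) U := contDiffOn_const.sub hφ
  have hψ01 : ∀ x ∈ U, (1 - φ x) ∈ Icc (0 : ℝ) 1 := fun x hx =>
    ⟨by linarith [(h01 x hx).2], by linarith [(h01 x hx).1]⟩
  have hψV : ∀ x ∈ U \ V₂, (fun x => 1 - φ x) =ᶠ[𝓝 x] fun _ => 0 := by
    intro x hx
    filter_upwards [hV₂ x hx] with y hy
    simp [hy]
  have hT1 := hT.smul_on_of_eventually hU hφ hV₁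
  have hT2 := hT.smul_on_of_eventually hU hψ hψV
  have hA1 := gmtAdm_smul_on hT hadm h01
  have hA2 := gmtAdm_smul_on hT hadm hψ01
  obtain ⟨hc, hcs⟩ := gmt_fderiv_apply_test hU hφ hT
  -- the pointwise identity
  have hpt : ∀ x, gmtMix φ S₁ S₂ x * gmtDiv T x =
      gmtChi S₁ x * gmtDiv (fun y => φ y • T y) x +
        gmtChi S₂ x * gmtDiv (fun y => (1 - φ y) • T y) x +
        (gmtChi S₂ x - gmtChi S₁ x) * fderiv ℝ φ x (T x) := by
    intro x
    rw [gmtDiv_smul_on hU hT hφ, gmtDiv_smul_on hU hT hψ, gmt_inner_gradient, gmt_inner_gradient]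
    have h3 : fderiv ℝ (fun x => 1 - φ x) x (T x) = - fderiv ℝ φ x (T x) := by
      rw [fderiv_const_sub]
      rfl
    rw [h3]
    unfold gmtMix
    ring
  have hl₁ : LocallyIntegrableOn (gmtChi S₁) univ :=
    (gmtChi_locallyIntegrable h₁).locallyIntegrableOn _
  have hl₂ : LocallyIntegrableOn (gmtChi S₂) univ :=
    (gmtChi_locallyIntegrable h₂).locallyIntegrableOn _
  have i1 : Integrable fun x => gmtChi S₁ x * gmtDiv (fun y => φ y • T y) x :=
    gmt_integrable_mul_div hl₁ (hT1.mono (subset_univ _))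
  have i2 : Integrable fun x => gmtChi S₂ x * gmtDiv (fun y => (1 - φ y) • T y) x :=
    gmt_integrable_mul_div hl₂ (hT2.mono (subset_univ _))
  have i3 : Integrable fun x => (gmtChi S₂ x - gmtChi S₁ x) * fderiv ℝ φ x (T x) :=
    gmt_integrable_mul (hl₂.sub hl₁) hc hcs (subset_univ _)
  have i12 : Integrable fun x => gmtChi S₁ x * gmtDiv (fun y => φ y • T y) x +
      gmtChi S₂ x * gmtDiv (fun y => (1 - φ y) • T y) x := i1.add i2
  have e : ∫ x, gmtMix φ S₁ S₂ x * gmtDiv T x =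
      (∫ x in S₁, gmtDiv (fun y => φ y • T y) x) +
        (∫ x in S₂, gmtDiv (fun y => (1 - φ y) • T y) x) +
        ∫ x, (gmtChi S₂ x - gmtChi S₁ x) * fderiv ℝ φ x (T x) := by
    simp_rw [hpt]
    rw [integral_add i12 i3, integral_add i1 i2, integral_gmtChi_mul h₁, integral_gmtChi_mul h₂]
  rw [e]
  refine ENNReal.ofReal_add_le.trans (add_le_add (ENNReal.ofReal_add_le.trans (add_le_add
    (integral_le_gmtPer hT1 hA1) (integral_le_gmtPer hT2 hA2))) ?_)
  refine (gmt_ofReal_integral_le i3).trans ?_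
  rw [← lintegral_indicator ((h₁.symmDiff h₂).inter hU.measurableSet)]
  refine lintegral_mono fun x => ?_
  by_cases hx : x ∈ U
  · have hp := hadm x (gradient φ x)
    have hn := hadm x (-gradient φ x)
    rw [real_inner_comm, gmt_inner_gradient] at hp
    rw [inner_neg_right, real_inner_comm, gmt_inner_gradient] at hn
    have hp' : fderiv ℝ φ x (T x) ≤ gmtDens A φ x := hp
    have hn' : -fderiv ℝ φ x (T x) ≤ gmtDens A φ x := by
      unfold gmtDens
      simpa using hn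
    by_cases hx1 : x ∈ S₁ <;> by_cases hx2 : x ∈ S₂
    · simp [gmtChi, hx1, hx2]
    · have hm : x ∈ symmDiff S₁ S₂ ∩ U := ⟨Or.inl ⟨hx1, hx2⟩, hx⟩
      rw [indicator_of_mem hm]
      apply ENNReal.ofReal_le_ofReal
      simpa [gmtChi, hx1, hx2] using hn'
    · have hm : x ∈ symmDiff S₁ S₂ ∩ U := ⟨Or.inr ⟨hx2, hx1⟩, hx⟩
      rw [indicator_of_mem hm]
      apply ENNReal.ofReal_le_ofReal
      simpa [gmtChi, hx1, hx2] using hp'
    · simp [gmtChi, hx1, hx2]
  · have : T x = 0 := image_eq_zero_of_notMem_tsupport fun h' => hx (hT.sub h')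
    simp [this]

end Claimed.Agent.Gmt
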