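import Claimed.Agent.Lib.Gmt.BvGlueA

/-!
# Lib/Gmt [BvGlueL] G1e: gluing two sets along almost every level of a function.   (architect: helper75)

Notation of `BvGlueA`.  `G_t = gmtGlue f t S₁ S₂`, `D = (S₁ △ S₂) ∩ U`, `I s = gmtIfaceW c f D a s`.

PLAN
* `gmtMix_tendsto`: `φ_n → 1_{f<t}` pointwise on `U`, `0 ≤ φ_n ≤ 1` ⟹ `gmtMix φ_n S₁ S₂ → χ_{G_t}` in `L¹_loc(U)` (`GmtConvF`): dominated convergence on each compact
  `K ⊆ U` (`tendsto_lintegral_of_dominated_convergence`, bound `2`; measurability of `φ_n` on `U`: `ContinuousOn.aemeasurable`/`AEStronglyMeasurable` on the open set `U`).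
* `gmtPer_glue_at`: THE POINTWISE STATEMENT.  Let `t ∈ (a,b)` be such that `I` is differentiable at `t` and `s ↦ gmtPer A S₂ (U ∩ {s < f})` is continuous at `t`.
  For `ε_n = 1/(n+N)` take the ramp `h_n` of `gmt_exists_ramp` with `α = t-ε`, `β = t-2ε²`, `η = ε`; `φ_n = h_n ∘ f` (`gmt_ramp_comp`).
  `gmtVarA_mix_le` with `V₁ = {f < t}`, `V₂ = {t - 2ε < f}`:
  `VarA(mix_n;U) ≤ Per(S₁;U∩{f<t}) + Per(S₂;U∩{t-2ε<f}) + ∫⁻_D dens(φ_n)`, and `dens(φ_n) = |h_n'(f)| √(A∇f∇f) ≤ (1+ε)/(ε-2ε²) c` on `f⁻¹[t-ε, t-ε²)`, `= 0` elsewhere on `U`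
  (locally constant), so the last term is `≤ ofReal ((1+ε)/(ε-2ε²) (I(t-ε²) - I(t-ε)))` (`gmtIfaceW_sub`) `→ ofReal (I' t)` (`gmt_quot_tendsto`).
  Conclude by `gmtVarA_lsc` + `gmtMix_tendsto` + `gmtPer_eq_gmtVarA` and `liminf ≤ lim` of the right hand side.
* `gmtPer_glue_level_w`: a.e. `t` is good: `MonotoneOn.ae_differentiableWithinAt` on `Iic b` (interior points: `DifferentiableWithinAt.differentiableAt`),
  `Antitone.countable_not_continuousAt` for the `ℝ≥0∞`-valued antitone function `s ↦ gmtPer A S₂ (U ∩ {s < f})` (countable sets are null).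
* `gmtPer_glue_level`: `c = c₀ |∇f|`: `√(A ∇f ∇f) ≤ c₀ |∇f|`, `gmtIfaceW_const_mul`, `deriv_const_mul_field`.
* `gmt_deriv_tendsto_zero`: `0 ≤ deriv (I k)` on `(a,b)`, `∫_a^b deriv (I k) ≤ I k b - I k a → 0` (`MonotoneOn.intervalIntegral_deriv_mem_uIcc`, `MonotoneOn.intervalIntegrable_deriv`): `L¹` convergence,
  so convergence in measure (`tendstoInMeasure_of_tendsto_eLpNorm`) and an a.e. convergent subsequence (`TendstoInMeasure.exists_seq_tendsto_ae`).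
* `gmtPer_glue_seq`: `gmt_deriv_tendsto_zero` for `I_i = gmtIface f D_i a` on `[a', b']`... (work on `Icc a b`: `I_i` is monotone on `Iic b`, `I_i a = 0`, `I_i b → 0`), `κ i = ofReal (c deriv (I_{φ i}) t)`; countable intersection of a.e. sets (`ae_all_iff`).
* `gmtPer_level_null`: `μ = gmtPer A S (U ∩ ·)`; without measures: for `t₁ < ... < t_N` superadditivity (`gmtPer_add_le_union`) shows `∑_j defect(t_j) ≤ gmtPer A S U < ∞` where
  `defect t = lim_{ε→0} gmtPer A S (U ∩ {t-ε<f<t+ε})`; and `Per(U) ≤ Per(U∩{f<t}) + Per(U∩{t<f}) + defect t`...  SIMPLER: both `s ↦ gmtPer A S (U ∩ {f < s})` (monotone, left continuous by `gmtPer_iUnion_mono`) and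
  `s ↦ gmtPer A S (U ∩ {s < f})` are continuous off a countable set; at a common continuity point `t`: `Per(U) ≤ Per(U ∩ {f < t+ε}) + Per(U ∩ {t < f})` (`gmtPer_union_le`), let `ε → 0`; `≥` is `gmtPer_add_le_union` + `gmtPer_mono`.
-/

set_option autoImplicit false
open scoped ContDiff ENNReal RealInnerProductSpace Topology
open MeasureTheory Metric Set Filter

namespace Claimed.Agent.Gmt

variable {m : ℕ}

theorem gmtMix_mem_Icc {φ : E m → ℝ} {x : E m} (h : φ x ∈ Icc (0 : ℝ) 1) (S₁ S₂ : Set (E m)) :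
    gmtMix φ S₁ S₂ x ∈ Icc (0 : ℝ) 1 := by
  unfold gmtMix
  have h1 := gmtChi_mem_Icc S₁ x
  have h2 := gmtChi_mem_Icc S₂ x
  constructor
  · have := mul_nonneg h.1 h1.1
    have := mul_nonneg (sub_nonneg.2 h.2) h2.1
    linarith
  · have a1 : φ x * gmtChi S₁ x ≤ φ x * 1 := mul_le_mul_of_nonneg_left h1.2 h.1
    have a2 : (1 - φ x) * gmtChi S₂ x ≤ (1 - φ x) * 1 :=
      mul_le_mul_of_nonneg_left h2.2 (sub_nonneg.2 h.2)
    linarith

theorem gmtMix_aemeasurable {K : Set (E m)} (hK : MeasurableSet K) {φ : E m → ℝ}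
    (hφ : ContinuousOn φ K) {S₁ S₂ : Set (E m)} (h₁ : MeasurableSet S₁) (h₂ : MeasurableSet S₂) :
    AEMeasurable (gmtMix φ S₁ S₂) (volume.restrict K) := by
  have hm : AEMeasurable φ (volume.restrict K) := hφ.aemeasurable hK
  have c1 : Measurable (gmtChi S₁) := measurable_const.indicator h₁
  have c2 : Measurable (gmtChi S₂) := measurable_const.indicator h₂
  exact (hm.mul c1.aemeasurable).add ((aemeasurable_const.sub hm).mul c2.aemeasurable)

theorem gmtMix_locallyIntegrableOn {U : Set (E m)} (hU : IsOpen U) {φ : E m → ℝ}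
    (hφ : ContinuousOn φ U) (h01 : ∀ x ∈ U, φ x ∈ Icc (0 : ℝ) 1) {S₁ S₂ : Set (E m)}
    (h₁ : MeasurableSet S₁) (h₂ : MeasurableSet S₂) :
    LocallyIntegrableOn (gmtMix φ S₁ S₂) U := by
  rw [locallyIntegrableOn_iff hU.isLocallyClosed]
  intro K hKU hK
  haveI : IsFiniteMeasure (volume.restrict K) := ⟨by simpa using hK.measure_lt_top⟩
  refine Integrable.of_bound
    (gmtMix_aemeasurable hK.measurableSet (hφ.mono hKU) h₁ h₂).aestronglyMeasurable 1 ?_
  refine ae_restrict_of_forall_mem hK.measurableSet fun x hx => ?_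
  have := gmtMix_mem_Icc (h01 x (hKU hx)) S₁ S₂
  rw [Real.norm_eq_abs, abs_of_nonneg this.1]
  exact this.2

theorem gmtMix_tendsto {U : Set (E m)} (hU : IsOpen U) {f : E m → ℝ} (hfm : Measurable f) {t : ℝ}
    {φ : ℕ → E m → ℝ} (hφ : ∀ n, ContinuousOn (φ n) U) (h01 : ∀ n, ∀ x ∈ U, φ n x ∈ Icc (0 : ℝ) 1)
    (hlim1 : ∀ x ∈ U, f x < t → ∀ᶠ n in atTop, φ n x = 1)
    (hlim0 : ∀ x ∈ U, t ≤ f x → ∀ᶠ n in atTop, φ n x = 0)
    {S₁ S₂ : Set (E m)} (h₁ : MeasurableSet S₁) (h₂ : MeasurableSet S₂) :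
    GmtConvF U (fun n => gmtMix (φ n) S₁ S₂) (gmtChi (gmtGlue f t S₁ S₂)) := by
  intro K hK hKU
  have hG : MeasurableSet (gmtGlue f t S₁ S₂) := measurableSet_gmtGlue hfm t h₁ h₂
  have hcG : Measurable (gmtChi (gmtGlue f t S₁ S₂)) := measurable_const.indicator hG
  have key := tendsto_lintegral_of_dominated_convergence' (μ := volume.restrict K)
    (F := fun n x => ‖gmtMix (φ n) S₁ S₂ x - gmtChi (gmtGlue f t S₁ S₂) x‖ₑ) (f := fun _ => 0)
    (fun _ => 1)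
    (fun n => ((gmtMix_aemeasurable hK.measurableSet ((hφ n).mono hKU) h₁ h₂).sub
      hcG.aemeasurable).enorm)
    (fun n => ae_restrict_of_forall_mem hK.measurableSet fun x hx => by
      have a1 := gmtMix_mem_Icc (h01 n x (hKU hx)) S₁ S₂
      have a2 := gmtChi_mem_Icc (gmtGlue f t S₁ S₂) x
      show ‖gmtMix (φ n) S₁ S₂ x - gmtChi (gmtGlue f t S₁ S₂) x‖ₑ ≤ 1
      rw [Real.enorm_eq_ofReal_abs]
      refine ENNReal.ofReal_le_one.2 ?_
      rw [abs_le]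
      constructor <;> linarith [a1.1, a1.2, a2.1, a2.2])
    (by simpa using hK.measure_lt_top.ne)
    (ae_restrict_of_forall_mem hK.measurableSet fun x hx => by
      refine tendsto_const_nhds.congr' ?_
      by_cases hx1 : f x < t
      · filter_upwards [hlim1 x (hKU hx) hx1] with n hn
        have : gmtChi (gmtGlue f t S₁ S₂) x = gmtChi S₁ x := by
          by_cases hs : x ∈ S₁ <;> simp [gmtChi, gmtGlue, hs, hx1]
        simp [gmtMix, hn, this]
      · filter_upwards [hlim0 x (hKU hx) (not_lt.1 hx1)] with n hn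
        have : gmtChi (gmtGlue f t S₁ S₂) x = gmtChi S₂ x := by
          by_cases hs : x ∈ S₂ <;> simp [gmtChi, gmtGlue, hs, hx1]
        simp [gmtMix, hn, this])
  simpa using key

theorem gmt_sqrt_smul_abs (B : Bil m) (c : ℝ) (ξ : E m) :
    Real.sqrt (B (c • ξ) (c • ξ)) = |c| * Real.sqrt (B ξ ξ) := by
  have : B (c • ξ) (c • ξ) = c ^ 2 * B ξ ξ := by
    simp only [map_smul, _root_.smul_apply, smul_eq_mul]
    ring
  rw [this, Real.sqrt_mul (sq_nonneg c), Real.sqrt_sq_eq_abs]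

theorem gmtDens_of_eventuallyEq_const (A : E m → Bil m) {φ : E m → ℝ} {x : E m} {c : ℝ}
    (h : φ =ᶠ[𝓝 x] fun _ => c) : gmtDens A φ x = 0 := by
  unfold gmtDens gradient
  rw [h.fderiv_eq]
  simp

/-- the cost of a ramp. -/
theorem gmt_ramp_cost {U : Set (E m)} (hU : IsOpen U) {A : E m → Bil m} {f : E m → ℝ}
    (hfm : Measurable f) (hf : ContinuousOn f U) {a b : ℝ}
    (hf1 : ContDiffOn ℝ 1 f (U ∩ f ⁻¹' Ioo a b)) {c : E m → ℝ}
    (hc : ∀ x ∈ U ∩ f ⁻¹' Ioo a b, gmtDens A f x ≤ c x) {D : Set (E m)} (hD : MeasurableSet D)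
    (hDU : D ⊆ U) (hfin : ∫⁻ x in D ∩ f ⁻¹' Ioo a b, ENNReal.ofReal (c x) ≠ ⊤)
    {α β β' q : ℝ} (haα : a < α) (hαβ : α < β) (hββ : β < β') (hβb : β' ≤ b) (hq : 0 ≤ q)
    {h : ℝ → ℝ} (hh : ContDiff ℝ 1 h) (h1 : ∀ s, s ≤ α → h s = 1) (h0 : ∀ s, β ≤ s → h s = 0)
    (hd : ∀ s, |deriv h s| ≤ q) :
    ∫⁻ x in D, ENNReal.ofReal (gmtDens A (h ∘ f) x) ≤
      ENNReal.ofReal (q * (gmtIfaceW c f D a β' - gmtIfaceW c f D a α)) := by
  obtain ⟨-, hc1, hc0, hgrad⟩ := gmt_ramp_comp hU hf haα hαβ (hββ.trans_le hβb) hf1 hh h1 h0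
  have hm : MeasurableSet (f ⁻¹' Ico α β') := hfm measurableSet_Ico
  rw [ENNReal.ofReal_mul hq, ← gmtIfaceW_sub hfm hD hfin haα (hαβ.trans hββ).le hβb,
    ← lintegral_const_mul' _ _ ENNReal.ofReal_ne_top, inter_comm, ← Measure.restrict_restrict hm,
    ← lintegral_indicator hm]
  refine setLIntegral_mono' hD fun x hx => ?_
  have hxU : x ∈ U := hDU hx
  by_cases hxP : x ∈ f ⁻¹' Ico α β'
  · rw [indicator_of_mem hxP, ← ENNReal.ofReal_mul hq]
    refine ENNReal.ofReal_le_ofReal ?_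
    have hxs : f x ∈ Ioo a b := ⟨haα.trans_le hxP.1, hxP.2.trans_le hβb⟩
    have e : gmtDens A (h ∘ f) x = |deriv h (f x)| * gmtDens A f x := by
      unfold gmtDens
      rw [hgrad x hxU hxs, gmt_sqrt_smul_abs]
    rw [e]
    exact mul_le_mul (hd _) (hc x ⟨hxU, hxs⟩) (gmtDens_nonneg _ _ _) hq
  · rw [indicator_of_notMem hxP]
    have : gmtDens A (h ∘ f) x = 0 := by
      by_cases h2 : f x < α
      · exact gmtDens_of_eventuallyEq_const A (hc1 x hxU h2)
      · have h3 : β' ≤ f x := by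
          by_contra h4
          exact hxP ⟨not_lt.1 h2, not_le.1 h4⟩
        exact gmtDens_of_eventuallyEq_const A (hc0 x hxU (hββ.trans_le h3))
    simp [this]

/-- the gluing inequality at a good level. -/
theorem gmtPer_glue_at {U : Set (E m)} (hU : IsOpen U) {A : E m → Bil m} {f : E m → ℝ}
    (hfm : Measurable f) (hf : ContinuousOn f U) {a b : ℝ}
    (hf1 : ContDiffOn ℝ 1 f (U ∩ f ⁻¹' Ioo a b)) {c : E m → ℝ}
    (hc : ∀ x ∈ U ∩ f ⁻¹' Ioo a b, gmtDens A f x ≤ c x) {S₁ S₂ : Set (E m)}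
    (h₁ : MeasurableSet S₁) (h₂ : MeasurableSet S₂)
    (hfin : ∫⁻ x in (symmDiff S₁ S₂ ∩ U) ∩ f ⁻¹' Ioo a b, ENNReal.ofReal (c x) ≠ ⊤)
    {t : ℝ} (ht : t ∈ Ioo a b)
    (hd : DifferentiableAt ℝ (gmtIfaceW c f (symmDiff S₁ S₂ ∩ U) a) t)
    (hcont : ContinuousAt (fun s : ℝ => gmtPer A S₂ (U ∩ {x | s < f x})) t) :
    gmtPer A (gmtGlue f t S₁ S₂) U ≤ gmtPer A S₁ (U ∩ {x | f x < t}) +
      gmtPer A S₂ (U ∩ {x | t < f x}) +
      ENNReal.ofReal (deriv (gmtIfaceW c f (symmDiff S₁ S₂ ∩ U) a) t) := by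
  set D : Set (E m) := symmDiff S₁ S₂ ∩ U with hD
  have hDm : MeasurableSet D := (h₁.symmDiff h₂).inter hU.measurableSet
  set I := gmtIfaceW c f D a with hI
  -- the sequence `ε n`
  set δ : ℝ := min (1 / 4) ((t - a) / 2) with hδ
  have hδ0 : 0 < δ := lt_min (by norm_num) (by linarith [ht.1])
  set ε : ℕ → ℝ := fun n => δ / (n + 1) with hε
  have hεpos : ∀ n, 0 < ε n := fun n => by positivity
  have hεle : ∀ n, ε n ≤ δ := fun n => by
    rw [hε]
    refine div_le_self hδ0.le ?_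
    have : (0 : ℝ) ≤ n := Nat.cast_nonneg n
    linarith
  have hε4 : ∀ n, ε n ≤ 1 / 4 := fun n => (hεle n).trans (min_le_left _ _)
  have hεa : ∀ n, a < t - ε n := fun n => by
    have := (hεle n).trans (min_le_right _ _)
    linarith [ht.1]
  have hεlim0 : Tendsto ε atTop (𝓝 0) := by
    have h1 : Tendsto (fun n : ℕ => (n : ℝ) + 1) atTop atTop :=
      tendsto_atTop_add_const_right _ _ tendsto_natCast_atTop_atTop
    exact h1.const_div_atTop δ
  have hεlim : Tendsto ε atTop (𝓝[>] 0) :=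
    tendsto_nhdsWithin_iff.2 ⟨hεlim0, Eventually.of_forall hεpos⟩
  have hsq : ∀ n, ε n ^ 2 ≤ ε n / 4 := fun n => by
    have := mul_le_mul_of_nonneg_left (hε4 n) (hεpos n).le
    nlinarith
  have hαβ : ∀ n, t - ε n < t - 2 * ε n ^ 2 := fun n => by
    have := hsq n
    have := hεpos n
    linarith
  have hramp := fun n => gmt_exists_ramp (hαβ n) (hεpos n)
  choose h hh h01 h1 h0 hder using hramp
  set φ : ℕ → E m → ℝ := fun n => h n ∘ f with hφ
  have hβb : ∀ n, t - 2 * ε n ^ 2 < b := fun n => by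
    have := sq_nonneg (ε n)
    linarith [ht.2]
  have hcomp := fun n => gmt_ramp_comp hU hf (hεa n) (hαβ n) (hβb n) hf1 (hh n) (h1 n) (h0 n)
  have hφ01 : ∀ n, ∀ x ∈ U, φ n x ∈ Icc (0 : ℝ) 1 := fun n x _ => h01 n (f x)
  have hφc : ∀ n, ContinuousOn (φ n) U := fun n => (hcomp n).1.continuousOn
  have hconv : GmtConvF U (fun n => gmtMix (φ n) S₁ S₂) (gmtChi (gmtGlue f t S₁ S₂)) := by
    refine gmtMix_tendsto hU hfm hφc hφ01 (fun x _ hx => ?_) (fun x _ hx => ?_) h₁ h₂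
    · have : ∀ᶠ n in atTop, ε n < t - f x := hεlim0.eventually_lt_const (by linarith)
      filter_upwards [this] with n hn
      exact h1 n (f x) (by linarith)
    · refine Eventually.of_forall fun n => h0 n (f x) ?_
      have := sq_nonneg (ε n)
      linarith
  have hG : MeasurableSet (gmtGlue f t S₁ S₂) := measurableSet_gmtGlue hfm t h₁ h₂
  have hlsc := gmtVarA_lsc A hU
    (fun n => gmtMix_locallyIntegrableOn hU (hφc n) (hφ01 n) h₁ h₂)
    ((gmtChi_locallyIntegrable hG).locallyIntegrableOn U) hconv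
  rw [gmtPer_eq_gmtVarA A hG]
  refine hlsc.trans ?_
  -- the upper bounds
  set R : ℕ → ℝ≥0∞ := fun n => gmtPer A S₁ (U ∩ {x | f x < t}) +
    gmtPer A S₂ (U ∩ {x | t - 2 * ε n < f x}) +
    ENNReal.ofReal ((1 + ε n) / (ε n - 2 * ε n ^ 2) * (I (t - ε n ^ 2) - I (t - ε n))) with hR
  have hle : ∀ n, gmtVarA A (gmtMix (φ n) S₁ S₂) U ≤ R n := by
    intro n
    have hmix := gmtVarA_mix_le (V₁ := {x | f x < t}) (V₂ := {x | t - 2 * ε n < f x}) hU A
      (hcomp n).1 (hφ01 n)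
      (fun x hx => (hcomp n).2.2.1 x hx.1 (by
        have h2 : t ≤ f x := not_lt.1 hx.2
        have := sq_pos_of_pos (hεpos n)
        linarith))
      (fun x hx => (hcomp n).2.1 x hx.1 (by
        have h2 : f x ≤ t - 2 * ε n := not_lt.1 hx.2
        have := hεpos n
        linarith)) h₁ h₂
    refine hmix.trans (add_le_add le_rfl ?_)
    have hq : (1 + ε n) / (t - 2 * ε n ^ 2 - (t - ε n)) = (1 + ε n) / (ε n - 2 * ε n ^ 2) := by
      congr 1
      ring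
    have hq0 : 0 ≤ (1 + ε n) / (ε n - 2 * ε n ^ 2) := by
      have := hαβ n
      have := hεpos n
      refine div_nonneg (by linarith) (by linarith)
    refine gmt_ramp_cost hU hfm hf hf1 hc hDm inter_subset_right hfin (hεa n) (hαβ n)
      (by
        have := sq_pos_of_pos (hεpos n)
        linarith) (by
        have := sq_nonneg (ε n)
        linarith [ht.2]) hq0 (hh n) (h1 n) (h0 n) (fun s => ?_)
    rw [← hq]
    exact hder n s
  have hRlim : Tendsto R atTop (𝓝 (gmtPer A S₁ (U ∩ {x | f x < t}) +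
      gmtPer A S₂ (U ∩ {x | t < f x}) + ENNReal.ofReal (deriv I t))) := by
    refine (tendsto_const_nhds.add ?_).add ?_
    · have h2 : Tendsto (fun n => t - 2 * ε n) atTop (𝓝 t) := by
        have := (hεlim0.const_mul 2).const_sub t
        simpa using this
      exact hcont.tendsto.comp h2
    · exact (ENNReal.continuous_ofReal.tendsto _).comp ((gmt_quot_tendsto hd).comp hεlim)
  rw [← hRlim.liminf_eq]
  exact liminf_le_liminf (Eventually.of_forall hle)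

/-- GLUING ALONG ALMOST EVERY LEVEL, general cost density (sharp for `c = √(A ∇f ∇f)`). -/
theorem gmtPer_glue_level_w {U : Set (E m)} (hU : IsOpen U) {A : E m → Bil m} {f : E m → ℝ}
    (hfm : Measurable f) (hf : ContinuousOn f U) {a b : ℝ}
    (hf1 : ContDiffOn ℝ 1 f (U ∩ f ⁻¹' Ioo a b)) {c : E m → ℝ}
    (hc : ∀ x ∈ U ∩ f ⁻¹' Ioo a b, gmtDens A f x ≤ c x) {S₁ S₂ : Set (E m)}
    (h₁ : MeasurableSet S₁) (h₂ : MeasurableSet S₂)
    (hfin : ∫⁻ x in (symmDiff S₁ S₂ ∩ U) ∩ f ⁻¹' Ioo a b, ENNReal.ofReal (c x) ≠ ⊤) :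
    ∀ᵐ t : ℝ, t ∈ Ioo a b →
      gmtPer A (gmtGlue f t S₁ S₂) U ≤ gmtPer A S₁ (U ∩ {x | f x < t}) +
        gmtPer A S₂ (U ∩ {x | t < f x}) +
        ENNReal.ofReal (deriv (gmtIfaceW c f (symmDiff S₁ S₂ ∩ U) a) t) := by
  have hmono := gmtIfaceW_mono hfin
  have hanti : Antitone (fun s : ℝ => gmtPer A S₂ (U ∩ {x | s < f x})) := by
    intro s s' hss
    refine gmtPer_mono A S₂ (inter_subset_inter_right _ fun x hx => ?_)
    exact lt_of_le_of_lt hss hx
  have hc0 : ∀ᵐ t : ℝ, ContinuousAt (fun s : ℝ => gmtPer A S₂ (U ∩ {x | s < f x})) t := by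
    have := hanti.countable_not_continuousAt.measure_zero volume
    rw [measure_eq_zero_iff_ae_notMem] at this
    filter_upwards [this] with t ht
    by_contra h
    exact ht h
  filter_upwards [hmono.ae_differentiableWithinAt_of_mem, hc0] with t ht1 ht2 ht
  exact gmtPer_glue_at hU hfm hf hf1 hc h₁ h₂ hfin ht
    ((ht1 ht.2.le).differentiableAt (Iic_mem_nhds ht.2)) ht2

/-- GLUING ALONG ALMOST EVERY LEVEL. -/
theorem gmtPer_glue_level {U : Set (E m)} (hU : IsOpen U) {A : E m → Bil m} {c : ℝ} (hc : 0 ≤ c)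
    (hA : ∀ x ∈ U, ∀ ξ : E m, A x ξ ξ ≤ c ^ 2 * ‖ξ‖ ^ 2) {f : E m → ℝ} (hf : Continuous f)
    {a b : ℝ} (hf1 : ContDiffOn ℝ 1 f (U ∩ f ⁻¹' Ioo a b)) {S₁ S₂ : Set (E m)}
    (h₁ : MeasurableSet S₁) (h₂ : MeasurableSet S₂)
    (hfin : ∫⁻ x in (symmDiff S₁ S₂ ∩ U) ∩ f ⁻¹' Ioo a b, ‖fderiv ℝ f x‖ₑ ≠ ⊤) :
    ∀ᵐ t : ℝ, t ∈ Ioo a b →
      gmtPer A (gmtGlue f t S₁ S₂) U ≤ gmtPer A S₁ (U ∩ {x | f x < t}) +
        gmtPer A S₂ (U ∩ {x | t < f x}) +
        ENNReal.ofReal (c * deriv (gmtIface f (symmDiff S₁ S₂ ∩ U) a) t) := by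
  have hcost : ∀ x ∈ U ∩ f ⁻¹' Ioo a b, gmtDens A f x ≤ c * ‖fderiv ℝ f x‖ := by
    intro x hx
    unfold gmtDens
    calc Real.sqrt (A x (gradient f x) (gradient f x))
        ≤ Real.sqrt (c ^ 2 * ‖gradient f x‖ ^ 2) := Real.sqrt_le_sqrt (hA x hx.1 _)
      _ = c * ‖fderiv ℝ f x‖ := by
          rw [← mul_pow, Real.sqrt_sq (mul_nonneg hc (norm_nonneg _)), norm_gradient]
  have hfin' : ∫⁻ x in (symmDiff S₁ S₂ ∩ U) ∩ f ⁻¹' Ioo a b,
      ENNReal.ofReal (c * ‖fderiv ℝ f x‖) ≠ ⊤ := by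
    have e : ∀ x, ENNReal.ofReal (c * ‖fderiv ℝ f x‖) = ENNReal.ofReal c * ‖fderiv ℝ f x‖ₑ := by
      intro x
      rw [ENNReal.ofReal_mul hc, ofReal_norm]
    simp_rw [e]
    rw [lintegral_const_mul' _ _ ENNReal.ofReal_ne_top]
    exact ENNReal.mul_ne_top ENNReal.ofReal_ne_top hfin
  have key := gmtPer_glue_level_w hU hf.measurable hf.continuousOn hf1 hcost h₁ h₂ hfin'
  have e2 : gmtIfaceW (fun x => c * ‖fderiv ℝ f x‖) f (symmDiff S₁ S₂ ∩ U) a
      = fun s => c * gmtIface f (symmDiff S₁ S₂ ∩ U) a s := by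
    ext s
    rw [gmtIfaceW_const_mul hc, gmtIface_eq]
  rw [e2] at key
  filter_upwards [key] with t ht htt
  have := ht htt
  rwa [deriv_const_mul_field] at this

theorem gmt_deriv_nonneg_of_monotoneOn {I : ℝ → ℝ} {s : Set ℝ} (hm : MonotoneOn I s) {τ : ℝ}
    (hτ : s ∈ 𝓝 τ) : 0 ≤ deriv I τ := by
  rw [← derivWithin_of_mem_nhds hτ]
  exact hm.derivWithin_nonneg

/-- real analysis: monotone functions with total increase tending to `0` have, along a
subsequence, derivatives tending to `0` almost everywhere. -/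
theorem gmt_deriv_tendsto_zero {I : ℕ → ℝ → ℝ} {a b : ℝ} (hab : a < b)
    (hm : ∀ k, MonotoneOn (I k) (Icc a b))
    (hlim : Tendsto (fun k => I k b - I k a) atTop (𝓝 0)) :
    ∃ φ : ℕ → ℕ, StrictMono φ ∧ ∀ᵐ τ : ℝ, τ ∈ Ioo a b →
      Tendsto (fun k => deriv (I (φ k)) τ) atTop (𝓝 0) := by
  set μ : Measure ℝ := volume.restrict (Ioc a b) with hμ
  have hm' : ∀ k, MonotoneOn (I k) (uIcc a b) := fun k => by rw [uIcc_of_le hab.le]; exact hm k
  have hint : ∀ k, Integrable (deriv (I k)) μ := fun k => by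
    have := (hm' k).intervalIntegrable_deriv
    rw [intervalIntegrable_iff_integrableOn_Ioc_of_le hab.le] at this
    exact this
  have hnn : ∀ k, 0 ≤ᵐ[μ] deriv (I k) := fun k => by
    have h1 : ∀ᵐ τ ∂μ, τ ≠ b := by
      have : ∀ᵐ τ : ℝ, τ ≠ b := by
        have h0 : volume ({b} : Set ℝ) = 0 := by simp
        rw [measure_eq_zero_iff_ae_notMem] at h0
        filter_upwards [h0] with τ hτ
        simpa using hτ
      exact ae_restrict_of_ae this
    filter_upwards [h1, ae_restrict_mem measurableSet_Ioc] with τ hτb hτ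
    exact gmt_deriv_nonneg_of_monotoneOn (hm k)
      (Icc_mem_nhds hτ.1 (lt_of_le_of_ne hτ.2 hτb))
  have hle : ∀ k, eLpNorm (deriv (I k) - fun _ => (0 : ℝ)) 1 μ ≤ ENNReal.ofReal (I k b - I k a) := by
    intro k
    rw [eLpNorm_one_eq_lintegral_enorm]
    have e : ∫⁻ x, ‖(deriv (I k) - (fun _ => (0 : ℝ) : ℝ → ℝ)) x‖ₑ ∂μ
        = ∫⁻ x, ENNReal.ofReal (deriv (I k) x) ∂μ := by
      refine lintegral_congr_ae ?_
      filter_upwards [hnn k] with x hx
      simp only [Pi.sub_apply, sub_zero]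
      rw [Real.enorm_eq_ofReal_abs, abs_of_nonneg hx]
    rw [e, ← ofReal_integral_eq_lintegral_ofReal (hint k) (hnn k)]
    refine ENNReal.ofReal_le_ofReal ?_
    have h2 := (hm' k).intervalIntegral_deriv_mem_uIcc
    rw [intervalIntegral.integral_of_le hab.le] at h2
    have h3 : 0 ≤ I k b - I k a :=
      sub_nonneg.2 (hm k (left_mem_Icc.2 hab.le) (right_mem_Icc.2 hab.le) hab.le)
    rw [uIcc_of_le h3] at h2
    exact h2.2
  have hL1 : Tendsto (fun k => eLpNorm (deriv (I k) - fun _ => (0 : ℝ)) 1 μ) atTop (𝓝 0) := by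
    refine tendsto_of_tendsto_of_tendsto_of_le_of_le tendsto_const_nhds ?_ (fun _ => zero_le) hle
    have := (ENNReal.continuous_ofReal.tendsto _).comp hlim
    simpa [Function.comp_def] using this
  have hmeas := tendstoInMeasure_of_tendsto_eLpNorm one_ne_zero
    (fun k => (hint k).aestronglyMeasurable) aestronglyMeasurable_const hL1
  obtain ⟨φ, hφ, hae⟩ := hmeas.exists_seq_tendsto_ae
  refine ⟨φ, hφ, ?_⟩
  rw [hμ, ae_restrict_iff' measurableSet_Ioc] at hae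
  filter_upwards [hae] with τ hτ hτ2
  exact hτ ⟨hτ2.1, hτ2.2.le⟩

/-- sequential version: one subsequence, almost every level, vanishing interface cost. -/
theorem gmtPer_glue_seq {U : Set (E m)} (hU : IsOpen U) {A : ℕ → E m → Bil m} {c : ℝ}
    (hc : 0 ≤ c) (hA : ∀ i, ∀ x ∈ U, ∀ ξ : E m, A i x ξ ξ ≤ c ^ 2 * ‖ξ‖ ^ 2) {f : E m → ℝ}
    (hf : Continuous f) {a b : ℝ} (hf1 : ContDiffOn ℝ 1 f (U ∩ f ⁻¹' Ioo a b))
    {S₁ S₂ : ℕ → Set (E m)} (h₁ : ∀ i, MeasurableSet (S₁ i)) (h₂ : ∀ i, MeasurableSet (S₂ i))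
    (hlim : Tendsto (fun i => ∫⁻ x in (symmDiff (S₁ i) (S₂ i) ∩ U) ∩ f ⁻¹' Ioo a b,
      ‖fderiv ℝ f x‖ₑ) atTop (𝓝 0)) :
    ∃ φ : ℕ → ℕ, StrictMono φ ∧ ∀ᵐ t : ℝ, t ∈ Ioo a b →
      ∃ κ : ℕ → ℝ≥0∞, Tendsto κ atTop (𝓝 0) ∧ ∀ i,
        gmtPer (A (φ i)) (gmtGlue f t (S₁ (φ i)) (S₂ (φ i))) U ≤
          gmtPer (A (φ i)) (S₁ (φ i)) (U ∩ {x | f x < t}) +
          gmtPer (A (φ i)) (S₂ (φ i)) (U ∩ {x | t < f x}) + κ i := by
  by_cases hab : a < b
  swap
  · refine ⟨id, strictMono_id, Eventually.of_forall fun t ht => ?_⟩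
    exact absurd (ht.1.trans ht.2) hab
  set L : ℕ → ℝ≥0∞ := fun i => ∫⁻ x in (symmDiff (S₁ i) (S₂ i) ∩ U) ∩ f ⁻¹' Ioo a b,
      ‖fderiv ℝ f x‖ₑ with hL
  obtain ⟨N, hN⟩ : ∃ N, ∀ i ≥ N, L i ≠ ⊤ := by
    have : ∀ᶠ i in atTop, L i < 1 := hlim.eventually_lt_const one_pos
    obtain ⟨N, hN⟩ := eventually_atTop.1 this
    exact ⟨N, fun i hi => ((hN i hi).trans ENNReal.one_lt_top).ne⟩
  set I : ℕ → ℝ → ℝ := fun i => gmtIface f (symmDiff (S₁ (i + N)) (S₂ (i + N)) ∩ U) a with hI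
  have hfin : ∀ i, L (i + N) ≠ ⊤ := fun i => hN _ (Nat.le_add_left N i)
  have hmono : ∀ i, MonotoneOn (I i) (Icc a b) := fun i =>
    (gmtIface_mono (hfin i)).mono fun x hx => hx.2
  have hIa : ∀ i, I i a = 0 := fun i => by simp [hI, gmtIface]
  have hIb : ∀ i, I i b = (L (i + N)).toReal := fun i => rfl
  have hlim2 : Tendsto (fun i => I i b - I i a) atTop (𝓝 0) := by
    simp_rw [hIa, hIb, sub_zero]
    have h1 : Tendsto (fun i => L (i + N)) atTop (𝓝 0) := (tendsto_add_atTop_iff_nat N).2 hlim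
    have := (ENNReal.tendsto_toReal ENNReal.zero_ne_top).comp h1
    simpa [Function.comp_def] using this
  obtain ⟨φ₀, hφ₀, hae⟩ := gmt_deriv_tendsto_zero hab hmono hlim2
  refine ⟨fun i => φ₀ i + N, fun i j hij => Nat.add_lt_add_right (hφ₀ hij) N, ?_⟩
  have hall : ∀ᵐ t : ℝ, ∀ i, t ∈ Ioo a b →
      gmtPer (A (φ₀ i + N)) (gmtGlue f t (S₁ (φ₀ i + N)) (S₂ (φ₀ i + N))) U ≤
        gmtPer (A (φ₀ i + N)) (S₁ (φ₀ i + N)) (U ∩ {x | f x < t}) +
        gmtPer (A (φ₀ i + N)) (S₂ (φ₀ i + N)) (U ∩ {x | t < f x}) +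
        ENNReal.ofReal (c * deriv (I (φ₀ i)) t) :=
    ae_all_iff.2 fun i => gmtPer_glue_level hU hc (hA _) hf hf1 (h₁ _) (h₂ _) (hfin (φ₀ i))
  filter_upwards [hae, hall] with t ht1 ht2 ht
  refine ⟨fun i => ENNReal.ofReal (c * deriv (I (φ₀ i)) t), ?_, fun i => ht2 i ht⟩
  have := (ENNReal.continuous_ofReal.tendsto _).comp ((ht1 ht).const_mul c)
  simpa [Function.comp_def] using this

/-- for all but countably many levels the perimeter does not charge the level set. -/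
theorem gmtPer_level_null {U : Set (E m)} (hU : IsOpen U) (A : E m → Bil m)
    {f : E m → ℝ} (hf : ContinuousOn f U) {S : Set (E m)} (hS : MeasurableSet S) :
    {t : ℝ | gmtPer A S (U ∩ {x | f x < t}) + gmtPer A S (U ∩ {x | t < f x}) ≠ gmtPer A S U}.Countable := by
  have hmono : Monotone (fun s : ℝ => gmtPer A S (U ∩ {x | f x < s})) := by
    intro s s' hss
    refine gmtPer_mono A S (inter_subset_inter_right _ fun x hx => ?_)
    exact lt_of_lt_of_le hx hss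
  refine hmono.countable_not_continuousAt.mono ?_
  intro t ht
  rw [Set.mem_ofPred_eq] at ht ⊢
  intro hcont
  apply ht
  have ho1 : ∀ s, IsOpen (U ∩ {x | f x < s}) := fun s => hf.isOpen_inter_preimage hU isOpen_Iio
  have ho2 : ∀ s, IsOpen (U ∩ {x | s < f x}) := fun s => hf.isOpen_inter_preimage hU isOpen_Ioi
  refine le_antisymm ?_ ?_
  · refine (gmtPer_add_le_union A hS (ho1 t) (ho2 t) ?_).trans
      (gmtPer_mono A S (union_subset inter_subset_left inter_subset_left))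
    rw [disjoint_left]
    rintro x ⟨-, h1⟩ ⟨-, h2⟩
    have h1' : f x < t := h1
    have h2' : t < f x := h2
    exact lt_asymm h1' h2'
  · have hle : ∀ ε : ℝ, 0 < ε → gmtPer A S U ≤
        gmtPer A S (U ∩ {x | f x < t + ε}) + gmtPer A S (U ∩ {x | t < f x}) := by
      intro ε hε
      refine (gmtPer_mono A S ?_).trans (gmtPer_union_le A hS (ho1 (t + ε)) (ho2 t))
      intro x hx
      by_cases h : t < f x
      · exact Or.inr ⟨hx, h⟩
      · exact Or.inl ⟨hx, by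
          have : f x ≤ t := not_lt.1 h
          show f x < t + ε
          linarith⟩
    have hl : Tendsto (fun ε : ℝ => gmtPer A S (U ∩ {x | f x < t + ε}) +
        gmtPer A S (U ∩ {x | t < f x})) (𝓝[>] 0)
        (𝓝 (gmtPer A S (U ∩ {x | f x < t}) + gmtPer A S (U ∩ {x | t < f x}))) := by
      refine Tendsto.add ?_ tendsto_const_nhds
      have h2 : Tendsto (fun ε : ℝ => t + ε) (𝓝[>] 0) (𝓝 t) := by
        have : Tendsto (fun ε : ℝ => t + ε) (𝓝 0) (𝓝 (t + 0)) :=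
          (continuous_const.add continuous_id).tendsto 0
        rw [add_zero] at this
        exact this.mono_left nhdsWithin_le_nhds
      exact hcont.tendsto.comp h2
    exact ge_of_tendsto hl (by
      filter_upwards [self_mem_nhdsWithin] with ε hε
      exact hle ε hε)

end Claimed.Agent.Gmt
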