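import Claimed.Agent.Lib.Gmt.BvIsoDil

/-!
# Lib/Gmt [BvIso = part 2/2 of the former BvIso] [BvIso part B] G1f: constancy, isoperimetric and relative isoperimetric inequalities, scaling.
(architect: helper75)

PLAN OF PROOFS
* `gmtVar_eq_zero_iff_const`: `∇(u_ε) = 0` on `U' ⋐ U` by `lintegral_fderiv_gmtMol_le`; `u_ε` is locally constant, hence constant on
  connected `U'`; let `ε → 0`, exhaust the connected open set `U` by connected open `U' ⋐ U` (or: chain of balls).
* `gmt_sobolev`: `MeasureTheory.eLpNorm_le_eLpNorm_fderiv_one` for `χ_R · u_ε` / directly for `u_ε` when `u` has bounded support;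
  Fatou as `ε → 0`.  `gmt_isoperimetric` is the case `u = χ_S`; if `S` is unbounded with finite volume cut by balls
  (`gmtP_inter_ball_le` and `liminf_r d/dr |S ∩ B_r| = 0` since the integral of the derivative is finite).
* `gmt_rel_isoperimetric_unit` (unit ball): by contradiction and compactness: `S_i` with `min(|S_i ∩ B|, |B \ S_i|) = t_i`,
  `P(S_i; B) ≤ t_i^{(m-1)/m} / i`.  If `t_i ↛ 0`: `gmtP_compactness` in `B` + `gmtP_lsc` + constancy give a contradiction, PROVIDED the
  convergence holds in `L¹(B)` and not only `L¹_loc(B)`; to avoid extension operators use the reflection-free argument: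
  the volume of `S_i` in the annulus `B \ B_{1-η}` is `≤ C η`, uniformly.  If `t_i → 0` use instead the direct proof below.
  RECOMMENDED DIRECT PROOF (no compactness): Poincaré inequality on the ball for `C¹` functions
  `∫_B |u - u_B| ≤ C ∫_B |∇u|` (convexity of `B`: `|u(x)-u(y)| ≤ ∫_0^1 |∇u(x+t(y-x))| |x-y| dt`, change of variables as in GT Lemma 7.16), applied to
  `u_ε` on `B_{1-ε}`, gives `min(|S∩B|,|B\S|) ≤ C P(S;B)` (weak form `gmt_rel_iso_weak`).  The sharp exponent follows from the weak form + `gmt_isoperimetric`: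
  w.l.o.g. `|S ∩ B| ≤ |B|/2`; choose by `integral_deriv_gmtVolB_le` a radius `r ∈ (1/2,1)` with `d/dr|S∩B_r| ≤ 2|S ∩ B| ≤ C P(S;B)`; then
  `|S∩B_r|^{(m-1)/m} ≤ C P(S ∩ B_r) ≤ C P(S;B)`; for the annulus part cover `B \ B_{1/2}` by finitely many bi-Lipschitz images of cubes,
  or simply iterate the argument with balls `B_{1/4}(y) `, `|y| = 3/4`...  ANY proof is welcome; only the statement matters.
* scaling/translation: change of variables in the definition.
-/

set_option autoImplicit false
open scoped ContDiff ENNReal RealInnerProductSpace Topology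
open MeasureTheory Metric Set Filter

namespace Claimed.Agent.Gmt

variable {m : ℕ}

/-- `gmtBd S` is closed, and `S` is a.e. locally trivial off it. -/
theorem isClosed_gmtBd (S : Set (E m)) : IsClosed (gmtBd S) := by
  rw [← isOpen_compl_iff, Metric.isOpen_iff]
  intro x hx
  have hx' : ¬ ∀ r > 0, 0 < volume (S ∩ ball x r) ∧ 0 < volume (ball x r \ S) := hx
  push Not at hx'
  obtain ⟨r, hr, hxr⟩ := hx'
  refine ⟨r / 2, by positivity, fun y hy hyB => ?_⟩
  have hsub : ball y (r / 2) ⊆ ball x r := by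
    intro z hz
    rw [mem_ball] at *
    calc dist z x ≤ dist z y + dist y x := dist_triangle _ _ _
      _ < r / 2 + r / 2 := add_lt_add hz hy
      _ = r := by ring
  obtain ⟨h1, h2⟩ := hyB (r / 2) (by positivity)
  have h3 := hxr (h1.trans_le (measure_mono (inter_subset_inter_right _ hsub)))
  exact absurd (h2.trans_le (measure_mono (sdiff_subset_sdiff_left hsub))) (not_lt.2 h3)

theorem gmtBd_compl {S : Set (E m)} (hS : MeasurableSet S) : gmtBd Sᶜ = gmtBd S := by
  ext x
  show (∀ r > 0, 0 < volume (Sᶜ ∩ ball x r) ∧ 0 < volume (ball x r \ Sᶜ)) ↔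
    ∀ r > 0, 0 < volume (S ∩ ball x r) ∧ 0 < volume (ball x r \ S)
  refine forall₂_congr fun r _ => ?_
  have e1 : Sᶜ ∩ ball x r = ball x r \ S := by
    ext y
    simp [and_comm]
  have e2 : ball x r \ Sᶜ = S ∩ ball x r := by
    ext y
    simp [and_comm]
  rw [e1, e2, and_comm]

theorem gmtBd_congr {S S' : Set (E m)} (h : S =ᵐ[volume] S') : gmtBd S = gmtBd S' := by
  ext x
  show (∀ r > 0, 0 < volume (S ∩ ball x r) ∧ 0 < volume (ball x r \ S)) ↔
    ∀ r > 0, 0 < volume (S' ∩ ball x r) ∧ 0 < volume (ball x r \ S')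
  refine forall₂_congr fun r _ => ?_
  have e1 : volume (S ∩ ball x r) = volume (S' ∩ ball x r) :=
    measure_congr (h.inter (ae_eq_refl _))
  have e2 : volume (ball x r \ S) = volume (ball x r \ S') :=
    measure_congr ((ae_eq_refl (ball x r : Set (E m))).diff h)
  rw [e1, e2]

theorem gmtP_empty_left (U : Set (E m)) : gmtP (∅ : Set (E m)) U = 0 := by
  unfold gmtP gmtPer
  simp

/-- the perimeter vanishes where `S` is trivial. -/
theorem gmtP_eq_zero_of_null {S U : Set (E m)} (hS : MeasurableSet S)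
    (h : volume (S ∩ U) = 0 ∨ volume (U \ S) = 0) : gmtP S U = 0 := by
  have key : ∀ S' : Set (E m), MeasurableSet S' → volume (S' ∩ U) = 0 → gmtP S' U = 0 := by
    intro S' hS' h0
    rw [gmtP_congr hS' MeasurableSet.empty (S' := ∅), gmtP_empty_left]
    rw [empty_inter]
    exact ae_eq_empty.2 h0
  rcases h with h | h
  · exact key S hS h
  · rw [← gmtP_compl hS]
    refine key _ hS.compl ?_
    have e1 : Sᶜ ∩ U = U \ S := by
      ext y
      simp [and_comm]
    rw [e1]
    exact h

/-- off `gmtBd S` the perimeter vanishes; on it it is positive. -/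
theorem gmtP_ball_pos_iff {S : Set (E m)} (hS : MeasurableSet S) (x : E m) :
    x ∈ gmtBd S ↔ ∀ r > 0, 0 < gmtP S (ball x r) := by
  constructor
  · intro hx r hr
    obtain ⟨C, -, hC⟩ := gmt_rel_iso_weak m
    obtain ⟨h1, h2⟩ := hx r hr
    rw [pos_iff_ne_zero]
    intro h0
    have h3 := hC S x r hS hr
    rw [h0, mul_zero] at h3
    exact absurd (lt_min h1 h2) (not_lt.2 h3)
  · intro h r hr
    by_contra hcon
    have h0 : volume (S ∩ ball x r) = 0 ∨ volume (ball x r \ S) = 0 := by
      by_contra hne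
      push Not at hne
      exact hcon ⟨pos_iff_ne_zero.2 hne.1, pos_iff_ne_zero.2 hne.2⟩
    exact absurd (gmtP_eq_zero_of_null hS h0) (h r hr).ne'

theorem gmtP_biUnion_ball_eq_zero {S : Set (E m)} (hS : MeasurableSet S) (ρ : E m → ℝ)
    (t : Finset (E m)) (h : ∀ x ∈ t, gmtP S (ball x (ρ x)) = 0) :
    gmtP S (⋃ x ∈ t, ball x (ρ x)) = 0 := by
  classical
  induction t using Finset.induction_on with
  | empty =>
    simp only [Finset.notMem_empty, iUnion_of_empty, iUnion_empty]
    exact gmtP_eq_zero_of_null hS (Or.inl (by simp))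
  | insert a t ha ih =>
    rw [Finset.set_biUnion_insert]
    have hop : IsOpen (⋃ x ∈ t, ball x (ρ x)) :=
      isOpen_iUnion fun x => isOpen_iUnion fun _ => isOpen_ball
    have h1 := gmtPer_union_le (fun _ => gmtEu m) hS (isOpen_ball (x := a) (ε := ρ a)) hop
    have h2 : gmtP S (ball a (ρ a)) = 0 := h a (Finset.mem_insert_self _ _)
    have h3 := ih fun x hx => h x (Finset.mem_insert_of_mem hx)
    unfold gmtP at h2 h3 ⊢
    rw [h2, h3, add_zero] at h1
    exact le_antisymm h1 zero_le

theorem gmtP_eq_zero_of_disjoint {S U : Set (E m)} (hS : MeasurableSet S) (hU : IsOpen U)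
    (h : Disjoint U (gmtBd S)) : gmtP S U = 0 := by
  have hloc : ∀ x : E m, ∃ r : ℝ, 0 < r ∧ (x ∈ U → gmtP S (ball x r) = 0) := by
    intro x
    by_cases hx : x ∈ U
    · have hxB : x ∉ gmtBd S := fun hB => (Set.disjoint_left.1 h) hx hB
      rw [gmtP_ball_pos_iff hS] at hxB
      push Not at hxB
      obtain ⟨r, hr, h0⟩ := hxB
      exact ⟨r, hr, fun _ => le_antisymm h0 zero_le⟩
    · exact ⟨1, one_pos, fun h' => absurd h' hx⟩
  choose ρ hρ0 hρ using hloc
  refine le_antisymm ?_ zero_le
  conv_lhs => unfold gmtP gmtPer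
  refine iSup_le fun T => iSup_le fun hT => iSup_le fun h1 => ?_
  obtain ⟨t, htK, hcov⟩ := hT.cpt.elim_nhds_subcover (fun x => ball x (ρ x))
    (fun x _ => ball_mem_nhds x (hρ0 x))
  have hT' : GmtTest (⋃ x ∈ t, ball x (ρ x)) T := ⟨hT.c1, hT.cpt, hcov⟩
  have h2 := integral_le_gmtPer (S := S) hT' h1
  have h3 := gmtP_biUnion_ball_eq_zero hS ρ t fun x hx => hρ x (hT.sub (htK x hx))
  unfold gmtP at h3
  rwa [h3] at h2

end Claimed.Agent.Gmt
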