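import Claimed.Agent.Lib.Gmt.BvIsoOne

/-!
# Lib/Gmt [BvIsoA = part 4/4 of the former BvIsoA] [BvIso part A] G1f: constancy, isoperimetric and relative isoperimetric inequalities, scaling.
(architect: helper75)

PLAN OF PROOFS
* `gmtVar_eq_zero_iff_const`: `∇(u_ε) = 0` on `U' ⋐ U` by `lintegral_fderiv_gmtMol_le`; `u_ε` is locally constant, hence constant on
  connected `U'`; let `ε → 0`, exhaust the connected open set `U` by connected open `U' ⋐ U` (or: chain of balls).
* `gmt_sobolev`: `MeasureTheory.eLpNorm_le_eLpNorm_fderiv_one` for `χ_R · u_ε` / directly for `u_ε` when `u` has bounded support;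
  Fatou as `ε → 0`.  `gmt_isoperimetric` is the case `u = χ_S`; if `S` is unbounded with finite volume cut by balls
  (`gmtP_inter_ball_le` and `liminf_r d/dr |S ∩ B_r| = 0` since the integral of the derivative is finite).
* `gmt_rel_iso_weak` (the sharp exponent is NOT needed anywhere): Poincaré inequality on the ball for `C¹` functions
  `∫_B |u - u_B| ≤ C r ∫_B |∇u|` (convexity of `B`: `|u(x)-u(y)| ≤ ∫_0^1 |∇u(x+t(y-x))| |x-y| dt`, change of variables as in GT Lemma 7.16), applied to
  `u_ε = gmtMol ε χ_S` on `B_{r-ε}`, `ε → 0`: `∫_B |χ_S - a| ≤ C r P(S;B)` for some `a ∈ [0,1]`, and `∫_B |χ_S - a| ≥ min(|S∩B|,|B\S|)/2`... (`= (1-a)|S∩B| + a|B\S| ≥ min`).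
* scaling/translation: change of variables in the definition.
-/

set_option autoImplicit false
open scoped ContDiff ENNReal RealInnerProductSpace Topology
open MeasureTheory Metric Set Filter

namespace Claimed.Agent.Gmt

variable {m : ℕ}

/-- product form of the weak relative isoperimetric inequality on concentric balls. -/
theorem gmt_rel_iso_prod_aux {S : Set (E m)} (hS : MeasurableSet S) (x : E m) {r' r : ℝ}
    (hr : r' < r) :
    volume (ball x r' \ S) * volume (S ∩ ball x r') ≤
      ENNReal.ofReal (2 * r') * gmtP S (ball x r) * volume (ball (0 : E m) (2 * r')) := by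
  have hB : MeasurableSet (ball x r') := isOpen_ball.measurableSet
  have hchi : Measurable (gmtChi S) := measurable_const.indicator hS
  rw [gmtP_eq_gmtVar hS]
  refine le_trans ?_ (lintegral_lintegral_sub_ball_le hchi (gmtChi_locallyIntegrable hS) x hr)
  calc volume (ball x r' \ S) * volume (S ∩ ball x r')
      = ∫⁻ _ in ball x r' \ S, ∫⁻ _ in S ∩ ball x r', 1 := by
        rw [setLIntegral_const, setLIntegral_const, one_mul, mul_comm]
    _ ≤ ∫⁻ y in ball x r' \ S, ∫⁻ y' in S ∩ ball x r', ‖gmtChi S y' - gmtChi S y‖ₑ := by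
        refine setLIntegral_mono' (hB.diff hS) fun y hy => ?_
        refine setLIntegral_mono' (hS.inter hB) fun y' hy' => ?_
        simp [gmtChi, hy.2, hy'.1]
    _ ≤ ∫⁻ y in ball x r' \ S, ∫⁻ y' in ball x r', ‖gmtChi S y' - gmtChi S y‖ₑ :=
        lintegral_mono fun y => lintegral_mono_set inter_subset_right
    _ ≤ ∫⁻ y in ball x r', ∫⁻ y' in ball x r', ‖gmtChi S y' - gmtChi S y‖ₑ :=
        lintegral_mono_set sdiff_subset

theorem gmt_ball_eq_iUnion (x : E m) (r : ℝ) :
    ball x r = ⋃ n : ℕ, ball x (r - 1 / ((n : ℝ) + 1)) := by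
  ext y
  rw [mem_iUnion]
  constructor
  · intro hy
    rw [mem_ball] at hy
    obtain ⟨n, hn⟩ := exists_nat_one_div_lt (sub_pos.2 hy)
    exact ⟨n, by rw [mem_ball]; linarith⟩
  · rintro ⟨n, hn⟩
    rw [mem_ball] at hn ⊢
    have : (0 : ℝ) < 1 / ((n : ℝ) + 1) := by positivity
    linarith

theorem gmt_ball_mono (x : E m) (r : ℝ) :
    Monotone fun n : ℕ => ball x (r - 1 / ((n : ℝ) + 1)) := by
  intro n k hnk
  apply ball_subset_ball
  have : 1 / ((k : ℝ) + 1) ≤ 1 / ((n : ℝ) + 1) := by
    apply one_div_le_one_div_of_le (by positivity)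
    have : (n : ℝ) ≤ k := by exact_mod_cast hnk
    linarith
  linarith

/-- product form of the weak relative isoperimetric inequality. -/
theorem gmt_rel_iso_prod {S : Set (E m)} (hS : MeasurableSet S) (x : E m) (r : ℝ) :
    volume (ball x r \ S) * volume (S ∩ ball x r) ≤
      ENNReal.ofReal (2 * r) * gmtP S (ball x r) * volume (ball (0 : E m) (2 * r)) := by
  have h1 : volume (ball x r \ S) = ⨆ n : ℕ, volume (ball x (r - 1 / ((n : ℝ) + 1)) \ S) := by
    rw [← Monotone.measure_iUnion, ← iUnion_sdiff, ← gmt_ball_eq_iUnion]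
    exact fun n k hnk => sdiff_subset_sdiff_left (gmt_ball_mono x r hnk)
  have h2 : volume (S ∩ ball x r) = ⨆ n : ℕ, volume (S ∩ ball x (r - 1 / ((n : ℝ) + 1))) := by
    rw [← Monotone.measure_iUnion, ← inter_iUnion, ← gmt_ball_eq_iUnion]
    exact fun n k hnk => inter_subset_inter_right _ (gmt_ball_mono x r hnk)
  apply ENNReal.mul_le_of_forall_lt
  intro a ha b hb
  rw [h1, lt_iSup_iff] at ha
  rw [h2, lt_iSup_iff] at hb
  obtain ⟨n, hn⟩ := ha
  obtain ⟨k, hk⟩ := hb
  set N := max n k with hN
  have hlt : r - 1 / ((N : ℝ) + 1) < r := by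
    have : (0 : ℝ) < 1 / ((N : ℝ) + 1) := by positivity
    linarith
  calc a * b ≤ volume (ball x (r - 1 / ((N : ℝ) + 1)) \ S) *
        volume (S ∩ ball x (r - 1 / ((N : ℝ) + 1))) := by
        gcongr
        · exact hn.le.trans (measure_mono
            (sdiff_subset_sdiff_left (gmt_ball_mono x r (le_max_left n k))))
        · exact hk.le.trans (measure_mono
            (inter_subset_inter_right _ (gmt_ball_mono x r (le_max_right n k))))
    _ ≤ _ := gmt_rel_iso_prod_aux hS x hlt
    _ ≤ _ := by
        gcongr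

/-- weak relative isoperimetric inequality (Poincaré) in balls. -/
theorem gmt_rel_iso_weak (m : ℕ) :
    ∃ C > 0, ∀ (S : Set (E m)) (x : E m) (r : ℝ), MeasurableSet S → 0 < r →
      min (volume (S ∩ ball x r)) (volume (ball x r \ S)) ≤
        ENNReal.ofReal (C * r) * gmtP S (ball x r) := by
  refine ⟨2 * (2 * 2 ^ m), by positivity, fun S x r hS hr => ?_⟩
  set a := volume (S ∩ ball x r) with ha
  set b := volume (ball x r \ S) with hb
  set V := volume (ball x r) with hV
  have hV0 : V ≠ 0 := (measure_ball_pos volume x hr).ne'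
  have hVt : V ≠ ⊤ := measure_ball_lt_top.ne
  have hab : a + b = V := by
    rw [ha, hb, hV, inter_comm]
    exact measure_inter_add_sdiff _ hS
  have hvol : volume (ball (0 : E m) (2 * r)) = ENNReal.ofReal (2 ^ m) * V := by
    rw [Measure.addHaar_ball_mul_of_pos volume (0 : E m) two_pos r, hV,
      Measure.addHaar_ball_center volume x r]
    simp
  have hprod := gmt_rel_iso_prod hS x r
  rw [← ha, ← hb, hvol] at hprod
  have hmin : min a b * V ≤ 2 * (b * a) := by
    rw [← hab, mul_add, two_mul]
    refine add_le_add ?_ ?_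
    · exact mul_le_mul_left (min_le_right a b) a
    · rw [mul_comm b a]
      exact mul_le_mul_left (min_le_left a b) b
  have hfin : min a b * V ≤ ENNReal.ofReal (2 * (2 * 2 ^ m) * r) * gmtP S (ball x r) * V := by
    refine hmin.trans ((mul_le_mul_right hprod 2).trans (le_of_eq ?_))
    have e : ENNReal.ofReal (2 * (2 * 2 ^ m) * r) =
        2 * (ENNReal.ofReal (2 * r) * ENNReal.ofReal (2 ^ m)) := by
      rw [← ENNReal.ofReal_mul (by positivity), ← ENNReal.ofReal_ofNat 2,
        ← ENNReal.ofReal_mul (by positivity)]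
      congr 1
      ring
    rw [e]
    ring
  exact (ENNReal.mul_le_mul_iff_left hV0 hVt).1 hfin

end Claimed.Agent.Gmt
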