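import Claimed.Agent.Lib.Gmt.BvIsoA

/-!
# Lib/Gmt [BvIsoDil = part 1/2 of the former BvIso] [BvIso part B] G1f: constancy, isoperimetric and relative isoperimetric inequalities, scaling.
(architect: helper75)

PLAN OF PROOFS
* `gmtVar_eq_zero_iff_const`: `∇(u_ε) = 0` on `U' ⋐ U` by `lintegral_fderiv_gmtMol_le`; `u_ε` is locally constant, hence constant on
  connected `U'`; let `ε → 0`, exhaust the connected open set `U` by connected open `U' ⋐ U` (or: chain of balls).
* `gmt_sobolev`: `MeasureTheory.eLpNorm_le_eLpNorm_fderiv_one` for `χ_R · u_ε` / directly for `u_ε` when `u` has bounded support;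
  Fatou as `ε → 0`.  `gmt_isoperimetric` is the case `u = χ_S`; if `S` is unbounded with finite volume cut by balls
  (`gmtP_inter_ball_le` and `liminf_r d/dr |S ∩ B_r| = 0` since the integral of the derivative is finite).
* `gmt_rel_isoperimetric_unit` (unit ball): by contradiction and compactness: `S_i` with `min(|S_i ∩ B|, |B \ S_i|) = t_i`,
  `P(S_i; B) ≤ t_i^{(m-1)/m} / i`.  If `t_i ↛ 0`: `gmtP_compactness` in `B` + `gmtP_lsc` + constancy give a contradiction, PROVIDED the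
  convergence holds in `L¹(B)` and not only `L¹_loc(B)`; to avoid extension operators use the reflection-free argument:
  the volume of `S_i` in the annulus `B \ B_{1-η}` is `≤ C η`, uniformly.  If `t_i → 0` use instead the direct proof below.
  RECOMMENDED DIRECT PROOF (no compactness): Poincaré inequality on the ball for `C¹` functions
  `∫_B |u - u_B| ≤ C ∫_B |∇u|` (convexity of `B`: `|u(x)-u(y)| ≤ ∫_0^1 |∇u(x+t(y-x))| |x-y| dt`, change of variables as in GT Lemma 7.16), applied to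
  `u_ε` on `B_{1-ε}`, gives `min(|S∩B|,|B\S|) ≤ C P(S;B)` (weak form `gmt_rel_iso_weak`).  The sharp exponent follows from the weak form + `gmt_isoperimetric`:
  w.l.o.g. `|S ∩ B| ≤ |B|/2`; choose by `integral_deriv_gmtVolB_le` a radius `r ∈ (1/2,1)` with `d/dr|S∩B_r| ≤ 2|S ∩ B| ≤ C P(S;B)`; then
  `|S∩B_r|^{(m-1)/m} ≤ C P(S ∩ B_r) ≤ C P(S;B)`; for the annulus part cover `B \ B_{1/2}` by finitely many bi-Lipschitz images of cubes,
  or simply iterate the argument with balls `B_{1/4}(y) `, `|y| = 3/4`...  ANY proof is welcome; only the statement matters.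
* scaling/translation: change of variables in the definition.
-/

set_option autoImplicit false
open scoped ContDiff ENNReal RealInnerProductSpace Topology
open MeasureTheory Metric Set Filter

namespace Claimed.Agent.Gmt

variable {m : ℕ}

/-! ### affine changes of variables: the core -/

/-- the divergence is the trace of the derivative. -/
theorem gmtDiv_eq_trace (T : E m → E m) (x : E m) :
    gmtDiv T x = LinearMap.trace ℝ (E m) (fderiv ℝ T x : E m →ₗ[ℝ] E m) := by
  rw [LinearMap.trace_eq_sum_inner _ (EuclideanSpace.basisFun (Fin m) ℝ)]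
  unfold gmtDiv
  refine Finset.sum_congr rfl fun i _ => ?_
  simp [EuclideanSpace.basisFun_apply, EuclideanSpace.inner_single_left]

/-- the affine homeomorphism `y ↦ x + L y`. -/
noncomputable def gmtBidAff (x : E m) (L : E m ≃L[ℝ] E m) : E m ≃ₜ E m :=
  L.toHomeomorph.trans (Homeomorph.addLeft x)

theorem gmtBidAff_apply (x : E m) (L : E m ≃L[ℝ] E m) (y : E m) : gmtBidAff x L y = x + L y := rfl

/-- Piola transform of a vector field. -/
noncomputable def gmtAPull (x : E m) (L : E m ≃L[ℝ] E m) (T : E m → E m) : E m → E m :=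
  fun y => |(L : E m →L[ℝ] E m).det| • L.symm (T (x + L y))

/-- the transformed integrand. -/
noncomputable def gmtAPullA (x : E m) (L : E m ≃L[ℝ] E m) (A : E m → Bil m) : E m → Bil m :=
  fun y => ((L : E m →L[ℝ] E m).det ^ 2) •
    ((A (x + L y)).bilinearComp (ContinuousLinearMap.adjoint (L.symm : E m →L[ℝ] E m))
      (ContinuousLinearMap.adjoint (L.symm : E m →L[ℝ] E m)))

theorem gmtAPull_test (x : E m) (L : E m ≃L[ℝ] E m) {U : Set (E m)} {T : E m → E m}
    (hT : GmtTest ((fun y => x + L y) '' U) T) : GmtTest U (gmtAPull x L T) := by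
  have e : gmtAPull x L T =
      (fun v => |(L : E m →L[ℝ] E m).det| • L.symm v) ∘ (T ∘ gmtBidAff x L) := rfl
  refine ⟨?_, ?_, ?_⟩
  · exact (L.symm.contDiff.comp (hT.c1.comp (contDiff_const.add L.contDiff))).const_smul _
  · rw [e]
    exact (hT.cpt.comp_homeomorph (gmtBidAff x L)).comp_left (by simp)
  · rw [e]
    refine (tsupport_comp_subset (by simp) _).trans ?_
    rw [tsupport_comp_eq_preimage]
    intro y hy
    obtain ⟨y', hy', e'⟩ := hT.sub hy
    have : y' = y := (gmtBidAff x L).injective e'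
    exact this ▸ hy'

theorem gmtDiv_gmtAPull (x : E m) (L : E m ≃L[ℝ] E m) {T : E m → E m} {y : E m}
    (hT : DifferentiableAt ℝ T (x + L y)) :
    gmtDiv (gmtAPull x L T) y = |(L : E m →L[ℝ] E m).det| * gmtDiv T (x + L y) := by
  have h1 : HasFDerivAt (fun y => x + L y) (L : E m →L[ℝ] E m) y :=
    L.hasFDerivAt.const_add x
  have h2 : HasFDerivAt (fun y => T (x + L y)) ((fderiv ℝ T (x + L y)).comp (L : E m →L[ℝ] E m)) y :=
    hT.hasFDerivAt.comp y h1
  have h3 : HasFDerivAt (gmtAPull x L T) (|(L : E m →L[ℝ] E m).det| •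
      ((L.symm : E m →L[ℝ] E m).comp ((fderiv ℝ T (x + L y)).comp (L : E m →L[ℝ] E m)))) y :=
    HasFDerivAt.const_smul (f := fun y => L.symm (T (x + L y)))
      (L.symm.hasFDerivAt.comp y h2) |(L : E m →L[ℝ] E m).det|
  rw [gmtDiv_eq_trace, gmtDiv_eq_trace, h3.fderiv]
  have e : ((|(L : E m →L[ℝ] E m).det| •
      ((L.symm : E m →L[ℝ] E m).comp ((fderiv ℝ T (x + L y)).comp (L : E m →L[ℝ] E m))) :
        E m →L[ℝ] E m) : E m →ₗ[ℝ] E m) =
      |(L : E m →L[ℝ] E m).det| •
        (L.symm.toLinearEquiv.conj (fderiv ℝ T (x + L y) : E m →ₗ[ℝ] E m)) := by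
    ext v
    simp [LinearEquiv.conj_apply]
  rw [e, map_smul, LinearMap.trace_conj', smul_eq_mul]

theorem integral_gmtDiv_gmtAPull (x : E m) (L : E m ≃L[ℝ] E m) {S U : Set (E m)}
    (hS : MeasurableSet S) {T : E m → E m} (hT : GmtTest U T) :
    ∫ y in S, gmtDiv (gmtAPull x L T) y = ∫ z in (fun y => x + L y) '' S, gmtDiv T z := by
  rw [integral_image_eq_integral_abs_det_fderiv_smul volume hS
    (f' := fun _ => (L : E m →L[ℝ] E m))
    (fun y _ => (L.hasFDerivAt.const_add x).hasFDerivWithinAt)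
    ((gmtBidAff x L).injective.injOn)]
  refine integral_congr_ae (Eventually.of_forall fun y => ?_)
  simp only [smul_eq_mul]
  exact gmtDiv_gmtAPull x L (hT.differentiable _)

theorem gmtAPull_adm (x : E m) (L : E m ≃L[ℝ] E m) {A : E m → Bil m} {T : E m → E m}
    (hT : GmtAdm A T) : GmtAdm (gmtAPullA x L A) (gmtAPull x L T) := by
  intro y ξ
  have h := hT (x + L y) (ContinuousLinearMap.adjoint (L.symm : E m →L[ℝ] E m) ξ)
  rw [ContinuousLinearMap.adjoint_inner_right] at h
  simp only [gmtAPull, gmtAPullA, real_inner_smul_left, _root_.smul_apply,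
    ContinuousLinearMap.bilinearComp_apply, smul_eq_mul]
  rw [Real.sqrt_mul (sq_nonneg _), Real.sqrt_sq_eq_abs]
  exact mul_le_mul_of_nonneg_left h (abs_nonneg _)

theorem gmtPer_affine_le (x : E m) (L : E m ≃L[ℝ] E m) (A : E m → Bil m) {S : Set (E m)}
    (hS : MeasurableSet S) (U : Set (E m)) :
    gmtPer A ((fun y => x + L y) '' S) ((fun y => x + L y) '' U) ≤ gmtPer (gmtAPullA x L A) S U := by
  conv_lhs => unfold gmtPer
  refine iSup_le fun T => iSup_le fun hT => iSup_le fun h1 => ?_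
  rw [← integral_gmtDiv_gmtAPull x L hS hT]
  exact integral_le_gmtPer (gmtAPull_test x L hT) (gmtAPull_adm x L h1)

theorem gmtAPullA_gmtAPullA (x : E m) (L : E m ≃L[ℝ] E m) (A : E m → Bil m) :
    gmtAPullA (-L.symm x) L.symm (gmtAPullA x L A) = A := by
  have hadj : ∀ ξ : E m, ContinuousLinearMap.adjoint (L.symm : E m →L[ℝ] E m)
      (ContinuousLinearMap.adjoint (L : E m →L[ℝ] E m) ξ) = ξ := by
    intro ξ
    have := ContinuousLinearMap.adjoint_comp (L : E m →L[ℝ] E m) (L.symm : E m →L[ℝ] E m)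
    have h2 : (L : E m →L[ℝ] E m).comp (L.symm : E m →L[ℝ] E m) = ContinuousLinearMap.id ℝ (E m) := by
      ext v
      simp
    rw [h2] at this
    have h3 := congrArg (fun f : E m →L[ℝ] E m => f ξ) this
    simp only [ContinuousLinearMap.comp_apply] at h3
    rw [← h3]
    refine ext_inner_left ℝ fun v => ?_
    rw [ContinuousLinearMap.adjoint_inner_right]
    simp
  have hdet : (L : E m →L[ℝ] E m).det ≠ 0 := by
    have := L.toLinearEquiv.isUnit_det'
    exact this.ne_zero
  ext z ξ η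
  simp only [gmtAPullA, _root_.smul_apply, ContinuousLinearMap.bilinearComp_apply,
    smul_eq_mul, ContinuousLinearEquiv.symm_symm, ContinuousLinearEquiv.det_coe_symm, hadj]
  have e : x + L (-L.symm x + L.symm z) = z := by simp
  rw [e]
  field_simp

/-- **affine change of variables** for the `A`-perimeter. -/
theorem gmtPer_affine (x : E m) (L : E m ≃L[ℝ] E m) (A : E m → Bil m) {S : Set (E m)}
    (hS : MeasurableSet S) (U : Set (E m)) :
    gmtPer A ((fun y => x + L y) '' S) ((fun y => x + L y) '' U) = gmtPer (gmtAPullA x L A) S U := by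
  refine le_antisymm (gmtPer_affine_le x L A hS U) ?_
  have hS' : MeasurableSet ((fun y => x + L y) '' S) :=
    (gmtBidAff x L).measurableEmbedding.measurableSet_image.2 hS
  have h := gmtPer_affine_le (-L.symm x) L.symm (gmtAPullA x L A) hS' ((fun y => x + L y) '' U)
  rw [gmtAPullA_gmtAPullA] at h
  have e : ∀ V : Set (E m), (fun y => -L.symm x + L.symm y) '' ((fun y => x + L y) '' V) = V := by
    intro V
    rw [image_image]
    simp
  rw [e, e] at h
  exact h

/-! ### translations and dilations -/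

theorem gmtDil_eq_preimage (S : Set (E m)) (x : E m) (ρ : ℝ) :
    gmtDil x ρ S = (fun y : E m => ρ • y) ⁻¹' ((fun y : E m => x + y) ⁻¹' S) := rfl

theorem measurableSet_gmtDil {S : Set (E m)} (hS : MeasurableSet S) (x : E m) (ρ : ℝ) :
    MeasurableSet (gmtDil x ρ S) := by
  have : Measurable fun y : E m => x + ρ • y := by fun_prop
  exact this hS

theorem volume_gmtDil (S : Set (E m)) (x : E m) {ρ : ℝ} (hρ : 0 < ρ) :
    volume (gmtDil x ρ S) = ENNReal.ofReal (ρ ^ m)⁻¹ * volume S := by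
  rw [gmtDil_eq_preimage, Measure.addHaar_preimage_smul volume hρ.ne', measure_preimage_add,
    finrank_euclideanSpace_fin, abs_of_pos (by positivity)]

theorem gmtDil_ball (x y : E m) {ρ : ℝ} (hρ : 0 < ρ) (r : ℝ) :
    gmtDil x ρ (ball (x + ρ • y) (ρ * r)) = ball y r := by
  ext z
  show x + ρ • z ∈ ball (x + ρ • y) (ρ * r) ↔ _
  rw [mem_ball, mem_ball, dist_eq_norm, dist_eq_norm, add_sub_add_left_eq_sub, ← smul_sub,
    norm_smul, Real.norm_eq_abs, abs_of_pos hρ]
  exact mul_lt_mul_iff_right₀ hρ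

theorem gmtDil_gmtDil (S : Set (E m)) (x y : E m) (ρ σ : ℝ) :
    gmtDil y σ (gmtDil x ρ S) = gmtDil (x + ρ • y) (ρ * σ) S := by
  ext z
  show x + ρ • (y + σ • z) ∈ S ↔ x + ρ • y + (ρ * σ) • z ∈ S
  rw [smul_add, smul_smul, add_assoc]

/-- the homothety of ratio `ρ`. -/
noncomputable def gmtHomo (m : ℕ) {ρ : ℝ} (hρ : 0 < ρ) : E m ≃L[ℝ] E m :=
  ContinuousLinearEquiv.equivOfInverse (ρ • ContinuousLinearMap.id ℝ (E m))
    (ρ⁻¹ • ContinuousLinearMap.id ℝ (E m))
    (fun v => by simp [smul_smul, mul_inv_cancel₀ hρ.ne'])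
    (fun v => by simp [smul_smul, inv_mul_cancel₀ hρ.ne'])

theorem gmtHomo_apply {ρ : ℝ} (hρ : 0 < ρ) (v : E m) : gmtHomo m hρ v = ρ • v := rfl

theorem gmtHomo_symm_apply {ρ : ℝ} (hρ : 0 < ρ) (v : E m) : (gmtHomo m hρ).symm v = ρ⁻¹ • v := rfl

theorem gmtHomo_det {ρ : ℝ} (hρ : 0 < ρ) : (gmtHomo m hρ : E m →L[ℝ] E m).det = ρ ^ m := by
  have e : ((gmtHomo m hρ : E m →L[ℝ] E m) : E m →ₗ[ℝ] E m) = ρ • LinearMap.id := by
    ext v
    simp [gmtHomo_apply]
  unfold ContinuousLinearMap.det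
  rw [e, LinearMap.det_smul, finrank_euclideanSpace_fin]
  simp

theorem gmtHomo_adjoint {ρ : ℝ} (hρ : 0 < ρ) (ξ : E m) :
    ContinuousLinearMap.adjoint ((gmtHomo m hρ).symm : E m →L[ℝ] E m) ξ = ρ⁻¹ • ξ := by
  refine ext_inner_left ℝ fun v => ?_
  rw [ContinuousLinearMap.adjoint_inner_right]
  show ⟪(gmtHomo m hρ).symm v, ξ⟫ = _
  rw [gmtHomo_symm_apply, real_inner_smul_left, real_inner_smul_right]

theorem gmtDil_image (S : Set (E m)) (x : E m) {ρ : ℝ} (hρ : 0 < ρ) :
    (fun y => x + gmtHomo m hρ y) '' (gmtDil x ρ S) = S :=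
  image_preimage_eq S (gmtBidAff x (gmtHomo m hρ)).surjective

/-- scaling of the `A`-perimeter. -/
theorem gmtPer_gmtDil (A : E m → Bil m) {S : Set (E m)} (hS : MeasurableSet S) (U : Set (E m))
    (x : E m) {ρ : ℝ} (hρ : 0 < ρ) :
    gmtPer (fun y => A (x + ρ • y)) (gmtDil x ρ S) (gmtDil x ρ U) * ENNReal.ofReal (ρ ^ m) =
      ENNReal.ofReal ρ * gmtPer A S U := by
  have h := gmtPer_affine x (gmtHomo m hρ) A (measurableSet_gmtDil hS x ρ) (gmtDil x ρ U)
  rw [gmtDil_image, gmtDil_image] at h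
  set c : ℝ := ρ ^ m * ρ⁻¹ with hc
  have hc0 : 0 < c := by positivity
  have hval : ∀ y ξ, gmtAPullA x (gmtHomo m hρ) A y ξ ξ = c ^ 2 * A (x + ρ • y) ξ ξ := by
    intro y ξ
    simp only [gmtAPullA, _root_.smul_apply, ContinuousLinearMap.bilinearComp_apply, smul_eq_mul,
      gmtHomo_adjoint, gmtHomo_det, gmtHomo_apply, map_smul]
    rw [hc]
    ring
  have h1 : gmtPer (gmtAPullA x (gmtHomo m hρ) A) (gmtDil x ρ S) (gmtDil x ρ U) ≤
      ENNReal.ofReal c * gmtPer (fun y => A (x + ρ • y)) (gmtDil x ρ S) (gmtDil x ρ U) :=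
    gmtPer_le_mul_gmtPer hc0 (fun y _ ξ => (hval y ξ).le) _
  have h2 : gmtPer (fun y => A (x + ρ • y)) (gmtDil x ρ S) (gmtDil x ρ U) ≤
      ENNReal.ofReal c⁻¹ * gmtPer (gmtAPullA x (gmtHomo m hρ) A) (gmtDil x ρ S) (gmtDil x ρ U) :=
    gmtPer_le_mul_gmtPer (inv_pos.2 hc0) (fun y _ ξ => by
      rw [hval]
      apply le_of_eq
      field_simp) _
  have h3 : gmtPer (gmtAPullA x (gmtHomo m hρ) A) (gmtDil x ρ S) (gmtDil x ρ U) =
      ENNReal.ofReal c * gmtPer (fun y => A (x + ρ • y)) (gmtDil x ρ S) (gmtDil x ρ U) := by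
    refine le_antisymm h1 ?_
    calc ENNReal.ofReal c * gmtPer (fun y => A (x + ρ • y)) (gmtDil x ρ S) (gmtDil x ρ U)
        ≤ ENNReal.ofReal c * (ENNReal.ofReal c⁻¹ *
          gmtPer (gmtAPullA x (gmtHomo m hρ) A) (gmtDil x ρ S) (gmtDil x ρ U)) := by
          gcongr
      _ = _ := by
          rw [← mul_assoc, ← ENNReal.ofReal_mul hc0.le, mul_inv_cancel₀ hc0.ne']
          simp
  rw [h, h3, ← mul_assoc, ← ENNReal.ofReal_mul hρ.le, mul_comm]
  congr 2
  rw [hc]
  field_simp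

/-- scaling of the perimeter: `P((S-x)/ρ; (U-x)/ρ) = ρ^{1-m} P(S;U)`. -/
theorem gmtP_gmtDil {S : Set (E m)} (hS : MeasurableSet S) (U : Set (E m)) (x : E m) {ρ : ℝ}
    (hρ : 0 < ρ) :
    gmtP (gmtDil x ρ S) (gmtDil x ρ U) * ENNReal.ofReal (ρ ^ m) =
      ENNReal.ofReal ρ * gmtP S U :=
  gmtPer_gmtDil (fun _ => gmtEu m) hS U x hρ

theorem gmtBd_gmtDil (S : Set (E m)) (x : E m) {ρ : ℝ} (hρ : 0 < ρ) :
    gmtBd (gmtDil x ρ S) = gmtDil x ρ (gmtBd S) := by
  have hpos : ENNReal.ofReal (ρ ^ m)⁻¹ ≠ 0 := by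
    rw [Ne, ENNReal.ofReal_eq_zero, not_le]
    positivity
  have key : ∀ (z : E m) (r : ℝ),
      (0 < volume (gmtDil x ρ S ∩ ball z r) ∧ 0 < volume (ball z r \ gmtDil x ρ S)) ↔
      (0 < volume (S ∩ ball (x + ρ • z) (ρ * r)) ∧ 0 < volume (ball (x + ρ • z) (ρ * r) \ S)) := by
    intro z r
    have e1 : gmtDil x ρ S ∩ ball z r = gmtDil x ρ (S ∩ ball (x + ρ • z) (ρ * r)) := by
      rw [← gmtDil_ball x z hρ r]
      rfl
    have e2 : ball z r \ gmtDil x ρ S = gmtDil x ρ (ball (x + ρ • z) (ρ * r) \ S) := by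
      rw [← gmtDil_ball x z hρ r]
      rfl
    rw [e1, e2, volume_gmtDil _ x hρ, volume_gmtDil _ x hρ]
    simp only [pos_iff_ne_zero, Ne, mul_eq_zero, hpos, false_or]
  ext z
  show (∀ r > 0, _) ↔ (∀ r > 0, _)
  constructor
  · intro h r hr
    have := (key z (r / ρ)).1 (h (r / ρ) (by positivity))
    rwa [mul_div_cancel₀ r hρ.ne'] at this
  · intro h r hr
    exact (key z r).2 (h (ρ * r) (by positivity))

/-- behaviour of the `A`-perimeter under an invertible linear map `L`: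
`Per_{A}(L S; L U) = Per_{A_L}(S; U)` with `A_L x ξ η = (det L)² A (L x) (L⁻ᵀ ξ) (L⁻ᵀ η)`. -/
theorem gmtPer_linear (L : E m ≃L[ℝ] E m) (A : E m → Bil m) {S : Set (E m)}
    (hS : MeasurableSet S) (U : Set (E m)) :
    gmtPer A (L '' S) (L '' U) =
      gmtPer (fun x => ((L : E m →L[ℝ] E m).det ^ 2) •
        ((A (L x)).bilinearComp (ContinuousLinearMap.adjoint (L.symm : E m →L[ℝ] E m))
          (ContinuousLinearMap.adjoint (L.symm : E m →L[ℝ] E m)))) S U := by
  have h := gmtPer_affine 0 L A hS U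
  unfold gmtAPullA at h
  simp only [zero_add] at h
  exact h

/-- invariance under linear isometries. -/
theorem gmtP_isometry (L : E m ≃ₗᵢ[ℝ] E m) {S : Set (E m)} (hS : MeasurableSet S)
    (U : Set (E m)) :
    gmtP (L '' S) (L '' U) = gmtP S U := by
  have h := gmtPer_linear L.toContinuousLinearEquiv (fun _ => gmtEu m) hS U
  have hdet : (L.toContinuousLinearEquiv : E m →L[ℝ] E m).det ^ 2 = 1 := by
    have h1 := L.toLinearIsometry.normDet_eq_one
    rw [LinearMap.normDet_eq_abs_det] at h1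
    rw [← sq_abs]
    have : |(L.toContinuousLinearEquiv : E m →L[ℝ] E m).det| = 1 := h1
    rw [this, one_pow]
  have hadj : ContinuousLinearMap.adjoint
      (L.toContinuousLinearEquiv.symm : E m →L[ℝ] E m) = (L : E m →L[ℝ] E m) := by
    have := L.symm.adjoint_eq_symm
    simpa using this
  have e : (fun _ : E m => ((L.toContinuousLinearEquiv : E m →L[ℝ] E m).det ^ 2) •
      ((gmtEu m).bilinearComp
        (ContinuousLinearMap.adjoint (L.toContinuousLinearEquiv.symm : E m →L[ℝ] E m))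
        (ContinuousLinearMap.adjoint (L.toContinuousLinearEquiv.symm : E m →L[ℝ] E m)))) =
      fun _ => gmtEu m := by
    ext y ξ η
    rw [hdet, hadj]
    simp [gmtEu_apply]
  rw [e] at h
  exact h

end Claimed.Agent.Gmt
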