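import Claimed.Agent.Lib.Gmt.BvSob

/-!
# Lib/Gmt [BvIsoOne = part 3/4 of the former BvIsoA] [BvIso part A] G1f: constancy, isoperimetric and relative isoperimetric inequalities, scaling.
(architect: helper75)

PLAN OF PROOFS
* `gmtVar_eq_zero_iff_const`: `∇(u_ε) = 0` on `U' ⋐ U` by `lintegral_fderiv_gmtMol_le`; `u_ε` is locally constant, hence constant on
  connected `U'`; let `ε → 0`, exhaust the connected open set `U` by connected open `U' ⋐ U` (or: chain of balls).
* `gmt_sobolev`: `MeasureTheory.eLpNorm_le_eLpNorm_fderiv_one` for `χ_R · u_ε` / directly for `u_ε` when `u` has bounded support;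
  Fatou as `ε → 0`.  `gmt_isoperimetric` is the case `u = χ_S`; if `S` is unbounded with finite volume cut by balls
  (`gmtP_inter_ball_le` and `liminf_r d/dr |S ∩ B_r| = 0` since the integral of the derivative is finite).
* `gmt_rel_iso_weak` (the sharp exponent is NOT needed anywhere): Poincaré inequality on the ball for `C¹` functions
  `∫_B |u - u_B| ≤ C r ∫_B |∇u|` (convexity of `B`: `|u(x)-u(y)| ≤ ∫_0^1 |∇u(x+t(y-x))| |x-y| dt`, change of variables as in GT Lemma 7.16), applied to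
  `u_ε = gmtMol ε χ_S` on `B_{r-ε}`, `ε → 0`: `∫_B |χ_S - a| ≤ C r P(S;B)` for some `a ∈ [0,1]`, and `∫_B |χ_S - a| ≥ min(|S∩B|,|B\S|)/2`... (`= (1-a)|S∩B| + a|B\S| ≥ min`).
* scaling/translation: change of variables in the definition.
-/

set_option autoImplicit false
open scoped ContDiff ENNReal RealInnerProductSpace Topology
open MeasureTheory Metric Set Filter

namespace Claimed.Agent.Gmt

variable {m : ℕ}

/-- the arclength parametrisation of `E 1`. -/
noncomputable def gmtLine (t : ℝ) : E 1 := t • (eb 0 : E 1)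

theorem gmtLine_apply (t : ℝ) : gmtLine t 0 = t := by
  simp [gmtLine]

theorem gmtLine_coord (x : E 1) : gmtLine (x 0) = x := by
  ext i
  have : i = 0 := Subsingleton.elim _ _
  subst this
  exact gmtLine_apply _

theorem dist_gmtLine (s t : ℝ) : dist (gmtLine s) (gmtLine t) = |s - t| := by
  rw [dist_eq_norm, gmtLine, gmtLine, ← sub_smul, norm_smul]
  simp

/-- `gmtLine` as a measurable equivalence. -/
noncomputable def gmtLineEquiv : ℝ ≃ᵐ E 1 :=
  (MeasurableEquiv.funUnique (Fin 1) ℝ).symm.trans (MeasurableEquiv.toLp 2 (Fin 1 → ℝ))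

theorem gmtLineEquiv_apply (t : ℝ) : gmtLineEquiv t = gmtLine t := by
  ext i
  have : i = 0 := Subsingleton.elim _ _
  subst this
  rw [gmtLine_apply]
  simp [gmtLineEquiv]

theorem gmtLine_measurePreserving : MeasurePreserving gmtLineEquiv volume volume := by
  have h1 := (EuclideanSpace.volume_preserving_symm_measurableEquiv_toLp (Fin 1)).symm
  have h2 := (volume_preserving_funUnique (Fin 1) ℝ).symm
  exact h2.trans h1

theorem setLIntegral_gmtLine (F : E 1 → ℝ≥0∞) (s : Set (E 1)) :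
    ∫⁻ t in gmtLine ⁻¹' s, F (gmtLine t) = ∫⁻ y in s, F y := by
  have := gmtLine_measurePreserving.setLIntegral_comp_preimage_emb
    gmtLineEquiv.measurableEmbedding F s
  have e : (gmtLineEquiv : ℝ → E 1) = gmtLine := funext gmtLineEquiv_apply
  rwa [e] at this

theorem gmtLine_preimage_ball (x : E 1) (ρ : ℝ) : gmtLine ⁻¹' ball x ρ = ball (x 0) ρ := by
  ext t
  rw [mem_preimage, mem_ball, mem_ball, ← gmtLine_coord x, dist_gmtLine, gmtLine_apply,
    Real.dist_eq]

/-- in dimension one the oscillation is bounded by the variation. -/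
theorem gmt_one_osc_le {w : E 1 → ℝ} (hw : ContDiff ℝ 1 w) (x : E 1) (ρ : ℝ) {y₁ y₂ : E 1}
    (h₁ : y₁ ∈ ball x ρ) (h₂ : y₂ ∈ ball x ρ) :
    ‖w y₁ - w y₂‖ₑ ≤ ∫⁻ y in ball x ρ, ‖fderiv ℝ w y‖ₑ := by
  have hd : ∀ t : ℝ, HasDerivAt (fun t : ℝ => w (gmtLine t))
      (fderiv ℝ w (gmtLine t) (eb 0 : E 1)) t := by
    intro t
    have h1 : HasDerivAt gmtLine (eb 0 : E 1) t := by
      have := (hasDerivAt_id t).smul_const (eb 0 : E 1)
      rw [one_smul] at this
      exact this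
    exact ((hw.differentiable (by norm_num)) (gmtLine t)).hasFDerivAt.comp_hasDerivAt t h1
  have hγ : Continuous gmtLine := by
    unfold gmtLine
    fun_prop
  have hcont : Continuous fun t : ℝ => fderiv ℝ w (gmtLine t) (eb 0 : E 1) :=
    ((hw.continuous_fderiv one_ne_zero).comp hγ).clm_apply continuous_const
  have e : w y₁ - w y₂ = ∫ t in (y₂ 0)..(y₁ 0), fderiv ℝ w (gmtLine t) (eb 0 : E 1) := by
    rw [intervalIntegral.integral_eq_sub_of_hasDerivAt (fun t _ => hd t)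
      (hcont.intervalIntegrable _ _), gmtLine_coord, gmtLine_coord]
  have hsub : uIoc (y₂ 0) (y₁ 0) ⊆ gmtLine ⁻¹' ball x ρ := by
    rw [gmtLine_preimage_ball]
    have a1 : y₁ 0 ∈ ball (x 0) ρ := by
      rw [← gmtLine_preimage_ball, mem_preimage, gmtLine_coord]; exact h₁
    have a2 : y₂ 0 ∈ ball (x 0) ρ := by
      rw [← gmtLine_preimage_ball, mem_preimage, gmtLine_coord]; exact h₂
    refine uIoc_subset_uIcc.trans ?_
    rw [Real.ball_eq_Ioo] at a1 a2 ⊢
    exact ordConnected_Ioo.uIcc_subset a2 a1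
  calc ‖w y₁ - w y₂‖ₑ = ‖∫ t in uIoc (y₂ 0) (y₁ 0), fderiv ℝ w (gmtLine t) (eb 0 : E 1)‖ₑ := by
        rw [e, ← ofReal_norm, ← ofReal_norm, intervalIntegral.norm_intervalIntegral_eq]
    _ ≤ ∫⁻ t in uIoc (y₂ 0) (y₁ 0), ‖fderiv ℝ w (gmtLine t) (eb 0 : E 1)‖ₑ :=
        enorm_integral_le_lintegral_enorm _
    _ ≤ ∫⁻ t in uIoc (y₂ 0) (y₁ 0), ‖fderiv ℝ w (gmtLine t)‖ₑ := by
        refine lintegral_mono fun t => ?_
        refine (ContinuousLinearMap.le_opENorm _ _).trans ?_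
        have : ‖(eb 0 : E 1)‖ₑ = 1 := by
          rw [← ofReal_norm]
          simp
        rw [this, mul_one]
    _ ≤ ∫⁻ t in gmtLine ⁻¹' ball x ρ, ‖fderiv ℝ w (gmtLine t)‖ₑ := lintegral_mono_set hsub
    _ = ∫⁻ y in ball x ρ, ‖fderiv ℝ w y‖ₑ :=
        setLIntegral_gmtLine (fun y => ‖fderiv ℝ w y‖ₑ) (ball x ρ)

/-- relative version in dimension one. -/
theorem gmt_rel_isoperimetric_one (S : Set (E 1)) (hS : MeasurableSet S) (x : E 1) (r : ℝ)
    (h0 : volume (S ∩ ball x r) ≠ 0) (h1 : volume (ball x r \ S) ≠ 0) :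
    1 ≤ gmtP S (ball x r) := by
  have hloc := gmtChi_locallyIntegrable hS
  have hae := gmtMol_tendsto_ae hloc
  obtain ⟨y₁, hy₁, hl₁⟩ := Measure.exists_mem_of_measure_ne_zero_of_ae h0 (ae_restrict_of_ae hae)
  obtain ⟨y₂, hy₂, hl₂⟩ := Measure.exists_mem_of_measure_ne_zero_of_ae h1 (ae_restrict_of_ae hae)
  have e1 : gmtChi S y₁ = 1 := by simp [gmtChi, hy₁.1]
  have e2 : gmtChi S y₂ = 0 := by simp [gmtChi, hy₂.2]
  rw [e1] at hl₁
  rw [e2] at hl₂
  have d1 : dist y₁ x < r := hy₁.2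
  have d2 : dist y₂ x < r := hy₂.1
  obtain ⟨ρ, hρ1, hρ2⟩ := exists_between (max_lt d1 d2)
  have hlim : Tendsto (fun ε => ‖gmtMol ε (gmtChi S) y₁ - gmtMol ε (gmtChi S) y₂‖ₑ) (𝓝[>] 0)
      (𝓝 ‖(1 : ℝ) - 0‖ₑ) := (continuous_enorm.tendsto _).comp (hl₁.sub hl₂)
  have h1' : ‖(1 : ℝ) - 0‖ₑ = 1 := by simp
  rw [h1'] at hlim
  refine le_of_tendsto hlim ?_
  have hpos : 0 < r - ρ := by linarith
  filter_upwards [Ioo_mem_nhdsGT hpos] with ε hε
  have hw : ContDiff ℝ 1 (gmtMol ε (gmtChi S)) :=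
    (gmtMol_contDiff hε.1 hloc).of_le (by exact_mod_cast le_top)
  refine (gmt_one_osc_le hw x ρ (lt_of_le_of_lt (le_max_left _ _) hρ1)
    (lt_of_le_of_lt (le_max_right _ _) hρ1)).trans ?_
  rw [gmtP_eq_gmtVar hS]
  refine lintegral_fderiv_gmtMol_le hε.1 hloc isOpen_ball ?_
  refine (Metric.thickening_ball x ε ρ).trans (ball_subset_ball ?_)
  linarith [hε.2]

/-- in dimension one a set of positive finite measure has perimeter at least `2` (we only record `≥ 1`). -/
theorem gmt_isoperimetric_one (S : Set (E 1)) (hS : MeasurableSet S) (h0 : volume S ≠ 0)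
    (h1 : volume S ≠ ⊤) : 1 ≤ gmtP S univ := by
  have hU : (⋃ n : ℕ, ball (0 : E 1) n) = univ := by
    refine eq_univ_of_forall fun x => ?_
    obtain ⟨n, hn⟩ := exists_nat_gt ‖x‖
    exact mem_iUnion.2 ⟨n, by simpa using hn⟩
  obtain ⟨n₁, hn₁⟩ : ∃ n : ℕ, volume (S ∩ ball (0 : E 1) n) ≠ 0 := by
    by_contra hcon
    push Not at hcon
    apply h0
    have : S = ⋃ n : ℕ, S ∩ ball (0 : E 1) n := by rw [← inter_iUnion, hU, inter_univ]
    rw [this]
    exact measure_iUnion_null hcon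
  have hc : volume Sᶜ ≠ 0 := by
    intro hc
    have : volume (univ : Set (E 1)) ≤ volume S + volume Sᶜ := by
      rw [← union_compl_self S]
      exact measure_union_le _ _
    rw [hc, add_zero, measure_univ_of_isAddLeftInvariant] at this
    exact h1 (top_le_iff.1 this)
  obtain ⟨n₂, hn₂⟩ : ∃ n : ℕ, volume (ball (0 : E 1) n \ S) ≠ 0 := by
    by_contra hcon
    push Not at hcon
    apply hc
    have : Sᶜ = ⋃ n : ℕ, ball (0 : E 1) n \ S := by
      rw [← iUnion_sdiff, hU, compl_eq_univ_sdiff]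
    rw [this]
    exact measure_iUnion_null hcon
  have hb1 : ball (0 : E 1) n₁ ⊆ ball (0 : E 1) (max n₁ n₂ : ℕ) :=
    ball_subset_ball (by exact_mod_cast le_max_left _ _)
  have hb2 : ball (0 : E 1) n₂ ⊆ ball (0 : E 1) (max n₁ n₂ : ℕ) :=
    ball_subset_ball (by exact_mod_cast le_max_right _ _)
  refine (gmt_rel_isoperimetric_one S hS 0 (max n₁ n₂ : ℕ) ?_ ?_).trans
    (gmtPer_mono _ S (subset_univ _))
  · exact fun h => hn₁ (measure_mono_null (inter_subset_inter_right _ hb1) h)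
  · exact fun h => hn₂ (measure_mono_null (sdiff_subset_sdiff_left hb2) h)

end Claimed.Agent.Gmt
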