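import Claimed.Agent.Lib.Gmt.BvBasic

/-!
# Lib/Gmt G1b: mollification of `BV` functions.   (architect + prover: helper75)   PROVED, no `sorry`.

`gmtMol ε u = ρ_ε * u` with the normalised `ContDiffBump` of radii `ε/2 < ε` (support `= ball 0 ε`).

CONTENT: `gmtBump_props`, `gmtMol_contDiff`, `fderiv_gmtMol`, `gmtMol_mem_Icc`, `gmtMol_congr`, `gmtMol_tendsto_ae` (Lebesgue points),
`gmtMol_tendsto` (`L¹(K)` convergence, BOUNDED `u`), `gmtMol_tendsto_of_continuous`, `GmtTest.translate`, `integral_gmtMol_mul_eq` (Fubini: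
`∫ u_ε g = ∫ ρ(z) ∫ u(y) g(y+z) dy dz`), `integral_gmtMol_mul_le` (averaging principle: this replaces the mollification of test fields),
`gmtVar_gmtMol_le`, `lintegral_fderiv_gmtMol_le`, `lintegral_translate_sub_le`, `lintegral_gmtMol_sub_le`.
REMOVED (not needed): `gmtMolV` and its lemmas, `gmtVar_eq_iSup_smooth`, `integral_gmtMol_mul`.  To approximate continuous fields
uniformly by smooth test fields use `gmt_exists_section` (`BvTools.lean`).
-/

set_option autoImplicit false
open scoped ContDiff ENNReal RealInnerProductSpace Topology Convolution Pointwise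
open MeasureTheory Metric Set Filter

namespace Claimed.Agent.Gmt

variable {m : ℕ}

/-- the bump of radii `ε/2 < ε`. -/
noncomputable def gmtBumpB (m : ℕ) {ε : ℝ} (h : 0 < ε) : ContDiffBump (0 : E m) :=
  ⟨ε / 2, ε, by positivity, by linarith⟩

open Classical in
/-- the standard mollifier `ρ_ε` (zero for `ε ≤ 0`). -/
noncomputable def gmtBump (m : ℕ) (ε : ℝ) : E m → ℝ :=
  if h : 0 < ε then
    (⟨ε / 2, ε, by positivity, by linarith⟩ : ContDiffBump (0 : E m)).normed volume
  else 0

/-- mollification of scalar functions. -/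
noncomputable def gmtMol (ε : ℝ) (u : E m → ℝ) (x : E m) : ℝ := ∫ y, gmtBump m ε (x - y) * u y

theorem gmtBump_eq {ε : ℝ} (hε : 0 < ε) : gmtBump m ε = (gmtBumpB m hε).normed volume := by
  unfold gmtBump gmtBumpB
  rw [dif_pos hε]

theorem gmtBump_props {ε : ℝ} (hε : 0 < ε) :
    ContDiff ℝ ∞ (gmtBump m ε) ∧ (∀ x, 0 ≤ gmtBump m ε x) ∧ (∀ x, gmtBump m ε (-x) = gmtBump m ε x) ∧
      Function.support (gmtBump m ε) = ball 0 ε ∧ ∫ x, gmtBump m ε x = 1 := by
  rw [gmtBump_eq hε]
  exact ⟨(gmtBumpB m hε).contDiff_normed, (gmtBumpB m hε).nonneg_normed,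
    (gmtBumpB m hε).normed_neg, (gmtBumpB m hε).support_normed_eq, (gmtBumpB m hε).integral_normed⟩

theorem gmtBump_hasCompactSupport {ε : ℝ} (hε : 0 < ε) : HasCompactSupport (gmtBump m ε) := by
  rw [gmtBump_eq hε]
  exact (gmtBumpB m hε).hasCompactSupport_normed

theorem gmtBump_continuous {ε : ℝ} (hε : 0 < ε) : Continuous (gmtBump m ε) :=
  (gmtBump_props hε).1.continuous

theorem gmtBump_integrable {ε : ℝ} (hε : 0 < ε) : Integrable (gmtBump m ε) :=
  (gmtBump_continuous hε).integrable_of_hasCompactSupport (gmtBump_hasCompactSupport hε)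

theorem gmtBump_eq_zero {ε : ℝ} (hε : 0 < ε) {x : E m} (hx : ε ≤ ‖x‖) : gmtBump m ε x = 0 := by
  have h := (gmtBump_props (m := m) hε).2.2.2.1
  by_contra hne
  have : x ∈ Function.support (gmtBump m ε) := hne
  rw [h, mem_ball_zero_iff] at this
  linarith

/-- `gmtMol` as a Mathlib convolution (bump on the right). -/
theorem gmtMol_eq_conv_right (ε : ℝ) (u : E m → ℝ) :
    gmtMol ε u = (u ⋆[ContinuousLinearMap.mul ℝ ℝ, volume] gmtBump m ε) := by
  ext x
  rw [convolution_def]
  unfold gmtMol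
  congr 1
  ext y
  simp [mul_comm]

/-- `gmtMol` as a Mathlib convolution (bump on the left). -/
theorem gmtMol_eq_conv_left (ε : ℝ) (u : E m → ℝ) :
    gmtMol ε u = (gmtBump m ε ⋆[ContinuousLinearMap.lsmul ℝ ℝ, volume] u) := by
  ext x
  rw [convolution_eq_swap]
  unfold gmtMol
  simp

/-- `u_ε(x) = ∫ ρ(z) u(x - z) dz`. -/
theorem gmtMol_eq_integral_sub (ε : ℝ) (u : E m → ℝ) (x : E m) :
    gmtMol ε u x = ∫ z, gmtBump m ε z * u (x - z) := by
  rw [gmtMol_eq_conv_left, convolution_def]
  simp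

theorem gmtMol_contDiff {ε : ℝ} (hε : 0 < ε) {u : E m → ℝ} (hu : LocallyIntegrable u) :
    ContDiff ℝ ∞ (gmtMol ε u) := by
  rw [gmtMol_eq_conv_right]
  exact (gmtBump_hasCompactSupport hε).contDiff_convolution_right _ hu (gmtBump_props hε).1

/-- the integrand of `gmtMol` is integrable. -/
theorem gmtMol_integrable {ε : ℝ} (hε : 0 < ε) {u : E m → ℝ} (hu : LocallyIntegrable u) (x : E m) :
    Integrable fun y => gmtBump m ε (x - y) * u y := by
  have h1 : Continuous fun y => gmtBump m ε (x - y) :=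
    (gmtBump_continuous hε).comp (continuous_const.sub continuous_id)
  have h2 : HasCompactSupport fun y => gmtBump m ε (x - y) := by
    apply HasCompactSupport.of_support_subset_isCompact (isCompact_closedBall x ε)
    intro y hy
    by_contra h
    apply hy
    apply gmtBump_eq_zero hε
    rw [mem_closedBall, dist_eq_norm, not_le, norm_sub_rev] at h
    exact h.le
  have := gmt_integrable_mul (U := univ) (hu.locallyIntegrableOn univ) h1 h2 (subset_univ _)
  simpa [mul_comm] using this

theorem integral_gmtBump_sub {ε : ℝ} (hε : 0 < ε) (x : E m) : ∫ y, gmtBump m ε (x - y) = 1 := by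
  rw [integral_sub_left_eq_self (gmtBump m ε) volume x]
  exact (gmtBump_props hε).2.2.2.2

theorem gmtMol_mem_Icc {ε : ℝ} (hε : 0 < ε) {u : E m → ℝ} (hu : LocallyIntegrable u) {a b : ℝ}
    (h : ∀ᵐ x, u x ∈ Icc a b) (x : E m) : gmtMol ε u x ∈ Icc a b := by
  have hi := gmtMol_integrable hε hu x
  have hρ : Integrable fun y => gmtBump m ε (x - y) :=
    (gmtBump_integrable hε).comp_sub_left x
  constructor
  · have : a = ∫ y, gmtBump m ε (x - y) * a := by
      rw [integral_mul_const, integral_gmtBump_sub hε, one_mul]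
    rw [this]
    refine integral_mono_ae (hρ.mul_const a) hi ?_
    filter_upwards [h] with y hy
    exact mul_le_mul_of_nonneg_left hy.1 ((gmtBump_props hε).2.1 _)
  · have : b = ∫ y, gmtBump m ε (x - y) * b := by
      rw [integral_mul_const, integral_gmtBump_sub hε, one_mul]
    rw [this]
    refine integral_mono_ae hi (hρ.mul_const b) ?_
    filter_upwards [h] with y hy
    exact mul_le_mul_of_nonneg_left hy.2 ((gmtBump_props hε).2.1 _)

/-- the value at `x` only depends on `u` in `ball x ε`. -/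
theorem gmtMol_congr {ε : ℝ} {u v : E m → ℝ} {x : E m}
    (h : u =ᵐ[volume.restrict (ball x ε)] v) : gmtMol ε u x = gmtMol ε v x := by
  unfold gmtMol
  apply integral_congr_ae
  filter_upwards [ae_imp_of_ae_restrict h] with y hy
  by_cases hyb : y ∈ ball x ε
  · rw [hy hyb]
  · rcases lt_or_ge 0 ε with hε | hε
    · have : gmtBump m ε (x - y) = 0 := by
        apply gmtBump_eq_zero hε
        rw [mem_ball, dist_eq_norm, not_lt, norm_sub_rev] at hyb
        exact hyb
      simp [this]
    · have : gmtBump m ε = 0 := by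
        unfold gmtBump
        rw [dif_neg (not_lt.2 hε)]
      simp [this]

/-- a.e. convergence (Lebesgue points). -/
theorem gmtMol_tendsto_ae {u : E m → ℝ} (hu : LocallyIntegrable u) :
    ∀ᵐ x, Tendsto (fun ε => gmtMol ε u x) (𝓝[>] 0) (𝓝 (u x)) := by
  classical
  set φ : ℝ → ContDiffBump (0 : E m) := fun ε =>
    if h : 0 < ε then gmtBumpB m h else gmtBumpB m one_pos with hφ
  have hφε : ∀ ε (h : 0 < ε), φ ε = gmtBumpB m h := fun ε h => by simp [hφ, h]
  have h1 : Tendsto (fun ε => (φ ε).rOut) (𝓝[>] 0) (𝓝 0) := by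
    have : Tendsto (fun ε : ℝ => ε) (𝓝[>] 0) (𝓝 0) := tendsto_nhdsWithin_of_tendsto_nhds tendsto_id
    refine this.congr' ?_
    filter_upwards [self_mem_nhdsWithin] with ε hε
    rw [hφε ε hε]
    rfl
  have h2 : ∀ᶠ ε in 𝓝[>] (0 : ℝ), (φ ε).rOut ≤ 2 * (φ ε).rIn := by
    filter_upwards [self_mem_nhdsWithin] with ε hε
    rw [hφε ε hε]
    show ε ≤ 2 * (ε / 2)
    linarith
  filter_upwards [ContDiffBump.ae_convolution_tendsto_right_of_locallyIntegrable h1 h2 hu] with x hx
  refine hx.congr' ?_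
  filter_upwards [self_mem_nhdsWithin] with ε hε
  rw [gmtMol_eq_conv_left, gmtBump_eq hε, hφε ε hε]


/-- `L¹_loc` convergence for bounded functions. -/
theorem gmtMol_tendsto {u : E m → ℝ} (hu : LocallyIntegrable u) {M : ℝ} (hM : ∀ᵐ x, |u x| ≤ M)
    {K : Set (E m)} (hK : IsCompact K) :
    Tendsto (fun ε => ∫⁻ x in K, ‖gmtMol ε u x - u x‖ₑ) (𝓝[>] 0) (𝓝 0) := by
  have hb : ∀ᵐ x, u x ∈ Icc (-M) M := by
    filter_upwards [hM] with x hx
    exact abs_le.1 hx
  set u' := hu.aestronglyMeasurable.mk u with hu'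
  have hu'm : Measurable u' := hu.aestronglyMeasurable.stronglyMeasurable_mk.measurable
  have heq : u =ᵐ[volume] u' := hu.aestronglyMeasurable.ae_eq_mk
  have key := tendsto_lintegral_filter_of_dominated_convergence (μ := volume.restrict K)
    (l := 𝓝[>] (0 : ℝ)) (F := fun ε x => ‖gmtMol ε u x - u' x‖ₑ) (f := fun _ => 0)
    (fun _ => ENNReal.ofReal (2 * M)) ?_ ?_ ?_ ?_
  · have e : ∀ ε, ∫⁻ x in K, ‖gmtMol ε u x - u x‖ₑ = ∫⁻ x in K, ‖gmtMol ε u x - u' x‖ₑ := by
      intro ε
      apply lintegral_congr_ae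
      apply ae_restrict_of_ae
      filter_upwards [heq] with x hx
      rw [hx]
    simp_rw [e]
    simpa using key
  · filter_upwards [self_mem_nhdsWithin] with ε hε
    exact ((gmtMol_contDiff hε hu).continuous.measurable.sub hu'm).enorm
  · filter_upwards [self_mem_nhdsWithin] with ε hε
    apply ae_restrict_of_ae
    filter_upwards [hb, heq] with x hx hxe
    have h1 := gmtMol_mem_Icc hε hu hb x
    rw [← hxe, ← ofReal_norm, Real.norm_eq_abs]
    apply ENNReal.ofReal_le_ofReal
    rw [abs_le]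
    constructor <;> linarith [h1.1, h1.2, hx.1, hx.2]
  · rw [lintegral_const]
    exact (ENNReal.mul_lt_top ENNReal.ofReal_lt_top (by
      rw [Measure.restrict_apply_univ]; exact hK.measure_lt_top)).ne
  · apply ae_restrict_of_ae
    filter_upwards [gmtMol_tendsto_ae hu, heq] with x hx hxe
    have h1 : Tendsto (fun ε => gmtMol ε u x - u' x) (𝓝[>] 0) (𝓝 0) := by
      rw [← hxe]
      simpa using hx.sub_const (u x)
    simpa using h1.enorm

theorem gmtMol_tendsto_of_continuous {u : E m → ℝ} (hu : Continuous u) {K : Set (E m)}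
    (hK : IsCompact K) : TendstoUniformlyOn (fun ε x => gmtMol ε u x) u (𝓝[>] 0) K := by
  rw [Metric.tendstoUniformlyOn_iff]
  intro η hη
  have hK1 : IsCompact (cthickening 1 K) := hK.cthickening
  have huc : UniformContinuousOn u (cthickening 1 K) :=
    hK1.uniformContinuousOn_of_continuous hu.continuousOn
  obtain ⟨δ, hδ, h⟩ := Metric.uniformContinuousOn_iff.1 huc (η / 2) (by positivity)
  have : Ioo (0 : ℝ) (min δ 1) ∈ 𝓝[>] (0 : ℝ) := Ioo_mem_nhdsGT (lt_min hδ one_pos)
  filter_upwards [this] with ε hε x hx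
  have hε0 : 0 < ε := hε.1
  rw [dist_comm, gmtMol_eq_conv_left, gmtBump_eq hε0]
  refine lt_of_le_of_lt ((gmtBumpB m hε0).dist_normed_convolution_le hu.aestronglyMeasurable
    (ε := η / 2) ?_) (by linarith)
  intro y hy
  have hy' : dist y x < ε := hy
  refine (h y ?_ x (self_subset_cthickening K hx) (hy'.trans (hε.2.trans_le (min_le_left _ _)))).le
  apply mem_cthickening_of_dist_le y x 1 K hx
  exact (hy'.trans (hε.2.trans_le (min_le_right _ _))).le

/-! ### translations of test fields -/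

theorem GmtTest.translate {U' U : Set (E m)} {T : E m → E m} (hT : GmtTest U' T) (z : E m)
    (h : ∀ x ∈ U', x - z ∈ U) : GmtTest U (fun y => T (y + z)) := by
  have e : tsupport (fun y => T (y + z)) = (fun y => y + z) ⁻¹' tsupport T :=
    tsupport_comp_eq_preimage T (Homeomorph.addRight z)
  refine ⟨hT.c1.comp (contDiff_id.add contDiff_const), ?_, ?_⟩
  · exact hT.cpt.comp_homeomorph (Homeomorph.addRight z)
  · rw [e]
    intro y hy
    have := h _ (hT.sub hy)
    simpa using this

theorem gmtDiv_translate (T : E m → E m) (z y : E m) :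
    gmtDiv (fun y => T (y + z)) y = gmtDiv T (y + z) := by
  unfold gmtDiv
  rw [fderiv_comp_add_right]

/-! ### the Fubini identity -/

theorem integral_gmtMol_mul_eq {ε : ℝ} (hε : 0 < ε) {u g : E m → ℝ} (hu : LocallyIntegrable u)
    (hg : Continuous g) (hc : HasCompactSupport g) :
    ∫ x, gmtMol ε u x * g x = ∫ z, gmtBump m ε z * ∫ y, u y * g (y + z) := by
  set K' : Set (E m) := tsupport g + closedBall (0 : E m) ε with hK'
  have hK'c : IsCompact K' := hc.isCompact.add (isCompact_closedBall 0 ε)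
  set u1 : E m → ℝ := K'.indicator u with hu1
  have hu1i : Integrable u1 :=
    (integrable_indicator_iff hK'c.measurableSet).2 (hu.integrableOn_isCompact hK'c)
  obtain ⟨M, hM⟩ := hc.exists_bound_of_continuous hg
  have hint0 : Integrable (fun p : E m × E m => gmtBump m ε p.2 * u1 (p.1 - p.2))
      (volume.prod volume) :=
    (gmtBump_integrable hε).convolution_integrand (ContinuousLinearMap.mul ℝ ℝ) hu1i
  have hint : Integrable (Function.uncurry fun x z : E m => gmtBump m ε z * u (x - z) * g x)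
      (volume.prod volume) := by
    have h1 : Integrable (fun p : E m × E m => gmtBump m ε p.2 * u1 (p.1 - p.2) * g p.1)
        (volume.prod volume) :=
      hint0.mul_bdd (c := M) (hg.comp continuous_fst).aestronglyMeasurable
        (Eventually.of_forall fun p => hM p.1)
    refine h1.congr (Eventually.of_forall fun p => ?_)
    obtain ⟨x, z⟩ := p
    simp only [Function.uncurry_apply_pair]
    by_cases hx : x ∈ tsupport g
    · by_cases hz : ‖z‖ ≤ ε
      · have : x - z ∈ K' := by
          refine ⟨x, hx, -z, ?_, (sub_eq_add_neg x z).symm⟩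
          simpa using hz
        rw [hu1, indicator_of_mem this]
      · rw [gmtBump_eq_zero hε (not_le.1 hz).le]
        simp
    · rw [image_eq_zero_of_notMem_tsupport hx]
      simp
  calc ∫ x, gmtMol ε u x * g x = ∫ x, ∫ z, gmtBump m ε z * u (x - z) * g x := by
        congr 1
        ext x
        rw [gmtMol_eq_integral_sub, integral_mul_const]
    _ = ∫ z, ∫ x, gmtBump m ε z * u (x - z) * g x := integral_integral_swap hint
    _ = ∫ z, gmtBump m ε z * ∫ y, u y * g (y + z) := by
        congr 1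
        ext z
        rw [← integral_const_mul, ← integral_add_right_eq_self _ z]
        congr 1
        ext y
        simp [mul_assoc]

/-- averaging principle. -/
theorem integral_gmtMol_mul_le {ε : ℝ} (hε : 0 < ε) {u g : E m → ℝ} (hu : LocallyIntegrable u)
    (hg : Continuous g) (hc : HasCompactSupport g) {V : ℝ} (hV : 0 ≤ V)
    (h : ∀ z, ‖z‖ < ε → ∫ y, u y * g (y + z) ≤ V) : ∫ x, gmtMol ε u x * g x ≤ V := by
  rw [integral_gmtMol_mul_eq hε hu hg hc]
  by_cases hint : Integrable fun z => gmtBump m ε z * ∫ y, u y * g (y + z)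
  · have e : V = ∫ z, gmtBump m ε z * V := by
      rw [integral_mul_const, (gmtBump_props hε).2.2.2.2, one_mul]
    rw [e]
    refine integral_mono hint ((gmtBump_integrable hε).mul_const V) fun z => ?_
    by_cases hz : ‖z‖ < ε
    · exact mul_le_mul_of_nonneg_left (h z hz) ((gmtBump_props hε).2.1 z)
    · simp [gmtBump_eq_zero hε (not_lt.1 hz)]
  · rw [integral_undef hint]
    exact hV


/-! ### the variation of the mollified function -/

theorem gmtVar_gmtMol_le {ε : ℝ} (hε : 0 < ε) {u : E m → ℝ} (hu : LocallyIntegrable u)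
    {U' U : Set (E m)} (hUU : thickening ε U' ⊆ U) : gmtVar (gmtMol ε u) U' ≤ gmtVar u U := by
  by_cases hfin : gmtVar u U = ⊤
  · rw [hfin]
    exact le_top
  conv_lhs => unfold gmtVar
  refine iSup_le fun T => iSup_le fun hT => iSup_le fun h1 => ?_
  rw [ENNReal.ofReal_le_iff_le_toReal hfin]
  obtain ⟨hc, hcs, -⟩ := continuous_gmtDiv hT
  refine integral_gmtMol_mul_le hε hu hc hcs ENNReal.toReal_nonneg fun z hz => ?_
  have htest : GmtTest U (fun y => T (y + z)) := by
    refine hT.translate z fun x hx => hUU ?_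
    rw [mem_thickening_iff]
    refine ⟨x, hx, ?_⟩
    rw [dist_eq_norm]
    simpa using hz
  have := integral_le_gmtVar (u := u) htest fun x => h1 (x + z)
  rw [ENNReal.ofReal_le_iff_le_toReal hfin] at this
  simpa [gmtDiv_translate] using this

theorem lintegral_fderiv_gmtMol_le {ε : ℝ} (hε : 0 < ε) {u : E m → ℝ} (hu : LocallyIntegrable u)
    {U' U : Set (E m)} (hU' : IsOpen U') (hUU : thickening ε U' ⊆ U) :
    ∫⁻ x in U', ‖fderiv ℝ (gmtMol ε u) x‖ₑ ≤ gmtVar u U := by
  rw [← gmtVar_of_contDiffOn hU'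
    ((gmtMol_contDiff hε hu).of_le (by exact_mod_cast le_top)).contDiffOn]
  exact gmtVar_gmtMol_le hε hu hUU

/-! ### translation estimate -/

theorem enorm_translate_sub_le {w : E m → ℝ} (hw : ContDiff ℝ 1 w) (x z : E m) :
    ‖w (x + z) - w x‖ₑ ≤ ∫⁻ t in Ioc (0 : ℝ) 1, ‖fderiv ℝ w (x + t • z)‖ₑ * ‖z‖ₑ := by
  have hd : ∀ t : ℝ, HasDerivAt (fun t : ℝ => w (x + t • z)) (fderiv ℝ w (x + t • z) z) t := by
    intro t
    have h1 : HasDerivAt (fun t : ℝ => x + t • z) z t := by
      simpa using ((hasDerivAt_id t).smul_const z).const_add x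
    exact ((hw.differentiable (by norm_num)) (x + t • z)).hasFDerivAt.comp_hasDerivAt t h1
  have hcont : Continuous fun t : ℝ => fderiv ℝ w (x + t • z) z :=
    ((hw.continuous_fderiv one_ne_zero).comp (by fun_prop)).clm_apply continuous_const
  have e : w (x + z) - w x = ∫ t in (0 : ℝ)..1, fderiv ℝ w (x + t • z) z := by
    rw [intervalIntegral.integral_eq_sub_of_hasDerivAt (fun t _ => hd t)
      (hcont.intervalIntegrable 0 1)]
    simp
  rw [e, intervalIntegral.integral_of_le zero_le_one]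
  refine (enorm_integral_le_lintegral_enorm _).trans (lintegral_mono fun t => ?_)
  exact ContinuousLinearMap.le_opENorm _ _

theorem lintegral_translate_sub_le_of_contDiff {w : E m → ℝ} (hw : ContDiff ℝ 1 w)
    {U' V : Set (E m)} (hU' : MeasurableSet U') (hVm : MeasurableSet V) {z : E m}
    (hV : ∀ x ∈ U', ∀ t ∈ Ioc (0 : ℝ) 1, x + t • z ∈ V) :
    ∫⁻ x in U', ‖w (x + z) - w x‖ₑ ≤ ‖z‖ₑ * ∫⁻ x in V, ‖fderiv ℝ w x‖ₑ := by
  have hcf : Continuous (fderiv ℝ w) := hw.continuous_fderiv one_ne_zero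
  calc ∫⁻ x in U', ‖w (x + z) - w x‖ₑ
      ≤ ∫⁻ x in U', ∫⁻ t in Ioc (0 : ℝ) 1, ‖fderiv ℝ w (x + t • z)‖ₑ * ‖z‖ₑ :=
        lintegral_mono fun x => enorm_translate_sub_le hw x z
    _ = ∫⁻ t in Ioc (0 : ℝ) 1, ∫⁻ x in U', ‖fderiv ℝ w (x + t • z)‖ₑ * ‖z‖ₑ := by
        apply lintegral_lintegral_swap
        apply Measurable.aemeasurable
        have : Continuous fun p : E m × ℝ => fderiv ℝ w (p.1 + p.2 • z) :=
          hcf.comp (by fun_prop)
        exact this.measurable.enorm.mul_const _
    _ ≤ ∫⁻ t in Ioc (0 : ℝ) 1, ‖z‖ₑ * ∫⁻ x in V, ‖fderiv ℝ w x‖ₑ := by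
        refine setLIntegral_mono' measurableSet_Ioc fun t ht => ?_
        have hme : Measurable fun x : E m => ‖fderiv ℝ w (x + t • z)‖ₑ :=
          (hcf.comp (continuous_id.add continuous_const)).measurable.enorm
        rw [lintegral_mul_const _ hme, mul_comm]
        refine mul_le_mul_right ?_ _
        rw [← lintegral_indicator hU', ← lintegral_indicator hVm,
          ← lintegral_add_right_eq_self (V.indicator fun x => ‖fderiv ℝ w x‖ₑ) (t • z)]
        refine lintegral_mono fun x => ?_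
        by_cases hx : x ∈ U'
        · rw [indicator_of_mem hx, indicator_of_mem (hV x hx t ht)]
        · rw [indicator_of_notMem hx]
          exact zero_le
    _ = ‖z‖ₑ * ∫⁻ x in V, ‖fderiv ℝ w x‖ₑ := by
        rw [lintegral_const]
        simp

/-- translation estimate. -/
theorem lintegral_translate_sub_le {u : E m → ℝ} (hu : LocallyIntegrable u) {U' U : Set (E m)}
    (hU' : IsOpen U') {z : E m} {ε' : ℝ} (hz : ‖z‖ < ε') (hUU : thickening ε' U' ⊆ U) :
    ∫⁻ x in U', ‖u (x + z) - u x‖ₑ ≤ ENNReal.ofReal ‖z‖ * gmtVar u U := by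
  obtain ⟨ε'', hz'', hε''⟩ := exists_between hz
  have hε''pos : 0 < ε'' := (norm_nonneg z).trans_lt hz''
  set V := thickening ε'' U' with hV
  set δ : ℕ → ℝ := fun n => (ε' - ε'') / (n + 2) with hδ
  have hδpos : ∀ n, 0 < δ n := fun n => div_pos (by linarith) (by positivity)
  have hδlt : ∀ n, δ n < ε' - ε'' := fun n => by
    rw [hδ]
    simp only
    rw [div_lt_iff₀ (by positivity)]
    have : (0 : ℝ) ≤ n := Nat.cast_nonneg n
    nlinarith
  have hδlim : Tendsto δ atTop (𝓝[>] 0) := by
    rw [tendsto_nhdsWithin_iff]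
    refine ⟨?_, Eventually.of_forall hδpos⟩
    have h1 : Tendsto (fun n : ℕ => (n : ℝ) + 2) atTop atTop :=
      tendsto_atTop_add_const_right _ _ tendsto_natCast_atTop_atTop
    exact h1.const_div_atTop _
  have hbound : ∀ n, ∫⁻ x in U', ‖gmtMol (δ n) u (x + z) - gmtMol (δ n) u x‖ₑ
      ≤ ENNReal.ofReal ‖z‖ * gmtVar u U := by
    intro n
    have hsm : ContDiff ℝ 1 (gmtMol (δ n) u) :=
      (gmtMol_contDiff (hδpos n) hu).of_le (by exact_mod_cast le_top)
    refine (lintegral_translate_sub_le_of_contDiff hsm hU'.measurableSet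
      isOpen_thickening.measurableSet (V := V) ?_).trans ?_
    · intro x hx t ht
      rw [hV, mem_thickening_iff]
      refine ⟨x, hx, ?_⟩
      rw [dist_eq_norm, add_sub_cancel_left, norm_smul, Real.norm_eq_abs, abs_of_pos ht.1]
      calc t * ‖z‖ ≤ 1 * ‖z‖ := by gcongr; exact ht.2
        _ < ε'' := by rw [one_mul]; exact hz''
    · rw [← ofReal_norm]
      gcongr
      refine lintegral_fderiv_gmtMol_le (hδpos n) hu isOpen_thickening ?_
      refine (thickening_thickening_subset _ _ _).trans ((thickening_mono ?_ _).trans hUU)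
      linarith [hδlt n]
  have hae := gmtMol_tendsto_ae hu
  have hae' : ∀ᵐ x, Tendsto (fun ε => gmtMol ε u (x + z)) (𝓝[>] 0) (𝓝 (u (x + z))) :=
    (quasiMeasurePreserving_add_right volume z).ae hae
  calc ∫⁻ x in U', ‖u (x + z) - u x‖ₑ
      = ∫⁻ x in U', liminf (fun n => ‖gmtMol (δ n) u (x + z) - gmtMol (δ n) u x‖ₑ) atTop := by
        apply lintegral_congr_ae
        apply ae_restrict_of_ae
        filter_upwards [hae, hae'] with x h1 h2
        exact (((h2.comp hδlim).sub (h1.comp hδlim)).enorm.liminf_eq).symm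
    _ ≤ liminf (fun n => ∫⁻ x in U', ‖gmtMol (δ n) u (x + z) - gmtMol (δ n) u x‖ₑ) atTop := by
        apply lintegral_liminf_le
        intro n
        have hc := (gmtMol_contDiff (hδpos n) hu).continuous
        exact ((hc.comp (by fun_prop)).sub hc).measurable.enorm
    _ ≤ ENNReal.ofReal ‖z‖ * gmtVar u U := by
        refine liminf_le_of_le (by isBoundedDefault) fun b hb => ?_
        obtain ⟨n, hn⟩ := hb.exists
        exact hn.trans (hbound n)


/-! ### `‖u_ε - u‖_{L¹} ≤ ε Var u` -/

theorem enorm_gmtMol_sub_le {ε : ℝ} (hε : 0 < ε) {u : E m → ℝ} (hu : LocallyIntegrable u)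
    (x : E m) :
    ‖gmtMol ε u x - u x‖ₑ ≤ ∫⁻ z, ENNReal.ofReal (gmtBump m ε z) * ‖u (x - z) - u x‖ₑ := by
  have h1 : Integrable fun z => gmtBump m ε z * u (x - z) := by
    have := (gmtMol_integrable hε hu x).comp_sub_left x
    simpa using this
  have h2 : Integrable fun z => gmtBump m ε z * u x := (gmtBump_integrable hε).mul_const _
  have e : gmtMol ε u x - u x = ∫ z, gmtBump m ε z * (u (x - z) - u x) := by
    have e2 : u x = ∫ z, gmtBump m ε z * u x := by
      rw [integral_mul_const, (gmtBump_props hε).2.2.2.2, one_mul]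
    conv_lhs => rw [gmtMol_eq_integral_sub, e2]
    rw [← integral_sub h1 h2]
    congr 1
    ext z
    ring
  rw [e]
  refine (enorm_integral_le_lintegral_enorm _).trans (lintegral_mono fun z => ?_)
  rw [enorm_mul, Real.enorm_of_nonneg ((gmtBump_props hε).2.1 z)]

theorem lintegral_ofReal_gmtBump {ε : ℝ} (hε : 0 < ε) :
    ∫⁻ z, ENNReal.ofReal (gmtBump m ε z) = 1 := by
  rw [← ofReal_integral_eq_lintegral_ofReal (gmtBump_integrable hε)
    (Eventually.of_forall (gmtBump_props hε).2.1), (gmtBump_props hε).2.2.2.2]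
  simp

theorem lintegral_gmtMol_sub_le_aux {ε ε' : ℝ} (hε : 0 < ε) (hεε : ε < ε') {u : E m → ℝ}
    (hum : Measurable u) (hu : LocallyIntegrable u) {U' U : Set (E m)} (hU' : IsOpen U')
    (hUU : thickening ε' U' ⊆ U) :
    ∫⁻ x in U', ‖gmtMol ε u x - u x‖ₑ ≤ ENNReal.ofReal ε * gmtVar u U := by
  calc ∫⁻ x in U', ‖gmtMol ε u x - u x‖ₑ
      ≤ ∫⁻ x in U', ∫⁻ z, ENNReal.ofReal (gmtBump m ε z) * ‖u (x - z) - u x‖ₑ :=
        lintegral_mono fun x => enorm_gmtMol_sub_le hε hu x
    _ = ∫⁻ z, ∫⁻ x in U', ENNReal.ofReal (gmtBump m ε z) * ‖u (x - z) - u x‖ₑ := by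
        apply lintegral_lintegral_swap
        apply Measurable.aemeasurable
        have h1 : Measurable fun p : E m × E m => ENNReal.ofReal (gmtBump m ε p.2) :=
          ((gmtBump_continuous hε).measurable.comp measurable_snd).ennreal_ofReal
        have h2 : Measurable fun p : E m × E m => ‖u (p.1 - p.2) - u p.1‖ₑ :=
          ((hum.comp (measurable_fst.sub measurable_snd)).sub (hum.comp measurable_fst)).enorm
        exact h1.mul h2
    _ ≤ ∫⁻ z, ENNReal.ofReal (gmtBump m ε z) * (ENNReal.ofReal ε * gmtVar u U) := by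
        refine lintegral_mono fun z => ?_
        have hme : Measurable fun x => ‖u (x - z) - u x‖ₑ :=
          ((hum.comp (measurable_id.sub_const z)).sub hum).enorm
        rw [lintegral_const_mul _ hme]
        by_cases hz : ‖z‖ < ε
        · refine mul_le_mul_right ?_ _
          have := lintegral_translate_sub_le hu hU' (z := -z) (ε' := ε')
            (by rw [norm_neg]; exact hz.trans hεε) hUU
          simp only [← sub_eq_add_neg, norm_neg] at this
          refine this.trans ?_
          gcongr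
        · rw [gmtBump_eq_zero hε (not_lt.1 hz)]
          simp
    _ = ENNReal.ofReal ε * gmtVar u U := by
        rw [lintegral_mul_const _ (gmtBump_continuous hε).measurable.ennreal_ofReal,
          lintegral_ofReal_gmtBump hε, one_mul]

theorem lintegral_gmtMol_sub_le {ε ε' : ℝ} (hε : 0 < ε) (hεε : ε < ε') {u : E m → ℝ}
    (hu : LocallyIntegrable u) {U' U : Set (E m)} (hU' : IsOpen U')
    (hUU : thickening ε' U' ⊆ U) :
    ∫⁻ x in U', ‖gmtMol ε u x - u x‖ₑ ≤ ENNReal.ofReal ε * gmtVar u U := by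
  set u' := hu.aestronglyMeasurable.mk u with hu'
  have hu'm : Measurable u' := hu.aestronglyMeasurable.stronglyMeasurable_mk.measurable
  have heq : u =ᵐ[volume] u' := hu.aestronglyMeasurable.ae_eq_mk
  have hu'l : LocallyIntegrable u' := hu.congr heq
  have e1 : ∀ x, gmtMol ε u x = gmtMol ε u' x := fun x => gmtMol_congr (ae_restrict_of_ae heq)
  have e2 : gmtVar u U = gmtVar u' U := gmtVar_congr (ae_restrict_of_ae heq)
  rw [e2]
  refine le_trans (le_of_eq ?_) (lintegral_gmtMol_sub_le_aux hε hεε hu'm hu'l hU' hUU)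
  apply lintegral_congr_ae
  apply ae_restrict_of_ae
  filter_upwards [heq] with x hx
  rw [e1, hx]


/-! ### the derivative of the mollified function -/

theorem fderiv_gmtMol {ε : ℝ} (hε : 0 < ε) {u : E m → ℝ} (hu : LocallyIntegrable u) (x v : E m) :
    fderiv ℝ (gmtMol ε u) x v = ∫ y, fderiv ℝ (gmtBump m ε) (x - y) v * u y := by
  have hρ1 : ContDiff ℝ 1 (gmtBump m ε) := (gmtBump_props hε).1.of_le (by exact_mod_cast le_top)
  have h := (gmtBump_hasCompactSupport (m := m) hε).hasFDerivAt_convolution_right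
    (ContinuousLinearMap.mul ℝ ℝ) hu hρ1 x
  rw [gmtMol_eq_conv_right, h.fderiv,
    convolution_precompR_apply _ hu ((gmtBump_hasCompactSupport hε).fderiv ℝ)
      (hρ1.continuous_fderiv one_ne_zero), convolution_def]
  congr 1
  ext y
  simp [mul_comm]

end Claimed.Agent.Gmt
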