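import Claimed.Agent.Lib.Gmt.BvProdC

/-!
# Lib/Gmt [BvProd = part 4/4 of the former BvProd] G3f: products `S × ℝ`: perimeter in boxes, slicing, `S` minimises iff `S × ℝ` minimises; boundary, regular and singular points of `S × ℝ`.
(architect: helper75; tops of `IFp.lean`; coordinates `y = (z,t)`: `FlCoord.lean` (`fl_*`))

NOTATION  `B = gmtProdInt A c = A ⊕ c dt²`, `gmtBox W a b = W × (a,b)`, `gmtSlice F t = {z | (z,t) ∈ F}`.

PLAN OF PROOFS
* `gmtProdInt_apply`: unfold.   `gmtProdInt_int`: smoothness by composition with the linear maps `gmtHorL`, `gmtVerL`; positivity: `ξ ≠ 0` ⇒ `gmtHor ξ ≠ 0` or `gmtVer ξ ≠ 0`.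
* `gmtPer_timesR_box`.  `≥`: `T(z,t) = ψ(t) (T₀(z), 0)`, `T₀` `A`-admissible in `W`, `ψ ∈ C¹_c(a,b)`, `0 ≤ ψ ≤ 1`: `B`-admissible (`⟪T,ξ⟫ = ψ ⟪T₀, ξ'⟫ ≤ √(A ξ' ξ') ≤ √(B ξ ξ)`), `∫_{S×ℝ} div T = (∫ψ) ∫_S div T₀` (Fubini `fl_integral_join`); `∫ψ ↑ b-a`.
  `≤`: `T` `B`-admissible in the box: `div T = div_z T'(·,t) + ∂_t T_{n+1}`; `∫ ∂_t T_{n+1}(z,t) dt = 0` for every `z`; for every `t` the field `z ↦ gmtHor (T (z,t))` is an `A`-admissible test field in `W` (test `ξ = (ξ',0)`), zero for `t ∉ (a,b)`: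
  `∫_{S×ℝ} div T = ∫_a^b ∫_S div_z T'(·,t) dz dt ≤ (b-a) Per_A(S;W)` (if the latter is finite; else nothing to prove).
* `lintegral_gmtPer_slice_le` (SLICING, with room).  `u_k = gmtMol ε_k χ_F`, `ε_k → 0`.  (i) `u_k → χ_F` a.e. (`gmtMol_tendsto_ae`), so for a.e. `t`, for a.e. `z`: `u_k(z,t) → χ_{F_t}(z)` (`fl_ae_join` with the roles of `z,t` exchanged: use `fl_measurePreserving` + `Measure.ae_ae_of_ae_prod` after `Measure.prod_swap`), `0 ≤ u_k ≤ 1`: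
  dominated convergence: `u_k(·,t) → χ_{F_t}` in `L¹_loc`.  (ii) `gmtVarA_lsc` in `W'`: `Per_A(F_t;W') ≤ liminf_k Var_A(u_k(·,t);W')`.  (iii) `Var_A(u_k(·,t);W') = ∫_{W'} √(A ∇_z u_k ∇_z u_k) dz` (`gmtVarA_of_contDiffOn`) is measurable in `t`, `≤ ∫_{W'} √(B ∇u_k ∇u_k)`;
  Fatou (`lintegral_liminf_le`), Tonelli (`fl_lintegral_join`): `∫_{a'}^{b'} Per_A(F_t;W') dt ≤ liminf Var_B(u_k; W'×(a',b')) ≤ (1+η) Per_B(F; W×(a,b))` (`gmtVarA_gmtMol_le` in the open set `W×(a,b)`), `η → 0`.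
  NOTE: `t ↦ Per_A(F_t;W')` need not be known to be measurable: `lintegral_mono` holds for arbitrary functions.
* `gmtPer_cap_le`: `gmtPer_glue_level` with `f y = |gmtVer y|` (continuous; `C¹` with `|∇f| = 1` on `{0 < f}`), `S₁ = S' × ℝ`, `S₂ = S × ℝ`, window `W × (-(L₀+1), L₀+1)`...: to have a fixed window work on each interval `L ∈ (k, k+1)`, `k ∈ ℕ`, in the window `W × (-(k+2), k+2)`, then restrict to the smaller box by
  `gmtPer_mono`?  NO: monotonicity goes the wrong way; instead state the result in the window `gmtBox W (-M) M` for ANY `M > L` (as below), for a.e. `L ∈ (0, M)`; `gmtIface = 2 (s - a) |(S △ S') ∩ W|`, `gmtPer_timesR_box` for the two pieces `{|t|<L}` and `{L<|t|<M}` (two boxes: `gmtPer_union_le`).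
* `gmtLAM_timesR` (⇒).  Competitor `F`, `F △ (S×ℝ) ⊆ K` compact `⊆ U×ℝ`.  Choose `W' ⋐ W ⋐ U`, `a < a' < b' < b` with `K ⊆ W'×(a',b')`.  For every `t`: `F_t △ S ⊆ K_t` compact in `W'`; minimality of `S` in `W'`:
  `ℓ(t) := Per_A(S;W') - ∫_{S∩W'} f + ∫_{F_t∩W'} f ≤ Per_A(F_t;W')` (trivial if the right side is `∞`); integrate over `(a',b')`, slicing:  `E(S×ℝ; box') ≤ Per_B(F; box) - ∫_{F∩box'} f̃`.  Let `box' ↑ box` (`gmtPer_iUnion_mono`; the difference of the volume terms lives on `K`).  Conclude with `gmtLAM_of_cofinal`.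
* `gmtLAM_of_timesR` (⇐).  Competitor `S'` in `W ⋐ U`; `gmtPer_cap_le` with `M = L+1`, minimality of `S×ℝ` in `W×(-M,M)`:  `2L [E(S) - E(S')] ≤ 2C |S △ S'|`; `L → ∞` along good levels.
* `gmtBd_timesR`: `(S ∩ B_{r/2}(z)) × (t-r/2,t+r/2) ⊆ (S×ℝ) ∩ B_r(z,t) ⊆ (S ∩ B_r(z)) × (t-r,t+r)`, `Measure.prod_prod` (valid for all sets), `fl_measurePreserving`.
* `gmtReg_timesR`: `φ̃ = φ ∘ gmtHor`.
* `gmtReg_of_timesR`: let `φ̃` on `ball y₀ r`, `y₀ = (z₀,t₀)`, box `Q = ball z₀ ρ × I ⊆ ball y₀ r`.  (1) for a.e. `z ∈ ball z₀ ρ`: `1_S(z) = 1_{φ̃(z,t)<0}` for a.e. `t ∈ I`; by continuity in `t`: `φ̃(z,·) ≤ 0` on `I` or `≥ 0` on `I`; by density and continuity in `z` this alternative holds for ALL `z ∈ ball z₀ ρ`.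
  (2) `t ↦ φ̃(z₀,t)` has a local extremum at `t₀` (value `0`), so `∂_t φ̃(y₀) = 0`, hence `φ := φ̃(·,t₀)` has `∇φ(z₀) ≠ 0`; shrink `ρ`: `∇φ ≠ 0` on `ball z₀ ρ`.  (3) `{φ = 0}` is a null set (`hr_lev_null`-type lemma, stated here as `gmt_level_null`); for `z` off it the sign of `φ̃(z,·)` on `I` is that of `φ(z)`, and `{φ̃ = 0}` is null in `Q`:
  for a.e. `z`: `z ∈ S ⟺ φ̃(z,t) < 0` for a.e. `t` `⟺ φ(z) < 0`.
-/

set_option autoImplicit false
open scoped ContDiff ENNReal RealInnerProductSpace Topology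
open MeasureTheory Metric Set Filter

namespace Claimed.Agent.Gmt

variable {n : ℕ}

/-! ### helpers -/

theorem gmt_bpd_exists_of_ae {α : Type*} [MeasurableSpace α] {μ : Measure α} {p : α → Prop}
    (h : ∀ᵐ x ∂μ, p x) {u : Set α} (hu : μ u ≠ 0) : ∃ x ∈ u, p x := by
  by_contra hne
  push Not at hne
  have hsub : u ⊆ {x | ¬ p x} := fun x hx => hne x hx
  exact hu (measure_mono_null hsub h)

theorem gmt_bpd_null_timesR {N : Set (E n)} (h : volume N = 0) :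
    volume (gmtTimesR N : Set (E (n + 1))) = 0 := by
  have h1 : (gmtTimesR N : Set (E (n + 1))) = gmtBpaEquiv n ⁻¹' (N ×ˢ (univ : Set ℝ)) := by
    ext y
    simp only [gmtTimesR, mem_ofPred_eq, mem_preimage, mem_prod, mem_univ, and_true]
    rfl
  rw [h1, gmt_bpa_mp.measure_preimage_equiv, Measure.prod_prod, h, zero_mul]

theorem gmt_bpd_hor_sub (y y' : E (n + 1)) : gmtHor (y - y') = gmtHor y - gmtHor y' :=
  map_sub (gmtHorL n) y y'

theorem gmt_bpd_ver_sub (y y' : E (n + 1)) : gmtVer (y - y') = gmtVer y - gmtVer y' :=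
  map_sub (gmtVerL n) y y'

theorem gmt_bpd_ball_sub_box (y : E (n + 1)) (r : ℝ) :
    ball y r ⊆ gmtBox (ball (gmtHor y) r) (gmtVer y - r) (gmtVer y + r) := by
  intro x hx
  rw [mem_ball_iff_norm] at hx
  have h1 := lt_of_le_of_lt (fl_norm_hor_le (x - y)) hx
  have h2 := lt_of_le_of_lt (fl_abs_ver_le (x - y)) hx
  rw [gmt_bpd_hor_sub] at h1
  rw [gmt_bpd_ver_sub, abs_lt] at h2
  refine ⟨mem_ball_iff_norm.2 h1, ?_, ?_⟩ <;> linarith [h2.1, h2.2]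

theorem gmt_bpd_box_sub_ball (y : E (n + 1)) (ρ : ℝ) :
    gmtBox (ball (gmtHor y) ρ) (gmtVer y - ρ) (gmtVer y + ρ) ⊆ ball y (2 * ρ) := by
  intro x hx
  obtain ⟨h1, h2, h3⟩ := hx
  rw [mem_ball_iff_norm, ← gmt_bpd_hor_sub] at h1
  have h4 : |gmtVer (x - y)| < ρ := by
    rw [gmt_bpd_ver_sub, abs_lt]
    constructor <;> linarith
  rw [mem_ball_iff_norm]
  have h5 := fl_norm_sq (x - y)
  have h6 : gmtVer (x - y) ^ 2 = |gmtVer (x - y)| ^ 2 := (sq_abs _).symm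
  have hρ : 0 < ρ := lt_of_le_of_lt (norm_nonneg _) h1
  have h7 : ‖x - y‖ ^ 2 < (2 * ρ) ^ 2 := by
    rw [h5, h6]
    have h8 : ‖gmtHor (x - y)‖ ^ 2 < ρ ^ 2 := by
      exact pow_lt_pow_left₀ h1 (norm_nonneg _) two_ne_zero
    have h9 : |gmtVer (x - y)| ^ 2 < ρ ^ 2 := by
      exact pow_lt_pow_left₀ h4 (abs_nonneg _) two_ne_zero
    nlinarith
  exact lt_of_pow_lt_pow_left₀ 2 (by positivity) h7

theorem gmtBd_timesR (S : Set (E n)) : gmtBd (gmtTimesR S) = gmtTimesR (gmtBd S) := by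
  ext y
  constructor
  · intro hy
    show gmtHor y ∈ gmtBd S
    intro r hr
    obtain ⟨h1, h2⟩ := hy r hr
    constructor
    · have hsub : gmtTimesR S ∩ ball y r ⊆
          gmtTimesR S ∩ gmtBox (ball (gmtHor y) r) (gmtVer y - r) (gmtVer y + r) :=
        inter_subset_inter_right _ (gmt_bpd_ball_sub_box y r)
      have h3 := lt_of_lt_of_le h1 (measure_mono hsub)
      rw [volume_timesR_box _ _ (by linarith)] at h3
      exact (ENNReal.mul_pos_iff.1 h3).1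
    · have hsub : ball y r \ gmtTimesR S ⊆
          gmtTimesR Sᶜ ∩ gmtBox (ball (gmtHor y) r) (gmtVer y - r) (gmtVer y + r) :=
        fun x hx => ⟨hx.2, gmt_bpd_ball_sub_box y r hx.1⟩
      have h3 := lt_of_lt_of_le h2 (measure_mono hsub)
      rw [volume_timesR_box _ _ (by linarith)] at h3
      have h4 : Sᶜ ∩ ball (gmtHor y) r = ball (gmtHor y) r \ S := by
        ext x
        exact and_comm
      rw [h4] at h3
      exact (ENNReal.mul_pos_iff.1 h3).1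
  · intro hy r hr
    have hy' : gmtHor y ∈ gmtBd S := hy
    obtain ⟨h1, h2⟩ := hy' (r / 2) (by positivity)
    have hbox := gmt_bpd_box_sub_ball y (r / 2)
    rw [show 2 * (r / 2) = r by ring] at hbox
    have hlen : 0 < ENNReal.ofReal (gmtVer y + r / 2 - (gmtVer y - r / 2)) := by
      rw [ENNReal.ofReal_pos]
      linarith
    constructor
    · have hsub : gmtTimesR S ∩ gmtBox (ball (gmtHor y) (r / 2)) (gmtVer y - r / 2) (gmtVer y + r / 2) ⊆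
          gmtTimesR S ∩ ball y r := inter_subset_inter_right _ hbox
      refine lt_of_lt_of_le ?_ (measure_mono hsub)
      rw [volume_timesR_box _ _ (by linarith)]
      exact ENNReal.mul_pos h1.ne' hlen.ne'
    · have hsub : gmtTimesR Sᶜ ∩ gmtBox (ball (gmtHor y) (r / 2)) (gmtVer y - r / 2) (gmtVer y + r / 2) ⊆
          ball y r \ gmtTimesR S := fun x hx => ⟨hbox hx.2, hx.1⟩
      refine lt_of_lt_of_le ?_ (measure_mono hsub)
      rw [volume_timesR_box _ _ (by linarith)]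
      have h4 : Sᶜ ∩ ball (gmtHor y) (r / 2) = ball (gmtHor y) (r / 2) \ S := by
        ext x
        exact and_comm
      rw [h4]
      exact ENNReal.mul_pos h2.ne' hlen.ne'

theorem gmtReg_timesR {S : Set (E n)} {z : E n} (h : GmtReg S z) (t : ℝ) :
    GmtReg (gmtTimesR S) (gmtJoin z t) := by
  obtain ⟨r, hr, φ, hφ, hφ0, hd, hae⟩ := h
  have hmap : MapsTo (gmtHorL n) (ball (gmtJoin z t) r) (ball z r) := by
    intro y hy
    have := (gmt_bpd_ball_sub_box (gmtJoin z t) r hy).1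
    rwa [fl_hor_join] at this
  refine ⟨r, hr, fun y => φ (gmtHorL n y), hφ.comp (gmtHorL n).contDiff.contDiffOn hmap, ?_, ?_, ?_⟩
  · show φ (gmtHor (gmtJoin z t)) = 0
    rw [fl_hor_join, hφ0]
  · intro y hy hzero
    have hdiff : DifferentiableAt ℝ φ (gmtHorL n y) :=
      (hφ.differentiableOn (by simp)).differentiableAt (isOpen_ball.mem_nhds (hmap hy))
    have hcomp : fderiv ℝ (fun y => φ (gmtHorL n y)) y =
        (fderiv ℝ φ (gmtHorL n y)).comp (gmtHorL n) :=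
      (hdiff.hasFDerivAt.comp y (gmtHorL n).hasFDerivAt).fderiv
    apply hd _ (hmap hy)
    ext ξ
    have h1 : (fderiv ℝ (fun y => φ (gmtHorL n y)) y) (flInc n ξ) = 0 := by rw [hzero]; rfl
    rw [hcomp] at h1
    have h2 : gmtHorL n (flInc n ξ) = ξ := by
      rw [fl_inc_apply]
      exact fl_hor_join ξ 0
    simpa [h2] using h1
  · have hN : volume (symmDiff (S ∩ ball z r) {y | y ∈ ball z r ∧ φ y < 0}) = 0 :=
      measure_symmDiff_eq_zero_iff.2 hae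
    have hN' := gmt_bpd_null_timesR hN
    rw [← measure_symmDiff_eq_zero_iff]
    refine measure_mono_null ?_ hN'
    intro y hy
    rcases hy with ⟨⟨h1, h2⟩, h3⟩ | ⟨⟨h1, h2⟩, h3⟩
    · left
      exact ⟨⟨h1, hmap h2⟩, fun h => h3 ⟨h2, h.2⟩⟩
    · right
      exact ⟨⟨hmap h1, h2⟩, fun h => h3 ⟨h.1, h1⟩⟩

/-- the part of a level set where a fixed directional derivative does not vanish is null. -/
theorem gmt_bpd_line_null {m : ℕ} {W : Set (E m)} (hW : IsOpen W) {φ : E m → ℝ}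
    (hφ : ContDiffOn ℝ 1 φ W) (v : E m) (s : ℝ) :
    volume {y | y ∈ W ∧ fderiv ℝ φ y v ≠ 0 ∧ φ y = s} = 0 := by
  set L : Set (E m) := {y | y ∈ W ∧ fderiv ℝ φ y v ≠ 0 ∧ φ y = s} with hLdef
  have hcont : ContinuousOn φ W := hφ.continuousOn
  have hd : ContinuousOn (fun y => fderiv ℝ φ y v) W :=
    (hφ.continuousOn_fderiv_of_isOpen hW le_rfl).clm_apply continuousOn_const
  have hW1 : IsOpen (W ∩ (fun y => fderiv ℝ φ y v) ⁻¹' {0}ᶜ) :=
    hd.isOpen_inter_preimage hW isOpen_compl_singleton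
  have hW2 : IsOpen (W ∩ φ ⁻¹' {s}ᶜ) := hcont.isOpen_inter_preimage hW isOpen_compl_singleton
  have hL : L = (W ∩ (fun y => fderiv ℝ φ y v) ⁻¹' {0}ᶜ) \ (W ∩ φ ⁻¹' {s}ᶜ) := by
    ext y
    simp only [hLdef, mem_ofPred_eq, Set.mem_sdiff, mem_inter_iff, mem_preimage, mem_compl_iff,
      mem_singleton_iff]
    tauto
  have hLm : MeasurableSet L := by
    rw [hL]
    exact hW1.measurableSet.diff hW2.measurableSet
  let Lm : ℝ →L[ℝ] E m := ContinuousLinearMap.smulRight (1 : ℝ →L[ℝ] ℝ) v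
  have key : ∀ y : E m, ∀ᵐ t : ℝ, y + Lm.toLinearMap t ∈ Lᶜ := by
    intro y
    set T : Set ℝ := {t | y + t • v ∈ L} with hT
    have hTc : T.Countable := by
      have hsub : T ⊆ {x ∈ T | 𝓝[T ∩ Ioi x] x = ⊥} := by
        intro t ht
        refine ⟨ht, ?_⟩
        have ht' : y + t • v ∈ L := ht
        have hder : HasDerivAt (fun τ : ℝ => φ (y + τ • v)) (fderiv ℝ φ (y + t • v) v) t := by
          have h1 : HasFDerivAt φ (fderiv ℝ φ (y + t • v)) (y + t • v) :=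
            ((hφ.differentiableOn one_ne_zero).differentiableAt (hW.mem_nhds ht'.1)).hasFDerivAt
          have h2 : HasDerivAt (fun τ : ℝ => y + τ • v) v t := by
            simpa using ((hasDerivAt_id t).smul_const v).const_add y
          exact h1.comp_hasDerivAt t h2
        have hev := hder.eventually_ne (c := s) ht'.2.1
        have hle : 𝓝[T ∩ Ioi t] t ≤ 𝓝[≠] t :=
          nhdsWithin_mono _ (fun x hx => ne_of_gt hx.2)
        have hev2 : ∀ᶠ x in 𝓝[T ∩ Ioi t] t, φ (y + x • v) ≠ s := hle hev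
        have hev3 : ∀ᶠ x in 𝓝[T ∩ Ioi t] t, x ∈ T ∩ Ioi t := self_mem_nhdsWithin
        have hF : ∀ᶠ x in 𝓝[T ∩ Ioi t] t, False := by
          filter_upwards [hev2, hev3] with x h1 h2
          exact h1 h2.1.2.2
        exact eventually_false_iff_eq_bot.1 hF
      exact countable_setOfPred_isolated_right_within.mono hsub
    have h3 := hTc.ae_notMem (volume : Measure ℝ)
    filter_upwards [h3] with t ht
    intro hc
    apply ht
    show y + t • v ∈ L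
    simpa [Lm] using hc
  have h4 := ae_mem_of_ae_add_linearMap_mem Lm.toLinearMap volume volume hLm.compl key
  exact measure_eq_zero_iff_ae_notMem.2 h4

/-- level sets of `C¹` functions without critical points are null sets. -/
theorem gmt_level_null {m : ℕ} {W : Set (E m)} (hW : IsOpen W) {φ : E m → ℝ}
    (hφ : ContDiffOn ℝ 1 φ W) (h0 : ∀ y ∈ W, fderiv ℝ φ y ≠ 0) (s : ℝ) :
    volume {y | y ∈ W ∧ φ y = s} = 0 := by
  have hsub : {y | y ∈ W ∧ φ y = s} ⊆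
      ⋃ i : Fin m, {y | y ∈ W ∧ fderiv ℝ φ y (eb i) ≠ 0 ∧ φ y = s} := by
    intro y hy
    have h1 : ∃ i : Fin m, fderiv ℝ φ y (eb i) ≠ 0 := by
      by_contra hcon
      push Not at hcon
      apply h0 y hy.1
      apply ContinuousLinearMap.coe_injective
      apply (EuclideanSpace.basisFun (Fin m) ℝ).toBasis.ext
      intro i
      simpa using hcon i
    obtain ⟨i, hi⟩ := h1
    exact mem_iUnion.2 ⟨i, hy.1, hi, hy.2⟩
  refine measure_mono_null hsub ?_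
  rw [measure_iUnion_null_iff]
  intro i
  exact gmt_bpd_line_null hW hφ (eb i) s


/-- no sign change along vertical lines. -/
theorem gmt_timesR_sign {S : Set (E n)} {z₀ : E n} {ρ a b : ℝ} {φ : E (n + 1) → ℝ}
    (hφ : ContinuousOn φ (gmtBox (ball z₀ ρ) a b))
    (hS : (gmtTimesR S ∩ gmtBox (ball z₀ ρ) a b : Set (E (n + 1))) =ᵐ[volume]
      ({y | y ∈ gmtBox (ball z₀ ρ) a b ∧ φ y < 0} : Set (E (n + 1)))) :
    ∀ z ∈ ball z₀ ρ, (∀ t ∈ Ioo a b, φ (gmtJoin z t) ≤ 0) ∨ (∀ t ∈ Ioo a b, 0 ≤ φ (gmtJoin z t)) := by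
  intro z hz
  by_contra hcon
  push Not at hcon
  obtain ⟨⟨t1, ht1, h1⟩, ⟨t2, ht2, h2⟩⟩ := hcon
  set Q := gmtBox (ball z₀ ρ) a b with hQdef
  have hQ : IsOpen Q := isOpen_gmtBox isOpen_ball a b
  have hO1 : IsOpen (Q ∩ φ ⁻¹' Ioi 0) := hφ.isOpen_inter_preimage hQ isOpen_Ioi
  have hO2 : IsOpen (Q ∩ φ ⁻¹' Iio 0) := hφ.isOpen_inter_preimage hQ isOpen_Iio
  have hP1 : IsOpen ((fun p : E n × ℝ => gmtJoin p.1 p.2) ⁻¹' (Q ∩ φ ⁻¹' Ioi 0)) :=
    hO1.preimage fl_continuous_join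
  have hP2 : IsOpen ((fun p : E n × ℝ => gmtJoin p.1 p.2) ⁻¹' (Q ∩ φ ⁻¹' Iio 0)) :=
    hO2.preimage fl_continuous_join
  have hm1 : (z, t1) ∈ (fun p : E n × ℝ => gmtJoin p.1 p.2) ⁻¹' (Q ∩ φ ⁻¹' Ioi 0) := by
    refine ⟨⟨?_, ?_⟩, h1⟩
    · show gmtHor (gmtJoin z t1) ∈ ball z₀ ρ
      rwa [fl_hor_join]
    · show gmtVer (gmtJoin z t1) ∈ Ioo a b
      rwa [fl_ver_join]
  have hm2 : (z, t2) ∈ (fun p : E n × ℝ => gmtJoin p.1 p.2) ⁻¹' (Q ∩ φ ⁻¹' Iio 0) := by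
    refine ⟨⟨?_, ?_⟩, h2⟩
    · show gmtHor (gmtJoin z t2) ∈ ball z₀ ρ
      rwa [fl_hor_join]
    · show gmtVer (gmtJoin z t2) ∈ Ioo a b
      rwa [fl_ver_join]
  obtain ⟨u1, v1, hu1, hv1, hzu1, htv1, huv1⟩ := isOpen_prod_iff.1 hP1 z t1 hm1
  obtain ⟨u2, v2, hu2, hv2, hzu2, htv2, huv2⟩ := isOpen_prod_iff.1 hP2 z t2 hm2
  have hS' : ∀ᵐ y : E (n + 1), (y ∈ gmtTimesR S ∩ Q ↔ y ∈ Q ∧ φ y < 0) := by
    filter_upwards [hS] with y hy
    exact iff_of_eq hy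
  have hae := fl_ae_join hS'
  obtain ⟨z', hz', hgood⟩ := gmt_bpd_exists_of_ae hae
    ((hu1.inter hu2).measure_pos volume ⟨z, hzu1, hzu2⟩).ne'
  obtain ⟨s1, hs1, hg1⟩ := gmt_bpd_exists_of_ae hgood (hv1.measure_pos volume ⟨t1, htv1⟩).ne'
  obtain ⟨s2, hs2, hg2⟩ := gmt_bpd_exists_of_ae hgood (hv2.measure_pos volume ⟨t2, htv2⟩).ne'
  have hk1' : (z', s1) ∈ (fun p : E n × ℝ => gmtJoin p.1 p.2) ⁻¹' (Q ∩ φ ⁻¹' Ioi 0) :=
    huv1 ⟨hz'.1, hs1⟩
  have hk2' : (z', s2) ∈ (fun p : E n × ℝ => gmtJoin p.1 p.2) ⁻¹' (Q ∩ φ ⁻¹' Iio 0) :=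
    huv2 ⟨hz'.2, hs2⟩
  rw [mem_preimage] at hk1' hk2'
  have hk1 : gmtJoin z' s1 ∈ Q ∧ 0 < φ (gmtJoin z' s1) := hk1'
  have hk2 : gmtJoin z' s2 ∈ Q ∧ φ (gmtJoin z' s2) < 0 := hk2'
  have hin : z' ∈ S := by
    have := (hg2.2 ⟨hk2.1, hk2.2⟩).1
    have h3 : gmtHor (gmtJoin z' s2) ∈ S := this
    rwa [fl_hor_join] at h3
  have h4 : gmtJoin z' s1 ∈ gmtTimesR S := by
    show gmtHor (gmtJoin z' s1) ∈ S
    rwa [fl_hor_join]
  have h5 := (hg1.1 ⟨h4, hk1.1⟩).2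
  have h6 : 0 < φ (gmtJoin z' s1) := hk1.2
  linarith

theorem gmtReg_of_timesR {S : Set (E n)} {y : E (n + 1)} (h : GmtReg (gmtTimesR S) y) :
    GmtReg S (gmtHor y) := by
  obtain ⟨r, hr, Φ, hΦ, hΦ0, hd, hae⟩ := h
  set z₀ := gmtHor y with hz₀
  set t₀ := gmtVer y with ht₀
  have hy : gmtJoin z₀ t₀ = y := fl_join_hor_ver y
  set ρ := r / 2 with hρdef
  have hρ : 0 < ρ := by positivity
  set Q := gmtBox (ball z₀ ρ) (t₀ - ρ) (t₀ + ρ) with hQdef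
  have hQ : Q ⊆ ball y r := by
    have := gmt_bpd_box_sub_ball y ρ
    rwa [show 2 * ρ = r by rw [hρdef]; ring] at this
  have hmemQ : ∀ z ∈ ball z₀ ρ, ∀ t ∈ Ioo (t₀ - ρ) (t₀ + ρ), gmtJoin z t ∈ Q := by
    intro z hz t ht
    refine ⟨?_, ?_⟩
    · show gmtHor (gmtJoin z t) ∈ ball z₀ ρ
      rwa [fl_hor_join]
    · show gmtVer (gmtJoin z t) ∈ Ioo (t₀ - ρ) (t₀ + ρ)
      rwa [fl_ver_join]
  have ht₀I : t₀ ∈ Ioo (t₀ - ρ) (t₀ + ρ) := ⟨by linarith, by linarith⟩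
  have hae' : ∀ᵐ x : E (n + 1), (x ∈ gmtTimesR S ∧ x ∈ ball y r ↔ x ∈ ball y r ∧ Φ x < 0) := by
    filter_upwards [hae] with x hx
    exact iff_of_eq hx
  have haeQ : (gmtTimesR S ∩ Q : Set (E (n + 1))) =ᵐ[volume]
      ({y' | y' ∈ Q ∧ Φ y' < 0} : Set (E (n + 1))) := by
    filter_upwards [hae'] with x hx
    apply propext
    constructor
    · rintro ⟨h1, h2⟩
      exact ⟨h2, (hx.1 ⟨h1, hQ h2⟩).2⟩
    · rintro ⟨h1, h2⟩
      exact ⟨(hx.2 ⟨hQ h1, h2⟩).1, h1⟩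
  have hsign := gmt_timesR_sign (hΦ.continuousOn.mono hQ) haeQ
  have hdiff : ∀ x ∈ ball y r, DifferentiableAt ℝ Φ x := fun x hx =>
    (hΦ.differentiableOn (by simp)).differentiableAt (isOpen_ball.mem_nhds hx)
  -- the vertical derivative vanishes at `y`
  have hvert : fderiv ℝ Φ y (gmtEn n) = 0 := by
    have hg : HasDerivAt (fun t : ℝ => Φ (gmtJoin z₀ t)) (fderiv ℝ Φ y (gmtEn n)) t₀ := by
      have h1 : HasFDerivAt Φ (fderiv ℝ Φ y) (gmtJoin z₀ t₀) := by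
        rw [hy]
        exact (hdiff y (mem_ball_self hr)).hasFDerivAt
      have h2 : HasDerivAt (fun t : ℝ => gmtJoin z₀ t) (gmtEn n) t₀ := by
        have : (fun t : ℝ => gmtJoin z₀ t) = fun t : ℝ => flInc n z₀ + t • gmtEn n := by
          funext t
          exact fl_join_eq _ _
        rw [this]
        simpa using ((hasDerivAt_id t₀).smul_const (gmtEn n)).const_add (flInc n z₀)
      exact h1.comp_hasDerivAt t₀ h2
    have hI : Ioo (t₀ - ρ) (t₀ + ρ) ∈ 𝓝 t₀ := Ioo_mem_nhds (by linarith) (by linarith)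
    rcases hsign z₀ (mem_ball_self hρ) with hle | hge
    · have hmax : IsLocalMax (fun t : ℝ => Φ (gmtJoin z₀ t)) t₀ := by
        filter_upwards [hI] with t ht
        show Φ (gmtJoin z₀ t) ≤ Φ (gmtJoin z₀ t₀)
        rw [hy, hΦ0]
        exact hle t ht
      exact hmax.hasDerivAt_eq_zero hg
    · have hmin : IsLocalMin (fun t : ℝ => Φ (gmtJoin z₀ t)) t₀ := by
        filter_upwards [hI] with t ht
        show Φ (gmtJoin z₀ t₀) ≤ Φ (gmtJoin z₀ t)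
        rw [hy, hΦ0]
        exact hge t ht
      exact hmin.hasDerivAt_eq_zero hg
  obtain ⟨ξ, hξ⟩ : ∃ ξ : E n, fderiv ℝ Φ y (flInc n ξ) ≠ 0 := by
    by_contra hcon
    push Not at hcon
    apply hd y (mem_ball_self hr)
    ext η
    rw [← fl_join_hor_ver η, fl_join_eq, map_add, map_smul, hvert, hcon]
    simp
  -- the horizontal inclusion at height `t₀`
  set J : E n → E (n + 1) := fun z => flInc n z + t₀ • gmtEn n with hJdef
  have hJ : ∀ z, J z = gmtJoin z t₀ := fun z => (fl_join_eq z t₀).symm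
  have hJs : ContDiff ℝ ∞ J := (flInc n).contDiff.add contDiff_const
  have hJmap : MapsTo J (ball z₀ ρ) (ball y r) := by
    intro z hz
    rw [hJ]
    exact hQ (hmemQ z hz t₀ ht₀I)
  have hJd : ∀ z, HasFDerivAt J (flInc n) z := fun z =>
    ((flInc n).hasFDerivAt).add_const _
  have hcd : ContinuousOn (fun x => fderiv ℝ Φ x (flInc n ξ)) (ball y r) :=
    (hΦ.continuousOn_fderiv_of_isOpen isOpen_ball (by simp)).clm_apply continuousOn_const
  have hcd' : ContinuousOn (fun z => fderiv ℝ Φ (J z) (flInc n ξ)) (ball z₀ ρ) :=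
    hcd.comp hJs.continuous.continuousOn hJmap
  have hopen : IsOpen (ball z₀ ρ ∩ (fun z => fderiv ℝ Φ (J z) (flInc n ξ)) ⁻¹' {0}ᶜ) :=
    hcd'.isOpen_inter_preimage isOpen_ball isOpen_compl_singleton
  have hz₀mem : z₀ ∈ ball z₀ ρ ∩ (fun z => fderiv ℝ Φ (J z) (flInc n ξ)) ⁻¹' {0}ᶜ := by
    refine ⟨mem_ball_self hρ, ?_⟩
    show fderiv ℝ Φ (J z₀) (flInc n ξ) ≠ 0
    rw [hJ, hy]
    exact hξ
  obtain ⟨ρ', hρ', hsub⟩ := Metric.isOpen_iff.1 hopen z₀ hz₀mem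
  have hsub1 : ball z₀ ρ' ⊆ ball z₀ ρ := fun z hz => (hsub hz).1
  have hsm : ContDiffOn ℝ ∞ (fun z => Φ (J z)) (ball z₀ ρ') :=
    hΦ.comp hJs.contDiffOn (hJmap.mono_left hsub1)
  have hnd : ∀ z ∈ ball z₀ ρ', fderiv ℝ (fun z => Φ (J z)) z ≠ 0 := by
    intro z hz hzero
    have hcomp : fderiv ℝ (fun z => Φ (J z)) z = (fderiv ℝ Φ (J z)).comp (flInc n) :=
      ((hdiff _ (hJmap (hsub1 hz))).hasFDerivAt.comp z (hJd z)).fderiv
    have h1 : (fderiv ℝ (fun z => Φ (J z)) z) ξ = 0 := by rw [hzero]; rfl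
    rw [hcomp] at h1
    exact (hsub hz).2 h1
  refine ⟨ρ', hρ', fun z => Φ (J z), hsm, ?_, hnd, ?_⟩
  · show Φ (J z₀) = 0
    rw [hJ, hy, hΦ0]
  · have hN1 : volume {z | z ∈ ball z₀ ρ' ∧ Φ (J z) = 0} = 0 :=
      gmt_level_null isOpen_ball (hsm.of_le (by simp)) hnd 0
    have hN2 : volume {x | x ∈ ball y r ∧ Φ x = 0} = 0 :=
      gmt_level_null isOpen_ball (hΦ.of_le (by simp)) hd 0
    have hA1 : ∀ᵐ z : E n, ¬ (z ∈ ball z₀ ρ' ∧ Φ (J z) = 0) := measure_eq_zero_iff_ae_notMem.1 hN1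
    have hA2 : ∀ᵐ z : E n, ∀ᵐ t : ℝ, ¬ (gmtJoin z t ∈ ball y r ∧ Φ (gmtJoin z t) = 0) :=
      fl_ae_join (measure_eq_zero_iff_ae_notMem.1 hN2)
    have hA3 := fl_ae_join hae'
    filter_upwards [hA1, hA2, hA3] with z h1 h2 h3
    apply propext
    by_cases hz : z ∈ ball z₀ ρ'
    · have hIpos : volume (Ioo (t₀ - ρ) (t₀ + ρ)) ≠ 0 :=
        (isOpen_Ioo.measure_pos volume ⟨t₀, ht₀I⟩).ne'
      obtain ⟨t, ht, hg2, hg3⟩ := gmt_bpd_exists_of_ae (h2.and h3) hIpos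
      have hzt : gmtJoin z t ∈ ball y r := hQ (hmemQ z (hsub1 hz) t ht)
      have hne : Φ (gmtJoin z t) ≠ 0 := fun h0 => hg2 ⟨hzt, h0⟩
      have hne0 : Φ (J z) ≠ 0 := fun h0 => h1 ⟨hz, h0⟩
      have hSiff : z ∈ S ↔ Φ (gmtJoin z t) < 0 := by
        constructor
        · intro hzS
          have h4 : gmtJoin z t ∈ gmtTimesR S := by
            show gmtHor (gmtJoin z t) ∈ S
            rwa [fl_hor_join]
          exact (hg3.1 ⟨h4, hzt⟩).2
        · intro hneg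
          have h4 : gmtHor (gmtJoin z t) ∈ S := (hg3.2 ⟨hzt, hneg⟩).1
          rwa [fl_hor_join] at h4
      rcases hsign z (hsub1 hz) with hle | hge
      · have h5 : Φ (gmtJoin z t) < 0 := lt_of_le_of_ne (hle t ht) hne
        have h6 : Φ (J z) < 0 := by
          refine lt_of_le_of_ne ?_ hne0
          rw [hJ]
          exact hle t₀ ht₀I
        exact ⟨fun _ => ⟨hz, h6⟩, fun _ => ⟨hSiff.2 h5, hz⟩⟩
      · have h5 : ¬ Φ (gmtJoin z t) < 0 := not_lt.2 (hge t ht)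
        have h6 : ¬ Φ (J z) < 0 := by
          rw [hJ]
          exact not_lt.2 (hge t₀ ht₀I)
        exact ⟨fun h => absurd (hSiff.1 h.1) h5, fun h => absurd h.2 h6⟩
    · exact ⟨fun h => absurd h.2 hz, fun h => absurd h.1 hz⟩

theorem gmtSing_timesR (U S : Set (E n)) :
    gmtSing (gmtTimesR S) (gmtTimesR U) = gmtTimesR (gmtSing S U) := by
  ext y
  have h1 : GmtReg (gmtTimesR S) y ↔ GmtReg S (gmtHor y) := by
    refine ⟨gmtReg_of_timesR, fun h => ?_⟩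
    have := gmtReg_timesR h (gmtVer y)
    rwa [fl_join_hor_ver] at this
  have h2 : y ∈ gmtBd (gmtTimesR S) ↔ gmtHor y ∈ gmtBd S := by
    rw [gmtBd_timesR]
    rfl
  show (y ∈ gmtTimesR U ∧ y ∈ gmtBd (gmtTimesR S) ∧ ¬ GmtReg (gmtTimesR S) y) ↔
    (gmtHor y ∈ U ∧ gmtHor y ∈ gmtBd S ∧ ¬ GmtReg S (gmtHor y))
  rw [h1, h2]
  rfl

end Claimed.Agent.Gmt
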