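import Claimed.Agent.Lib.Gmt.LamBase
import Claimed.Agent.Lib.Gmt.BvGlue
import Claimed.Agent.Lib.Gmt.FlCoord

/-!
# Lib/Gmt [BvProdA = part 1/4 of the former BvProd] G3f: products `S × ℝ`: perimeter in boxes, slicing, `S` minimises iff `S × ℝ` minimises; boundary, regular and singular points of `S × ℝ`.
(architect: helper75; tops of `IFp.lean`; coordinates `y = (z,t)`: `FlCoord.lean` (`fl_*`))

NOTATION  `B = gmtProdInt A c = A ⊕ c dt²`, `gmtBox W a b = W × (a,b)`, `gmtSlice F t = {z | (z,t) ∈ F}`.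

PLAN OF PROOFS
* `gmtProdInt_apply`: unfold.   `gmtProdInt_int`: smoothness by composition with the linear maps `gmtHorL`, `gmtVerL`; positivity: `ξ ≠ 0` ⇒ `gmtHor ξ ≠ 0` or `gmtVer ξ ≠ 0`.
* `gmtPer_timesR_box`.  `≥`: `T(z,t) = ψ(t) (T₀(z), 0)`, `T₀` `A`-admissible in `W`, `ψ ∈ C¹_c(a,b)`, `0 ≤ ψ ≤ 1`: `B`-admissible (`⟪T,ξ⟫ = ψ ⟪T₀, ξ'⟫ ≤ √(A ξ' ξ') ≤ √(B ξ ξ)`), `∫_{S×ℝ} div T = (∫ψ) ∫_S div T₀` (Fubini `fl_integral_join`); `∫ψ ↑ b-a`.
  `≤`: `T` `B`-admissible in the box: `div T = div_z T'(·,t) + ∂_t T_{n+1}`; `∫ ∂_t T_{n+1}(z,t) dt = 0` for every `z`; for every `t` the field `z ↦ gmtHor (T (z,t))` is an `A`-admissible test field in `W` (test `ξ = (ξ',0)`), zero for `t ∉ (a,b)`: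
  `∫_{S×ℝ} div T = ∫_a^b ∫_S div_z T'(·,t) dz dt ≤ (b-a) Per_A(S;W)` (if the latter is finite; else nothing to prove).
* `lintegral_gmtPer_slice_le` (SLICING, with room).  `u_k = gmtMol ε_k χ_F`, `ε_k → 0`.  (i) `u_k → χ_F` a.e. (`gmtMol_tendsto_ae`), so for a.e. `t`, for a.e. `z`: `u_k(z,t) → χ_{F_t}(z)` (`fl_ae_join` with the roles of `z,t` exchanged: use `fl_measurePreserving` + `Measure.ae_ae_of_ae_prod` after `Measure.prod_swap`), `0 ≤ u_k ≤ 1`:
  dominated convergence: `u_k(·,t) → χ_{F_t}` in `L¹_loc`.  (ii) `gmtVarA_lsc` in `W'`: `Per_A(F_t;W') ≤ liminf_k Var_A(u_k(·,t);W')`.  (iii) `Var_A(u_k(·,t);W') = ∫_{W'} √(A ∇_z u_k ∇_z u_k) dz` (`gmtVarA_of_contDiffOn`) is measurable in `t`, `≤ ∫_{W'} √(B ∇u_k ∇u_k)`;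
  Fatou (`lintegral_liminf_le`), Tonelli (`fl_lintegral_join`): `∫_{a'}^{b'} Per_A(F_t;W') dt ≤ liminf Var_B(u_k; W'×(a',b')) ≤ (1+η) Per_B(F; W×(a,b))` (`gmtVarA_gmtMol_le` in the open set `W×(a,b)`), `η → 0`.
  NOTE: `t ↦ Per_A(F_t;W')` need not be known to be measurable: `lintegral_mono` holds for arbitrary functions.
* `gmtPer_cap_le`: `gmtPer_glue_level` with `f y = |gmtVer y|` (continuous; `C¹` with `|∇f| = 1` on `{0 < f}`), `S₁ = S' × ℝ`, `S₂ = S × ℝ`, window `W × (-(L₀+1), L₀+1)`...: to have a fixed window work on each interval `L ∈ (k, k+1)`, `k ∈ ℕ`, in the window `W × (-(k+2), k+2)`, then restrict to the smaller box by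
  `gmtPer_mono`?  NO: monotonicity goes the wrong way; instead state the result in the window `gmtBox W (-M) M` for ANY `M > L` (as below), for a.e. `L ∈ (0, M)`; `gmtIface = 2 (s - a) |(S △ S') ∩ W|`, `gmtPer_timesR_box` for the two pieces `{|t|<L}` and `{L<|t|<M}` (two boxes: `gmtPer_union_le`).
* `gmtLAM_timesR` (⇒).  Competitor `F`, `F △ (S×ℝ) ⊆ K` compact `⊆ U×ℝ`.  Choose `W' ⋐ W ⋐ U`, `a < a' < b' < b` with `K ⊆ W'×(a',b')`.  For every `t`: `F_t △ S ⊆ K_t` compact in `W'`; minimality of `S` in `W'`: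
  `ℓ(t) := Per_A(S;W') - ∫_{S∩W'} f + ∫_{F_t∩W'} f ≤ Per_A(F_t;W')` (trivial if the right side is `∞`); integrate over `(a',b')`, slicing:  `E(S×ℝ; box') ≤ Per_B(F; box) - ∫_{F∩box'} f̃`.  Let `box' ↑ box` (`gmtPer_iUnion_mono`; the difference of the volume terms lives on `K`).  Conclude with `gmtLAM_of_cofinal`.
* `gmtLAM_of_timesR` (⇐).  Competitor `S'` in `W ⋐ U`; `gmtPer_cap_le` with `M = L+1`, minimality of `S×ℝ` in `W×(-M,M)`:  `2L [E(S) - E(S')] ≤ 2C |S △ S'|`; `L → ∞` along good levels.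
* `gmtBd_timesR`: `(S ∩ B_{r/2}(z)) × (t-r/2,t+r/2) ⊆ (S×ℝ) ∩ B_r(z,t) ⊆ (S ∩ B_r(z)) × (t-r,t+r)`, `Measure.prod_prod` (valid for all sets), `fl_measurePreserving`.
* `gmtReg_timesR`: `φ̃ = φ ∘ gmtHor`.
* `gmtReg_of_timesR`: let `φ̃` on `ball y₀ r`, `y₀ = (z₀,t₀)`, box `Q = ball z₀ ρ × I ⊆ ball y₀ r`.  (1) for a.e. `z ∈ ball z₀ ρ`: `1_S(z) = 1_{φ̃(z,t)<0}` for a.e. `t ∈ I`; by continuity in `t`: `φ̃(z,·) ≤ 0` on `I` or `≥ 0` on `I`; by density and continuity in `z` this alternative holds for ALL `z ∈ ball z₀ ρ`.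
  (2) `t ↦ φ̃(z₀,t)` has a local extremum at `t₀` (value `0`), so `∂_t φ̃(y₀) = 0`, hence `φ := φ̃(·,t₀)` has `∇φ(z₀) ≠ 0`; shrink `ρ`: `∇φ ≠ 0` on `ball z₀ ρ`.  (3) `{φ = 0}` is a null set (`hr_lev_null`-type lemma, stated here as `gmt_level_null`); for `z` off it the sign of `φ̃(z,·)` on `I` is that of `φ(z)`, and `{φ̃ = 0}` is null in `Q`:
  for a.e. `z`: `z ∈ S ⟺ φ̃(z,t) < 0` for a.e. `t` `⟺ φ(z) < 0`.
-/

set_option autoImplicit false
open scoped ContDiff ENNReal RealInnerProductSpace Topology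
open MeasureTheory Metric Set Filter

namespace Claimed.Agent.Gmt

variable {n : ℕ}

/-- horizontal slices. -/
def gmtSlice (F : Set (E (n + 1))) (t : ℝ) : Set (E n) := {z | gmtJoin z t ∈ F}

/-- the box `W × (a,b)`. -/
def gmtBox (W : Set (E n)) (a b : ℝ) : Set (E (n + 1)) := {y | gmtHor y ∈ W ∧ gmtVer y ∈ Ioo a b}

/-- `S'` for `|t| < L`, `S` for `|t| ≥ L`. -/
def gmtCap (S' S : Set (E n)) (L : ℝ) : Set (E (n + 1)) :=
  {y | (|gmtVer y| < L ∧ gmtHor y ∈ S') ∨ (L ≤ |gmtVer y| ∧ gmtHor y ∈ S)}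

theorem gmtProdInt_apply (A : E n → Bil n) (c : E n → ℝ) (y ξ η : E (n + 1)) :
    gmtProdInt A c y ξ η = A (gmtHor y) (gmtHor ξ) (gmtHor η) + c (gmtHor y) * (gmtVer ξ * gmtVer η) := by
  simp only [gmtProdInt, add_apply, smul_apply, ContinuousLinearMap.bilinearComp_apply,
    ContinuousLinearMap.smulRight_apply, smul_eq_mul]
  rfl

theorem isOpen_gmtTimesR {U : Set (E n)} (hU : IsOpen U) : IsOpen (gmtTimesR U) :=
  hU.preimage fl_continuous_hor

theorem gmtTimesR_measurableSet {S : Set (E n)} (hS : MeasurableSet S) :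
    MeasurableSet (gmtTimesR S) := fl_continuous_hor.measurable hS

theorem isOpen_gmtBox {W : Set (E n)} (hW : IsOpen W) (a b : ℝ) : IsOpen (gmtBox W a b) :=
  (hW.preimage fl_continuous_hor).inter (isOpen_Ioo.preimage fl_continuous_ver)

/-- the compact box. -/
theorem gmt_bpa_closure {W : Set (E n)} (hW : IsCompact (closure W)) (a b : ℝ) :
    IsCompact (closure (gmtBox W a b)) ∧
      closure (gmtBox W a b) ⊆ {y | gmtHor y ∈ closure W ∧ gmtVer y ∈ Icc a b} := by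
  have hK : IsCompact ((fun p : E n × ℝ => gmtJoin p.1 p.2) '' (closure W ×ˢ Icc a b)) :=
    (hW.prod isCompact_Icc).image fl_continuous_join
  have hsub : gmtBox W a b ⊆ (fun p : E n × ℝ => gmtJoin p.1 p.2) '' (closure W ×ˢ Icc a b) := by
    intro y hy
    exact ⟨(gmtHor y, gmtVer y), ⟨subset_closure hy.1, Ioo_subset_Icc_self hy.2⟩, fl_join_hor_ver y⟩
  have hcl := closure_minimal hsub hK.isClosed
  refine ⟨hK.of_isClosed_subset isClosed_closure hcl, ?_⟩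
  intro y hy
  obtain ⟨p, hp, rfl⟩ := hcl hy
  simp only [mem_ofPred_eq, fl_hor_join, fl_ver_join]
  exact hp

theorem gmtBox_cc {W U : Set (E n)} (hW : GmtCC W U) (a b : ℝ) :
    GmtCC (gmtBox W a b) (gmtTimesR U) := by
  obtain ⟨h1, h2⟩ := gmt_bpa_closure hW.2.1 a b
  exact ⟨isOpen_gmtBox hW.1 a b, h1, fun y hy => hW.2.2 (h2 hy).1⟩

theorem gmtBox_cc_box {W' W : Set (E n)} (hW : GmtCC W' W) {a a' b' b : ℝ} (ha : a < a')
    (hb : b' < b) : GmtCC (gmtBox W' a' b') (gmtBox W a b) := by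
  obtain ⟨h1, h2⟩ := gmt_bpa_closure hW.2.1 a' b'
  exact ⟨isOpen_gmtBox hW.1 a' b', h1, fun y hy => ⟨hW.2.2 (h2 hy).1,
    lt_of_lt_of_le ha (h2 hy).2.1, lt_of_le_of_lt (h2 hy).2.2 hb⟩⟩

/-- a compact subset of `U × ℝ` lies in a box. -/
theorem gmt_exists_box {U : Set (E n)} (hU : IsOpen U) {K : Set (E (n + 1))} (hK : IsCompact K)
    (hKU : K ⊆ gmtTimesR U) : ∃ W, GmtCC W U ∧ ∃ M : ℝ, 0 < M ∧ K ⊆ gmtBox W (-M) M := by
  have h1 : IsCompact (gmtHor '' K) := hK.image fl_continuous_hor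
  have h2 : gmtHor '' K ⊆ U := by
    rintro _ ⟨y, hy, rfl⟩
    exact hKU hy
  obtain ⟨W, hW, hKW⟩ := gmt_exists_cc h1 hU h2
  obtain ⟨R, hR⟩ := hK.isBounded.subset_ball (0 : E (n + 1))
  refine ⟨W, hW, max R 1, lt_of_lt_of_le one_pos (le_max_right _ _), ?_⟩
  intro y hy
  refine ⟨hKW ⟨y, hy, rfl⟩, ?_⟩
  have h3 : ‖y‖ < R := by simpa using hR hy
  have h4 : |gmtVer y| < max R 1 := lt_of_le_of_lt (fl_abs_ver_le y) (lt_of_lt_of_le h3 (le_max_left _ _))
  exact abs_lt.1 h4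

theorem measurableSet_gmtSlice {F : Set (E (n + 1))} (hF : MeasurableSet F) (t : ℝ) :
    MeasurableSet (gmtSlice F t) := by
  have h : Measurable (fun z : E n => gmtJoin z t) :=
    fl_measurable_join.comp (measurable_id.prodMk measurable_const)
  exact h hF

theorem gmtProdInt_int {U : Set (E n)} {A : E n → Bil n} {c : E n → ℝ} (hA : GmtInt U A)
    (hc : ContDiffOn ℝ ∞ c U) (hc0 : ∀ x ∈ U, 0 < c x) :
    GmtInt (gmtTimesR U) (gmtProdInt A c) := by
  have hmap : MapsTo (gmtHorL n) (gmtTimesR U) U := fun y hy => hy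
  refine ⟨?_, ?_, ?_⟩
  · have h0 : ContDiffOn ℝ ∞ (fun y : E (n + 1) => A (gmtHorL n y)) (gmtTimesR U) :=
      hA.smooth.comp (gmtHorL n).contDiff.contDiffOn hmap
    have h2 : ContDiffOn ℝ ∞ (fun y : E (n + 1) => c (gmtHorL n y)) (gmtTimesR U) :=
      hc.comp (gmtHorL n).contDiff.contDiffOn hmap
    rw [contDiffOn_clm_apply]
    intro ξ
    rw [contDiffOn_clm_apply]
    intro η
    have h3 : ContDiffOn ℝ ∞ (fun y : E (n + 1) => A (gmtHorL n y) (gmtHor ξ) (gmtHor η) +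
        c (gmtHorL n y) * (gmtVer ξ * gmtVer η)) (gmtTimesR U) :=
      ((h0.clm_apply contDiffOn_const).clm_apply contDiffOn_const).add (h2.mul contDiffOn_const)
    refine h3.congr ?_
    intro y _
    exact gmtProdInt_apply A c y ξ η
  · intro y hy ξ η
    rw [gmtProdInt_apply, gmtProdInt_apply, hA.symm _ hy, mul_comm (gmtVer ξ)]
  · intro y hy ξ hξ
    rw [gmtProdInt_apply]
    have hcy : 0 < c (gmtHor y) := hc0 _ hy
    by_cases h0 : gmtHor ξ = 0
    · have h1 : gmtVer ξ ≠ 0 := by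
        intro h1
        apply hξ
        rw [← fl_join_hor_ver ξ, h0, h1, fl_join_eq]
        simp
      rw [h0]
      simp only [map_zero, zero_add]
      have : 0 < gmtVer ξ * gmtVer ξ := mul_self_pos.2 h1
      positivity
    · have h1 := hA.pos _ hy _ h0
      have h2 : 0 ≤ gmtVer ξ * gmtVer ξ := mul_self_nonneg _
      have h3 : 0 ≤ c (gmtHor y) * (gmtVer ξ * gmtVer ξ) := mul_nonneg hcy.le h2
      linarith

/-- the coordinates as a measurable equivalence. -/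
noncomputable def gmtBpaEquiv (n : ℕ) : E (n + 1) ≃ᵐ E n × ℝ where
  toFun := fun y => (gmtHor y, gmtVer y)
  invFun := fun p => gmtJoin p.1 p.2
  left_inv := fl_join_hor_ver
  right_inv := fun p => by simp [fl_hor_join, fl_ver_join]
  measurable_toFun := fl_continuous_hor.measurable.prodMk fl_continuous_ver.measurable
  measurable_invFun := fl_measurable_join

theorem gmt_bpa_mp : MeasurePreserving (gmtBpaEquiv n) volume
    ((volume : Measure (E n)).prod (volume : Measure ℝ)) := fl_measurePreserving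

/-- volume of a product set in a box. -/
theorem volume_timesR_box (D W : Set (E n)) {a b : ℝ} (hab : a ≤ b) :
    volume (gmtTimesR D ∩ gmtBox W a b) = volume (D ∩ W) * ENNReal.ofReal (b - a) := by
  have h1 : gmtTimesR D ∩ gmtBox W a b = gmtBpaEquiv n ⁻¹' ((D ∩ W) ×ˢ Ioo a b) := by
    ext y
    simp only [gmtTimesR, gmtBox, mem_inter_iff, mem_ofPred_eq, mem_preimage, mem_prod]
    constructor
    · rintro ⟨h1, h2, h3⟩
      exact ⟨⟨h1, h2⟩, h3⟩
    · rintro ⟨⟨h1, h2⟩, h3⟩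
      exact ⟨h1, h2, h3⟩
  rw [h1, gmt_bpa_mp.measure_preimage_equiv, Measure.prod_prod, Real.volume_Ioo]

theorem integral_timesR_box {S W : Set (E n)} (hS : MeasurableSet S) (hW : MeasurableSet W)
    {f : E n → ℝ} {a b : ℝ} (hab : a ≤ b) :
    ∫ y in gmtTimesR S ∩ gmtBox W a b, f (gmtHor y) = (b - a) * ∫ z in S ∩ W, f z := by
  have h1 : gmtTimesR S ∩ gmtBox W a b = gmtBpaEquiv n ⁻¹' ((S ∩ W) ×ˢ Ioo a b) := by
    ext y
    simp only [gmtTimesR, gmtBox, mem_inter_iff, mem_ofPred_eq, mem_preimage, mem_prod]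
    constructor
    · rintro ⟨h1, h2, h3⟩
      exact ⟨⟨h1, h2⟩, h3⟩
    · rintro ⟨⟨h1, h2⟩, h3⟩
      exact ⟨h1, h2, h3⟩
  have h2 := gmt_bpa_mp.setIntegral_preimage_emb (gmtBpaEquiv n).measurableEmbedding
    (fun p : E n × ℝ => f p.1 * (1 : ℝ)) ((S ∩ W) ×ˢ Ioo a b)
  have h3 : ∫ y in gmtTimesR S ∩ gmtBox W a b, f (gmtHor y) =
      ∫ y in gmtBpaEquiv n ⁻¹' ((S ∩ W) ×ˢ Ioo a b), f ((gmtBpaEquiv n y).1) * (1 : ℝ) := by
    rw [h1]
    simp only [mul_one]
    rfl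
  rw [h3, h2, setIntegral_prod_mul (fun z => f z) (fun _ : ℝ => (1 : ℝ))]
  simp [hab, mul_comm]

/-- Fubini for a general set in a box. -/
theorem integral_box_slice {F : Set (E (n + 1))} (hF : MeasurableSet F) {W : Set (E n)}
    (hW : MeasurableSet W) {f : E n → ℝ} (hf : IntegrableOn f W) {a b : ℝ} :
    ∫ y in F ∩ gmtBox W a b, f (gmtHor y) = ∫ t in Ioo a b, ∫ z in gmtSlice F t ∩ W, f z := by
  set F' : Set (E n × ℝ) := (gmtBpaEquiv n).symm ⁻¹' F with hF'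
  have hF'm : MeasurableSet F' := (gmtBpaEquiv n).symm.measurable hF
  have h1 : F ∩ gmtBox W a b = gmtBpaEquiv n ⁻¹' (F' ∩ W ×ˢ Ioo a b) := by
    ext y
    simp only [hF', gmtBox, mem_inter_iff, mem_ofPred_eq, mem_preimage, mem_prod,
      MeasurableEquiv.symm_apply_apply]
    rfl
  have h2 := gmt_bpa_mp.setIntegral_preimage_emb (gmtBpaEquiv n).measurableEmbedding
    (fun p : E n × ℝ => f p.1) (F' ∩ W ×ˢ Ioo a b)
  have h3 : ∫ y in F ∩ gmtBox W a b, f (gmtHor y) =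
      ∫ y in gmtBpaEquiv n ⁻¹' (F' ∩ W ×ˢ Ioo a b), f ((gmtBpaEquiv n y).1) := by
    rw [h1]
    rfl
  rw [h3, h2]
  have hm : MeasurableSet (F' ∩ W ×ˢ Ioo a b) := hF'm.inter (hW.prod measurableSet_Ioo)
  -- integrability
  have hint0 : IntegrableOn (fun p : E n × ℝ => f p.1) (W ×ˢ Ioo a b)
      ((volume : Measure (E n)).prod (volume : Measure ℝ)) := by
    have h4 : Integrable (fun p : E n × ℝ => f p.1 * (1 : ℝ))
        (((volume : Measure (E n)).restrict W).prod ((volume : Measure ℝ).restrict (Ioo a b))) :=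
      Integrable.mul_prod (f := f) (g := fun _ : ℝ => (1 : ℝ)) hf (integrable_const _)
    rw [IntegrableOn, ← Measure.prod_restrict]
    simpa using h4
  have hint : Integrable ((F' ∩ W ×ˢ Ioo a b).indicator (fun p : E n × ℝ => f p.1))
      ((volume : Measure (E n)).prod (volume : Measure ℝ)) :=
    (integrable_indicator_iff hm).2 (hint0.mono_set inter_subset_right)
  rw [← integral_indicator hm, integral_prod_symm _ hint, ← integral_indicator measurableSet_Ioo]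
  refine integral_congr_ae (Eventually.of_forall fun t => ?_)
  simp only
  by_cases ht : t ∈ Ioo a b
  · rw [indicator_of_mem ht, ← integral_indicator ((measurableSet_gmtSlice hF t).inter hW)]
    refine integral_congr_ae (Eventually.of_forall fun z => ?_)
    simp only
    by_cases hz : z ∈ gmtSlice F t ∩ W
    · have hz' : (z, t) ∈ F' ∩ W ×ˢ Ioo a b := ⟨hz.1, hz.2, ht⟩
      rw [indicator_of_mem hz, indicator_of_mem hz']
    · have hz' : (z, t) ∉ F' ∩ W ×ˢ Ioo a b := fun h => hz ⟨h.1, h.2.1⟩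
      rw [indicator_of_notMem hz, indicator_of_notMem hz']
  · rw [indicator_of_notMem ht]
    have : ∀ z : E n, (F' ∩ W ×ˢ Ioo a b).indicator (fun p : E n × ℝ => f p.1) (z, t) = 0 := by
      intro z
      exact indicator_of_notMem (fun h => ht h.2.2) _
    simp [this]

end Claimed.Agent.Gmt
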