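import Claimed.Agent.Lib.Gmt.BvProdA

/-!
# Lib/Gmt [BvProdB = part 2/4 of the former BvProd] G3f: products `S × ℝ`: perimeter in boxes, slicing, `S` minimises iff `S × ℝ` minimises; boundary, regular and singular points of `S × ℝ`.
(architect: helper75; tops of `IFp.lean`; coordinates `y = (z,t)`: `FlCoord.lean` (`fl_*`))

NOTATION  `B = gmtProdInt A c = A ⊕ c dt²`, `gmtBox W a b = W × (a,b)`, `gmtSlice F t = {z | (z,t) ∈ F}`.

PLAN OF PROOFS
* `gmtProdInt_apply`: unfold.   `gmtProdInt_int`: smoothness by composition with the linear maps `gmtHorL`, `gmtVerL`; positivity: `ξ ≠ 0` ⇒ `gmtHor ξ ≠ 0` or `gmtVer ξ ≠ 0`.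
* `gmtPer_timesR_box`.  `≥`: `T(z,t) = ψ(t) (T₀(z), 0)`, `T₀` `A`-admissible in `W`, `ψ ∈ C¹_c(a,b)`, `0 ≤ ψ ≤ 1`: `B`-admissible (`⟪T,ξ⟫ = ψ ⟪T₀, ξ'⟫ ≤ √(A ξ' ξ') ≤ √(B ξ ξ)`), `∫_{S×ℝ} div T = (∫ψ) ∫_S div T₀` (Fubini `fl_integral_join`); `∫ψ ↑ b-a`.
  `≤`: `T` `B`-admissible in the box: `div T = div_z T'(·,t) + ∂_t T_{n+1}`; `∫ ∂_t T_{n+1}(z,t) dt = 0` for every `z`; for every `t` the field `z ↦ gmtHor (T (z,t))` is an `A`-admissible test field in `W` (test `ξ = (ξ',0)`), zero for `t ∉ (a,b)`: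
  `∫_{S×ℝ} div T = ∫_a^b ∫_S div_z T'(·,t) dz dt ≤ (b-a) Per_A(S;W)` (if the latter is finite; else nothing to prove).
* `lintegral_gmtPer_slice_le` (SLICING, with room).  `u_k = gmtMol ε_k χ_F`, `ε_k → 0`.  (i) `u_k → χ_F` a.e. (`gmtMol_tendsto_ae`), so for a.e. `t`, for a.e. `z`: `u_k(z,t) → χ_{F_t}(z)` (`fl_ae_join` with the roles of `z,t` exchanged: use `fl_measurePreserving` + `Measure.ae_ae_of_ae_prod` after `Measure.prod_swap`), `0 ≤ u_k ≤ 1`:
  dominated convergence: `u_k(·,t) → χ_{F_t}` in `L¹_loc`.  (ii) `gmtVarA_lsc` in `W'`: `Per_A(F_t;W') ≤ liminf_k Var_A(u_k(·,t);W')`.  (iii) `Var_A(u_k(·,t);W') = ∫_{W'} √(A ∇_z u_k ∇_z u_k) dz` (`gmtVarA_of_contDiffOn`) is measurable in `t`, `≤ ∫_{W'} √(B ∇u_k ∇u_k)`;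
  Fatou (`lintegral_liminf_le`), Tonelli (`fl_lintegral_join`): `∫_{a'}^{b'} Per_A(F_t;W') dt ≤ liminf Var_B(u_k; W'×(a',b')) ≤ (1+η) Per_B(F; W×(a,b))` (`gmtVarA_gmtMol_le` in the open set `W×(a,b)`), `η → 0`.
  NOTE: `t ↦ Per_A(F_t;W')` need not be known to be measurable: `lintegral_mono` holds for arbitrary functions.
* `gmtPer_cap_le`: `gmtPer_glue_level` with `f y = |gmtVer y|` (continuous; `C¹` with `|∇f| = 1` on `{0 < f}`), `S₁ = S' × ℝ`, `S₂ = S × ℝ`, window `W × (-(L₀+1), L₀+1)`...: to have a fixed window work on each interval `L ∈ (k, k+1)`, `k ∈ ℕ`, in the window `W × (-(k+2), k+2)`, then restrict to the smaller box by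
  `gmtPer_mono`?  NO: monotonicity goes the wrong way; instead state the result in the window `gmtBox W (-M) M` for ANY `M > L` (as below), for a.e. `L ∈ (0, M)`; `gmtIface = 2 (s - a) |(S △ S') ∩ W|`, `gmtPer_timesR_box` for the two pieces `{|t|<L}` and `{L<|t|<M}` (two boxes: `gmtPer_union_le`).
* `gmtLAM_timesR` (⇒).  Competitor `F`, `F △ (S×ℝ) ⊆ K` compact `⊆ U×ℝ`.  Choose `W' ⋐ W ⋐ U`, `a < a' < b' < b` with `K ⊆ W'×(a',b')`.  For every `t`: `F_t △ S ⊆ K_t` compact in `W'`; minimality of `S` in `W'`: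
  `ℓ(t) := Per_A(S;W') - ∫_{S∩W'} f + ∫_{F_t∩W'} f ≤ Per_A(F_t;W')` (trivial if the right side is `∞`); integrate over `(a',b')`, slicing:  `E(S×ℝ; box') ≤ Per_B(F; box) - ∫_{F∩box'} f̃`.  Let `box' ↑ box` (`gmtPer_iUnion_mono`; the difference of the volume terms lives on `K`).  Conclude with `gmtLAM_of_cofinal`.
* `gmtLAM_of_timesR` (⇐).  Competitor `S'` in `W ⋐ U`; `gmtPer_cap_le` with `M = L+1`, minimality of `S×ℝ` in `W×(-M,M)`:  `2L [E(S) - E(S')] ≤ 2C |S △ S'|`; `L → ∞` along good levels.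
* `gmtBd_timesR`: `(S ∩ B_{r/2}(z)) × (t-r/2,t+r/2) ⊆ (S×ℝ) ∩ B_r(z,t) ⊆ (S ∩ B_r(z)) × (t-r,t+r)`, `Measure.prod_prod` (valid for all sets), `fl_measurePreserving`.
* `gmtReg_timesR`: `φ̃ = φ ∘ gmtHor`.
* `gmtReg_of_timesR`: let `φ̃` on `ball y₀ r`, `y₀ = (z₀,t₀)`, box `Q = ball z₀ ρ × I ⊆ ball y₀ r`.  (1) for a.e. `z ∈ ball z₀ ρ`: `1_S(z) = 1_{φ̃(z,t)<0}` for a.e. `t ∈ I`; by continuity in `t`: `φ̃(z,·) ≤ 0` on `I` or `≥ 0` on `I`; by density and continuity in `z` this alternative holds for ALL `z ∈ ball z₀ ρ`.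
  (2) `t ↦ φ̃(z₀,t)` has a local extremum at `t₀` (value `0`), so `∂_t φ̃(y₀) = 0`, hence `φ := φ̃(·,t₀)` has `∇φ(z₀) ≠ 0`; shrink `ρ`: `∇φ ≠ 0` on `ball z₀ ρ`.  (3) `{φ = 0}` is a null set (`hr_lev_null`-type lemma, stated here as `gmt_level_null`); for `z` off it the sign of `φ̃(z,·)` on `I` is that of `φ(z)`, and `{φ̃ = 0}` is null in `Q`:
  for a.e. `z`: `z ∈ S ⟺ φ̃(z,t) < 0` for a.e. `t` `⟺ φ(z) < 0`.
-/

set_option autoImplicit false
open scoped ContDiff ENNReal RealInnerProductSpace Topology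
open MeasureTheory Metric Set Filter

namespace Claimed.Agent.Gmt

variable {n : ℕ}

/-! ### product fields -/

/-- the field `ψ(t) (T₀(z), 0)`. -/
noncomputable def gpbF (ψ : ℝ → ℝ) (T₀ : E n → E n) (y : E (n + 1)) : E (n + 1) :=
  ψ (gmtVer y) • flInc n (T₀ (gmtHor y))

theorem gpb_F_div {ψ : ℝ → ℝ} {T₀ : E n → E n} {y : E (n + 1)}
    (hψ : DifferentiableAt ℝ ψ (gmtVer y)) (hT : DifferentiableAt ℝ T₀ (gmtHor y)) :
    gmtDiv (gpbF ψ T₀) y = ψ (gmtVer y) * gmtDiv T₀ (gmtHor y) := by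
  have h1 : HasFDerivAt (fun y : E (n + 1) => ψ (gmtVer y))
      (deriv ψ (gmtVer y) • (gmtVerL n)) y :=
    hψ.hasDerivAt.comp_hasFDerivAt y (gmtVerL n).hasFDerivAt
  have h2 : HasFDerivAt (fun y : E (n + 1) => flInc n (T₀ (gmtHor y)))
      ((flInc n).comp ((fderiv ℝ T₀ (gmtHor y)).comp (gmtHorL n))) y :=
    (flInc n).hasFDerivAt.comp y (hT.hasFDerivAt.comp y (gmtHorL n).hasFDerivAt)
  have h3 := gmtDiv_smul h1.differentiableAt h2.differentiableAt
  have e : gpbF ψ T₀ = fun y => ψ (gmtVer y) • flInc n (T₀ (gmtHor y)) := rfl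
  rw [e, h3, h1.fderiv]
  have e2 : (deriv ψ (gmtVer y) • gmtVerL n) (flInc n (T₀ (gmtHor y))) = 0 := by
    rw [_root_.smul_apply, fl_inc_apply]
    show deriv ψ (gmtVer y) • gmtVer (gmtJoin (T₀ (gmtHor y)) 0) = 0
    rw [fl_ver_join, smul_zero]
  rw [e2, add_zero]
  congr 1
  unfold gmtDiv
  rw [h2.fderiv, Fin.sum_univ_castSucc]
  have e3 : ∀ v : E (n + 1), ((flInc n).comp ((fderiv ℝ T₀ (gmtHor y)).comp (gmtHorL n))) v
      = gmtJoin (fderiv ℝ T₀ (gmtHor y) (gmtHor v)) 0 := fun v => rfl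
  simp only [e3, fl_join_castSucc, fl_join_last, add_zero, flh_hor_eb]

theorem gpb_F_inner (ψ : ℝ → ℝ) (T₀ : E n → E n) (y v : E (n + 1)) :
    ⟪gpbF ψ T₀ y, v⟫ = ψ (gmtVer y) * ⟪T₀ (gmtHor y), gmtHor v⟫ := by
  unfold gpbF
  rw [inner_smul_left, fl_inc_apply, fl_inner, fl_hor_join, fl_ver_join]
  simp

theorem gpb_F_tsupport (ψ : ℝ → ℝ) (T₀ : E n → E n) :
    tsupport (gpbF ψ T₀) ⊆
      (fun p : E n × ℝ => gmtJoin p.1 p.2) '' (tsupport T₀ ×ˢ tsupport ψ) := by
  have hcl : IsClosed ((gmtHor ⁻¹' tsupport T₀ : Set (E (n + 1))) ∩ gmtVer ⁻¹' tsupport ψ) :=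
    ((isClosed_tsupport T₀).preimage fl_continuous_hor).inter
      ((isClosed_tsupport ψ).preimage fl_continuous_ver)
  have h1 : tsupport (gpbF ψ T₀)
      ⊆ (gmtHor ⁻¹' tsupport T₀ : Set (E (n + 1))) ∩ gmtVer ⁻¹' tsupport ψ := by
    refine closure_minimal (fun y hy => ?_) hcl
    by_contra hc
    apply hy
    unfold gpbF
    by_cases h2 : gmtHor y ∈ tsupport T₀
    · have h3 : gmtVer y ∉ tsupport ψ := fun h3 => hc ⟨h2, h3⟩
      rw [image_eq_zero_of_notMem_tsupport h3, zero_smul]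
    · rw [image_eq_zero_of_notMem_tsupport h2, map_zero, smul_zero]
  refine h1.trans fun y hy => ⟨(gmtHor y, gmtVer y), ⟨hy.1, hy.2⟩, fl_join_hor_ver y⟩

theorem gpb_F_test {W : Set (E n)} {T₀ : E n → E n} (hT : GmtTest W T₀) {ψ : ℝ → ℝ}
    (hψ : ContDiff ℝ 1 ψ) (hψc : HasCompactSupport ψ) {a b : ℝ} (hψs : tsupport ψ ⊆ Ioo a b) :
    GmtTest (gmtBox W a b) (gpbF ψ T₀) := by
  refine ⟨?_, ?_, ?_⟩
  · have h1 : ContDiff ℝ 1 fun y : E (n + 1) => ψ (gmtVer y) := hψ.comp (gmtVerL n).contDiff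
    have h2 : ContDiff ℝ 1 fun y : E (n + 1) => flInc n (T₀ (gmtHor y)) :=
      (flInc n).contDiff.comp (hT.c1.comp (gmtHorL n).contDiff)
    exact h1.smul h2
  · exact ((hT.cpt.prod hψc).image fl_continuous_join).of_isClosed_subset (isClosed_tsupport _)
      (gpb_F_tsupport ψ T₀)
  · refine (gpb_F_tsupport ψ T₀).trans ?_
    rintro _ ⟨p, ⟨h1, h2⟩, rfl⟩
    refine ⟨?_, ?_⟩
    · rw [fl_hor_join]
      exact hT.sub h1
    · rw [fl_ver_join]
      exact hψs h2

theorem gpb_F_adm {W : Set (E n)} {A : E n → Bil n} {c : E n → ℝ} (hc0 : ∀ x ∈ W, 0 ≤ c x)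
    {T₀ : E n → E n} (hT : GmtTest W T₀) (h1 : GmtAdm A T₀) {ψ : ℝ → ℝ}
    (h01 : ∀ t, ψ t ∈ Icc (0 : ℝ) 1) : GmtAdm (gmtProdInt A c) (gpbF ψ T₀) := by
  intro y ξ
  rw [gpb_F_inner]
  by_cases hy : gmtHor y ∈ W
  · rw [gmtProdInt_apply]
    have h2 := h1 (gmtHor y) (gmtHor ξ)
    have h3 : Real.sqrt (A (gmtHor y) (gmtHor ξ) (gmtHor ξ)) ≤
        Real.sqrt (A (gmtHor y) (gmtHor ξ) (gmtHor ξ) + c (gmtHor y) * (gmtVer ξ * gmtVer ξ)) := by
      apply Real.sqrt_le_sqrt
      have := mul_nonneg (hc0 _ hy) (mul_self_nonneg (gmtVer ξ))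
      linarith
    have h4 := Real.sqrt_nonneg (A (gmtHor y) (gmtHor ξ) (gmtHor ξ))
    have h5 := h01 (gmtVer y)
    calc ψ (gmtVer y) * ⟪T₀ (gmtHor y), gmtHor ξ⟫
        ≤ ψ (gmtVer y) * Real.sqrt (A (gmtHor y) (gmtHor ξ) (gmtHor ξ)) :=
          mul_le_mul_of_nonneg_left h2 h5.1
      _ ≤ 1 * Real.sqrt (A (gmtHor y) (gmtHor ξ) (gmtHor ξ)) :=
          mul_le_mul_of_nonneg_right h5.2 h4
      _ ≤ _ := by rw [one_mul]; exact h3
  · have : T₀ (gmtHor y) = 0 := image_eq_zero_of_notMem_tsupport fun h' => hy (hT.sub h')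
    rw [this, inner_zero_left, mul_zero]
    exact Real.sqrt_nonneg _

theorem gpb_F_integral {W : Set (E n)} {T₀ : E n → E n} (hT : GmtTest W T₀) {ψ : ℝ → ℝ}
    (hψ : ContDiff ℝ 1 ψ) {S : Set (E n)} (hS : MeasurableSet S) :
    ∫ y in gmtTimesR S, gmtDiv (gpbF ψ T₀) y = (∫ z in S, gmtDiv T₀ z) * ∫ t, ψ t := by
  have hc := (continuous_gmtDiv hT).1
  rw [← integral_indicator (gmtTimesR_measurableSet hS), ← integral_indicator hS,
    ← integral_prod_mul (μ := (volume : Measure (E n))) (ν := (volume : Measure ℝ)),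
    ← (fl_measurePreserving (n := n)).map_eq, integral_map]
  · refine integral_congr_ae (Eventually.of_forall fun y => ?_)
    simp only
    by_cases hy : gmtHor y ∈ S
    · rw [indicator_of_mem (show y ∈ gmtTimesR S from hy), indicator_of_mem hy,
        gpb_F_div ((hψ.differentiable (by norm_num)) _) (hT.differentiable _), mul_comm]
    · rw [indicator_of_notMem (show y ∉ gmtTimesR S from hy), indicator_of_notMem hy, zero_mul]
  · exact (fl_measurePreserving (n := n)).measurable.aemeasurable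
  · apply Measurable.aestronglyMeasurable
    exact ((hc.measurable.indicator hS).comp measurable_fst).mul
      (hψ.continuous.measurable.comp measurable_snd)

theorem gpb_exists_cutoff (a b : ℝ) {δ : ℝ} (hδ : 0 < δ) :
    ∃ ψ : ℝ → ℝ, ContDiff ℝ 1 ψ ∧ HasCompactSupport ψ ∧ tsupport ψ ⊆ Ioo a b ∧
      (∀ t, ψ t ∈ Icc (0 : ℝ) 1) ∧ ∀ t ∈ Icc (a + δ) (b - δ), ψ t = 1 := by
  have hKU : Icc (a + δ) (b - δ) ⊆ Ioo a b := fun t ht => ⟨by linarith [ht.1], by linarith [ht.2]⟩
  obtain ⟨L, hL, hKL, hLU⟩ := exists_compact_between (isCompact_Icc (a := a + δ) (b := b - δ))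
    isOpen_Ioo hKU
  obtain ⟨f, h1, h0, hf⟩ := exists_contMDiffMap_one_nhds_of_subset_interior (n := (⊤ : ℕ∞))
    (modelWithCornersSelf ℝ ℝ) (isCompact_Icc (a := a + δ) (b := b - δ)).isClosed hKL
  have hs : Function.support f ⊆ L := by
    intro x hx
    by_contra h
    exact hx (h0 x h)
  have hts : tsupport f ⊆ L := closure_minimal hs hL.isClosed
  refine ⟨f, f.contMDiff.contDiff.of_le (by exact_mod_cast le_top),
    hL.of_isClosed_subset (isClosed_tsupport _) hts, hts.trans hLU, hf, fun t ht => ?_⟩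
  exact h1.self_of_nhdsSet t ht

theorem gpb_box_ge (A : E n → Bil n) {c : E n → ℝ} {W : Set (E n)}
    (hc0 : ∀ x ∈ W, 0 ≤ c x) {S : Set (E n)} (hS : MeasurableSet S) {a b : ℝ} (hab : a ≤ b) :
    ENNReal.ofReal (b - a) * gmtPer A S W ≤
      gmtPer (gmtProdInt A c) (gmtTimesR S) (gmtBox W a b) := by
  conv_lhs => unfold gmtPer
  simp only [ENNReal.mul_iSup]
  refine iSup_le fun T₀ => iSup_le fun hT => iSup_le fun h1 => ?_
  set I₀ := ∫ z in S, gmtDiv T₀ z with hI₀
  rcases le_or_gt I₀ 0 with h | h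
  · rw [ENNReal.ofReal_of_nonpos h, mul_zero]
    exact zero_le
  have key : ∀ δ : ℝ, 0 < δ → ENNReal.ofReal ((b - a - 2 * δ) * I₀) ≤
      gmtPer (gmtProdInt A c) (gmtTimesR S) (gmtBox W a b) := by
    intro δ hδ
    obtain ⟨ψ, hψ, hψc, hψs, h01, hψ1⟩ := gpb_exists_cutoff a b hδ
    have h2 := integral_le_gmtPer (S := gmtTimesR S) (gpb_F_test hT hψ hψc hψs)
      (gpb_F_adm hc0 hT h1 h01)
    rw [gpb_F_integral hT hψ hS, ← hI₀] at h2
    refine le_trans (ENNReal.ofReal_le_ofReal ?_) h2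
    rw [mul_comm]
    refine mul_le_mul_of_nonneg_left ?_ h.le
    have hint : Integrable ψ := hψ.continuous.integrable_of_hasCompactSupport hψc
    have h0 : 0 ≤ ∫ t, ψ t := integral_nonneg fun t => (h01 t).1
    rcases le_or_gt (a + δ) (b - δ) with hle | hlt
    · calc b - a - 2 * δ = ∫ _ in Icc (a + δ) (b - δ), (1 : ℝ) := by
            rw [setIntegral_const, Real.volume_real_Icc_of_le hle]
            simp
            ring
        _ = ∫ t in Icc (a + δ) (b - δ), ψ t :=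
            setIntegral_congr_fun measurableSet_Icc fun t ht => (hψ1 t ht).symm
        _ ≤ ∫ t, ψ t := setIntegral_le_integral hint (Eventually.of_forall fun t => (h01 t).1)
    · linarith
  rw [← ENNReal.ofReal_mul (sub_nonneg.2 hab)]
  have ht : Tendsto (fun δ : ℝ => ENNReal.ofReal ((b - a - 2 * δ) * I₀)) (𝓝[>] 0)
      (𝓝 (ENNReal.ofReal ((b - a) * I₀))) := by
    refine (ENNReal.continuous_ofReal.tendsto _).comp ?_
    have : Tendsto (fun δ : ℝ => (b - a - 2 * δ) * I₀) (𝓝 0) (𝓝 ((b - a - 2 * 0) * I₀)) :=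
      Continuous.tendsto (by fun_prop) 0
    simp only [mul_zero, sub_zero] at this
    exact this.mono_left nhdsWithin_le_nhds
  exact le_of_tendsto ht (eventually_of_mem self_mem_nhdsWithin key)

/-! ### slices of fields -/

/-- horizontal slice of a field. -/
noncomputable def gpbSl (T : E (n + 1) → E (n + 1)) (t : ℝ) (z : E n) : E n :=
  gmtHor (T (gmtJoin z t))

theorem gpb_join_hasFDerivAt (z : E n) (t : ℝ) :
    HasFDerivAt (fun z' : E n => gmtJoin z' t) (flInc n) z := by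
  have e : (fun z' : E n => gmtJoin z' t) = fun z' => flInc n z' + t • gmtEn n :=
    funext fun z' => fl_join_eq z' t
  rw [e]
  exact (flInc n).hasFDerivAt.add_const _

theorem gpb_join_hasDerivAt (z : E n) (t : ℝ) :
    HasDerivAt (fun s : ℝ => gmtJoin z s) (gmtEn n) t := by
  have e : (fun s : ℝ => gmtJoin z s) = fun s => flInc n z + s • gmtEn n :=
    funext fun s => fl_join_eq z s
  rw [e]
  simpa using ((hasDerivAt_id t).smul_const (gmtEn n)).const_add (flInc n z)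

theorem gpb_join_contDiff_left (t : ℝ) : ContDiff ℝ ∞ (fun z' : E n => gmtJoin z' t) := by
  have e : (fun z' : E n => gmtJoin z' t) = fun z' => flInc n z' + t • gmtEn n :=
    funext fun z' => fl_join_eq z' t
  rw [e]
  exact (flInc n).contDiff.add contDiff_const

theorem gpb_join_isometry_left (t : ℝ) : Isometry (fun z' : E n => gmtJoin z' t) := by
  refine Isometry.of_dist_eq fun z z' => ?_
  rw [dist_eq_norm, dist_eq_norm, fl_join_eq, fl_join_eq, add_sub_add_right_eq_sub, ← map_sub,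
    fl_norm_inc]

theorem gpb_join_isometry_right (z : E n) : Isometry (fun s : ℝ => gmtJoin z s) := by
  refine Isometry.of_dist_eq fun s s' => ?_
  rw [dist_eq_norm, dist_eq_norm, fl_join_eq, fl_join_eq, add_sub_add_left_eq_sub, ← sub_smul,
    norm_smul]
  simp

theorem gpb_inc_eb (i : Fin n) : flInc n (eb i) = eb (Fin.castSucc i) := by
  rw [fl_inc_apply, ← flh_hor_eb i]
  have h := fl_join_hor_ver (eb (Fin.castSucc i) : E (n + 1))
  have h2 : gmtVer (eb (Fin.castSucc i) : E (n + 1)) = 0 := by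
    rw [fl_ver_apply]
    simp [eb, Fin.castSucc_ne_last]
  rw [h2] at h
  exact h

theorem gpb_div_split {T : E (n + 1) → E (n + 1)} {z : E n} {t : ℝ}
    (hT : DifferentiableAt ℝ T (gmtJoin z t)) :
    gmtDiv T (gmtJoin z t) =
      gmtDiv (gpbSl T t) z + gmtVer (fderiv ℝ T (gmtJoin z t) (gmtEn n)) := by
  have h1 : HasFDerivAt (gpbSl T t)
      ((gmtHorL n).comp ((fderiv ℝ T (gmtJoin z t)).comp (flInc n))) z :=
    (gmtHorL n).hasFDerivAt.comp z (hT.hasFDerivAt.comp z (gpb_join_hasFDerivAt z t))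
  unfold gmtDiv
  rw [h1.fderiv, Fin.sum_univ_castSucc, fl_ver_apply]
  congr 1
  refine Finset.sum_congr rfl fun i _ => ?_
  show _ = gmtHor (fderiv ℝ T (gmtJoin z t) (flInc n (eb i))) i
  rw [fl_hor_apply, gpb_inc_eb]

theorem gpb_Sl_test {W : Set (E n)} {a b : ℝ} {T : E (n + 1) → E (n + 1)}
    (hT : GmtTest (gmtBox W a b) T) (t : ℝ) : GmtTest W (gpbSl T t) := by
  have e : gpbSl T t = gmtHor ∘ (T ∘ fun z' : E n => gmtJoin z' t) := rfl
  have h0 : gmtHor (0 : E (n + 1)) = 0 := map_zero (gmtHorL n)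
  refine ⟨?_, ?_, ?_⟩
  · exact (gmtHorL n).contDiff.comp
      (hT.c1.comp ((gpb_join_contDiff_left t).of_le (by exact_mod_cast le_top)))
  · rw [e]
    exact (hT.cpt.comp_isClosedEmbedding (gpb_join_isometry_left t).isClosedEmbedding).comp_left h0
  · rw [e]
    refine (tsupport_comp_subset h0 _).trans ?_
    refine (tsupport_comp_subset_preimage T (gpb_join_isometry_left t).continuous).trans ?_
    intro z hz
    have := (hT.sub hz).1
    rwa [fl_hor_join] at this

theorem gpb_Sl_adm {A : E n → Bil n} {c : E n → ℝ} {T : E (n + 1) → E (n + 1)}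
    (h1 : GmtAdm (gmtProdInt A c) T) (t : ℝ) : GmtAdm A (gpbSl T t) := by
  intro z ξ
  have h := h1 (gmtJoin z t) (flInc n ξ)
  rw [gmtProdInt_apply, fl_inner, fl_inc_apply, fl_hor_join, fl_ver_join, fl_hor_join] at h
  simpa [gpbSl] using h

theorem gpb_Sl_zero {W : Set (E n)} {a b : ℝ} {T : E (n + 1) → E (n + 1)}
    (hT : GmtTest (gmtBox W a b) T) {t : ℝ} (ht : t ∉ Ioo a b) : gpbSl T t = fun _ => 0 := by
  ext1 z
  have : T (gmtJoin z t) = 0 := by
    apply image_eq_zero_of_notMem_tsupport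
    intro h
    have := (hT.sub h).2
    rw [fl_ver_join] at this
    exact ht this
  unfold gpbSl
  rw [this]
  exact map_zero (gmtHorL n)

/-- the vertical part of the divergence. -/
noncomputable def gpbD2 (T : E (n + 1) → E (n + 1)) (y : E (n + 1)) : ℝ :=
  gmtVer (fderiv ℝ T y (gmtEn n))

theorem gpb_D2_props {U : Set (E (n + 1))} {T : E (n + 1) → E (n + 1)} (hT : GmtTest U T) :
    Continuous (gpbD2 T) ∧ HasCompactSupport (gpbD2 T) := by
  refine ⟨?_, ?_⟩
  · exact fl_continuous_ver.comp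
      ((hT.c1.continuous_fderiv one_ne_zero).clm_apply continuous_const)
  · refine hT.cpt.mono' ?_
    intro x hx
    by_contra h
    apply hx
    unfold gpbD2
    rw [fderiv_of_notMem_tsupport (𝕜 := ℝ) h]
    exact map_zero (gmtVerL n)

theorem gpb_D2_integral {U : Set (E (n + 1))} {T : E (n + 1) → E (n + 1)} (hT : GmtTest U T)
    (z : E n) : ∫ t, gpbD2 T (gmtJoin z t) = 0 := by
  have hemb := (gpb_join_isometry_right z).isClosedEmbedding
  have hd : ∀ t, HasDerivAt (fun s => gmtVer (T (gmtJoin z s))) (gpbD2 T (gmtJoin z t)) t := by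
    intro t
    have h1 := (hT.differentiable (gmtJoin z t)).hasFDerivAt.comp_hasDerivAt t
      (gpb_join_hasDerivAt z t)
    exact (gmtVerL n).hasFDerivAt.comp_hasDerivAt t h1
  have h1 : Integrable fun t => gpbD2 T (gmtJoin z t) :=
    ((gpb_D2_props hT).1.comp hemb.continuous).integrable_of_hasCompactSupport
      ((gpb_D2_props hT).2.comp_isClosedEmbedding hemb)
  have h2 : Integrable fun s => gmtVer (T (gmtJoin z s)) := by
    have hc : Continuous fun s => gmtVer (T (gmtJoin z s)) :=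
      fl_continuous_ver.comp (hT.c1.continuous.comp hemb.continuous)
    refine hc.integrable_of_hasCompactSupport ?_
    exact (hT.cpt.comp_isClosedEmbedding hemb).comp_left (g := gmtVer) (map_zero (gmtVerL n))
  exact integral_eq_zero_of_hasDerivAt_of_integrable hd h1 h2

theorem gpb_box_integral_le {A : E n → Bil n} {c : E n → ℝ} {W : Set (E n)} {S : Set (E n)}
    (hS : MeasurableSet S) {a b : ℝ} (hab : a ≤ b) (hP : gmtPer A S W ≠ ⊤)
    {T : E (n + 1) → E (n + 1)} (hT : GmtTest (gmtBox W a b) T)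
    (h1 : GmtAdm (gmtProdInt A c) T) :
    ∫ y in gmtTimesR S, gmtDiv T y ≤ (b - a) * (gmtPer A S W).toReal := by
  have hSm := gmtTimesR_measurableSet hS
  obtain ⟨hc, hcs, -⟩ := continuous_gmtDiv hT
  obtain ⟨hc2, hcs2⟩ := gpb_D2_props hT
  have hi : Integrable (gmtDiv T) := hc.integrable_of_hasCompactSupport hcs
  have hi2 : Integrable (gpbD2 T) := hc2.integrable_of_hasCompactSupport hcs2
  have hi1 : Integrable (fun y => gmtDiv T y - gpbD2 T y) := hi.sub hi2
  have e0 : ∫ y in gmtTimesR S, gmtDiv T y =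
      (∫ y in gmtTimesR S, (gmtDiv T y - gpbD2 T y)) + ∫ y in gmtTimesR S, gpbD2 T y := by
    rw [← integral_add hi1.integrableOn hi2.integrableOn]
    congr 1
    ext y
    ring
  -- the vertical part
  have e2 : ∫ y in gmtTimesR S, gpbD2 T y = 0 := by
    rw [← integral_indicator hSm, fl_integral_join (hi2.indicator hSm)]
    have : ∀ z : E n, ∫ t, (gmtTimesR S).indicator (gpbD2 T) (gmtJoin z t) = 0 := by
      intro z
      by_cases hz : z ∈ S
      · have : ∀ t, (gmtTimesR S).indicator (gpbD2 T) (gmtJoin z t) = gpbD2 T (gmtJoin z t) := by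
          intro t
          apply indicator_of_mem
          show gmtHor (gmtJoin z t) ∈ S
          rwa [fl_hor_join]
        simp_rw [this]
        exact gpb_D2_integral hT z
      · have : ∀ t, (gmtTimesR S).indicator (gpbD2 T) (gmtJoin z t) = 0 := by
          intro t
          apply indicator_of_notMem
          show gmtHor (gmtJoin z t) ∉ S
          rwa [fl_hor_join]
        simp_rw [this]
        simp
    simp_rw [this]
    simp
  -- the horizontal part
  set G : E (n + 1) → ℝ := (gmtTimesR S).indicator (fun y => gmtDiv T y - gpbD2 T y) with hG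
  have hGi : Integrable G := hi1.indicator hSm
  have hGp := fl_integrable_join hGi
  have hval : ∀ (t : ℝ) (z : E n), G (gmtJoin z t) = S.indicator (gmtDiv (gpbSl T t)) z := by
    intro t z
    by_cases hz : z ∈ S
    · rw [hG, indicator_of_mem (show gmtJoin z t ∈ gmtTimesR S by
        show gmtHor (gmtJoin z t) ∈ S
        rwa [fl_hor_join]), indicator_of_mem hz, gpb_div_split (hT.differentiable _)]
      unfold gpbD2
      ring
    · rw [hG, indicator_of_notMem (show gmtJoin z t ∉ gmtTimesR S by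
        show gmtHor (gmtJoin z t) ∉ S
        rwa [fl_hor_join]), indicator_of_notMem hz]
  have e1 : ∫ y in gmtTimesR S, (gmtDiv T y - gpbD2 T y) =
      ∫ t, ∫ z in S, gmtDiv (gpbSl T t) z := by
    rw [← integral_indicator hSm, fl_integral_join hGi,
      integral_integral_swap (f := fun z t => G (gmtJoin z t)) hGp]
    refine integral_congr_ae (Eventually.of_forall fun t => ?_)
    simp only
    rw [← integral_indicator hS]
    exact integral_congr_ae (Eventually.of_forall fun z => hval t z)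
  have hφi : Integrable fun t => ∫ z in S, gmtDiv (gpbSl T t) z := by
    have := hGp.integral_prod_right
    refine this.congr (Eventually.of_forall fun t => ?_)
    simp only
    rw [← integral_indicator hS]
    exact integral_congr_ae (Eventually.of_forall fun z => hval t z)
  rw [e0, e2, add_zero, e1]
  have hbd : ∀ t, ∫ z in S, gmtDiv (gpbSl T t) z ≤
      (Ioo a b).indicator (fun _ => (gmtPer A S W).toReal) t := by
    intro t
    by_cases ht : t ∈ Ioo a b
    · rw [indicator_of_mem ht]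
      have := integral_le_gmtPer (S := S) (gpb_Sl_test hT t) (gpb_Sl_adm h1 t)
      rwa [ENNReal.ofReal_le_iff_le_toReal hP] at this
    · rw [indicator_of_notMem ht, gpb_Sl_zero hT ht]
      have : ∀ z : E n, gmtDiv (fun _ : E n => (0 : E n)) z = 0 := by
        intro z
        unfold gmtDiv
        simp
      simp [this]
  calc ∫ t, ∫ z in S, gmtDiv (gpbSl T t) z
      ≤ ∫ t, (Ioo a b).indicator (fun _ => (gmtPer A S W).toReal) t := by
        refine integral_mono hφi ?_ hbd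
        exact (integrable_indicator_iff measurableSet_Ioo).2 (integrableOn_const (by simp))
    _ = (b - a) * (gmtPer A S W).toReal := by
        rw [integral_indicator measurableSet_Ioo, setIntegral_const, Real.volume_real_Ioo_of_le hab,
          smul_eq_mul]

theorem gpb_box_le (A : E n → Bil n) (c : E n → ℝ) (W : Set (E n)) {S : Set (E n)}
    (hS : MeasurableSet S) {a b : ℝ} (hab : a < b) :
    gmtPer (gmtProdInt A c) (gmtTimesR S) (gmtBox W a b) ≤
      ENNReal.ofReal (b - a) * gmtPer A S W := by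
  by_cases hP : gmtPer A S W = ⊤
  · rw [hP, ENNReal.mul_top]
    · exact le_top
    · rw [Ne, ENNReal.ofReal_eq_zero, not_le]
      linarith
  conv_lhs => unfold gmtPer
  refine iSup_le fun T => iSup_le fun hT => iSup_le fun h1 => ?_
  rw [← ENNReal.ofReal_toReal hP, ← ENNReal.ofReal_mul (by linarith)]
  exact ENNReal.ofReal_le_ofReal (gpb_box_integral_le hS hab.le hP hT h1)

/-- PERIMETER OF A PRODUCT IN A BOX. -/
theorem gmtPer_timesR_box (A : E n → Bil n) {c : E n → ℝ} {W : Set (E n)} (hW : IsOpen W)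
    (hc0 : ∀ x ∈ W, 0 ≤ c x) {S : Set (E n)} (hS : MeasurableSet S) {a b : ℝ} (hab : a ≤ b) :
    gmtPer (gmtProdInt A c) (gmtTimesR S) (gmtBox W a b) = ENNReal.ofReal (b - a) * gmtPer A S W := by
  rcases hab.eq_or_lt with rfl | hlt
  · have : gmtBox W a a = ∅ := by
      ext y
      simp [gmtBox]
    rw [this, gmtPer_empty_set]
    simp
  · exact le_antisymm (gpb_box_le A c W hS hlt) (gpb_box_ge A hc0 hS hab)

/-! ### slicing -/

theorem gpb_ae_join_swap {p : E (n + 1) → Prop} (hp : ∀ᵐ y, p y) :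
    ∀ᵐ t : ℝ, ∀ᵐ z : E n, p (gmtJoin z t) := by
  have h1 : ∀ᵐ q ∂((volume : Measure (E n)).prod (volume : Measure ℝ)), p (gmtJoin q.1 q.2) :=
    (fl_measurePreserving_join (n := n)).quasiMeasurePreserving.ae hp
  have h2 : ∀ᵐ q ∂((volume : Measure ℝ).prod (volume : Measure (E n))), p (gmtJoin q.2 q.1) :=
    (Measure.measurePreserving_swap (μ := (volume : Measure ℝ))
      (ν := (volume : Measure (E n)))).quasiMeasurePreserving.ae h1
  exact Measure.ae_ae_of_ae_prod h2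

theorem gpb_gradient_slice {u : E (n + 1) → ℝ} {z : E n} {t : ℝ}
    (hu : DifferentiableAt ℝ u (gmtJoin z t)) :
    gradient (fun z' => u (gmtJoin z' t)) z = gmtHor (gradient u (gmtJoin z t)) := by
  refine ext_inner_right ℝ fun w => ?_
  have h1 : HasFDerivAt (fun z' => u (gmtJoin z' t))
      ((fderiv ℝ u (gmtJoin z t)).comp (flInc n)) z :=
    hu.hasFDerivAt.comp z (gpb_join_hasFDerivAt z t)
  rw [gmt_inner_gradient, h1.fderiv]
  show fderiv ℝ u (gmtJoin z t) (flInc n w) = _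
  rw [← gmt_inner_gradient, fl_inner, fl_inc_apply, fl_hor_join, fl_ver_join, mul_zero, add_zero]

theorem gpb_dens_slice_le {A : E n → Bil n} {c : E n → ℝ} {u : E (n + 1) → ℝ} {z : E n} {t : ℝ}
    (hu : DifferentiableAt ℝ u (gmtJoin z t)) (hc : 0 ≤ c z) :
    Real.sqrt (A z (gradient (fun z' => u (gmtJoin z' t)) z)
      (gradient (fun z' => u (gmtJoin z' t)) z)) ≤ gmtDens (gmtProdInt A c) u (gmtJoin z t) := by
  unfold gmtDens
  rw [gpb_gradient_slice hu, gmtProdInt_apply, fl_hor_join]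
  apply Real.sqrt_le_sqrt
  have := mul_nonneg hc (mul_self_nonneg (gmtVer (gradient u (gmtJoin z t))))
  linarith

theorem gpb_lintegral_swap {f : E (n + 1) → ℝ≥0∞} (hf : Measurable f) :
    (Measurable fun t : ℝ => ∫⁻ z : E n, f (gmtJoin z t)) ∧
      ∫⁻ t : ℝ, ∫⁻ z : E n, f (gmtJoin z t) = ∫⁻ y, f y := by
  have hm : Measurable fun p : E n × ℝ => f (gmtJoin p.1 p.2) := hf.comp fl_measurable_join
  refine ⟨hm.lintegral_prod_left', ?_⟩
  rw [fl_lintegral_join hf]
  exact (lintegral_lintegral_swap (f := fun z t => f (gmtJoin z t)) hm.aemeasurable).symm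

theorem gpb_chi_slice (F : Set (E (n + 1))) (t : ℝ) (z : E n) :
    gmtChi (gmtSlice F t) z = gmtChi F (gmtJoin z t) := by
  unfold gmtChi gmtSlice
  by_cases h : gmtJoin z t ∈ F
  · rw [indicator_of_mem h, indicator_of_mem (show z ∈ {z | gmtJoin z t ∈ F} from h)]
  · rw [indicator_of_notMem h, indicator_of_notMem (show z ∉ {z | gmtJoin z t ∈ F} from h)]

theorem gpb_convF_slice {F : Set (E (n + 1))} (hF : MeasurableSet F) {u : ℕ → E (n + 1) → ℝ}
    (huc : ∀ k, Continuous (u k)) (hu01 : ∀ k y, u k y ∈ Icc (0 : ℝ) 1) {t : ℝ}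
    (ht : ∀ᵐ z : E n, Tendsto (fun k => u k (gmtJoin z t)) atTop (𝓝 (gmtChi F (gmtJoin z t))))
    (W' : Set (E n)) :
    GmtConvF W' (fun k z => u k (gmtJoin z t)) (gmtChi (gmtSlice F t)) := by
  intro K hK _
  have hχm : Measurable (gmtChi (gmtSlice F t)) :=
    measurable_const.indicator (measurableSet_gmtSlice hF t)
  have hjc : Continuous fun z : E n => gmtJoin z t := (gpb_join_contDiff_left t).continuous
  have := tendsto_lintegral_of_dominated_convergence (μ := volume.restrict K)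
    (F := fun k z => ‖u k (gmtJoin z t) - gmtChi (gmtSlice F t) z‖ₑ) (f := fun _ => 0)
    (fun _ => 1)
    (fun k => (((huc k).comp hjc).measurable.sub hχm).enorm)
    (fun k => Eventually.of_forall fun z => ?_) ?_ ?_
  · simpa using this
  · have h1 := hu01 k (gmtJoin z t)
    have h2 := gmtChi_mem_Icc (gmtSlice F t) z
    simp only
    rw [Real.enorm_eq_ofReal_abs, ← ENNReal.ofReal_one]
    apply ENNReal.ofReal_le_ofReal
    rw [abs_le]
    constructor <;> linarith [h1.1, h1.2, h2.1, h2.2]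
  · rw [lintegral_one, Measure.restrict_apply_univ]
    exact hK.measure_lt_top.ne
  · refine ae_restrict_of_ae ?_
    filter_upwards [ht] with z hz
    rw [gpb_chi_slice]
    have := (hz.sub_const (gmtChi F (gmtJoin z t))).enorm
    simpa using this

/-- SLICING (with room). -/
theorem lintegral_gmtPer_slice_le {W' W : Set (E n)} {A : E n → Bil n} {c : E n → ℝ}
    (hW : IsOpen W) (hA : GmtInt W A) (hc : ContDiffOn ℝ ∞ c W) (hc0 : ∀ x ∈ W, 0 < c x)
    (hW' : GmtCC W' W) {F : Set (E (n + 1))} (hF : MeasurableSet F) {a a' b' b : ℝ} (ha : a < a')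
    (hb : b' < b) :
    ∫⁻ t in Ioo a' b', gmtPer A (gmtSlice F t) W' ≤ gmtPer (gmtProdInt A c) F (gmtBox W a b) := by
  classical
  set B := gmtProdInt A c with hBdef
  set U := gmtBox W a b with hU
  set U' := gmtBox W' a' b' with hU'
  have hUo : IsOpen U := isOpen_gmtBox hW a b
  have hU'o : IsOpen U' := isOpen_gmtBox hW'.1 a' b'
  have hBT : GmtInt (gmtTimesR W) B := gmtProdInt_int hA hc hc0
  have hBU : GmtInt U B := hBT.mono fun y hy => hy.1
  have hcc : GmtCC U' U := gmtBox_cc_box hW' ha hb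
  have hU'U : U' ⊆ U := subset_closure.trans hcc.2.2
  have hW'W : W' ⊆ W := subset_closure.trans hW'.2.2
  have hBU' : GmtInt U' B := hBU.mono hU'U
  rw [gmtPer_eq_gmtVarA B hF]
  apply gmt_le_of_forall_one_add
  intro η hη
  obtain ⟨ε₀, hε₀, hmol⟩ := gmtVarA_gmtMol_le hUo hBU hcc hη
  set ε : ℕ → ℝ := fun k => ε₀ / (k + 2) with hε
  have hεpos : ∀ k, 0 < ε k := fun k => div_pos hε₀ (by positivity)
  have hεlt : ∀ k, ε k < ε₀ := fun k => by
    rw [hε]
    simp only
    rw [div_lt_iff₀ (by positivity)]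
    have : (0 : ℝ) ≤ k := Nat.cast_nonneg k
    nlinarith
  have hεlim : Tendsto ε atTop (𝓝[>] 0) := by
    rw [tendsto_nhdsWithin_iff]
    refine ⟨?_, Eventually.of_forall hεpos⟩
    have h1 : Tendsto (fun k : ℕ => (k : ℝ) + 2) atTop atTop :=
      tendsto_atTop_add_const_right _ _ tendsto_natCast_atTop_atTop
    exact h1.const_div_atTop _
  have hχ := gmtChi_locallyIntegrable hF
  set u : ℕ → E (n + 1) → ℝ := fun k => gmtMol (ε k) (gmtChi F) with hu
  have hu1 : ∀ k, ContDiff ℝ 1 (u k) := fun k =>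
    (gmtMol_contDiff (hεpos k) hχ).of_le (by exact_mod_cast le_top)
  have hu01 : ∀ k y, u k y ∈ Icc (0 : ℝ) 1 := fun k y =>
    gmtMol_mem_Icc (hεpos k) hχ (Eventually.of_forall fun x => gmtChi_mem_Icc F x) y
  set H : ℕ → E (n + 1) → ℝ≥0∞ := fun k y => ENNReal.ofReal (gmtDens B (u k) y) with hH
  have hHm : ∀ k, Measurable (U'.indicator (H k)) := by
    intro k
    have h1 : ContinuousOn (H k) U' :=
      ENNReal.continuous_ofReal.comp_continuousOn
        (continuousOn_gmtDens hU'o hBU' (hu1 k).contDiffOn)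
    have := h1.measurable_piecewise (g := 0) continuousOn_const hU'o.measurableSet
    rwa [piecewise_eq_indicator] at this
  have hbound : ∀ k, ∫⁻ y in U', H k y ≤ ENNReal.ofReal (1 + η) * gmtVarA B (gmtChi F) U := by
    intro k
    have := gmtVarA_of_contDiffOn hU'o hBU' (hu1 k).contDiffOn
    rw [hH]
    unfold gmtDens
    rw [← this]
    exact hmol _ (hεpos k) (hεlt k) _ hχ
  set G : ℕ → ℝ → ℝ≥0∞ := fun k t => ∫⁻ z : E n, U'.indicator (H k) (gmtJoin z t) with hG
  have hGm : ∀ k, Measurable (G k) := fun k => (gpb_lintegral_swap (hHm k)).1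
  have hGint : ∀ k, ∫⁻ t, G k t = ∫⁻ y in U', H k y := fun k => by
    rw [hG, (gpb_lintegral_swap (hHm k)).2, lintegral_indicator hU'o.measurableSet]
  have hGval : ∀ k, ∀ t ∈ Ioo a' b', G k t = ∫⁻ z in W', H k (gmtJoin z t) := by
    intro k t ht
    rw [hG, ← lintegral_indicator hW'.1.measurableSet]
    refine lintegral_congr fun z => ?_
    by_cases hz : z ∈ W'
    · rw [indicator_of_mem hz, indicator_of_mem]
      exact ⟨by rwa [fl_hor_join], by rwa [fl_ver_join]⟩
    · rw [indicator_of_notMem hz, indicator_of_notMem]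
      intro h
      have := h.1
      rw [fl_hor_join] at this
      exact hz this
  have hae : ∀ᵐ t : ℝ, ∀ᵐ z : E n,
      Tendsto (fun k => u k (gmtJoin z t)) atTop (𝓝 (gmtChi F (gmtJoin z t))) := by
    apply gpb_ae_join_swap (p := fun y => Tendsto (fun k => u k y) atTop (𝓝 (gmtChi F y)))
    filter_upwards [gmtMol_tendsto_ae hχ] with y hy
    exact hy.comp hεlim
  have hslice : ∀ᵐ t : ℝ, t ∈ Ioo a' b' →
      gmtPer A (gmtSlice F t) W' ≤ liminf (fun k => G k t) atTop := by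
    filter_upwards [hae] with t ht htI
    have hjc : ContDiff ℝ 1 fun z : E n => gmtJoin z t :=
      (gpb_join_contDiff_left t).of_le (by exact_mod_cast le_top)
    have hv1 : ∀ k, ContDiff ℝ 1 fun z : E n => u k (gmtJoin z t) := fun k => (hu1 k).comp hjc
    have hconv := gpb_convF_slice hF (fun k => (hu1 k).continuous) hu01 ht W'
    have hSl := measurableSet_gmtSlice hF t
    rw [gmtPer_eq_gmtVarA A hSl]
    refine (gmtVarA_lsc A hW'.1
      (fun k => ((hv1 k).continuous.locallyIntegrable).locallyIntegrableOn W')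
      ((gmtChi_locallyIntegrable hSl).locallyIntegrableOn W') hconv).trans ?_
    refine liminf_le_liminf (Eventually.of_forall fun k => ?_)
    rw [hGval k t htI]
    refine (gmtVarA_le_of_contDiffOn A hW'.1 (hv1 k).contDiffOn).trans ?_
    refine setLIntegral_mono' hW'.1.measurableSet fun z hz => ?_
    exact ENNReal.ofReal_le_ofReal (gpb_dens_slice_le
      (((hu1 k).differentiable (by norm_num)) _) (hc0 z (hW'W hz)).le)
  calc ∫⁻ t in Ioo a' b', gmtPer A (gmtSlice F t) W'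
      ≤ ∫⁻ t in Ioo a' b', liminf (fun k => G k t) atTop := by
        refine lintegral_mono_ae ?_
        rw [ae_restrict_iff' measurableSet_Ioo]
        exact hslice
    _ ≤ liminf (fun k => ∫⁻ t in Ioo a' b', G k t) atTop := lintegral_liminf_le hGm
    _ ≤ ENNReal.ofReal (1 + η) * gmtVarA B (gmtChi F) U := by
        refine liminf_le_of_le (by isBoundedDefault) fun x hx => ?_
        obtain ⟨k, hk⟩ := hx.exists
        refine hk.trans ((setLIntegral_le_lintegral _ _).trans ?_)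
        rw [hGint k]
        exact hbound k

/-! ### caps -/

theorem gpb_symmDiff_timesR (S S' : Set (E n)) :
    symmDiff (gmtTimesR S') (gmtTimesR S) = gmtTimesR (symmDiff S S') := by
  ext y
  simp only [mem_symmDiff, gmtTimesR, mem_ofPred_eq]
  tauto

theorem gpb_abs_ver_lip : LipschitzWith 1 (fun y : E (n + 1) => |gmtVer y|) := by
  refine LipschitzWith.of_dist_le_mul fun y y' => ?_
  rw [NNReal.coe_one, one_mul, Real.dist_eq, dist_eq_norm]
  calc |(|gmtVer y| - |gmtVer y'|)| ≤ |gmtVer y - gmtVer y'| := abs_abs_sub_abs_le_abs_sub _ _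
    _ = |gmtVer (y - y')| := by
        rw [show gmtVer (y - y') = gmtVer y - gmtVer y' from map_sub (gmtVerL n) y y']
    _ ≤ ‖y - y'‖ := fl_abs_ver_le _

theorem gpb_cap_level_set (D W : Set (E n)) {M s : ℝ} (hsM : s ≤ M) :
    (gmtTimesR D ∩ gmtBox W (-M) M) ∩ (fun y : E (n + 1) => |gmtVer y|) ⁻¹' Ioo 0 s =
      (gmtTimesR D ∩ gmtBox W (-s) 0) ∪ (gmtTimesR D ∩ gmtBox W 0 s) := by
  ext y
  simp only [mem_inter_iff, mem_union, mem_preimage, mem_Ioo, gmtBox, mem_ofPred_eq]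
  constructor
  · rintro ⟨⟨h1, h2, -, -⟩, h5, h6⟩
    rw [abs_lt] at h6
    rcases lt_or_gt_of_ne (abs_pos.1 h5) with h | h
    · exact Or.inl ⟨h1, h2, h6.1, h⟩
    · exact Or.inr ⟨h1, h2, h, h6.2⟩
  · rintro (⟨h1, h2, h3, h4⟩ | ⟨h1, h2, h3, h4⟩)
    · refine ⟨⟨h1, h2, by linarith, by linarith⟩, abs_pos.2 h4.ne, ?_⟩
      rw [abs_lt]
      exact ⟨h3, by linarith⟩
    · refine ⟨⟨h1, h2, by linarith, by linarith⟩, abs_pos.2 h3.ne', ?_⟩
      rw [abs_lt]
      exact ⟨by linarith, h4⟩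

theorem gpb_cap_level_vol {D W : Set (E n)} (hD : MeasurableSet D) (hW : IsOpen W) {M s : ℝ}
    (hs : 0 < s) (hsM : s ≤ M) :
    volume ((gmtTimesR D ∩ gmtBox W (-M) M) ∩ (fun y : E (n + 1) => |gmtVer y|) ⁻¹' Ioo 0 s) =
      volume (D ∩ W) * ENNReal.ofReal (2 * s) := by
  rw [gpb_cap_level_set D W hsM, measure_union]
  · rw [volume_timesR_box D W (by linarith), volume_timesR_box D W hs.le, ← mul_add,
      ← ENNReal.ofReal_add (by linarith) (by linarith)]
    congr 2
    ring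
  · rw [disjoint_left]
    rintro y ⟨-, -, h1⟩ ⟨-, -, h2⟩
    exact lt_asymm h1.2 h2.1
  · exact (gmtTimesR_measurableSet hD).inter (isOpen_gmtBox hW 0 s).measurableSet

/-- CAPS. -/
theorem gmtPer_cap_le {W : Set (E n)} {A : E n → Bil n} {c : E n → ℝ} (hW : IsOpen W) {C : ℝ}
    (hC : 0 ≤ C) (hc0 : ∀ x ∈ W, 0 ≤ c x)
    (hB : ∀ y ∈ gmtTimesR W, ∀ ξ : E (n + 1), gmtProdInt A c y ξ ξ ≤ C ^ 2 * ‖ξ‖ ^ 2)
    {S S' : Set (E n)} (hS : MeasurableSet S) (hS' : MeasurableSet S')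
    (hfin : gmtPer A S W ≠ ⊤) (hvol : volume (symmDiff S S' ∩ W) ≠ ⊤) {M : ℝ} :
    ∀ᵐ L : ℝ, L ∈ Ioo 0 M →
      gmtPer (gmtProdInt A c) (gmtCap S' S L) (gmtBox W (-M) M) ≤
        ENNReal.ofReal (2 * L) * gmtPer A S' W + ENNReal.ofReal (2 * (M - L)) * gmtPer A S W +
          ENNReal.ofReal (2 * C) * volume (symmDiff S S' ∩ W) := by
  set f : E (n + 1) → ℝ := fun y => |gmtVer y| with hf
  have hfc : Continuous f := continuous_abs.comp fl_continuous_ver
  set U := gmtBox W (-M) M with hU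
  have hUo : IsOpen U := isOpen_gmtBox hW _ _
  set Δ := symmDiff S S' with hΔ
  have hΔm : MeasurableSet Δ := hS.symmDiff hS'
  have hf1 : ContDiffOn ℝ 1 f (U ∩ f ⁻¹' Ioo 0 M) := by
    rintro y ⟨-, hy⟩
    apply ContDiffAt.contDiffWithinAt
    have h0 : gmtVer y ≠ 0 := abs_pos.1 hy.1
    exact (contDiffAt_abs h0).comp y (gmtVerL n).contDiff.contDiffAt
  have hcost : ∀ x ∈ U ∩ f ⁻¹' Ioo 0 M, gmtDens (gmtProdInt A c) f x ≤ (fun _ => C) x := by
    rintro x ⟨hx, -⟩
    unfold gmtDens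
    calc Real.sqrt (gmtProdInt A c x (gradient f x) (gradient f x))
        ≤ Real.sqrt (C ^ 2 * ‖gradient f x‖ ^ 2) := Real.sqrt_le_sqrt (hB x hx.1 _)
      _ = C * ‖fderiv ℝ f x‖ := by
          rw [← mul_pow, Real.sqrt_sq (mul_nonneg hC (norm_nonneg _)), norm_gradient]
      _ ≤ C * 1 := by
          gcongr
          simpa using norm_fderiv_le_of_lipschitz ℝ (gpb_abs_ver_lip (n := n))
      _ = C := mul_one C
  have hI : ∀ s, 0 < s → s ≤ M →
      gmtIfaceW (fun _ => C) f (symmDiff (gmtTimesR S') (gmtTimesR S) ∩ U) 0 s =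
        2 * C * (volume (Δ ∩ W)).toReal * s := by
    intro s hs hsM
    unfold gmtIfaceW
    rw [setLIntegral_const, gpb_symmDiff_timesR, gpb_cap_level_vol hΔm hW hs hsM,
      ENNReal.toReal_mul, ENNReal.toReal_mul, ENNReal.toReal_ofReal hC,
      ENNReal.toReal_ofReal (by linarith)]
    ring
  by_cases hM : 0 < M
  swap
  · exact Eventually.of_forall fun L hL => absurd (hL.1.trans hL.2) hM
  have hfin' : ∫⁻ x in (symmDiff (gmtTimesR S') (gmtTimesR S) ∩ U) ∩ f ⁻¹' Ioo 0 M,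
      ENNReal.ofReal ((fun _ => C) x) ≠ ⊤ := by
    rw [setLIntegral_const, gpb_symmDiff_timesR, gpb_cap_level_vol hΔm hW hM le_rfl]
    exact ENNReal.mul_ne_top ENNReal.ofReal_ne_top (ENNReal.mul_ne_top hvol ENNReal.ofReal_ne_top)
  have key := gmtPer_glue_level_w hUo hfc.measurable hfc.continuousOn hf1 hcost
    (gmtTimesR_measurableSet hS') (gmtTimesR_measurableSet hS) hfin'
  filter_upwards [key] with L hL hLM
  have h := hL hLM
  have e1 : gmtGlue f L (gmtTimesR S') (gmtTimesR S) = gmtCap S' S L := by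
    ext y
    simp only [gmtGlue, gmtCap, gmtTimesR, hf, mem_union, mem_inter_iff, Set.mem_sdiff, mem_ofPred_eq,
      not_lt]
    tauto
  have e2 : U ∩ {x | f x < L} = gmtBox W (-L) L := by
    ext y
    simp only [hU, hf, gmtBox, mem_inter_iff, mem_ofPred_eq, mem_Ioo, abs_lt]
    constructor
    · rintro ⟨⟨h1, -, -⟩, h2, h3⟩
      exact ⟨h1, h2, h3⟩
    · rintro ⟨h1, h2, h3⟩
      exact ⟨⟨h1, by linarith [hLM.2], by linarith [hLM.2]⟩, h2, h3⟩
  have e3 : U ∩ {x | L < f x} = gmtBox W (-M) (-L) ∪ gmtBox W L M := by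
    ext y
    simp only [hU, hf, gmtBox, mem_inter_iff, mem_union, mem_ofPred_eq, mem_Ioo, lt_abs]
    constructor
    · rintro ⟨⟨h1, h2, h3⟩, h4 | h4⟩
      · exact Or.inr ⟨h1, h4, h3⟩
      · exact Or.inl ⟨h1, h2, by linarith⟩
    · rintro (⟨h1, h2, h3⟩ | ⟨h1, h2, h3⟩)
      · exact ⟨⟨h1, h2, by linarith [hLM.1]⟩, Or.inr (by linarith)⟩
      · exact ⟨⟨h1, by linarith [hLM.1], h3⟩, Or.inl h2⟩
  have e4 : deriv (gmtIfaceW (fun _ => C) f (symmDiff (gmtTimesR S') (gmtTimesR S) ∩ U) 0) L =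
      2 * C * (volume (Δ ∩ W)).toReal := by
    have hev : gmtIfaceW (fun _ => C) f (symmDiff (gmtTimesR S') (gmtTimesR S) ∩ U) 0 =ᶠ[𝓝 L]
        fun s => 2 * C * (volume (Δ ∩ W)).toReal * s := by
      filter_upwards [Ioo_mem_nhds hLM.1 hLM.2] with s hs
      exact hI s hs.1 hs.2.le
    rw [hev.deriv_eq]
    simp
  rw [e1, e2, e3, e4] at h
  refine h.trans ?_
  have h5 : gmtPer (gmtProdInt A c) (gmtTimesR S') (gmtBox W (-L) L) =
      ENNReal.ofReal (2 * L) * gmtPer A S' W := by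
    rw [gmtPer_timesR_box A hW hc0 hS' (by linarith [hLM.1])]
    congr 2
    ring
  have h6 : gmtPer (gmtProdInt A c) (gmtTimesR S) (gmtBox W (-M) (-L) ∪ gmtBox W L M) ≤
      ENNReal.ofReal (2 * (M - L)) * gmtPer A S W := by
    refine (gmtPer_union_le _ (gmtTimesR_measurableSet hS) (isOpen_gmtBox hW _ _)
      (isOpen_gmtBox hW _ _)).trans (le_of_eq ?_)
    rw [gmtPer_timesR_box A hW hc0 hS (by linarith [hLM.2]),
      gmtPer_timesR_box A hW hc0 hS hLM.2.le, ← add_mul,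
      ← ENNReal.ofReal_add (by linarith [hLM.2]) (by linarith [hLM.2])]
    congr 2
    ring
  have h7 : ENNReal.ofReal (2 * C * (volume (Δ ∩ W)).toReal) =
      ENNReal.ofReal (2 * C) * volume (Δ ∩ W) := by
    rw [ENNReal.ofReal_mul (by positivity), ENNReal.ofReal_toReal hvol]
  rw [h5, h7]
  gcongr

end Claimed.Agent.Gmt
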