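import Claimed.Agent.Lib.Gmt.BvProdB

/-!
# Lib/Gmt [BvProdC = part 3/4 of the former BvProd] G3f: products `S × ℝ`: perimeter in boxes, slicing, `S` minimises iff `S × ℝ` minimises; boundary, regular and singular points of `S × ℝ`.
(architect: helper75; tops of `IFp.lean`; coordinates `y = (z,t)`: `FlCoord.lean` (`fl_*`))

NOTATION  `B = gmtProdInt A c = A ⊕ c dt²`, `gmtBox W a b = W × (a,b)`, `gmtSlice F t = {z | (z,t) ∈ F}`.

PLAN OF PROOFS
* `gmtProdInt_apply`: unfold.   `gmtProdInt_int`: smoothness by composition with the linear maps `gmtHorL`, `gmtVerL`; positivity: `ξ ≠ 0` ⇒ `gmtHor ξ ≠ 0` or `gmtVer ξ ≠ 0`.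
* `gmtPer_timesR_box`.  `≥`: `T(z,t) = ψ(t) (T₀(z), 0)`, `T₀` `A`-admissible in `W`, `ψ ∈ C¹_c(a,b)`, `0 ≤ ψ ≤ 1`: `B`-admissible (`⟪T,ξ⟫ = ψ ⟪T₀, ξ'⟫ ≤ √(A ξ' ξ') ≤ √(B ξ ξ)`), `∫_{S×ℝ} div T = (∫ψ) ∫_S div T₀` (Fubini `fl_integral_join`); `∫ψ ↑ b-a`.
  `≤`: `T` `B`-admissible in the box: `div T = div_z T'(·,t) + ∂_t T_{n+1}`; `∫ ∂_t T_{n+1}(z,t) dt = 0` for every `z`; for every `t` the field `z ↦ gmtHor (T (z,t))` is an `A`-admissible test field in `W` (test `ξ = (ξ',0)`), zero for `t ∉ (a,b)`: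
  `∫_{S×ℝ} div T = ∫_a^b ∫_S div_z T'(·,t) dz dt ≤ (b-a) Per_A(S;W)` (if the latter is finite; else nothing to prove).
* `lintegral_gmtPer_slice_le` (SLICING, with room).  `u_k = gmtMol ε_k χ_F`, `ε_k → 0`.  (i) `u_k → χ_F` a.e. (`gmtMol_tendsto_ae`), so for a.e. `t`, for a.e. `z`: `u_k(z,t) → χ_{F_t}(z)` (`fl_ae_join` with the roles of `z,t` exchanged: use `fl_measurePreserving` + `Measure.ae_ae_of_ae_prod` after `Measure.prod_swap`), `0 ≤ u_k ≤ 1`:
  dominated convergence: `u_k(·,t) → χ_{F_t}` in `L¹_loc`.  (ii) `gmtVarA_lsc` in `W'`: `Per_A(F_t;W') ≤ liminf_k Var_A(u_k(·,t);W')`.  (iii) `Var_A(u_k(·,t);W') = ∫_{W'} √(A ∇_z u_k ∇_z u_k) dz` (`gmtVarA_of_contDiffOn`) is measurable in `t`, `≤ ∫_{W'} √(B ∇u_k ∇u_k)`;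
  Fatou (`lintegral_liminf_le`), Tonelli (`fl_lintegral_join`): `∫_{a'}^{b'} Per_A(F_t;W') dt ≤ liminf Var_B(u_k; W'×(a',b')) ≤ (1+η) Per_B(F; W×(a,b))` (`gmtVarA_gmtMol_le` in the open set `W×(a,b)`), `η → 0`.
  NOTE: `t ↦ Per_A(F_t;W')` need not be known to be measurable: `lintegral_mono` holds for arbitrary functions.
* `gmtPer_cap_le`: `gmtPer_glue_level` with `f y = |gmtVer y|` (continuous; `C¹` with `|∇f| = 1` on `{0 < f}`), `S₁ = S' × ℝ`, `S₂ = S × ℝ`, window `W × (-(L₀+1), L₀+1)`...: to have a fixed window work on each interval `L ∈ (k, k+1)`, `k ∈ ℕ`, in the window `W × (-(k+2), k+2)`, then restrict to the smaller box by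
  `gmtPer_mono`?  NO: monotonicity goes the wrong way; instead state the result in the window `gmtBox W (-M) M` for ANY `M > L` (as below), for a.e. `L ∈ (0, M)`; `gmtIface = 2 (s - a) |(S △ S') ∩ W|`, `gmtPer_timesR_box` for the two pieces `{|t|<L}` and `{L<|t|<M}` (two boxes: `gmtPer_union_le`).
* `gmtLAM_timesR` (⇒).  Competitor `F`, `F △ (S×ℝ) ⊆ K` compact `⊆ U×ℝ`.  Choose `W' ⋐ W ⋐ U`, `a < a' < b' < b` with `K ⊆ W'×(a',b')`.  For every `t`: `F_t △ S ⊆ K_t` compact in `W'`; minimality of `S` in `W'`: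
  `ℓ(t) := Per_A(S;W') - ∫_{S∩W'} f + ∫_{F_t∩W'} f ≤ Per_A(F_t;W')` (trivial if the right side is `∞`); integrate over `(a',b')`, slicing:  `E(S×ℝ; box') ≤ Per_B(F; box) - ∫_{F∩box'} f̃`.  Let `box' ↑ box` (`gmtPer_iUnion_mono`; the difference of the volume terms lives on `K`).  Conclude with `gmtLAM_of_cofinal`.
* `gmtLAM_of_timesR` (⇐).  Competitor `S'` in `W ⋐ U`; `gmtPer_cap_le` with `M = L+1`, minimality of `S×ℝ` in `W×(-M,M)`:  `2L [E(S) - E(S')] ≤ 2C |S △ S'|`; `L → ∞` along good levels.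
* `gmtBd_timesR`: `(S ∩ B_{r/2}(z)) × (t-r/2,t+r/2) ⊆ (S×ℝ) ∩ B_r(z,t) ⊆ (S ∩ B_r(z)) × (t-r,t+r)`, `Measure.prod_prod` (valid for all sets), `fl_measurePreserving`.
* `gmtReg_timesR`: `φ̃ = φ ∘ gmtHor`.
* `gmtReg_of_timesR`: let `φ̃` on `ball y₀ r`, `y₀ = (z₀,t₀)`, box `Q = ball z₀ ρ × I ⊆ ball y₀ r`.  (1) for a.e. `z ∈ ball z₀ ρ`: `1_S(z) = 1_{φ̃(z,t)<0}` for a.e. `t ∈ I`; by continuity in `t`: `φ̃(z,·) ≤ 0` on `I` or `≥ 0` on `I`; by density and continuity in `z` this alternative holds for ALL `z ∈ ball z₀ ρ`.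
  (2) `t ↦ φ̃(z₀,t)` has a local extremum at `t₀` (value `0`), so `∂_t φ̃(y₀) = 0`, hence `φ := φ̃(·,t₀)` has `∇φ(z₀) ≠ 0`; shrink `ρ`: `∇φ ≠ 0` on `ball z₀ ρ`.  (3) `{φ = 0}` is a null set (`hr_lev_null`-type lemma, stated here as `gmt_level_null`); for `z` off it the sign of `φ̃(z,·)` on `I` is that of `φ(z)`, and `{φ̃ = 0}` is null in `Q`:
  for a.e. `z`: `z ∈ S ⟺ φ̃(z,t) < 0` for a.e. `t` `⟺ φ(z) < 0`.
-/

set_option autoImplicit false
open scoped ContDiff ENNReal RealInnerProductSpace Topology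
open MeasureTheory Metric Set Filter

namespace Claimed.Agent.Gmt

variable {n : ℕ}

/-- a compact subset of a box lies in a relatively compact sub-box. -/
theorem gmt_exists_subbox {W : Set (E n)} (hW : IsOpen W) {a b : ℝ} (hab : a < b)
    {K : Set (E (n + 1))} (hK : IsCompact K) (hKb : K ⊆ gmtBox W a b) :
    ∃ W', GmtCC W' W ∧ ∃ a' b' : ℝ, a < a' ∧ a' ≤ b' ∧ b' < b ∧ K ⊆ gmtBox W' a' b' := by
  have h1 : IsCompact (gmtHor '' K) := hK.image fl_continuous_hor
  have h1' : gmtHor '' K ⊆ W := by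
    rintro _ ⟨y, hy, rfl⟩
    exact (hKb hy).1
  obtain ⟨W', hW', hKW'⟩ := gmt_exists_cc h1 hW h1'
  have h2 : IsCompact (insert ((a + b) / 2) (gmtVer '' K)) := (hK.image fl_continuous_ver).insert _
  have h2' : insert ((a + b) / 2) (gmtVer '' K) ⊆ Ioo a b := by
    rintro _ (rfl | ⟨y, hy, rfl⟩)
    · constructor <;> linarith
    · exact (hKb hy).2
  have hne : (insert ((a + b) / 2) (gmtVer '' K)).Nonempty := insert_nonempty _ _
  have i1 := h2' (h2.sInf_mem hne)
  have i2 := h2' (h2.sSup_mem hne)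
  have i3 : sInf (insert ((a + b) / 2) (gmtVer '' K)) ≤ sSup (insert ((a + b) / 2) (gmtVer '' K)) :=
    csInf_le_csSup hne h2.bddBelow h2.bddAbove
  refine ⟨W', hW', (a + sInf (insert ((a + b) / 2) (gmtVer '' K))) / 2,
    (sSup (insert ((a + b) / 2) (gmtVer '' K)) + b) / 2, ?_, ?_, ?_, ?_⟩
  · linarith [i1.1]
  · linarith [i1.1, i2.2]
  · linarith [i2.2]
  · intro y hy
    have hm : gmtVer y ∈ insert ((a + b) / 2) (gmtVer '' K) := Or.inr ⟨y, hy, rfl⟩
    have j1 := csInf_le h2.bddBelow hm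
    have j2 := le_csSup h2.bddAbove hm
    exact ⟨hKW' ⟨y, hy, rfl⟩, by linarith [i1.1], by linarith [i2.2]⟩

/-- the slice integrals are integrable in `t`. -/
theorem gmt_integrableOn_slice {F : Set (E (n + 1))} (hF : MeasurableSet F) {W : Set (E n)}
    (hW : MeasurableSet W) {f : E n → ℝ} (hf : IntegrableOn f W) (a b : ℝ) :
    IntegrableOn (fun t => ∫ z in gmtSlice F t ∩ W, f z) (Ioo a b) := by
  have h1 : Integrable (W.indicator f) := hf.integrable_indicator hW
  have h2 : Integrable ((Ioo a b).indicator fun _ : ℝ => (1 : ℝ)) :=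
    (integrableOn_const (by simp)).integrable_indicator measurableSet_Ioo
  have h3 : Integrable (fun p : E n × ℝ => W.indicator f p.1 * (Ioo a b).indicator (fun _ => (1 : ℝ)) p.2)
      ((volume : Measure (E n)).prod (volume : Measure ℝ)) := h1.mul_prod h2
  have hm : MeasurableSet {p : E n × ℝ | gmtJoin p.1 p.2 ∈ F} := fl_measurable_join hF
  have h4 := (h3.indicator hm).integral_prod_right
  rw [← integrable_indicator_iff measurableSet_Ioo]
  refine h4.congr (Eventually.of_forall fun t => ?_)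
  show ∫ z, indicator {p : E n × ℝ | gmtJoin p.1 p.2 ∈ F}
      (fun p : E n × ℝ => W.indicator f p.1 * (Ioo a b).indicator (fun _ => (1 : ℝ)) p.2) (z, t) =
    (Ioo a b).indicator (fun t => ∫ z in gmtSlice F t ∩ W, f z) t
  by_cases ht : t ∈ Ioo a b
  · rw [indicator_of_mem ht, ← integral_indicator ((measurableSet_gmtSlice hF t).inter hW)]
    congr 1
    ext z
    by_cases hz : gmtJoin z t ∈ F
    · rw [indicator_of_mem (show (z, t) ∈ {p : E n × ℝ | gmtJoin p.1 p.2 ∈ F} from hz)]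
      simp only [indicator_of_mem ht, mul_one]
      by_cases hzW : z ∈ W
      · rw [indicator_of_mem hzW, indicator_of_mem (show z ∈ gmtSlice F t ∩ W from ⟨hz, hzW⟩)]
      · rw [indicator_of_notMem hzW, indicator_of_notMem (fun h => hzW h.2)]
    · rw [indicator_of_notMem (show (z, t) ∉ {p : E n × ℝ | gmtJoin p.1 p.2 ∈ F} from hz),
        indicator_of_notMem (fun h => hz h.1)]
  · rw [indicator_of_notMem ht]
    have : ∀ z, indicator {p : E n × ℝ | gmtJoin p.1 p.2 ∈ F}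
      (fun p : E n × ℝ => W.indicator f p.1 * (Ioo a b).indicator (fun _ => (1 : ℝ)) p.2) (z, t) = 0 := by
      intro z
      by_cases hz : gmtJoin z t ∈ F
      · rw [indicator_of_mem (show (z, t) ∈ {p : E n × ℝ | gmtJoin p.1 p.2 ∈ F} from hz)]
        simp only [indicator_of_notMem ht, mul_zero]
      · rw [indicator_of_notMem (show (z, t) ∉ {p : E n × ℝ | gmtJoin p.1 p.2 ∈ F} from hz)]
    simp only [this, integral_zero]

/-- measurability descends. -/
theorem measurableSet_of_gmtTimesR {S : Set (E n)} (h : MeasurableSet (gmtTimesR S)) :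
    MeasurableSet S := by
  have h1 := measurableSet_gmtSlice h 0
  have : gmtSlice (gmtTimesR S) 0 = S := by
    ext z
    simp only [gmtSlice, gmtTimesR, mem_ofPred_eq, fl_hor_join]
  rwa [this] at h1

/-- integral against a pointwise lower bound in `ℝ≥0∞`. -/
theorem gmt_integral_le_of_ofReal_le {α : Type*} [MeasurableSpace α] {μ : Measure α} {g : α → ℝ}
    (hg : Integrable g μ) {P : α → ℝ≥0∞} (h : ∀ t, ENNReal.ofReal (g t) ≤ P t) {X : ℝ≥0∞}
    (hX : X ≠ ⊤) (hP : ∫⁻ t, P t ∂μ ≤ X) : ∫ t, g t ∂μ ≤ X.toReal := by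
  rw [integral_eq_lintegral_pos_part_sub_lintegral_neg_part hg]
  have h1 : (∫⁻ t, ENNReal.ofReal (g t) ∂μ).toReal ≤ X.toReal :=
    ENNReal.toReal_mono hX ((lintegral_mono h).trans hP)
  have h2 : 0 ≤ (∫⁻ t, ENNReal.ofReal (-g t) ∂μ).toReal := ENNReal.toReal_nonneg
  linarith
/-- the energy inequality on a sub-box (slicing + minimality of the slices). -/
theorem gmtLAM_timesR_aux {U : Set (E n)} {A : E n → Bil n} {f c : E n → ℝ} {S : Set (E n)}
    (hA : GmtInt U A) (hf : ContinuousOn f U) (hc : ContDiffOn ℝ ∞ c U)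
    (hc0 : ∀ x ∈ U, 0 < c x) (h : GmtLAM A f U S) {W W' : Set (E n)} (hW : GmtCC W U)
    (hW' : GmtCC W' W) {a a' b' b : ℝ} (ha : a < a') (hab : a' ≤ b') (hb : b' < b)
    {K : Set (E (n + 1))} (hK : IsCompact K) (hKb : K ⊆ gmtBox W' a' b') {F : Set (E (n + 1))}
    (hF : MeasurableSet F) (hd : symmDiff (gmtTimesR S) F ⊆ K)
    (hfin : gmtPer (gmtProdInt A c) F (gmtBox W a b) ≠ ⊤) :
    (gmtPer (gmtProdInt A c) (gmtTimesR S) (gmtBox W' a' b')).toReal -
        (∫ y in gmtTimesR S ∩ gmtBox W' a' b', f (gmtHor y)) +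
        ∫ y in F ∩ gmtBox W' a' b', f (gmtHor y) ≤
      (gmtPer (gmtProdInt A c) F (gmtBox W a b)).toReal := by
  have hWU : W ⊆ U := subset_closure.trans hW.2.2
  have hW'U : GmtCC W' U := ⟨hW'.1, hW'.2.1, hW'.2.2.trans hWU⟩
  have hW'U' : W' ⊆ U := subset_closure.trans hW'U.2.2
  have hfW' : IntegrableOn f W' := gmtlb_integrableOn hf hW'U
  have hsl := lintegral_gmtPer_slice_le hW.1 (hA.mono hWU) (hc.mono hWU)
    (fun x hx => hc0 x (hWU hx)) hW' hF ha hb
  have hpt : ∀ t, ENNReal.ofReal ((gmtPer A S W').toReal - (∫ z in S ∩ W', f z) +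
      ∫ z in gmtSlice F t ∩ W', f z) ≤ gmtPer A (gmtSlice F t) W' := by
    intro t
    by_cases htop : gmtPer A (gmtSlice F t) W' = ⊤
    · rw [htop]
      exact le_top
    have hCD : GmtCD S (gmtSlice F t) W' := by
      refine ⟨gmtHor '' (K ∩ {y | gmtVer y = t}),
        (hK.inter_right (isClosed_eq fl_continuous_ver continuous_const)).image fl_continuous_hor,
        ?_, ?_⟩
      · rintro _ ⟨y, hy, rfl⟩
        exact (hKb hy.1).1
      · intro z hz
        refine ⟨gmtJoin z t, ⟨hd ?_, fl_ver_join z t⟩, fl_hor_join z t⟩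
        rcases hz with ⟨h1, h2⟩ | ⟨h1, h2⟩
        · exact Or.inl ⟨by simpa only [gmtTimesR, mem_ofPred_eq, fl_hor_join] using h1, h2⟩
        · exact Or.inr ⟨h1, by simpa only [gmtTimesR, mem_ofPred_eq, fl_hor_join] using h2⟩
    have h1 := h.min W' (gmtSlice F t) hW'U (measurableSet_gmtSlice hF t) hCD htop
    rw [← ENNReal.ofReal_toReal htop]
    apply ENNReal.ofReal_le_ofReal
    linarith
  have hg0 : Integrable (fun _ : ℝ => (gmtPer A S W').toReal - (∫ z in S ∩ W', f z))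
      (volume.restrict (Ioo a' b')) := integrableOn_const (by simp)
  have hg : Integrable (fun t => (gmtPer A S W').toReal - (∫ z in S ∩ W', f z) +
      ∫ z in gmtSlice F t ∩ W', f z) (volume.restrict (Ioo a' b')) :=
    hg0.add (gmt_integrableOn_slice hF hW'.1.measurableSet hfW' a' b')
  have key := gmt_integral_le_of_ofReal_le hg hpt hfin hsl
  rw [integral_add hg0 (gmt_integrableOn_slice hF hW'.1.measurableSet hfW' a' b'),
    ← integral_box_slice hF hW'.1.measurableSet hfW', setIntegral_const,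
    Real.volume_real_Ioo_of_le hab, smul_eq_mul] at key
  rw [gmtPer_timesR_box A hW'.1 (fun x hx => (hc0 x (hW'U' hx)).le) h.meas hab,
    integral_timesR_box h.meas hW'.1.measurableSet hab, ENNReal.toReal_mul,
    ENNReal.toReal_ofReal (sub_nonneg.2 hab)]
  linarith
/-- `S` minimises ⇒ `S × ℝ` minimises. -/
theorem gmtLAM_timesR {U : Set (E n)} {A : E n → Bil n} {f c : E n → ℝ} {S : Set (E n)}
    (hU : IsOpen U) (hA : GmtInt U A) (hf : ContinuousOn f U) (hc : ContDiffOn ℝ ∞ c U)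
    (hc0 : ∀ x ∈ U, 0 < c x) (h : GmtLAM A f U S) :
    GmtLAM (gmtProdInt A c) (fun y => f (gmtHor y)) (gmtTimesR U) (gmtTimesR S) := by
  have hU' := isOpen_gmtTimesR hU
  have hf' : ContinuousOn (fun y : E (n + 1) => f (gmtHor y)) (gmtTimesR U) :=
    hf.comp fl_continuous_hor.continuousOn (fun y hy => hy)
  have hSm := gmtTimesR_measurableSet h.meas
  have hboxfin : ∀ W, GmtCC W U → ∀ a b : ℝ, a ≤ b →
      gmtPer (gmtProdInt A c) (gmtTimesR S) (gmtBox W a b) ≠ ⊤ := by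
    intro W hW a b hab
    rw [gmtPer_timesR_box A hW.1 (fun x hx => (hc0 x (hW.2.2 (subset_closure hx))).le) h.meas hab]
    exact ENNReal.mul_ne_top ENNReal.ofReal_ne_top (h.fin W hW)
  refine gmtLAM_of_cofinal hU' (gmtProdInt_int hA hc hc0) hf' hSm ?_ ?_
  · intro V hV
    obtain ⟨W, hW, M, hM, hsub⟩ := gmt_exists_box hU hV.2.1 hV.2.2
    exact ne_top_of_le_ne_top (hboxfin W hW (-M) M (by linarith))
      (gmtPer_mono _ _ (subset_closure.trans hsub))
  · intro K hK hKU F hF hd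
    obtain ⟨W, hW, M, hM, hsub⟩ := gmt_exists_box hU hK hKU
    have hbox : GmtCC (gmtBox W (-M) M) (gmtTimesR U) := gmtBox_cc hW _ _
    refine ⟨gmtBox W (-M) M, hbox, hsub, fun hfin => ?_⟩
    have hint := gmtlb_integrableOn hf' hbox
    have hWU : W ⊆ U := subset_closure.trans hW.2.2
    -- the inequality on all sub-boxes
    have hsubbox : ∀ K', IsCompact K' → K' ⊆ gmtBox W (-M) M → ∃ V, IsOpen V ∧ K' ⊆ V ∧
        gmtPer (gmtProdInt A c) (gmtTimesR S) V ≠ ⊤ ∧
        (gmtPer (gmtProdInt A c) (gmtTimesR S) V).toReal ≤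
          (gmtPer (gmtProdInt A c) F (gmtBox W (-M) M)).toReal -
            (∫ y in F ∩ gmtBox W (-M) M, f (gmtHor y)) +
            ∫ y in gmtTimesR S ∩ gmtBox W (-M) M, f (gmtHor y) := by
      intro K' hK' hK'sub
      obtain ⟨W', hW', a', b', ha, hab, hb, hsub'⟩ := gmt_exists_subbox hW.1 (by linarith)
        (hK.union hK') (union_subset hsub hK'sub)
      have hW'U : GmtCC W' U := ⟨hW'.1, hW'.2.1, hW'.2.2.trans hWU⟩
      have hKsub' : K ⊆ gmtBox W' a' b' := subset_union_left.trans hsub'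
      have h2 := gmtLAM_timesR_aux hA hf hc hc0 h hW hW' ha hab hb hK hKsub' hF hd hfin
      have hbox' : GmtCC (gmtBox W' a' b') (gmtTimesR U) := gmtBox_cc hW'U _ _
      have hint' := gmtlb_integrableOn hf' hbox'
      have s1 := gmtlb_integral_split hSm hbox.1.measurableSet hK hsub hint
      have s2 := gmtlb_integral_split hF hbox.1.measurableSet hK hsub hint
      have s3 := gmtlb_integral_split hSm hbox'.1.measurableSet hK hKsub' hint'
      have s4 := gmtlb_integral_split hF hbox'.1.measurableSet hK hKsub' hint'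
      rw [gmtlb_inter_compl hd] at s1 s3
      refine ⟨gmtBox W' a' b', hbox'.1, subset_union_right.trans hsub', hboxfin W' hW'U a' b' hab, ?_⟩
      linarith
    obtain ⟨R, hR⟩ : ∃ R : ℝ, R = (gmtPer (gmtProdInt A c) F (gmtBox W (-M) M)).toReal -
            (∫ y in F ∩ gmtBox W (-M) M, f (gmtHor y)) +
            ∫ y in gmtTimesR S ∩ gmtBox W (-M) M, f (gmtHor y) := ⟨_, rfl⟩
    rw [← hR] at hsubbox
    have hR0 : 0 ≤ R := by
      obtain ⟨V, -, -, -, hV⟩ := hsubbox K hK hsub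
      exact ENNReal.toReal_nonneg.trans hV
    have hle : gmtPer (gmtProdInt A c) (gmtTimesR S) (gmtBox W (-M) M) ≤ ENNReal.ofReal R := by
      conv_lhs => unfold gmtPer
      refine iSup_le fun T => iSup_le fun hT => iSup_le fun hadm => ?_
      obtain ⟨V, hVo, hTV, hVfin, hV⟩ := hsubbox (tsupport T) hT.cpt.isCompact hT.sub
      have h1 := integral_le_gmtPer (S := gmtTimesR S) (⟨hT.c1, hT.cpt, hTV⟩ : GmtTest V T) hadm
      exact ENNReal.ofReal_le_ofReal (((ENNReal.ofReal_le_iff_le_toReal hVfin).1 h1).trans hV)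
    have := ENNReal.toReal_le_of_le_ofReal hR0 hle
    linarith

theorem measurableSet_gmtCap {S S' : Set (E n)} (hS : MeasurableSet S) (hS' : MeasurableSet S')
    (L : ℝ) : MeasurableSet (gmtCap S' S L) := by
  have h1 : MeasurableSet {y : E (n + 1) | |gmtVer y| < L} :=
    measurableSet_lt fl_continuous_ver.abs.measurable measurable_const
  have h2 : MeasurableSet {y : E (n + 1) | L ≤ |gmtVer y|} :=
    measurableSet_le measurable_const fl_continuous_ver.abs.measurable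
  exact (h1.inter (fl_continuous_hor.measurable hS')).union
    (h2.inter (fl_continuous_hor.measurable hS))

theorem gmtSlice_gmtCap (S S' : Set (E n)) (L t : ℝ) :
    gmtSlice (gmtCap S' S L) t = if |t| < L then S' else S := by
  ext z
  simp only [gmtSlice, gmtCap, mem_ofPred_eq, fl_hor_join, fl_ver_join]
  split_ifs with h
  · simp [h, not_le.2 h]
  · simp [h, not_lt.1 h]

/-- the cap differs from the cylinder on a compact subset of the box. -/
theorem gmtCD_gmtCap {S S' W K : Set (E n)} (hK : IsCompact K) (hKW : K ⊆ W)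
    (hd : symmDiff S S' ⊆ K) {L M : ℝ} (hLM : L < M) :
    GmtCD (gmtTimesR S) (gmtCap S' S L) (gmtBox W (-M) M) := by
  refine ⟨(fun p : E n × ℝ => gmtJoin p.1 p.2) '' (K ×ˢ Icc (-L) L),
    (hK.prod isCompact_Icc).image fl_continuous_join, ?_, ?_⟩
  · rintro _ ⟨⟨z, t⟩, ⟨hz, ht⟩, rfl⟩
    refine ⟨?_, ?_⟩
    · rw [fl_hor_join]
      exact hKW hz
    · rw [fl_ver_join]
      exact ⟨by linarith [ht.1], by linarith [ht.2]⟩
  · intro y hy
    have key : gmtHor y ∈ K ∧ |gmtVer y| < L := by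
      rcases hy with ⟨h1, h2⟩ | ⟨h1, h2⟩
      · have h1' : gmtHor y ∈ S := h1
        have hlt : |gmtVer y| < L := by
          by_contra hcon
          exact h2 (Or.inr ⟨not_lt.1 hcon, h1'⟩)
        refine ⟨hd (Or.inl ⟨h1', fun h3 => h2 (Or.inl ⟨hlt, h3⟩)⟩), hlt⟩
      · have h2' : gmtHor y ∉ S := h2
        rcases h1 with ⟨hlt, h3⟩ | ⟨-, h3⟩
        · exact ⟨hd (Or.inr ⟨h3, h2'⟩), hlt⟩
        · exact absurd h3 h2'
    refine ⟨(gmtHor y, gmtVer y), ⟨key.1, ?_⟩, fl_join_hor_ver y⟩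
    exact ⟨(abs_lt.1 key.2).1.le, (abs_lt.1 key.2).2.le⟩

/-- the volume term of a cap. -/
theorem integral_gmtCap_box {S S' W : Set (E n)} (hS : MeasurableSet S) (hS' : MeasurableSet S')
    (hW : MeasurableSet W) {f : E n → ℝ} (hf : IntegrableOn f W) {L M : ℝ} (hL : 0 ≤ L)
    (hLM : L ≤ M) :
    ∫ y in gmtCap S' S L ∩ gmtBox W (-M) M, f (gmtHor y) =
      2 * L * (∫ z in S' ∩ W, f z) + 2 * (M - L) * ∫ z in S ∩ W, f z := by
  rw [integral_box_slice (measurableSet_gmtCap hS hS' L) hW hf]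
  have h1 : ∀ t : ℝ, ∫ z in gmtSlice (gmtCap S' S L) t ∩ W, f z =
      (∫ z in S ∩ W, f z) + (Ioo (-L) L).indicator
        (fun _ => (∫ z in S' ∩ W, f z) - ∫ z in S ∩ W, f z) t := by
    intro t
    rw [gmtSlice_gmtCap]
    by_cases ht : |t| < L
    · rw [if_pos ht, indicator_of_mem (show t ∈ Ioo (-L) L from abs_lt.1 ht)]
      ring
    · rw [if_neg ht, indicator_of_notMem (show t ∉ Ioo (-L) L from fun h' => ht (abs_lt.2 h')),
        add_zero]
  simp only [h1]
  have i1 : Integrable (fun _ : ℝ => ∫ z in S ∩ W, f z) (volume.restrict (Ioo (-M) M)) :=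
    integrableOn_const (by simp)
  have i2 : Integrable ((Ioo (-L) L).indicator
        (fun _ : ℝ => (∫ z in S' ∩ W, f z) - ∫ z in S ∩ W, f z)) (volume.restrict (Ioo (-M) M)) :=
    Integrable.indicator (integrableOn_const (by simp)) measurableSet_Ioo
  have e : Ioo (-M) M ∩ Ioo (-L) L = Ioo (-L) L :=
    inter_eq_right.2 (Ioo_subset_Ioo (by linarith) hLM)
  rw [integral_add i1 i2, setIntegral_indicator measurableSet_Ioo, e, setIntegral_const,
    setIntegral_const, Real.volume_real_Ioo_of_le (by linarith),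
    Real.volume_real_Ioo_of_le (by linarith), smul_eq_mul, smul_eq_mul]
  ring

/-- `S × ℝ` minimises ⇒ `S` minimises. -/
theorem gmtLAM_of_timesR {U : Set (E n)} {A : E n → Bil n} {f c : E n → ℝ} {S : Set (E n)}
    (hU : IsOpen U) (hA : GmtInt U A) (hf : ContinuousOn f U) (hc : ContDiffOn ℝ ∞ c U)
    (hc0 : ∀ x ∈ U, 0 < c x)
    (h : GmtLAM (gmtProdInt A c) (fun y => f (gmtHor y)) (gmtTimesR U) (gmtTimesR S)) :
    GmtLAM A f U S := by
  have hSm : MeasurableSet S := measurableSet_of_gmtTimesR h.meas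
  have hfin : ∀ W, GmtCC W U → gmtPer A S W ≠ ⊤ := by
    intro W hW
    have h1 := h.fin (gmtBox W 0 1) (gmtBox_cc hW 0 1)
    rw [gmtPer_timesR_box A hW.1 (fun x hx => (hc0 x (hW.2.2 (subset_closure hx))).le) hSm
      zero_le_one, sub_zero, ENNReal.ofReal_one, one_mul] at h1
    exact h1
  refine ⟨hSm, hfin, fun W S' hW hS' hCD hfin' => ?_⟩
  obtain ⟨K, hK, hKW, hd⟩ := hCD
  have hc0W : ∀ x ∈ W, 0 ≤ c x := fun x hx => (hc0 x (hW.2.2 (subset_closure hx))).le
  have hfW : IntegrableOn f W := gmtlb_integrableOn hf hW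
  -- the upper bound of the product integrand
  obtain ⟨c₁, C, hc₁, hcC, hb⟩ := gmtInt_bounds (isOpen_gmtTimesR hU) (gmtProdInt_int hA hc hc0)
    (gmtBox_cc hW 0 1).2.1 (gmtBox_cc hW 0 1).2.2
  have hC : 0 ≤ C := hc₁.le.trans hcC
  have hB : ∀ y ∈ gmtTimesR W, ∀ ξ : E (n + 1), gmtProdInt A c y ξ ξ ≤ C ^ 2 * ‖ξ‖ ^ 2 := by
    intro y hy ξ
    have h1 : gmtJoin (gmtHor y) (1 / 2) ∈ gmtBox W 0 1 := by
      refine ⟨?_, ?_⟩
      · rw [fl_hor_join]
        exact hy
      · rw [fl_ver_join]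
        constructor <;> norm_num
    have h2 := (hb _ (subset_closure h1) ξ).2
    rw [gmtProdInt_apply, fl_hor_join] at h2
    rw [gmtProdInt_apply]
    exact h2
  have hvol : volume (symmDiff S S' ∩ W) ≠ ⊤ :=
    ((measure_mono (inter_subset_right.trans subset_closure)).trans_lt hW.2.1.measure_lt_top).ne
  -- the inequality for good levels
  have hgood : ∀ M : ℝ, ∀ᵐ L : ℝ, L ∈ Ioo 0 M →
      L * (((gmtPer A S W).toReal - ∫ x in S ∩ W, f x) -
        ((gmtPer A S' W).toReal - ∫ x in S' ∩ W, f x)) ≤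
        C * (volume (symmDiff S S' ∩ W)).toReal := by
    intro M
    filter_upwards [gmtPer_cap_le (A := A) (c := c) hW.1 hC hc0W hB hSm hS' (hfin W hW) hvol
      (M := M)] with L hL hLM
    have hcap := hL hLM
    have hbd : ENNReal.ofReal (2 * L) * gmtPer A S' W + ENNReal.ofReal (2 * (M - L)) * gmtPer A S W +
          ENNReal.ofReal (2 * C) * volume (symmDiff S S' ∩ W) ≠ ⊤ :=
      ENNReal.add_ne_top.2 ⟨ENNReal.add_ne_top.2
        ⟨ENNReal.mul_ne_top ENNReal.ofReal_ne_top hfin',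
          ENNReal.mul_ne_top ENNReal.ofReal_ne_top (hfin W hW)⟩,
        ENNReal.mul_ne_top ENNReal.ofReal_ne_top hvol⟩
    have hFfin : gmtPer (gmtProdInt A c) (gmtCap S' S L) (gmtBox W (-M) M) ≠ ⊤ :=
      ne_top_of_le_ne_top hbd hcap
    have hmin := h.min (gmtBox W (-M) M) (gmtCap S' S L) (gmtBox_cc hW _ _)
      (measurableSet_gmtCap hSm hS' L) (gmtCD_gmtCap hK hKW hd hLM.2) hFfin
    have hMM : -M ≤ M := by linarith [hLM.1, hLM.2]
    rw [gmtPer_timesR_box A hW.1 hc0W hSm hMM, integral_timesR_box hSm hW.1.measurableSet hMM,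
      integral_gmtCap_box hSm hS' hW.1.measurableSet hfW hLM.1.le hLM.2.le, ENNReal.toReal_mul,
      ENNReal.toReal_ofReal (by linarith)] at hmin
    have h3 := ENNReal.toReal_mono hbd hcap
    rw [ENNReal.toReal_add (ENNReal.add_ne_top.1 hbd).1 (ENNReal.add_ne_top.1 hbd).2,
      ENNReal.toReal_add (ENNReal.add_ne_top.1 (ENNReal.add_ne_top.1 hbd).1).1
        (ENNReal.add_ne_top.1 (ENNReal.add_ne_top.1 hbd).1).2,
      ENNReal.toReal_mul, ENNReal.toReal_mul, ENNReal.toReal_mul,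
      ENNReal.toReal_ofReal (by linarith [hLM.1]), ENNReal.toReal_ofReal (by linarith [hLM.2]),
      ENNReal.toReal_ofReal (by linarith)] at h3
    nlinarith
  -- conclusion
  by_contra hcon
  rw [not_le] at hcon
  obtain ⟨e, he⟩ : ∃ e : ℝ, e = ((gmtPer A S W).toReal - ∫ x in S ∩ W, f x) -
        ((gmtPer A S' W).toReal - ∫ x in S' ∩ W, f x) := ⟨_, rfl⟩
  obtain ⟨D, hD⟩ : ∃ D : ℝ, D = C * (volume (symmDiff S S' ∩ W)).toReal := ⟨_, rfl⟩
  have hD0 : 0 ≤ D := by
    rw [hD]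
    exact mul_nonneg hC ENNReal.toReal_nonneg
  have he0 : 0 < e := by
    rw [he]
    linarith
  have hg := hgood (D / e + 2)
  rw [← he, ← hD] at hg
  have hex : ∃ L ∈ Ioo (D / e + 1) (D / e + 2), (L ∈ Ioo 0 (D / e + 2) → L * e ≤ D) := by
    by_contra hno
    push Not at hno
    have h1 : Ioo (D / e + 1) (D / e + 2) ⊆ {L | ¬ (L ∈ Ioo 0 (D / e + 2) → L * e ≤ D)} := by
      intro L hL
      have := hno L hL
      simp only [mem_ofPred_eq, Classical.not_imp, not_le]
      exact this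
    have h2 := measure_mono_null h1 (ae_iff.1 hg)
    rw [Real.volume_Ioo] at h2
    have : D / e + 2 - (D / e + 1) = 1 := by ring
    rw [this, ENNReal.ofReal_one] at h2
    exact one_ne_zero h2
  obtain ⟨L, hL, hL'⟩ := hex
  have hde : 0 ≤ D / e := div_nonneg hD0 he0.le
  have h4 := hL' ⟨by linarith [hL.1], hL.2⟩
  have h5 : D / e * e = D := div_mul_cancel₀ D he0.ne'
  nlinarith [hL.1]

/-! ### boundary, regular and singular points -/

end Claimed.Agent.Gmt
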