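import Claimed.Agent.Lib.Gmt.GgRiesz
import Claimed.Agent.Lib.Gmt.BvIso

/-!
# Lib/Gmt [GgMeas part A] G0b: the perimeter measures `gmtPerM A S`, `gmtMu S` and the normal `gmtNu S`.
(architect: helper75; PROVED: helper6)          These are the proofs of section 1 of `IF.lean`.

CHAIN
1. `gmt_deGiorgiLetta` (NOW IN `GgDGL.lean`): an increasing, subadditive, superadditive (on disjoint sets), inner regular set function `α` on open sets is the
   restriction of an outer regular Borel measure.  Proof: `μ* B = ⨅ U ⊇ B open, α U` is an outer measure (countable subadditivity on open sets: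
   inner regularity + compactness reduce to finite unions); it is a METRIC outer measure (`MeasureTheory.OuterMeasure.IsMetric`: sets at positive distance have
   disjoint open neighbourhoods; superadditivity), so Borel sets are Carathéodory measurable (`IsMetric.borel_le_caratheodory`); `toMeasure`.
2. `gmtPerM_spec`: the four properties for `U ↦ gmtPer A S U` are `gmtPer_mono`, `gmtPer_union_le`, `gmtPer_add_le_union`, `gmtPer_iUnion_mono` (for non measurable `S` replace
   `S` by `toMeasurable volume S`: `Measure.restrict_toMeasurable_of_sFinite`).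
3. `gmtNu_spec`: let `U₀ = {x | ∃ r > 0, gmtP S (ball x r) ≠ ⊤}` (open; contains every open `U` with `GmtLF S U`; `GmtLF S U₀` by `gmtLF_iff_local` if `S` is measurable; if `S` is not measurable no `U` satisfies `GmtLF S U` and `ν = 0` works).
   Apply `gmtRiesz_of_measure` (`GgRieszC.lean`) on `U₀` to `L T = ∫_S div T` and `μ = gmtMu S` (outer regular by `gmtPerM_spec`; `μ W = gmtP S W = sup L T` by `gmtMu_open` and `gmtAdm_eu_iff`; `GmtTestK` with `k = m` is `GmtTest`; finite on compact sets: `gmtMu_compact_ne_top`).
4. `gmtPerM_eq_withDensity`: NOW IN `GgDens.lean` (freezing of the coefficients + `gmt_polar_open_gen`).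
-/

set_option autoImplicit false
open scoped ContDiff ENNReal RealInnerProductSpace Topology
open MeasureTheory Metric Set Filter

namespace Claimed.Agent.Gmt

variable {m : ℕ}

theorem gmtPer_toMeasurable (A : E m → Bil m) (S U : Set (E m)) :
    gmtPer A (toMeasurable volume S) U = gmtPer A S U := by
  unfold gmtPer
  rw [Measure.restrict_toMeasurable_of_sFinite]

theorem gmtPerM_exists (A : E m → Bil m) (S : Set (E m)) :
    ∃ μ : Measure (E m), GmtPerMSpec A S μ := by
  have hS' : MeasurableSet (toMeasurable volume S) := measurableSet_toMeasurable _ _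
  refine gmt_deGiorgiLetta (fun U => gmtPer A S U) (gmtPer_empty_set A S)
    (fun U V _ _ h => gmtPer_mono A S h) (fun U V hU hV => ?_) (fun U V hU hV hd => ?_)
    (fun U hU hm => gmtPer_iUnion_mono A S hU hm)
  · simp only [← gmtPer_toMeasurable A S]
    exact gmtPer_union_le A hS' hU hV
  · simp only [← gmtPer_toMeasurable A S]
    exact gmtPer_add_le_union A hS' hU hV hd

theorem gmtPerM_spec (A : E m → Bil m) (S : Set (E m)) : GmtPerMSpec A S (gmtPerM A S) := by
  have h := gmtPerM_exists A S
  unfold gmtPerM
  rw [dif_pos h]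
  exact h.choose_spec

theorem gmtPerM_open (A : E m → Bil m) (S : Set (E m)) {U : Set (E m)} (hU : IsOpen U) :
    gmtPerM A S U = gmtPer A S U := (gmtPerM_spec A S).2 U hU

theorem gmtMu_open (S : Set (E m)) {U : Set (E m)} (hU : IsOpen U) : gmtMu S U = gmtP S U :=
  gmtPerM_open _ S hU

/-- two outer regular measures which agree on open sets are equal. -/
theorem gmtPerM_unique {A : E m → Bil m} {S : Set (E m)} {μ : Measure (E m)}
    (h : GmtPerMSpec A S μ) : μ = gmtPerM A S := by
  have h1 := h.1
  have h2 := (gmtPerM_spec A S).1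
  exact Measure.OuterRegular.ext_isOpen fun U hU => by rw [h.2 U hU, gmtPerM_open A S hU]

theorem gmtMu_compact_ne_top {U S : Set (E m)} (hU : IsOpen U) (hS : GmtLF S U) {K : Set (E m)}
    (hK : IsCompact K) (hKU : K ⊆ U) : gmtMu S K ≠ ⊤ := by
  obtain ⟨W, hW, hKW⟩ := gmt_exists_cc hK hU hKU
  refine ne_top_of_le_ne_top ?_ (measure_mono hKW)
  rw [gmtMu_open S hW.1]
  exact hS.2 W hW

/-- the restriction to `W ⋐ U` is a finite measure. -/
theorem gmtMu_restrict_finite {U S W : Set (E m)} (hU : IsOpen U) (hS : GmtLF S U)
    (hW : GmtCC W U) : IsFiniteMeasure ((gmtMu S).restrict W) := by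
  refine ⟨?_⟩
  rw [Measure.restrict_apply MeasurableSet.univ, univ_inter, gmtMu_open S hW.1]
  exact (hS.2 W hW).lt_top

end Claimed.Agent.Gmt
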