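import Claimed.Agent.Lib.Gmt.BvProd
import Claimed.Agent.Lib.Gmt.GgMeasA

/-!
# Lib/Gmt [BvProdM]: the perimeter MEASURE of a product set `S × ℝ` is a product measure.   (helper179)

From the box formula `gmtPer_timesR_box` and uniqueness of product measures (`Measure.prod_eq_generateFrom`).
Consumer: `R315/Ct/ProdC.lean` (`ct_cyl_wper`).
-/

set_option autoImplicit false
open scoped ContDiff ENNReal RealInnerProductSpace Topology
open MeasureTheory Metric Set Filter

namespace Claimed.Agent.Gmt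

variable {n : ℕ}

/-- over an open set `W` of finite perimeter the perimeter measure of `S × ℝ` is the product measure. -/
theorem gmtPerM_timesR_map (A : E n → Bil n) {c : E n → ℝ} {S W : Set (E n)}
    (hc0 : ∀ x ∈ W, 0 ≤ c x) (hS : MeasurableSet S) (hW : IsOpen W) (hfin : gmtPerM A S W ≠ ⊤) :
    ((gmtPerM (gmtProdInt A c) (gmtTimesR S)).restrict (gmtTimesR W)).map (gmtBpaEquiv n) =
      ((gmtPerM A S).restrict W).prod (volume : Measure ℝ) := by
  symm
  have hf : IsFiniteMeasure ((gmtPerM A S).restrict W) :=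
    ⟨by rw [Measure.restrict_apply_univ]; exact hfin.lt_top⟩
  refine Measure.prod_eq_generateFrom (C := {s | IsOpen s})
    (D := ⋃ (a : ℚ) (b : ℚ) (_ : a < b), {Ioo (a : ℝ) (b : ℝ)}) ?_ ?_ isPiSystem_isOpen
    Real.isPiSystem_Ioo_rat ?_ (Real.finiteSpanningSetsInIooRat volume) ?_
  · exact (BorelSpace.measurable_eq (α := E n)).symm
  · rw [← Real.borel_eq_generateFrom_Ioo_rat]
    exact (BorelSpace.measurable_eq (α := ℝ)).symm
  · exact ⟨fun _ => univ, fun _ => (isOpen_univ : IsOpen (univ : Set (E n))), fun _ => measure_lt_top _ _, iUnion_const _⟩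
  · intro s hs t ht
    simp only [mem_iUnion, mem_singleton_iff] at ht
    obtain ⟨a, b, hab, rfl⟩ := ht
    have hs' : IsOpen s := hs
    have hab' : (a : ℝ) ≤ b := by exact_mod_cast hab.le
    have hm : MeasurableSet (s ×ˢ Ioo (a : ℝ) b) := hs'.measurableSet.prod measurableSet_Ioo
    have e : gmtBpaEquiv n ⁻¹' (s ×ˢ Ioo (a : ℝ) b) ∩ gmtTimesR W = gmtBox (s ∩ W) a b := by
      ext y
      constructor
      · rintro ⟨⟨h1, h2⟩, h3⟩
        exact ⟨⟨h1, h3⟩, h2⟩
      · rintro ⟨⟨h1, h3⟩, h2⟩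
        exact ⟨⟨h1, h2⟩, h3⟩
    rw [Measure.map_apply (gmtBpaEquiv n).measurable hm,
      Measure.restrict_apply ((gmtBpaEquiv n).measurable hm), e,
      gmtPerM_open _ _ (isOpen_gmtBox (hs'.inter hW) _ _),
      gmtPer_timesR_box A (hs'.inter hW) (fun x hx => hc0 x hx.2) hS hab',
      Measure.restrict_apply hs'.measurableSet, gmtPerM_open A S (hs'.inter hW), Real.volume_Ioo,
      mul_comm]

/-- the same statement as an iterated integral. -/
theorem gmtPerM_timesR_apply (A : E n → Bil n) {c : E n → ℝ} {S W : Set (E n)}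
    (hc0 : ∀ x ∈ W, 0 ≤ c x) (hS : MeasurableSet S) (hW : IsOpen W) (hfin : gmtPerM A S W ≠ ⊤)
    {B : Set (E (n + 1))} (hB : MeasurableSet B) (hBW : B ⊆ gmtTimesR W) :
    gmtPerM (gmtProdInt A c) (gmtTimesR S) B =
      ∫⁻ u in W, volume {s : ℝ | gmtJoin u s ∈ B} ∂(gmtPerM A S) := by
  have hm : MeasurableSet ((gmtBpaEquiv n).symm ⁻¹' B) := (gmtBpaEquiv n).symm.measurable hB
  have h1 := congrArg (fun μ : Measure (E n × ℝ) => μ ((gmtBpaEquiv n).symm ⁻¹' B))
    (gmtPerM_timesR_map A hc0 hS hW hfin)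
  beta_reduce at h1
  rw [Measure.map_apply (gmtBpaEquiv n).measurable hm, Measure.prod_apply hm] at h1
  have e : gmtBpaEquiv n ⁻¹' ((gmtBpaEquiv n).symm ⁻¹' B) = B := by
    ext y
    simp
  rw [e, Measure.restrict_apply hB, inter_eq_left.2 hBW] at h1
  exact h1

end Claimed.Agent.Gmt
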