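import Claimed.Agent.Lib.Gmt.BvConst

/-!
# Lib/Gmt [BvSob = part 2/4 of the former BvIsoA] [BvIso part A] G1f: constancy, isoperimetric and relative isoperimetric inequalities, scaling.
(architect: helper75)

PLAN OF PROOFS
* `gmtVar_eq_zero_iff_const`: `∇(u_ε) = 0` on `U' ⋐ U` by `lintegral_fderiv_gmtMol_le`; `u_ε` is locally constant, hence constant on
  connected `U'`; let `ε → 0`, exhaust the connected open set `U` by connected open `U' ⋐ U` (or: chain of balls).
* `gmt_sobolev`: `MeasureTheory.eLpNorm_le_eLpNorm_fderiv_one` for `χ_R · u_ε` / directly for `u_ε` when `u` has bounded support;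
  Fatou as `ε → 0`.  `gmt_isoperimetric` is the case `u = χ_S`; if `S` is unbounded with finite volume cut by balls
  (`gmtP_inter_ball_le` and `liminf_r d/dr |S ∩ B_r| = 0` since the integral of the derivative is finite).
* `gmt_rel_iso_weak` (the sharp exponent is NOT needed anywhere): Poincaré inequality on the ball for `C¹` functions
  `∫_B |u - u_B| ≤ C r ∫_B |∇u|` (convexity of `B`: `|u(x)-u(y)| ≤ ∫_0^1 |∇u(x+t(y-x))| |x-y| dt`, change of variables as in GT Lemma 7.16), applied to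
  `u_ε = gmtMol ε χ_S` on `B_{r-ε}`, `ε → 0`: `∫_B |χ_S - a| ≤ C r P(S;B)` for some `a ∈ [0,1]`, and `∫_B |χ_S - a| ≥ min(|S∩B|,|B\S|)/2`... (`= (1-a)|S∩B| + a|B\S| ≥ min`).
* scaling/translation: change of variables in the definition.
-/

set_option autoImplicit false
open scoped ContDiff ENNReal RealInnerProductSpace Topology
open MeasureTheory Metric Set Filter

namespace Claimed.Agent.Gmt

variable {m : ℕ}

/-- dilated cut-off functions with gradients tending to zero. -/
theorem gmt_cutoff_scaled (m : ℕ) : ∃ (η : ℕ → E m → ℝ) (M : ℝ), 0 ≤ M ∧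
    (∀ k, ContDiff ℝ 1 (η k)) ∧ (∀ k, HasCompactSupport (η k)) ∧
    (∀ k x, η k x ∈ Icc (0 : ℝ) 1) ∧ (∀ k x, ‖fderiv ℝ (η k) x‖ ≤ M / (k + 1)) ∧
    (∀ x, ∀ᶠ k in atTop, η k x = 1) := by
  obtain ⟨χ, h1, h2, -, h4, h5⟩ := gmt_exists_cutoff (isCompact_closedBall (0 : E m) 1)
    (isOpen_ball (x := (0 : E m)) (ε := 2)) (closedBall_subset_ball (by norm_num))
  have hχ1 : ContDiff ℝ 1 χ := h1.of_le (by exact_mod_cast le_top)
  obtain ⟨M, hM⟩ := (hχ1.continuous_fderiv one_ne_zero).bounded_above_of_compact_support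
    (h2.fderiv ℝ)
  have hM0 : 0 ≤ M := (norm_nonneg _).trans (hM 0)
  have hk : ∀ k : ℕ, (0 : ℝ) < k + 1 := fun k => by positivity
  refine ⟨fun k x => χ (((k : ℝ) + 1)⁻¹ • x), M, hM0, fun k => ?_, fun k => ?_, fun k x => h4 _,
    fun k x => ?_, fun x => ?_⟩
  · exact hχ1.comp (contDiff_const_smul _)
  · exact h2.comp_smul (inv_ne_zero (hk k).ne')
  · rw [fderiv_comp_smul, norm_smul, Real.norm_eq_abs, abs_of_pos (inv_pos.2 (hk k)), div_eq_inv_mul]
    exact mul_le_mul_of_nonneg_left (hM _) (inv_pos.2 (hk k)).le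
  · obtain ⟨N, hN⟩ := exists_nat_ge ‖x‖
    filter_upwards [eventually_ge_atTop N] with k hkN
    refine h5.self_of_nhdsSet _ ?_
    rw [mem_closedBall_zero_iff, norm_smul, Real.norm_eq_abs, abs_of_pos (inv_pos.2 (hk k)),
      inv_mul_le_iff₀ (hk k), mul_one]
    have : (N : ℝ) ≤ k := by exact_mod_cast hkN
    linarith

/-- approximation of a set of finite volume and perimeter by compactly supported `C¹` functions. -/
theorem gmt_sob_seq {S : Set (E m)} (hS : MeasurableSet S) :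
    ∃ (w : ℕ → E m → ℝ) (M : ℝ), 0 ≤ M ∧ (∀ k, ContDiff ℝ 1 (w k)) ∧ (∀ k, HasCompactSupport (w k)) ∧
      (∀ᵐ x, Tendsto (fun k => w k x) atTop (𝓝 (gmtChi S x))) ∧
      ∀ k : ℕ, ∫⁻ x, ‖fderiv ℝ (w k) x‖ₑ ≤
        gmtP S univ + ENNReal.ofReal (M / (k + 1)) * (gmtP S univ + volume S) := by
  obtain ⟨η, M, hM0, hη1, hη2, hη3, hη4, hη5⟩ := gmt_cutoff_scaled m
  have hloc := gmtChi_locallyIntegrable hS
  have hk : ∀ k : ℕ, (0 : ℝ) < 1 / ((k : ℝ) + 1) := fun k => by positivity
  set u : ℕ → E m → ℝ := fun k => gmtMol (1 / ((k : ℝ) + 1)) (gmtChi S) with hu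
  have hu1 : ∀ k, ContDiff ℝ 1 (u k) := fun k =>
    (gmtMol_contDiff (hk k) hloc).of_le (by exact_mod_cast le_top)
  refine ⟨fun k x => η k x * u k x, M, hM0, fun k => (hη1 k).mul (hu1 k), fun k => (hη2 k).mul_right,
    ?_, fun k => ?_⟩
  · filter_upwards [gmtMol_tendsto_ae hloc] with x hx
    have h1 : Tendsto (fun k : ℕ => 1 / ((k : ℝ) + 1)) atTop (𝓝[>] 0) :=
      tendsto_nhdsWithin_iff.2 ⟨tendsto_one_div_add_atTop_nhds_zero_nat,
        Eventually.of_forall fun k => hk k⟩
    have h2 : Tendsto (fun k => u k x) atTop (𝓝 (gmtChi S x)) := hx.comp h1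
    refine h2.congr' ?_
    filter_upwards [hη5 x] with k hk1
    rw [hk1, one_mul]
  · have hpt : ∀ x, ‖fderiv ℝ (fun x => η k x * u k x) x‖ₑ ≤
        ‖fderiv ℝ (u k) x‖ₑ + ENNReal.ofReal (M / (k + 1)) * ‖u k x‖ₑ := by
      intro x
      have hd1 : DifferentiableAt ℝ (η k) x := ((hη1 k).differentiable one_ne_zero) x
      have hd2 : DifferentiableAt ℝ (u k) x := ((hu1 k).differentiable one_ne_zero) x
      rw [fderiv_fun_mul hd1 hd2]
      refine (enorm_add_le (η k x • fderiv ℝ (u k) x) (u k x • fderiv ℝ (η k) x)).trans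
        (add_le_add ?_ ?_)
      · rw [enorm_smul]
        calc ‖η k x‖ₑ * ‖fderiv ℝ (u k) x‖ₑ ≤ 1 * ‖fderiv ℝ (u k) x‖ₑ := by
              gcongr
              rw [Real.enorm_eq_ofReal (hη3 k x).1]
              exact ENNReal.ofReal_le_one.2 (hη3 k x).2
          _ = _ := one_mul _
      · rw [enorm_smul, mul_comm]
        gcongr
        rw [← ofReal_norm]
        exact ENNReal.ofReal_le_ofReal (hη4 k x)
    have hm1 : Measurable fun x => ‖fderiv ℝ (u k) x‖ₑ :=
      ((hu1 k).continuous_fderiv one_ne_zero).enorm.measurable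
    have hm2 : Measurable fun x => ‖u k x‖ₑ := (hu1 k).continuous.enorm.measurable
    have e1 : ∫⁻ x, ‖fderiv ℝ (u k) x‖ₑ ≤ gmtP S univ := by
      have := lintegral_fderiv_gmtMol_le (hk k) hloc (U' := univ) (U := univ) isOpen_univ
        (subset_univ _)
      rwa [Measure.restrict_univ, ← gmtP_eq_gmtVar hS] at this
    have e2 : ∫⁻ x, ‖u k x‖ₑ ≤ gmtP S univ + volume S := by
      have h3 := lintegral_gmtMol_sub_le (hk k) (ε' := 2) (by
        have : 1 / ((k : ℝ) + 1) ≤ 1 := by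
          rw [div_le_one (by positivity)]
          have : (0 : ℝ) ≤ k := Nat.cast_nonneg k
          linarith
        linarith) hloc (U' := univ) (U := univ) isOpen_univ (subset_univ _)
      rw [Measure.restrict_univ, ← gmtP_eq_gmtVar hS] at h3
      have h4 : ∫⁻ x, ‖gmtChi S x‖ₑ = volume S := by
        have : (fun x => ‖gmtChi S x‖ₑ) = S.indicator fun _ => (1 : ℝ≥0∞) := by
          funext x
          by_cases hx : x ∈ S <;> simp [gmtChi, hx]
        rw [this, lintegral_indicator hS]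
        simp
      calc ∫⁻ x, ‖u k x‖ₑ ≤ ∫⁻ x, (‖u k x - gmtChi S x‖ₑ + ‖gmtChi S x‖ₑ) := by
            refine lintegral_mono fun x => ?_
            have : u k x = (u k x - gmtChi S x) + gmtChi S x := by ring
            conv_lhs => rw [this]
            exact enorm_add_le _ _
        _ = (∫⁻ x, ‖u k x - gmtChi S x‖ₑ) + ∫⁻ x, ‖gmtChi S x‖ₑ := by
            refine lintegral_add_right _ ?_
            exact ((measurable_const.indicator hS).enorm)
        _ ≤ gmtP S univ + volume S := by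
            rw [h4]
            gcongr
            refine h3.trans ?_
            calc ENNReal.ofReal (1 / ((k : ℝ) + 1)) * gmtP S univ ≤ 1 * gmtP S univ := by
                  gcongr
                  refine ENNReal.ofReal_le_one.2 ?_
                  rw [div_le_one (by positivity)]
                  have : (0 : ℝ) ≤ k := Nat.cast_nonneg k
                  linarith
              _ = _ := one_mul _
    calc ∫⁻ x, ‖fderiv ℝ (fun x => η k x * u k x) x‖ₑ
        ≤ ∫⁻ x, (‖fderiv ℝ (u k) x‖ₑ + ENNReal.ofReal (M / (k + 1)) * ‖u k x‖ₑ) :=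
          lintegral_mono hpt
      _ = (∫⁻ x, ‖fderiv ℝ (u k) x‖ₑ) + ENNReal.ofReal (M / (k + 1)) * ∫⁻ x, ‖u k x‖ₑ := by
          rw [lintegral_add_left hm1, lintegral_const_mul _ hm2]
      _ ≤ _ := by gcongr

theorem gmt_isoperimetric_aux {p : ℝ} (hp : Real.HolderConjugate (m : ℝ) p) {S : Set (E m)}
    (hS : MeasurableSet S) (hvol : volume S ≠ ⊤) (hP : gmtP S univ ≠ ⊤) :
    volume S ≤ (lintegralPowLePowLIntegralFDerivConst (volume : Measure (E m)) p : ℝ≥0∞) *
      (gmtP S univ) ^ p := by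
  obtain ⟨w, M, hM0, hw1, hw2, hw3, hw4⟩ := gmt_sob_seq hS
  have hp0 : 0 < p := hp.symm.pos
  set C : ℝ≥0∞ := (lintegralPowLePowLIntegralFDerivConst (volume : Measure (E m)) p : ℝ≥0∞) with hC
  have hF : ∫⁻ x, liminf (fun k => ‖w k x‖ₑ ^ p) atTop ≤
      liminf (fun k => ∫⁻ x, ‖w k x‖ₑ ^ p) atTop :=
    lintegral_liminf_le fun k => ((hw1 k).continuous.enorm.measurable.pow_const p)
  have hL : ∫⁻ x, liminf (fun k => ‖w k x‖ₑ ^ p) atTop = volume S := by
    have : ∀ᵐ x, liminf (fun k => ‖w k x‖ₑ ^ p) atTop = S.indicator (fun _ => (1 : ℝ≥0∞)) x := by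
      filter_upwards [hw3] with x hx
      have h1 : Tendsto (fun k => ‖w k x‖ₑ ^ p) atTop (𝓝 (‖gmtChi S x‖ₑ ^ p)) :=
        ((ENNReal.continuous_rpow_const (y := p)).tendsto _).comp
          ((continuous_enorm.tendsto _).comp hx)
      rw [h1.liminf_eq]
      by_cases hxS : x ∈ S <;> simp [gmtChi, hxS, hp0]
    rw [lintegral_congr_ae this, lintegral_indicator hS]
    simp
  have hfr : (Module.finrank ℝ (E m) : ℝ) = m := by simp
  have hR : ∀ k : ℕ, ∫⁻ x, ‖w k x‖ₑ ^ p ≤
      C * (gmtP S univ + ENNReal.ofReal (M / (k + 1)) * (gmtP S univ + volume S)) ^ p := by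
    intro k
    refine (lintegral_pow_le_pow_lintegral_fderiv volume (hw1 k) (hw2 k) (by rwa [hfr])).trans ?_
    gcongr
    exact hw4 k
  have hT : Tendsto (fun k : ℕ =>
      C * (gmtP S univ + ENNReal.ofReal (M / (k + 1)) * (gmtP S univ + volume S)) ^ p) atTop
      (𝓝 (C * (gmtP S univ) ^ p)) := by
    have h0 : Tendsto (fun k : ℕ => ENNReal.ofReal (M / (k + 1))) atTop (𝓝 0) := by
      have h1 : Tendsto (fun k : ℕ => M / ((k : ℝ) + 1)) atTop (𝓝 0) := by
        have := (tendsto_one_div_add_atTop_nhds_zero_nat (𝕜 := ℝ)).const_mul M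
        simpa [div_eq_mul_inv] using this
      have := (ENNReal.continuous_ofReal.tendsto _).comp h1
      simpa [Function.comp_def] using this
    have h1 : Tendsto (fun k : ℕ => ENNReal.ofReal (M / (k + 1)) * (gmtP S univ + volume S)) atTop
        (𝓝 (0 * (gmtP S univ + volume S))) :=
      ENNReal.Tendsto.mul_const h0 (Or.inr (ENNReal.add_ne_top.2 ⟨hP, hvol⟩))
    rw [zero_mul] at h1
    have h2 : Tendsto (fun k : ℕ => gmtP S univ +
        ENNReal.ofReal (M / (k + 1)) * (gmtP S univ + volume S)) atTop (𝓝 (gmtP S univ + 0)) :=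
      tendsto_const_nhds.add h1
    rw [add_zero] at h2
    have h3 := ((ENNReal.continuous_rpow_const (y := p)).tendsto _).comp h2
    exact ENNReal.Tendsto.const_mul h3 (Or.inr ENNReal.coe_ne_top)
  rw [← hL]
  refine hF.trans ?_
  rw [← hT.liminf_eq]
  exact liminf_le_liminf (Eventually.of_forall hR)

/-- Sobolev inequality in `BV`. -/
theorem gmt_isoperimetric (m : ℕ) (hm : 2 ≤ m) :
    ∃ c > 0, ∀ S : Set (E m), MeasurableSet S → volume S ≠ ⊤ →
      ENNReal.ofReal (c * (volume S).toReal ^ (((m : ℝ) - 1) / m)) ≤ gmtP S univ := by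
  have hm1 : (1 : ℝ) < m := by exact_mod_cast (by omega : 1 < m)
  have hp := Real.HolderConjugate.conjExponent hm1
  set p : ℝ := Real.conjExponent m with hpdef
  have hp0 : 0 < p := hp.symm.pos
  have hpinv : ((m : ℝ) - 1) / m = 1 / p := by
    rw [hpdef, Real.conjExponent]
    have : (m : ℝ) - 1 ≠ 0 := by linarith
    have h0 : (m : ℝ) ≠ 0 := by linarith
    field_simp
  set C : NNReal := lintegralPowLePowLIntegralFDerivConst (volume : Measure (E m)) p with hC
  refine ⟨1 / ((C : ℝ) ^ (1 / p) + 1), by positivity, fun S hS hvol => ?_⟩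
  by_cases hP : gmtP S univ = ⊤
  · rw [hP]; exact le_top
  have h := gmt_isoperimetric_aux hp hS hvol hP
  rw [ENNReal.ofReal_le_iff_le_toReal hP, hpinv]
  have h1 : (volume S).toReal ≤ (C : ℝ) * (gmtP S univ).toReal ^ p := by
    have h2 := ENNReal.toReal_mono (ENNReal.mul_ne_top ENNReal.coe_ne_top
      (ENNReal.rpow_ne_top_of_nonneg hp0.le hP)) h
    rwa [ENNReal.toReal_mul, ← ENNReal.toReal_rpow, ENNReal.coe_toReal] at h2
  have hPn : 0 ≤ (gmtP S univ).toReal := ENNReal.toReal_nonneg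
  have h3 : (volume S).toReal ^ (1 / p) ≤ (C : ℝ) ^ (1 / p) * (gmtP S univ).toReal := by
    calc (volume S).toReal ^ (1 / p) ≤ ((C : ℝ) * (gmtP S univ).toReal ^ p) ^ (1 / p) :=
          Real.rpow_le_rpow ENNReal.toReal_nonneg h1 (by positivity)
      _ = (C : ℝ) ^ (1 / p) * (gmtP S univ).toReal := by
          rw [Real.mul_rpow C.coe_nonneg (Real.rpow_nonneg hPn p), ← Real.rpow_mul hPn,
            mul_one_div_cancel hp0.ne', Real.rpow_one]
  have hC0 : 0 ≤ (C : ℝ) ^ (1 / p) := Real.rpow_nonneg C.coe_nonneg _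
  rw [div_mul_eq_mul_div, one_mul, div_le_iff₀ (by positivity)]
  nlinarith

end Claimed.Agent.Gmt
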