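import Claimed.Agent.Lib.Gmt.BvBasicA

/-!
# Lib/Gmt G1a-tools: smooth cut-off functions and smooth sections of convex-set valued maps.
(helper75)
-/

set_option autoImplicit false
open scoped ContDiff ENNReal RealInnerProductSpace Topology Manifold
open MeasureTheory Metric Set Filter

namespace Claimed.Agent.Gmt

variable {m : ℕ}

/-- smooth cut-off: `1` near the compact set `K`, compact support in the open set `U`. -/
theorem gmt_exists_cutoff {K U : Set (E m)} (hK : IsCompact K) (hU : IsOpen U) (hKU : K ⊆ U) :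
    ∃ χ : E m → ℝ, ContDiff ℝ ∞ χ ∧ HasCompactSupport χ ∧ tsupport χ ⊆ U ∧
      (∀ x, χ x ∈ Icc (0 : ℝ) 1) ∧ (∀ᶠ x in 𝓝ˢ K, χ x = 1) := by
  obtain ⟨L, hL, hKL, hLU⟩ := exists_compact_between hK hU hKU
  obtain ⟨f, h1, h0, hf⟩ := exists_contMDiffMap_one_nhds_of_subset_interior (n := (⊤ : ℕ∞))
    𝓘(ℝ, E m) hK.isClosed hKL
  have hs : Function.support f ⊆ L := by
    intro x hx
    by_contra h
    exact hx (h0 x h)
  have hts : tsupport f ⊆ L := closure_minimal hs hL.isClosed
  exact ⟨f, f.contMDiff.contDiff, hL.of_isClosed_subset (isClosed_tsupport _) hts,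
    hts.trans hLU, hf, h1⟩

/-- smooth sections of a family of convex sets which is trivial off a compact subset of `U`. -/
theorem gmt_exists_section {K U : Set (E m)} (hK : IsCompact K) (hKU : K ⊆ U)
    {t : E m → Set (E m)} (ht : ∀ x, Convex ℝ (t x)) (h0 : ∀ x ∉ K, t x ⊆ {0})
    (Hloc : ∀ x, ∃ c : E m, ∀ᶠ y in 𝓝 x, c ∈ t y) :
    ∃ T : E m → E m, GmtTestS U T ∧ ∀ x, T x ∈ t x := by
  obtain ⟨g, hg⟩ := exists_contMDiffMap_forall_mem_convex_of_local_const (n := (⊤ : ℕ∞))
    𝓘(ℝ, E m) ht Hloc
  have hs : Function.support g ⊆ K := by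
    intro x hx
    by_contra h
    exact hx (h0 x h (hg x))
  have hts : tsupport g ⊆ K := closure_minimal hs hK.isClosed
  exact ⟨g, ⟨g.contMDiff.contDiff, hK.of_isClosed_subset (isClosed_tsupport _) hts,
    hts.trans hKU⟩, hg⟩

theorem GmtTestS.test {U : Set (E m)} {T : E m → E m} (hT : GmtTestS U T) : GmtTest U T :=
  ⟨hT.smooth.of_le (by exact_mod_cast le_top), hT.cpt, hT.sub⟩

/-- multiplication of a test field by a `C¹` function. -/
theorem GmtTest.smul {U : Set (E m)} {T : E m → E m} (hT : GmtTest U T) {φ : E m → ℝ}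
    (hφ : ContDiff ℝ 1 φ) : GmtTest U (fun x => φ x • T x) := by
  have hs : Function.support (fun x => φ x • T x) ⊆ tsupport T := by
    intro x hx
    apply subset_tsupport
    intro h
    apply hx
    simp [h]
  exact ⟨hφ.smul hT.c1, hT.cpt.mono' hs, (closure_minimal hs (isClosed_tsupport T)).trans hT.sub⟩

/-- multiplication of a test field by a `C¹` function with support in `V`. -/
theorem GmtTest.smul_of_tsupport {U V : Set (E m)} {T : E m → E m} (hT : GmtTest U T)
    {φ : E m → ℝ} (hφ : ContDiff ℝ 1 φ) (hV : tsupport φ ⊆ V) :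
    GmtTest V (fun x => φ x • T x) := by
  have hs : Function.support (fun x => φ x • T x) ⊆ tsupport φ := by
    intro x hx
    apply subset_tsupport
    intro h
    apply hx
    simp [h]
  exact ⟨hφ.smul hT.c1, (hT.smul hφ).cpt,
    (closure_minimal hs (isClosed_tsupport φ)).trans hV⟩

/-! ### exhaustions of open sets -/

/-- compact exhaustion of an open set, each member in the interior of the next one. -/
theorem gmt_exists_exhaustion {U : Set (E m)} (hU : IsOpen U) :
    ∃ K : ℕ → Set (E m), (∀ n, IsCompact (K n)) ∧ (∀ n, K n ⊆ U) ∧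
      (∀ n, K n ⊆ interior (K (n + 1))) ∧ ⋃ n, K n = U := by
  obtain ⟨F, hFc, hFU, hFun, hmono⟩ := hU.exists_iUnion_isClosed
  set C : ℕ → Set (E m) := fun n => F n ∩ closedBall 0 n with hC
  have hCc : ∀ n, IsCompact (C n) := fun n => (isCompact_closedBall 0 _).inter_left (hFc n)
  have hCU : ∀ n, C n ⊆ U := fun n => inter_subset_left.trans (hFU n)
  have step : ∀ (n : ℕ) (L : {L : Set (E m) // IsCompact L ∧ L ⊆ U}),
      ∃ L' : {L : Set (E m) // IsCompact L ∧ L ⊆ U}, L.1 ∪ C (n + 1) ⊆ interior L'.1 := by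
    intro n L
    obtain ⟨L', h1, h2, h3⟩ := exists_compact_between (L.2.1.union (hCc (n + 1))) hU
      (union_subset L.2.2 (hCU (n + 1)))
    exact ⟨⟨L', h1, h3⟩, h2⟩
  choose next hnext using step
  let L : ℕ → {L : Set (E m) // IsCompact L ∧ L ⊆ U} :=
    fun n => Nat.rec ⟨C 0, hCc 0, hCU 0⟩ (fun n L => next n L) n
  have hL : ∀ n, (L n).1 ∪ C (n + 1) ⊆ interior (L (n + 1)).1 := fun n => hnext n (L n)
  have hCL : ∀ n, C n ⊆ (L n).1 := by
    intro n
    cases n with
    | zero => exact le_rfl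
    | succ n => exact (subset_union_right.trans (hL n)).trans interior_subset
  refine ⟨fun n => (L n).1, fun n => (L n).2.1, fun n => (L n).2.2,
    fun n => subset_union_left.trans (hL n), ?_⟩
  refine Subset.antisymm (iUnion_subset fun n => (L n).2.2) ?_
  intro x hx
  rw [← hFun] at hx
  obtain ⟨n, hn⟩ := mem_iUnion.1 hx
  obtain ⟨k, hk⟩ := exists_nat_ge ‖x‖
  refine mem_iUnion.2 ⟨max n k, hCL _ ⟨hmono (le_max_left n k) hn, ?_⟩⟩
  rw [mem_closedBall_zero_iff]
  exact hk.trans (by exact_mod_cast le_max_right n k)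

/-- exhaustion of an open set by relatively compact open subsets. -/
theorem gmt_exists_open_exhaustion {U : Set (E m)} (hU : IsOpen U) :
    ∃ W : ℕ → Set (E m), (∀ n, GmtCC (W n) U) ∧ Monotone W ∧ ⋃ n, W n = U := by
  obtain ⟨K, hK, hKU, hKK, hun⟩ := gmt_exists_exhaustion hU
  refine ⟨fun n => interior (K n), fun n => ⟨isOpen_interior, ?_, ?_⟩, ?_, ?_⟩
  · exact (hK n).of_isClosed_subset isClosed_closure
      (closure_minimal interior_subset (hK n).isClosed)
  · exact (closure_minimal interior_subset (hK n).isClosed).trans (hKU n)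
  · exact monotone_nat_of_le_succ fun n => interior_mono ((hKK n).trans interior_subset)
  · refine Subset.antisymm (iUnion_subset fun n => interior_subset.trans (hKU n)) ?_
    rw [← hun]
    exact iUnion_subset fun n => (hKK n).trans (subset_iUnion (fun n => interior (K n)) (n + 1))

/-- a compact subset of `U` lies in a relatively compact open subset. -/
theorem gmt_exists_cc {K U : Set (E m)} (hK : IsCompact K) (hU : IsOpen U) (hKU : K ⊆ U) :
    ∃ W, GmtCC W U ∧ K ⊆ W := by
  obtain ⟨L, hL, hKL, hLU⟩ := exists_compact_between hK hU hKU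
  exact ⟨interior L, ⟨isOpen_interior, hL.of_isClosed_subset isClosed_closure
    (closure_minimal interior_subset hL.isClosed),
    (closure_minimal interior_subset hL.isClosed).trans hLU⟩, hKL⟩

end Claimed.Agent.Gmt
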