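import Claimed.Agent.Lib.Gmt.BvTools

/-!
# Lib/Gmt G1a: anisotropic total variation `gmtVarA`: soft properties (any integrand `A`).
(helper75)

`gmtVarA A u U = sup { ∫ u div T : T ∈ C¹_c(U), T(x)·ξ ≤ √(A x ξ ξ) }`, so that
`gmtPer A S U = gmtVarA A (gmtChi S) U` and `gmtVar = gmtVarA (Euclidean)`.
Monotonicity, inner regularity, sub/superadditivity on open sets, lower semicontinuity.
-/

set_option autoImplicit false
open scoped ContDiff ENNReal RealInnerProductSpace Topology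
open MeasureTheory Metric Set Filter

namespace Claimed.Agent.Gmt

variable {m : ℕ}

/-- anisotropic total variation. -/
noncomputable def gmtVarA (A : E m → Bil m) (u : E m → ℝ) (U : Set (E m)) : ℝ≥0∞ :=
  ⨆ (T : E m → E m) (_ : GmtTest U T) (_ : GmtAdm A T), ENNReal.ofReal (∫ x, u x * gmtDiv T x)

theorem gmtVarA_eu (u : E m → ℝ) (U : Set (E m)) :
    gmtVarA (fun _ => gmtEu m) u U = gmtVar u U := by
  unfold gmtVarA gmtVar
  congr 1
  ext T
  congr 1
  ext hT
  exact iSup_congr_Prop (gmtAdm_eu_iff T) fun _ => rfl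

theorem integral_gmtChi_mul {S : Set (E m)} (hS : MeasurableSet S) (g : E m → ℝ) :
    ∫ x, gmtChi S x * g x = ∫ x in S, g x := by
  rw [← integral_indicator hS]
  congr 1
  ext x
  by_cases hx : x ∈ S <;> simp [gmtChi, hx]

theorem gmtPer_eq_gmtVarA (A : E m → Bil m) {S : Set (E m)} (hS : MeasurableSet S)
    (U : Set (E m)) : gmtPer A S U = gmtVarA A (gmtChi S) U := by
  unfold gmtPer gmtVarA
  simp_rw [integral_gmtChi_mul hS]

theorem gmtChi_locallyIntegrable {S : Set (E m)} (hS : MeasurableSet S) :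
    LocallyIntegrable (gmtChi S) := (locallyIntegrable_const (1 : ℝ)).indicator hS

theorem integral_le_gmtVarA {A : E m → Bil m} {u : E m → ℝ} {U : Set (E m)} {T : E m → E m}
    (hT : GmtTest U T) (h1 : GmtAdm A T) :
    ENNReal.ofReal (∫ x, u x * gmtDiv T x) ≤ gmtVarA A u U :=
  le_iSup_of_le T (le_iSup_of_le hT (le_iSup_of_le h1 le_rfl))

theorem integral_le_gmtPer {A : E m → Bil m} {S : Set (E m)} {U : Set (E m)} {T : E m → E m}
    (hT : GmtTest U T) (h1 : GmtAdm A T) :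
    ENNReal.ofReal (∫ x in S, gmtDiv T x) ≤ gmtPer A S U :=
  le_iSup_of_le T (le_iSup_of_le hT (le_iSup_of_le h1 le_rfl))

theorem gmtVarA_mono (A : E m → Bil m) (u : E m → ℝ) {U V : Set (E m)} (h : U ⊆ V) :
    gmtVarA A u U ≤ gmtVarA A u V := by
  unfold gmtVarA
  refine iSup_mono fun T => ?_
  refine iSup_le fun hT => ?_
  exact le_iSup_of_le (hT.mono h) le_rfl

theorem gmtVarA_congr (A : E m → Bil m) {u v : E m → ℝ} {U : Set (E m)}
    (h : u =ᵐ[volume.restrict U] v) : gmtVarA A u U = gmtVarA A v U := by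
  unfold gmtVarA
  congr 1
  ext T
  congr 1
  ext hT
  congr 1
  ext _
  congr 1
  apply integral_congr_ae
  filter_upwards [ae_imp_of_ae_restrict h] with x hx
  by_cases hxU : x ∈ U
  · rw [hx hxU]
  · have : gmtDiv T x = 0 := gmtDiv_eq_zero_of_notMem fun h' => hxU (hT.sub h')
    simp [this]

/-! ### inner regularity -/

theorem gmtTest_iUnion {U : ℕ → Set (E m)} (hU : ∀ k, IsOpen (U k)) (hmono : Monotone U)
    {T : E m → E m} (hT : GmtTest (⋃ k, U k) T) : ∃ k, GmtTest (U k) T := by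
  obtain ⟨k, hk⟩ := IsCompact.elim_directed_cover hT.cpt U hU hT.sub hmono.directed_le
  exact ⟨k, hT.c1, hT.cpt, hk⟩

theorem gmtVarA_iUnion_mono (A : E m → Bil m) (u : E m → ℝ) {U : ℕ → Set (E m)}
    (hU : ∀ k, IsOpen (U k)) (hmono : Monotone U) :
    gmtVarA A u (⋃ k, U k) = ⨆ k, gmtVarA A u (U k) := by
  refine le_antisymm ?_ (iSup_le fun k => gmtVarA_mono A u (subset_iUnion U k))
  conv_lhs => unfold gmtVarA
  refine iSup_le fun T => iSup_le fun hT => iSup_le fun h1 => ?_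
  obtain ⟨k, hk⟩ := gmtTest_iUnion hU hmono hT
  exact le_iSup_of_le k (integral_le_gmtVarA hk h1)

theorem gmtPer_iUnion_mono (A : E m → Bil m) (S : Set (E m)) {U : ℕ → Set (E m)}
    (hU : ∀ k, IsOpen (U k)) (hmono : Monotone U) :
    gmtPer A S (⋃ k, U k) = ⨆ k, gmtPer A S (U k) := by
  refine le_antisymm ?_ (iSup_le fun k => gmtPer_mono A S (subset_iUnion U k))
  conv_lhs => unfold gmtPer
  refine iSup_le fun T => iSup_le fun hT => iSup_le fun h1 => ?_
  obtain ⟨k, hk⟩ := gmtTest_iUnion hU hmono hT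
  exact le_iSup_of_le k (integral_le_gmtPer hk h1)

/-! ### subadditivity -/

theorem gmtAdm_smul {A : E m → Bil m} {T : E m → E m} (h : GmtAdm A T) {φ : E m → ℝ}
    (h01 : ∀ x, φ x ∈ Icc (0 : ℝ) 1) : GmtAdm A (fun x => φ x • T x) := by
  intro x ξ
  rw [real_inner_smul_left]
  have h1 := h x ξ
  have h2 := Real.sqrt_nonneg (A x ξ ξ)
  calc φ x * ⟪T x, ξ⟫ ≤ φ x * Real.sqrt (A x ξ ξ) := mul_le_mul_of_nonneg_left h1 (h01 x).1
    _ ≤ 1 * Real.sqrt (A x ξ ξ) := mul_le_mul_of_nonneg_right (h01 x).2 h2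
    _ = _ := one_mul _

theorem gmtAdm_zero (A : E m → Bil m) : GmtAdm A (fun _ => (0 : E m)) := by
  intro x ξ
  simp

/-- splitting of a test field in `U ∪ V`. -/
theorem gmtTest_split {U V : Set (E m)} (hU : IsOpen U) (hV : IsOpen V) {T : E m → E m}
    (hT : GmtTest (U ∪ V) T) :
    ∃ φ : E m → ℝ, ContDiff ℝ ∞ φ ∧ (∀ x, φ x ∈ Icc (0 : ℝ) 1) ∧
      GmtTest U (fun x => φ x • T x) ∧ GmtTest V (fun x => (1 - φ x) • T x) := by
  have hK : IsCompact (tsupport T \ V) := hT.cpt.diff hV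
  have hKU : tsupport T \ V ⊆ U := by
    rintro x ⟨hx, hxV⟩
    exact (hT.sub hx).resolve_right hxV
  obtain ⟨φ, hφ, -, hφU, h01, h1⟩ := gmt_exists_cutoff hK hU hKU
  have hφ1 : ContDiff ℝ 1 φ := hφ.of_le (by exact_mod_cast le_top)
  refine ⟨φ, hφ, h01, hT.smul_of_tsupport hφ1 hφU, ?_⟩
  have h1φ : ContDiff ℝ 1 fun x => 1 - φ x := contDiff_const.sub hφ1
  refine ⟨(hT.smul h1φ).c1, (hT.smul h1φ).cpt, ?_⟩
  -- the open set where `φ = 1` near `K`
  rw [eventually_nhdsSet_iff_exists] at h1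
  obtain ⟨N, hN, hKN, hN1⟩ := h1
  have hs : Function.support (fun x => (1 - φ x) • T x) ⊆ tsupport T ∩ Nᶜ := by
    intro x hx
    constructor
    · apply subset_tsupport
      intro h
      apply hx
      simp [h]
    · intro hxN
      apply hx
      simp [hN1 x hxN]
  have hcl : IsClosed (tsupport T ∩ Nᶜ) := (isClosed_tsupport T).inter hN.isClosed_compl
  refine (closure_minimal hs hcl).trans ?_
  rintro x ⟨hx, hxN⟩
  by_contra hxV
  exact hxN (hKN ⟨hx, hxV⟩)

theorem gmtVarA_union_le (A : E m → Bil m) {u : E m → ℝ} {U V : Set (E m)} (hU : IsOpen U)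
    (hV : IsOpen V) (hu : LocallyIntegrableOn u (U ∪ V)) :
    gmtVarA A u (U ∪ V) ≤ gmtVarA A u U + gmtVarA A u V := by
  conv_lhs => unfold gmtVarA
  refine iSup_le fun T => iSup_le fun hT => iSup_le fun h1 => ?_
  obtain ⟨φ, hφ, h01, hTU, hTV⟩ := gmtTest_split hU hV hT
  have h01' : ∀ x, (1 - φ x) ∈ Icc (0 : ℝ) 1 := fun x =>
    ⟨by linarith [(h01 x).2], by linarith [(h01 x).1]⟩
  have e : (∫ x, u x * gmtDiv T x) = (∫ x, u x * gmtDiv (fun x => φ x • T x) x) +
      ∫ x, u x * gmtDiv (fun x => (1 - φ x) • T x) x := by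
    rw [← integral_add (gmt_integrable_mul_div hu (hTU.mono subset_union_left))
      (gmt_integrable_mul_div hu (hTV.mono subset_union_right))]
    congr 1
    ext x
    rw [← mul_add, ← gmtDiv_add (hTU.differentiable x) (hTV.differentiable x)]
    congr 2
    ext1 y
    rw [← add_smul]
    simp
  rw [e]
  exact ENNReal.ofReal_add_le.trans (add_le_add
    (integral_le_gmtVarA hTU (gmtAdm_smul h1 h01)) (integral_le_gmtVarA hTV (gmtAdm_smul h1 h01')))

/-! ### superadditivity -/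

theorem gmtVarA_eq_biSup (A : E m → Bil m) (u : E m → ℝ) (U : Set (E m)) :
    gmtVarA A u U = ⨆ (T : E m → E m) (_ : GmtTest U T ∧ GmtAdm A T),
      ENNReal.ofReal (∫ x, u x * gmtDiv T x) := by
  unfold gmtVarA
  simp_rw [iSup_and]

theorem gmtAdm_add_of_disjoint {A : E m → Bil m} {U V : Set (E m)} (hUV : Disjoint U V)
    {T T' : E m → E m} (hT : GmtTest U T) (hT' : GmtTest V T') (h : GmtAdm A T)
    (h' : GmtAdm A T') : GmtAdm A (fun x => T x + T' x) := by
  intro x ξ
  show ⟪T x + T' x, ξ⟫ ≤ _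
  by_cases hx : x ∈ tsupport T
  · have : x ∉ tsupport T' := fun h2 => (disjoint_left.1 hUV) (hT.sub hx) (hT'.sub h2)
    rw [image_eq_zero_of_notMem_tsupport this, add_zero]
    exact h x ξ
  · rw [image_eq_zero_of_notMem_tsupport hx, zero_add]
    exact h' x ξ

theorem gmtVarA_add_le_union (A : E m → Bil m) {u : E m → ℝ} {U V : Set (E m)} (hU : IsOpen U)
    (hV : IsOpen V) (hUV : Disjoint U V) (hu : LocallyIntegrableOn u (U ∪ V)) :
    gmtVarA A u U + gmtVarA A u V ≤ gmtVarA A u (U ∪ V) := by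
  rw [gmtVarA_eq_biSup A u U, gmtVarA_eq_biSup A u V]
  refine ENNReal.biSup_add_biSup_le' ⟨_, gmtTest_zero U, gmtAdm_zero A⟩
    ⟨_, gmtTest_zero V, gmtAdm_zero A⟩ ?_
  rintro T ⟨hT, h1⟩ T' ⟨hT', h1'⟩
  rcases le_total (∫ x, u x * gmtDiv T x) 0 with h0 | h0
  · rw [ENNReal.ofReal_of_nonpos h0, zero_add]
    exact integral_le_gmtVarA (hT'.mono subset_union_right) h1'
  rcases le_total (∫ x, u x * gmtDiv T' x) 0 with h0' | h0'
  · rw [ENNReal.ofReal_of_nonpos h0', add_zero]
    exact integral_le_gmtVarA (hT.mono subset_union_left) h1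
  rw [← ENNReal.ofReal_add h0 h0',
    ← integral_add (gmt_integrable_mul_div hu (hT.mono subset_union_left))
      (gmt_integrable_mul_div hu (hT'.mono subset_union_right))]
  have e : (fun x => u x * gmtDiv T x + u x * gmtDiv T' x)
      = fun x => u x * gmtDiv (fun y => T y + T' y) x := by
    ext x
    rw [gmtDiv_add (hT.differentiable x) (hT'.differentiable x)]
    ring
  rw [e]
  exact integral_le_gmtVarA ((hT.mono subset_union_left).add (hT'.mono subset_union_right))
    (gmtAdm_add_of_disjoint hUV hT hT' h1 h1')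

theorem gmtPer_union_le (A : E m → Bil m) {S : Set (E m)} (hS : MeasurableSet S)
    {U V : Set (E m)} (hU : IsOpen U) (hV : IsOpen V) :
    gmtPer A S (U ∪ V) ≤ gmtPer A S U + gmtPer A S V := by
  simp_rw [gmtPer_eq_gmtVarA A hS]
  exact gmtVarA_union_le A hU hV ((gmtChi_locallyIntegrable hS).locallyIntegrableOn _)

theorem gmtPer_add_le_union (A : E m → Bil m) {S : Set (E m)} (hS : MeasurableSet S)
    {U V : Set (E m)} (hU : IsOpen U) (hV : IsOpen V) (hUV : Disjoint U V) :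
    gmtPer A S U + gmtPer A S V ≤ gmtPer A S (U ∪ V) := by
  simp_rw [gmtPer_eq_gmtVarA A hS]
  exact gmtVarA_add_le_union A hU hV hUV ((gmtChi_locallyIntegrable hS).locallyIntegrableOn _)

/-! ### lower semicontinuity -/

/-- `L¹_loc(U)` convergence implies convergence of the integrals against `g ∈ C_c(U)`. -/
theorem GmtConvF.tendsto_integral {U : Set (E m)} {u : ℕ → E m → ℝ} {u' : E m → ℝ}
    (hu : ∀ i, LocallyIntegrableOn (u i) U) (hu' : LocallyIntegrableOn u' U)
    (h : GmtConvF U u u') {g : E m → ℝ} (hg : Continuous g) (hc : HasCompactSupport g)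
    (hs : tsupport g ⊆ U) :
    Tendsto (fun i => ∫ x, u i x * g x) atTop (𝓝 (∫ x, u' x * g x)) := by
  obtain ⟨M, hM⟩ := hc.exists_bound_of_continuous hg
  refine tendsto_integral_of_L1 _ (gmt_integrable_mul hu' hg hc hs).aestronglyMeasurable
    (Eventually.of_forall fun i => gmt_integrable_mul (hu i) hg hc hs) ?_
  have h1 := h (tsupport g) hc hs
  have h2 : Tendsto (fun i => ENNReal.ofReal M * ∫⁻ x in tsupport g, ‖u i x - u' x‖ₑ) atTop
      (𝓝 0) := by
    have := ENNReal.Tendsto.const_mul (a := ENNReal.ofReal M) h1 (Or.inr ENNReal.ofReal_ne_top)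
    simpa using this
  refine tendsto_of_tendsto_of_tendsto_of_le_of_le tendsto_const_nhds h2 (fun _ => zero_le) ?_
  intro i
  show (∫⁻ (x : E m), ‖u i x * g x - u' x * g x‖ₑ) ≤
    ENNReal.ofReal M * ∫⁻ (x : E m) in tsupport g, ‖u i x - u' x‖ₑ
  rw [← lintegral_const_mul' _ _ ENNReal.ofReal_ne_top,
    ← lintegral_indicator (isClosed_tsupport g).measurableSet]
  refine lintegral_mono fun x => ?_
  by_cases hx : x ∈ tsupport g
  · rw [indicator_of_mem hx, ← sub_mul, enorm_mul, mul_comm]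
    gcongr
    rw [← ofReal_norm_eq_enorm]
    exact ENNReal.ofReal_le_ofReal (hM x)
  · simp [image_eq_zero_of_notMem_tsupport hx]

theorem gmtVarA_lsc (A : E m → Bil m) {U : Set (E m)} (hU : IsOpen U) {u : ℕ → E m → ℝ}
    {u' : E m → ℝ} (hu : ∀ i, LocallyIntegrableOn (u i) U) (hu' : LocallyIntegrableOn u' U)
    (h : GmtConvF U u u') : gmtVarA A u' U ≤ liminf (fun i => gmtVarA A (u i) U) atTop := by
  conv_lhs => unfold gmtVarA
  refine iSup_le fun T => iSup_le fun hT => iSup_le fun h1 => ?_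
  have ht := GmtConvF.tendsto_integral hu hu' h (continuous_gmtDiv hT).1 (continuous_gmtDiv hT).2.1
    (continuous_gmtDiv hT).2.2
  have ht' := (ENNReal.continuous_ofReal.tendsto _).comp ht
  rw [← ht'.liminf_eq]
  exact liminf_le_liminf (Eventually.of_forall fun i => integral_le_gmtVarA hT h1)

theorem enorm_gmtChi_sub (S S' : Set (E m)) (x : E m) :
    ‖gmtChi S x - gmtChi S' x‖ₑ = (symmDiff S S').indicator (fun _ => (1 : ℝ≥0∞)) x := by
  by_cases h : x ∈ S <;> by_cases h' : x ∈ S' <;> simp [gmtChi, h, h', mem_symmDiff]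

theorem lintegral_gmtChi_sub {S S' : Set (E m)} (hS : MeasurableSet S) (hS' : MeasurableSet S')
    (K : Set (E m)) :
    ∫⁻ x in K, ‖gmtChi S x - gmtChi S' x‖ₑ = volume (symmDiff S S' ∩ K) := by
  simp_rw [enorm_gmtChi_sub]
  rw [lintegral_indicator (hS.symmDiff hS')]
  simp [Measure.restrict_apply (hS.symmDiff hS')]

theorem gmtConvF_chi {U : Set (E m)} {S : ℕ → Set (E m)} {S' : Set (E m)}
    (hS : ∀ i, MeasurableSet (S i)) (hS' : MeasurableSet S') :
    GmtConvF U (fun i => gmtChi (S i)) (gmtChi S') ↔ GmtConv U S S' := by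
  unfold GmtConvF GmtConv
  simp_rw [lintegral_gmtChi_sub (hS _) hS']

/-- lower semicontinuity of the `A`-perimeter for a FIXED integrand (no regularity of `A` needed:
the set of admissible fields does not depend on `i`). -/
theorem gmtPer_lsc (A : E m → Bil m) {U : Set (E m)} (hU : IsOpen U) {S : ℕ → Set (E m)}
    {S' : Set (E m)} (hS : ∀ i, MeasurableSet (S i)) (hS' : MeasurableSet S')
    (h : GmtConv U S S') : gmtPer A S' U ≤ liminf (fun i => gmtPer A (S i) U) atTop := by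
  simp_rw [gmtPer_eq_gmtVarA A (hS _), gmtPer_eq_gmtVarA A hS']
  exact gmtVarA_lsc A hU (fun i => (gmtChi_locallyIntegrable (hS i)).locallyIntegrableOn _)
    ((gmtChi_locallyIntegrable hS').locallyIntegrableOn _) ((gmtConvF_chi hS hS').2 h)

end Claimed.Agent.Gmt
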