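import Claimed.Agent.Lib.Gmt.MoC

/-!
# Lib/Gmt G6 CONES [part A]: cones, rigidity, the spine.   (architect: helper184)

PLAN OF PROOFS
* `gmt_cone_of_radial`.  W.l.o.g. `x = 0` (translate: `gmtDil x 1`, `gmtNu_gmtDil`, `integral_gmtMu_gmtDil`).  For `g ∈ C¹_c(E m)` put `F(λ) = ∫_S λ^{-m} g(y/λ) dy = ∫_{gmtDil 0 λ S} g`.
  `F'(λ) = -λ^{-m-1} ∫_S div( y g(y/λ) ) dy = -λ^{-m-1} ∫ g(y/λ) ⟪y,ν⟫ dμ_S = 0` (Gauss-Green with `T(y) = g(y/λ) y`).
  So `∫_{gmtDil 0 λ S} g = ∫_S g` for all `g`, hence the two sets agree a.e. (`ae_eq_of_integral_contDiff_smul_eq`-type lemma for the indicator functions, locally integrable).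
* `gmtI_cone`: `gmtI_gmtDil` + `gmtI_congr`.
* `gmtI_cone_le`: `σ ↦ I_C(w,σ)` is nondecreasing (`gmtI_mono_min_univ`), `I_C(w,σ) = I_C(w/σ,1) → I_C(0,1)` as `σ → ∞` (`gmtI_cone_scale`, `gmtI_continuous`).
* `gmt_cone_inv`: by `gmtI_cone_le` and the hypothesis `I_C(w,·)` is constant; `gmtI_const_radial`, `gmt_cone_of_radial`: `C` is a cone about `w`, and about `0`:
  `C = w + λ(C - w) = (1-λ) w + λ C = (1-λ) w + C` a.e. for all `λ > 0`: invariance under `t w`, `t < 1`; `GmtInv` is stable under sums and negatives (translations preserve null sets).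
* `gmtSpine`: span of the invariant directions; they already form a subspace (`mem_gmtSpine`).
-/

set_option autoImplicit false
open scoped ContDiff ENNReal RealInnerProductSpace Topology
open MeasureTheory Metric Set Filter

namespace Claimed.Agent.Gmt

variable {m : ℕ}

/-! ### translation invariance -/

theorem gmtCoA_trans_qmp (v : E m) :
    Measure.QuasiMeasurePreserving (fun y : E m => y + v) volume volume :=
  (measurePreserving_add_right volume v).quasiMeasurePreserving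

theorem GmtInv.zero (S : Set (E m)) : GmtInv S 0 := by
  unfold GmtInv
  simp only [add_zero, setOf_mem_eq]
  exact ae_eq_refl _

theorem GmtInv.add {S : Set (E m)} {v w : E m} (hv : GmtInv S v) (hw : GmtInv S w) :
    GmtInv S (v + w) := by
  unfold GmtInv at *
  have h1 := (gmtCoA_trans_qmp w).preimage_ae_eq hv
  have e : ({y | y + (v + w) ∈ S} : Set (E m)) = (fun y => y + w) ⁻¹' {y | y + v ∈ S} := by
    ext y
    simp only [mem_setOf_eq, mem_preimage]
    rw [add_comm v w, add_assoc]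
  rw [e]
  exact h1.trans hw

theorem GmtInv.neg {S : Set (E m)} {v : E m} (hv : GmtInv S v) : GmtInv S (-v) := by
  unfold GmtInv at *
  have h1 := (gmtCoA_trans_qmp (-v)).preimage_ae_eq hv
  have e : (fun y => y + -v) ⁻¹' {y | y + v ∈ S} = S := by
    ext y
    simp
  rw [e] at h1
  exact h1.symm

theorem GmtInv.congr {S S' : Set (E m)} (h : S =ᵐ[volume] S') {v : E m} (hv : GmtInv S v) :
    GmtInv S' v := by
  unfold GmtInv at *
  have h1 := (gmtCoA_trans_qmp v).preimage_ae_eq h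
  exact h1.symm.trans (hv.trans h)

theorem gmtCoA_dil_congr {S S' : Set (E m)} (h : S =ᵐ[volume] S') (z : E m) {ρ : ℝ} (hρ : 0 < ρ) :
    (gmtDil z ρ S : Set (E m)) =ᵐ[volume] gmtDil z ρ S' := by
  have := gmtBlow_congr (ContinuousLinearEquiv.refl ℝ (E m)) z hρ h
  rwa [gmtBlow_refl, gmtBlow_refl] at this

theorem gmtCoA_dil_meas {S : Set (E m)} (hS : MeasurableSet S) (z : E m) (ρ : ℝ) :
    MeasurableSet (gmtDil z ρ S) := by
  have := measurableSet_gmtBlow (ContinuousLinearEquiv.refl ℝ (E m)) z ρ hS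
  rwa [gmtBlow_refl] at this

theorem GmtCone.congr {S S' : Set (E m)} (h : S =ᵐ[volume] S') (hS : GmtCone S) : GmtCone S' := by
  intro ρ hρ
  exact (gmtCoA_dil_congr h 0 hρ).symm.trans ((hS ρ hρ).trans h)

/-- the invariant directions of `S`. -/
def gmtSpine (S : Set (E m)) : Submodule ℝ (E m) :=
  Submodule.span ℝ {w | ∀ t : ℝ, GmtInv S (t • w)}

theorem mem_gmtSpine {S : Set (E m)} {w : E m} : w ∈ gmtSpine S ↔ ∀ t : ℝ, GmtInv S (t • w) := by
  constructor
  · intro hw
    unfold gmtSpine at hw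
    induction hw using Submodule.span_induction with
    | mem x hx => exact hx
    | zero =>
      intro t
      rw [smul_zero]
      exact GmtInv.zero S
    | add x y _ _ hx hy =>
      intro t
      rw [smul_add]
      exact (hx t).add (hy t)
    | smul a x _ hx =>
      intro t
      rw [smul_smul]
      exact hx (t * a)
  · intro h
    exact Submodule.subset_span h

theorem gmtSpine_congr {S S' : Set (E m)} (h : S =ᵐ[volume] S') : gmtSpine S = gmtSpine S' := by
  ext w
  rw [mem_gmtSpine, mem_gmtSpine]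
  exact ⟨fun hw t => (hw t).congr h, fun hw t => (hw t).congr h.symm⟩

/-! ### cones -/

/-- the profile `h(w) = m g(w) + Dg(w) w`. -/
noncomputable def gmtCoAH (g : E m → ℝ) (w : E m) : ℝ := m * g w + fderiv ℝ g w w

theorem gmtCoAH_continuous {g : E m → ℝ} (hg : ContDiff ℝ 1 g) : Continuous (gmtCoAH g) := by
  unfold gmtCoAH
  exact (continuous_const.mul hg.continuous).add
    ((hg.continuous_fderiv one_ne_zero).clm_apply continuous_id)

theorem gmtCoAH_zero {g : E m → ℝ} {w : E m} (hw : w ∉ tsupport g) : gmtCoAH g w = 0 := by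
  unfold gmtCoAH
  rw [image_eq_zero_of_notMem_tsupport hw, fderiv_of_notMem_tsupport (𝕜 := ℝ) hw]
  simp

theorem gmtCoA_kernel_hasDerivAt {g : E m → ℝ} (hg : ContDiff ℝ 1 g) (u : E m) {l : ℝ}
    (hl : 0 < l) :
    HasDerivAt (fun l : ℝ => (l ^ m)⁻¹ * g (l⁻¹ • u))
      (-(l ^ (m + 1))⁻¹ * gmtCoAH g (l⁻¹ • u)) l := by
  have h1 : HasDerivAt (fun l : ℝ => (l ^ m)⁻¹) (-((m : ℝ) * l ^ (m - 1) * 1) / (l ^ m) ^ 2) l :=
    ((hasDerivAt_id l).pow m).inv (pow_ne_zero m hl.ne')
  have h2 : HasDerivAt (fun l : ℝ => l⁻¹ • u) ((-(l ^ 2)⁻¹) • u) l :=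
    (hasDerivAt_inv hl.ne').smul_const u
  have h3 : HasFDerivAt g (fderiv ℝ g (l⁻¹ • u)) (l⁻¹ • u) :=
    (hg.differentiable one_ne_zero _).hasFDerivAt
  have h4 : HasDerivAt (fun l : ℝ => g (l⁻¹ • u)) (fderiv ℝ g (l⁻¹ • u) ((-(l ^ 2)⁻¹) • u)) l :=
    h3.comp_hasDerivAt l h2
  have h5 : HasDerivAt (fun l : ℝ => (l ^ m)⁻¹ * g (l⁻¹ • u))
      (-((m : ℝ) * l ^ (m - 1) * 1) / (l ^ m) ^ 2 * g (l⁻¹ • u) +
        (l ^ m)⁻¹ * fderiv ℝ g (l⁻¹ • u) ((-(l ^ 2)⁻¹) • u)) l := h1.mul h4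
  refine h5.congr_deriv ?_
  unfold gmtCoAH
  rw [map_smul, map_smul, smul_eq_mul, smul_eq_mul]
  generalize fderiv ℝ g (l⁻¹ • u) u = D
  generalize g (l⁻¹ • u) = G
  rcases Nat.eq_zero_or_pos m with rfl | hk
  · simp
    field_simp
  · obtain ⟨j, rfl⟩ : ∃ j, m = j + 1 := ⟨m - 1, by omega⟩
    simp only [Nat.add_sub_cancel]
    push_cast
    field_simp
    ring

/-- the radial test field `g((z-x)/l) (z-x)`. -/
noncomputable def gmtCoAT (g : E m → ℝ) (x : E m) (l : ℝ) (z : E m) : E m :=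
  g (l⁻¹ • (z - x)) • (z - x)

theorem gmtCoA_supp {g : E m → ℝ} {R₀ : ℝ} (hR₀ : tsupport g ⊆ closedBall 0 R₀) {x : E m} {l : ℝ}
    (hl : 0 < l) {z : E m} (hz : z ∉ closedBall x (l * R₀)) : l⁻¹ • (z - x) ∉ tsupport g := by
  intro h
  apply hz
  have h1 := hR₀ h
  rw [mem_closedBall, dist_zero_right, norm_smul, norm_inv, Real.norm_of_nonneg hl.le,
    inv_mul_le_iff₀ hl] at h1
  rw [mem_closedBall, dist_eq_norm]
  exact h1

theorem gmtCoAT_test {g : E m → ℝ} (hg : ContDiff ℝ 1 g) (hc : HasCompactSupport g) (x : E m)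
    {l : ℝ} (hl : 0 < l) : GmtTest univ (gmtCoAT g x l) where
  c1 := by
    have h0 : ContDiff ℝ 1 fun z : E m => z - x := contDiff_id.sub contDiff_const
    have h1 : ContDiff ℝ 1 fun z : E m => l⁻¹ • (z - x) := h0.const_smul l⁻¹
    exact (hg.comp h1).smul h0
  cpt := by
    obtain ⟨R₀, _, hR₀⟩ := hc.isCompact.isBounded.subset_closedBall_lt 0 0
    refine HasCompactSupport.of_support_subset_isCompact (isCompact_closedBall x (l * R₀)) ?_
    intro z hz
    by_contra hcon
    apply hz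
    unfold gmtCoAT
    rw [image_eq_zero_of_notMem_tsupport (gmtCoA_supp hR₀ hl hcon), zero_smul]
  sub := subset_univ _

theorem gmtCoAT_div {g : E m → ℝ} (hg : ContDiff ℝ 1 g) (x : E m) (l : ℝ) (z : E m) :
    gmtDiv (gmtCoAT g x l) z = gmtCoAH g (l⁻¹ • (z - x)) := by
  have h0 : HasFDerivAt (fun z : E m => z - x) (ContinuousLinearMap.id ℝ (E m)) z :=
    (hasFDerivAt_id z).sub_const x
  have h1 : HasFDerivAt (fun z : E m => l⁻¹ • (z - x)) (l⁻¹ • ContinuousLinearMap.id ℝ (E m)) z :=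
    h0.const_smul l⁻¹
  have h2 : HasFDerivAt (fun z : E m => g (l⁻¹ • (z - x)))
      ((fderiv ℝ g (l⁻¹ • (z - x))).comp (l⁻¹ • ContinuousLinearMap.id ℝ (E m))) z :=
    (hg.differentiable one_ne_zero _).hasFDerivAt.comp z h1
  have h3 : gmtDiv (fun z : E m => z - x) z = m := by
    unfold gmtDiv
    rw [h0.fderiv]
    simp
  unfold gmtCoAT
  rw [gmtDiv_smul h2.differentiableAt h0.differentiableAt, h3, h2.fderiv]
  unfold gmtCoAH
  simp [mul_comm]

/-- differentiation of `l ↦ ∫_S l^{-m} g((z-x)/l) dz`. -/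
theorem gmtCoA_hasDerivAt {S : Set (E m)} (hS : GmtLF S univ) (x : E m) {g : E m → ℝ}
    (hg : ContDiff ℝ 1 g) (hc : HasCompactSupport g) {l : ℝ} (hl : 0 < l) :
    HasDerivAt (fun l : ℝ => ∫ z in S, (l ^ m)⁻¹ * g (l⁻¹ • (z - x)))
      (-(l ^ (m + 1))⁻¹ * ∫ z, g (l⁻¹ • (z - x)) * ⟪z - x, gmtNu S z⟫ ∂(gmtMu S)) l := by
  obtain ⟨R₀, hR₀0, hR₀⟩ := hc.isCompact.isBounded.subset_closedBall_lt 0 0
  have hHc : HasCompactSupport (gmtCoAH g) := by
    refine hc.mono' ?_
    intro w hw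
    by_contra hcon
    exact hw (gmtCoAH_zero hcon)
  obtain ⟨H, hH⟩ := (gmtCoAH_continuous hg).bounded_above_of_compact_support hHc
  have hH0 : 0 ≤ H := (norm_nonneg _).trans (hH 0)
  have hval : -(l ^ (m + 1))⁻¹ * ∫ z, g (l⁻¹ • (z - x)) * ⟪z - x, gmtNu S z⟫ ∂(gmtMu S) =
      ∫ z in S, -(l ^ (m + 1))⁻¹ * gmtCoAH g (l⁻¹ • (z - x)) := by
    rw [integral_const_mul]
    congr 1
    have h1 := gmt_gauss_green isOpen_univ hS (gmtCoAT_test hg hc x hl)
    simp only [gmtCoAT_div hg] at h1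
    rw [h1]
    refine integral_congr_ae (Eventually.of_forall fun z => ?_)
    simp only [gmtCoAT, real_inner_smul_left]
  rw [hval]
  have hs : Ioo (l / 2) (2 * l) ∈ 𝓝 l := Ioo_mem_nhds (by linarith) (by linarith)
  set B : ℝ := ((l / 2) ^ (m + 1))⁻¹ * H with hB
  have hcz : ∀ l' : ℝ, Continuous fun z : E m => l'⁻¹ • (z - x) := fun l' =>
    (continuous_id.sub continuous_const).const_smul l'⁻¹
  have hbi : Integrable (indicator (closedBall x (2 * l * R₀)) fun _ : E m => B)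
      (volume.restrict S) := by
    refine Integrable.restrict ?_
    rw [integrable_indicator_iff measurableSet_closedBall]
    exact integrableOn_const (measure_closedBall_lt_top).ne
  refine (hasDerivAt_integral_of_dominated_loc_of_deriv_le (μ := volume.restrict S)
    (F := fun l' z => (l' ^ m)⁻¹ * g (l'⁻¹ • (z - x)))
    (F' := fun l' z => -(l' ^ (m + 1))⁻¹ * gmtCoAH g (l'⁻¹ • (z - x)))
    (bound := indicator (closedBall x (2 * l * R₀)) fun _ : E m => B) hs ?_ ?_ ?_ ?_ hbi ?_).2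
  · exact Eventually.of_forall fun l' =>
      (continuous_const.mul (hg.continuous.comp (hcz l'))).aestronglyMeasurable
  · refine Integrable.restrict ?_
    refine (continuous_const.mul (hg.continuous.comp (hcz l))).integrable_of_hasCompactSupport ?_
    refine HasCompactSupport.of_support_subset_isCompact (isCompact_closedBall x (l * R₀)) ?_
    intro z hz
    by_contra hcon
    apply hz
    simp only [Pi.mul_apply, Function.comp_apply]
    rw [image_eq_zero_of_notMem_tsupport (gmtCoA_supp hR₀ hl hcon), mul_zero]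
  · exact (continuous_const.mul ((gmtCoAH_continuous hg).comp (hcz l))).aestronglyMeasurable
  · refine Eventually.of_forall fun z l' hl' => ?_
    have hl'0 : 0 < l' := by linarith [hl'.1]
    by_cases hz : z ∈ closedBall x (2 * l * R₀)
    · rw [indicator_of_mem hz, norm_mul, norm_neg, Real.norm_of_nonneg (by positivity), hB]
      apply mul_le_mul _ (hH _) (norm_nonneg _) (by positivity)
      apply inv_anti₀ (by positivity)
      exact pow_le_pow_left₀ (by linarith) hl'.1.le _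
    · rw [indicator_of_notMem hz]
      have hz' : z ∉ closedBall x (l' * R₀) := fun h =>
        hz (closedBall_subset_closedBall (mul_le_mul_of_nonneg_right hl'.2.le hR₀0.le) h)
      rw [gmtCoAH_zero (gmtCoA_supp hR₀ hl'0 hz')]
      simp
  · refine Eventually.of_forall fun z l' hl' => ?_
    have hl'0 : 0 < l' := by linarith [hl'.1]
    exact gmtCoA_kernel_hasDerivAt hg (z - x) hl'0

/-- change of variables. -/
theorem gmtCoA_integral_dil {S : Set (E m)} (hS : MeasurableSet S) (x : E m) (g : E m → ℝ) {l : ℝ}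
    (hl : 0 < l) :
    ∫ y in gmtDil x l S, g y = ∫ z in S, (l ^ m)⁻¹ * g (l⁻¹ • (z - x)) := by
  rw [← integral_indicator (gmtCoA_dil_meas hS x l), ← integral_indicator hS]
  have h1 : ∀ y, indicator (gmtDil x l S) g y =
      l ^ m * indicator S (fun z => (l ^ m)⁻¹ * g (l⁻¹ • (z - x))) (x + l • y) := by
    intro y
    have hlm : l ^ m ≠ 0 := pow_ne_zero _ hl.ne'
    by_cases hy : y ∈ gmtDil x l S
    · have hy' : x + l • y ∈ S := hy
      rw [indicator_of_mem hy, indicator_of_mem hy', add_sub_cancel_left, smul_smul,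
        inv_mul_cancel₀ hl.ne', one_smul, ← mul_assoc, mul_inv_cancel₀ hlm, one_mul]
    · have hy' : x + l • y ∉ S := hy
      rw [indicator_of_notMem hy, indicator_of_notMem hy', mul_zero]
  simp_rw [h1]
  rw [integral_const_mul]
  have h2 := Measure.integral_comp_smul_of_nonneg (volume : Measure (E m))
    (fun u => indicator S (fun z => (l ^ m)⁻¹ * g (l⁻¹ • (z - x))) (x + u)) l (hR := hl.le)
  rw [h2, finrank_euclideanSpace_fin, integral_add_left_eq_self
    (indicator S (fun z => (l ^ m)⁻¹ * g (l⁻¹ • (z - x)))), smul_eq_mul, ← mul_assoc,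
    mul_inv_cancel₀ (pow_ne_zero _ hl.ne'), one_mul]

theorem gmtCoA_dil_dil (x : E m) (l : ℝ) (S : Set (E m)) :
    gmtDil 0 l (gmtDil x 1 S) = gmtDil x l S := by
  ext y
  simp [gmtDil]

/-- a set whose normal is orthogonal to the radial direction is a cone. -/
theorem gmt_cone_of_radial {S : Set (E m)} (hS : GmtLF S univ) {x : E m}
    (h : ∀ᵐ y ∂(gmtMu S), ⟪y - x, gmtNu S y⟫ = 0) : GmtCone (gmtDil x 1 S) := by
  intro l hl
  rw [gmtCoA_dil_dil]
  have hm1 : MeasurableSet (gmtDil x l S) := gmtCoA_dil_meas hS.1 x l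
  have hm2 : MeasurableSet (gmtDil x 1 S) := gmtCoA_dil_meas hS.1 x 1
  have key : ∀ g : E m → ℝ, ContDiff ℝ ∞ g → HasCompactSupport g →
      ∫ y in gmtDil x l S, g y = ∫ y in gmtDil x 1 S, g y := by
    intro g hg hc
    rw [gmtCoA_integral_dil hS.1 x g hl, gmtCoA_integral_dil hS.1 x g one_pos]
    have hd : ∀ l' ∈ Ioi (0 : ℝ),
        HasDerivAt (fun l : ℝ => ∫ z in S, (l ^ m)⁻¹ * g (l⁻¹ • (z - x))) 0 l' := by
      intro l' hl'
      have h1 := gmtCoA_hasDerivAt hS x (hg.of_le (by simp)) hc hl'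
      have h0 : ∫ z, g (l'⁻¹ • (z - x)) * ⟪z - x, gmtNu S z⟫ ∂(gmtMu S) = 0 := by
        apply integral_eq_zero_of_ae
        filter_upwards [h] with z hz
        simp [hz]
      rwa [h0, mul_zero] at h1
    exact isOpen_Ioi.is_const_of_deriv_eq_zero isPreconnected_Ioi
      (fun l' hl' => (hd l' hl').differentiableAt.differentiableWithinAt)
      (fun l' hl' => (hd l' hl').deriv) hl (mem_Ioi.2 one_pos)
  have h2 := ae_eq_of_integral_contDiff_smul_eq (μ := (volume : Measure (E m)))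
    (f := indicator (gmtDil x l S) (fun _ => (1 : ℝ)))
    (f' := indicator (gmtDil x 1 S) fun _ => (1 : ℝ))
    ((locallyIntegrable_const 1).indicator hm1) ((locallyIntegrable_const 1).indicator hm2) ?_
  · refine Filter.eventuallyEq_set.2 ?_
    filter_upwards [h2] with y hy
    by_cases h1 : y ∈ gmtDil x l S <;> by_cases h2 : y ∈ gmtDil x 1 S <;>
      simp [h1, h2] at hy ⊢
  · intro g hg hc
    have e : ∀ A : Set (E m), (fun y => g y • indicator A (fun _ => (1 : ℝ)) y) = indicator A g := by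
      intro A
      funext y
      by_cases hy : y ∈ A <;> simp [hy]
    rw [e, e, integral_indicator hm1, integral_indicator hm2]
    exact key g hg hc

/-- conversely. -/
theorem gmt_radial_of_cone {S : Set (E m)} (hS : GmtLF S univ) (h : GmtCone S) :
    ∀ᵐ y ∂(gmtMu S), ⟪y, gmtNu S y⟫ = 0 := by
  have hmeas : Measurable fun y : E m => ⟪y, gmtNu S y⟫ := measurable_id.inner (measurable_gmtNu S)
  apply ae_eq_zero_of_integral_contDiff_smul_eq_zero
  · rw [locallyIntegrable_iff]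
    intro k hk
    obtain ⟨C, hC⟩ := hk.isBounded.exists_norm_le
    refine IntegrableOn.of_bound (gmtMu_compact_ne_top isOpen_univ hS hk (subset_univ _)).lt_top
      hmeas.aestronglyMeasurable C ?_
    refine (ae_restrict_iff' hk.measurableSet).2 (Eventually.of_forall fun y hy => ?_)
    calc ‖⟪y, gmtNu S y⟫‖ ≤ ‖y‖ * ‖gmtNu S y‖ := norm_inner_le_norm _ _
      _ ≤ ‖y‖ * 1 := mul_le_mul_of_nonneg_left (norm_gmtNu_le_one S y) (norm_nonneg _)
      _ ≤ C := by rw [mul_one]; exact hC y hy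
  · intro g hg hc
    have h1 := gmtCoA_hasDerivAt hS 0 (hg.of_le (by simp)) hc one_pos
    have h2 : (fun l : ℝ => ∫ z in S, (l ^ m)⁻¹ * g (l⁻¹ • (z - 0))) =ᶠ[𝓝 1]
        fun _ => ∫ z in S, g z := by
      filter_upwards [Ioi_mem_nhds (zero_lt_one' ℝ)] with l hl
      rw [← gmtCoA_integral_dil hS.1 0 g hl]
      exact setIntegral_congr_set (h l hl)
    have h3 := (hasDerivAt_const (1 : ℝ) (∫ z in S, g z)).congr_of_eventuallyEq h2
    have h4 := h1.unique h3
    simpa using h4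

theorem gmtI_cone_scale {C : Set (E m)} (hC : MeasurableSet C) (hc : GmtCone C) (w : E m)
    {r : ℝ} (hr : 0 < r) (σ : ℝ) : gmtI C (r • w) (r * σ) = gmtI C w σ := by
  have h1 := gmtI_gmtDil (0 : E m) hr hC w σ
  rw [zero_add] at h1
  rw [← h1]
  exact gmtI_congr (gmtCoA_dil_meas hC 0 r) hC (hc r hr) w σ

theorem gmtI_cone {C : Set (E m)} (hC : MeasurableSet C) (hc : GmtCone C) {ρ : ℝ} (hρ : 0 < ρ) :
    gmtI C 0 ρ = gmtI C 0 1 := by
  have := gmtI_cone_scale hC hc 0 hρ 1
  simpa using this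

theorem gmtTh_cone {C : Set (E m)} (hC : MeasurableSet C) (hc : GmtCone C) :
    gmtTh C 0 = gmtI C 0 1 := by
  unfold gmtTh
  apply Tendsto.limUnder_eq
  apply tendsto_const_nhds.congr'
  filter_upwards [self_mem_nhdsWithin] with ρ hρ
  exact (gmtI_cone hC hc hρ).symm

/-- a minimiser with constant density ratio at `x` is a cone about `x`. -/
theorem gmt_cone_of_const (hm : 1 ≤ m) {S : Set (E m)} (hS : GmtMin univ S) {x : E m} {c : ℝ}
    (hc : ∀ ρ, 0 < ρ → gmtI S x ρ = c) : GmtCone (gmtDil x 1 S) :=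
  gmt_cone_of_radial (GmtLAM.lf isOpen_univ (gmtInt_eu _) hS) (gmtI_const_radial hm hS hc)

/-- in a minimising cone the density ratio is maximal at the vertex. -/
theorem gmtI_cone_le (hm : 1 ≤ m) {C : Set (E m)} (hC : GmtMin univ C) (hc : GmtCone C) (w : E m)
    {σ : ℝ} (hσ : 0 < σ) : gmtI C w σ ≤ gmtI C 0 1 := by
  have hlf : GmtLF C univ := GmtLAM.lf isOpen_univ (gmtInt_eu _) hC
  have hmono := gmtI_mono_min_univ hm hC w
  have h1 : ∀ σ' : ℝ, σ ≤ σ' → gmtI C w σ ≤ gmtI C (σ'⁻¹ • w) 1 := by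
    intro σ' h
    have hσ' : 0 < σ' := hσ.trans_le h
    have h2 := gmtI_cone_scale hlf.1 hc (σ'⁻¹ • w) hσ' 1
    rw [smul_smul, mul_inv_cancel₀ hσ'.ne', one_smul, mul_one] at h2
    rw [← h2]
    exact hmono hσ hσ' h
  have h2 : Tendsto (fun σ' : ℝ => gmtI C (σ'⁻¹ • w) 1) atTop (𝓝 (gmtI C 0 1)) := by
    have hc1 := (gmtI_continuous hlf one_pos).tendsto 0
    have h3 : Tendsto (fun σ' : ℝ => σ'⁻¹ • w) atTop (𝓝 0) := by
      have := (tendsto_inv_atTop_zero (𝕜 := ℝ)).smul_const w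
      simpa using this
    exact hc1.comp h3
  exact ge_of_tendsto h2 ((eventually_ge_atTop σ).mono h1)

theorem gmtCoA_dil_one (w : E m) (C : Set (E m)) : gmtDil w 1 C = {y | y + w ∈ C} := by
  ext y
  simp [gmtDil, add_comm]

/-- a set which is a cone about `0` and about `w` is invariant along `w`. -/
theorem gmt_two_vertices {C : Set (E m)} (hc : GmtCone C) {w : E m}
    (hw : GmtCone (gmtDil w 1 C)) : w ∈ gmtSpine C := by
  rw [mem_gmtSpine]
  have h1 : ∀ s : ℝ, 0 < s →
      ({y | y + s • w ∈ C} : Set (E m)) =ᵐ[volume] ({y | y + w ∈ C} : Set (E m)) := by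
    intro s hs
    have hρ : 0 < s⁻¹ := inv_pos.2 hs
    have a1 := hw s⁻¹ hρ
    have a2 := (gmtCoA_trans_qmp (s • w)).preimage_ae_eq (hc s⁻¹ hρ)
    have e1 : (fun y => y + s • w) ⁻¹' gmtDil 0 s⁻¹ C = gmtDil 0 s⁻¹ (gmtDil w 1 C) := by
      ext y
      simp [gmtDil, smul_add, smul_smul, hs.ne', add_comm]
    rw [e1] at a2
    have a3 := a2.symm.trans a1
    rw [gmtCoA_dil_one] at a3
    exact a3
  intro t
  have hs' : 0 < |t| + 1 := by positivity
  have hs : 0 < |t| + 1 + t := by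
    have := neg_abs_le t
    linarith
  have h2 := (h1 _ hs).trans (h1 _ hs').symm
  have h3 := (gmtCoA_trans_qmp (-((|t| + 1) • w))).preimage_ae_eq h2
  have e1 : (fun y => y + -((|t| + 1) • w)) ⁻¹' {y | y + (|t| + 1 + t) • w ∈ C} =
      {y | y + t • w ∈ C} := by
    ext y
    simp only [mem_preimage, mem_setOf_eq]
    have : y + -((|t| + 1) • w) + (|t| + 1 + t) • w = y + t • w := by
      rw [add_smul (|t| + 1) t w]
      abel
    rw [this]
  have e2 : (fun y => y + -((|t| + 1) • w)) ⁻¹' {y | y + (|t| + 1) • w ∈ C} = C := by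
    ext y
    simp
  rw [e1, e2] at h3
  exact h3

/-- RIGIDITY: points of maximal density belong to the spine. -/
theorem gmt_cone_inv (hm : 1 ≤ m) {C : Set (E m)} (hC : GmtMin univ C) (hc : GmtCone C) {w : E m}
    (hw : ∀ σ, 0 < σ → gmtI C 0 1 ≤ gmtI C w σ) : w ∈ gmtSpine C := by
  apply gmt_two_vertices hc
  apply gmt_cone_of_const hm hC (c := gmtI C 0 1)
  intro ρ hρ
  exact le_antisymm (gmtI_cone_le hm hC hc w hρ) (hw ρ hρ)

theorem gmtCoA_spine_dil {C : Set (E m)} {w : E m} (hw : w ∈ gmtSpine C) :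
    (gmtDil w 1 C : Set (E m)) =ᵐ[volume] C := by
  have h := (mem_gmtSpine.1 hw) 1
  rw [one_smul] at h
  rw [gmtCoA_dil_one]
  exact h

/-- invariance of the density ratios along the spine. -/
theorem gmtI_spine {C : Set (E m)} (hC : MeasurableSet C) {w : E m} (hw : w ∈ gmtSpine C)
    (x : E m) (σ : ℝ) : gmtI C (x + w) σ = gmtI C x σ := by
  have h1 := gmtI_gmtDil w one_pos hC x σ
  rw [one_smul, one_mul, add_comm] at h1
  rw [← h1]
  exact gmtI_congr (gmtCoA_dil_meas hC w 1) hC (gmtCoA_spine_dil hw) x σ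

theorem gmtCoA_sing_dil (C : Set (E m)) (z : E m) {r : ℝ} (hr : 0 < r) :
    gmtSing (gmtDil z r C) univ = gmtDil z r (gmtSing C univ) := by
  have h1 := gmtSing_gmtBlow (ContinuousLinearEquiv.refl ℝ (E m)) z hr C univ
  rwa [gmtBlow_univ, gmtBlow_refl, gmtBlow_refl] at h1

/-- boundary, regular and singular points are invariant along the spine. -/
theorem gmtSing_spine {C : Set (E m)} {w : E m} (hw : w ∈ gmtSpine C) (x : E m) :
    x + w ∈ gmtSing C univ ↔ x ∈ gmtSing C univ := by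
  have h1 := gmtCoA_sing_dil C w one_pos
  rw [gmtSing_congr (gmtCoA_spine_dil hw) univ] at h1
  conv_rhs => rw [h1]
  simp [gmtDil, add_comm]

/-- dilation invariance of the singular set of a cone. -/
theorem gmtSing_cone {C : Set (E m)} (hc : GmtCone C) {x : E m} {r : ℝ} (hr : 0 < r) :
    r • x ∈ gmtSing C univ ↔ x ∈ gmtSing C univ := by
  have h1 := gmtCoA_sing_dil C 0 hr
  rw [gmtSing_congr (hc r hr) univ] at h1
  conv_rhs => rw [h1]
  simp [gmtDil]

theorem gmtTh_cone_ray (hm : 1 ≤ m) {C : Set (E m)} (hC : MeasurableSet C) (hc : GmtCone C)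
    (x : E m) {r : ℝ} (hr : 0 < r) : gmtTh C (r • x) = gmtTh C x := by
  unfold gmtTh limUnder
  congr 1
  have h1 : map (fun σ : ℝ => r * σ) (𝓝[>] 0) = 𝓝[>] 0 := by
    have := (Homeomorph.mulLeft₀ r hr.ne').isEmbedding.map_nhdsWithin_eq (Ioi 0) 0
    simp only [Homeomorph.coe_mulLeft₀, mul_zero] at this
    rw [this, image_mul_left_Ioi hr, mul_zero]
  have h2 : gmtI C x = gmtI C (r • x) ∘ (fun σ => r * σ) := by
    funext σ
    exact (gmtI_cone_scale hC hc x hr σ).symm
  rw [h2, ← Filter.map_map, h1]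

end Claimed.Agent.Gmt
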