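import Claimed.Agent.Lib.Gmt.HrTop

/-!
# Lib/Gmt: THE INTERFACE, part b = section 4a (regularity; owner of the proofs: helper190) (consumers: import `Claimed.Agent.Lib.Gmt.IF`).  Sub-captain: helper184.

Every statement here is a TOP of the library; all are REDIRECTED to their proofs in `Hr*.lean` (G5, which rests on G4 = `Fl*.lean`).
`gmt_sing_lim`, `gmt_reg_conv` carry `2 ≤ m`.
Source: paper P, App. B (`cut:bv-compactness`, `cut:gmt`), App. C.2 (`local:flat-pieces`);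
textbook: Maggi, *Sets of finite perimeter and geometric variational problems*, Parts II-III.

Dictionary.  In a chart with metric matrix `G`, weight `ω`, pressure `p`:
`A = ω² det G · G⁻¹` (as a bilinear form on covectors `ξ`), `f = p ω √(det G)`.  Then
`gmtPerM A S = ω H^{m-1}_g ⌞ ∂*S`, and `GmtLAM A f U S` is (B.5) of the paper in the chart.
-/

set_option autoImplicit false
open scoped ContDiff ENNReal RealInnerProductSpace
open MeasureTheory Metric Set Filter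

namespace Claimed.Agent.Gmt

variable {m : ℕ}

/-! ### 4. regularity (`cut:gmt`) -/

/-- the singular set is relatively closed. -/
theorem gmt_sing_closed {U : Set (E m)} {A : E m → Bil m} {f : E m → ℝ} {S : Set (E m)}
    (hd : GmtData U A f) (_hS : GmtLAM A f U S) : IsOpen (U \ gmtSing S U) :=
  hr_sing_closed hd.opn S

/-- limits of singular points are singular. -/
theorem gmt_sing_lim (hm2 : 2 ≤ m) {U : ℕ → Set (E m)} {A : ℕ → E m → Bil m} {f : ℕ → E m → ℝ}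
    {U' : Set (E m)} {A' : E m → Bil m} {f' : E m → ℝ} (h : GmtDataConv U A f U' A' f')
    (S : ℕ → Set (E m)) (hS : ∀ i, GmtLAM (A i) (f i) (U i) (S i)) (S' : Set (E m))
    (hm : MeasurableSet S') (hc : GmtConv U' S S') (x : ℕ → E m) (x' : E m) (hx' : x' ∈ U')
    (hx : ∀ i, x i ∈ gmtSing (S i) (U i)) (hlim : Tendsto x atTop (nhds x')) :
    x' ∈ gmtSing S' U' :=
  hr_sing_lim hm2 h S hS S' hm hc x x' hx' hx hlim

/-- smooth one-sheeted convergence near a regular point of the limit, in defining function form. -/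
theorem gmt_reg_conv (hm2 : 2 ≤ m) {U : ℕ → Set (E m)} {A : ℕ → E m → Bil m} {f : ℕ → E m → ℝ}
    {U' : Set (E m)} {A' : E m → Bil m} {f' : E m → ℝ} (h : GmtDataConv U A f U' A' f')
    (S : ℕ → Set (E m)) (hS : ∀ i, GmtLAM (A i) (f i) (U i) (S i)) (S' : Set (E m))
    (hm : MeasurableSet S') (hc : GmtConv U' S S') (x' : E m) (hx' : x' ∈ U')
    (hr : GmtReg S' x') :
    ∃ r > 0, ∃ (φ : ℕ → E m → ℝ) (φ' : E m → ℝ), ball x' r ⊆ U' ∧
      ContDiffOn ℝ ∞ φ' (ball x' r) ∧ φ' x' = 0 ∧ (∀ y ∈ ball x' r, fderiv ℝ φ' y ≠ 0) ∧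
      ((S' ∩ ball x' r : Set (E m)) =ᵐ[volume] ({y | y ∈ ball x' r ∧ φ' y < 0} : Set (E m))) ∧
      GmtSmoothConv (ball x' r) φ φ' ∧
      ∀ᶠ i in atTop, ContDiffOn ℝ ∞ (φ i) (ball x' r) ∧ (∀ y ∈ ball x' r, fderiv ℝ (φ i) y ≠ 0) ∧
        ((S i ∩ ball x' r : Set (E m)) =ᵐ[volume] ({y | y ∈ ball x' r ∧ φ i y < 0} : Set (E m))) :=
  hr_reg_conv hm2 h S hS S' hm hc x' hx' hr

/-- the Euler-Lagrange equation on the regular part: `div (a ∇φ / √(A ∇φ ∇φ)) = f` on `{φ = 0}`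
(in geometric terms `H_g + ∂_ν log ω = p`). -/
theorem gmt_reg_el {U : Set (E m)} {A : E m → Bil m} {f : E m → ℝ} {S : Set (E m)}
    (hd : GmtData U A f) (hS : GmtLAM A f U S) (x : E m) (r : ℝ) (hr : 0 < r) (hxr : ball x r ⊆ U)
    (φ : E m → ℝ) (hφ : ContDiffOn ℝ ∞ φ (ball x r)) (hφ' : ∀ y ∈ ball x r, fderiv ℝ φ y ≠ 0)
    (hSφ : (S ∩ ball x r : Set (E m)) =ᵐ[volume] ({y | y ∈ ball x r ∧ φ y < 0} : Set (E m)))
    (y : E m) (hy : y ∈ ball x r) (hy0 : φ y = 0) :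
    gmtDiv (fun z => (Real.sqrt (A z (gradient φ z) (gradient φ z)))⁻¹ •
      gmtSharp (A z) (gradient φ z)) y = f y :=
  hr_reg_el hd hS x r hr hxr φ hφ hφ' hSφ y hy hy0

/-- on the regular part `|Dχ_S|` is the surface measure and `ν = ∇φ/|∇φ|`
(no minimality needed). -/
theorem gmt_reg_mu {S : Set (E m)} (x : E m) (r : ℝ) (hr : 0 < r)
    (φ : E m → ℝ) (hφ : ContDiffOn ℝ ∞ φ (ball x r)) (hφ' : ∀ y ∈ ball x r, fderiv ℝ φ y ≠ 0)
    (hS : MeasurableSet S)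
    (hSφ : (S ∩ ball x r : Set (E m)) =ᵐ[volume] ({y | y ∈ ball x r ∧ φ y < 0} : Set (E m))) :
    GmtLF S (ball x r) ∧ gmtMu S (ball x r \ {y | φ y = 0}) = 0 ∧
    (∀ᵐ y ∂((gmtMu S).restrict (ball x r)), gmtNu S y = ‖gradient φ y‖⁻¹ • gradient φ y) ∧
    ∀ g : E m → ℝ, Continuous g → HasCompactSupport g → tsupport g ⊆ ball x r →
      Tendsto (fun ε : ℝ => (2 * ε)⁻¹ * ∫ y in {y | y ∈ ball x r ∧ |φ y| < ε}, g y * ‖gradient φ y‖)
        (nhdsWithin 0 (Ioi 0)) (nhds (∫ y, g y ∂(gmtMu S))) :=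
  hr_reg_mu x r hr φ hφ hφ' hS hSφ

end Claimed.Agent.Gmt
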