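import Claimed.Agent.Lib.Gmt.FrF
import Claimed.Agent.Lib.Gmt.IFb

/-!
# Lib/Gmt FRAMES [part G: smooth convergence of the blown-up data, singular points].   (architect: helper184)

Let `(U, A, f)` be smooth data, `K ⊆ U` compact, `z i ∈ K`, `T i` a frame of `A (z i)`, `r i → 0+` (`GmtBlowSeq K A z T r`).  Then `Ā i = gmtBlowA (T i) (z i) (r i) A → Euclid`, `f̄ i = gmtBlowF .. f → 0` in `C^∞_loc(E m)`.

PLAN OF PROOFS  (`Ψ i = gmtAff (T i) (z i) (r i)`, `Ψ i y = z i + r i • (T i).symm y`)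
* `gmt_iteratedFDeriv_aff`: `y ↦ L (a (Ψ y))`.  Near `y` (open set `Ψ ⁻¹' U`): `ContinuousLinearMap.iteratedFDeriv_comp_left` (post-composition with `L`; needs `ContDiffAt`), and for the affine inner map: `Ψ = (z + ·) ∘ P`, `P = r • T.symm` linear: `ContinuousLinearMap.iteratedFDeriv_comp_right` (`iteratedFDeriv k (g ∘ P) y = (iteratedFDeriv k g (P y)).compContinuousLinearMap fun _ => P`), `iteratedFDeriv_comp_add_left`.
  These lemmas are stated for globally `C^k` functions or `iteratedFDerivWithin`; use the `Within` versions on the open sets (`iteratedFDerivWithin_of_isOpen`, `ContinuousLinearMap.iteratedFDerivWithin_comp_left/right`, `IsOpen.uniqueDiffOn`).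
  Norms: `ContinuousLinearMap.norm_compContinuousMultilinearMap_le`, `ContinuousMultilinearMap.norm_compContinuousLinearMap_le` (`∏ _ : Fin k, ‖P‖ = ‖P‖^k`), `‖P‖ = |r| ‖T.symm‖` (`norm_smul`).
* `gmt_blow_nbhd`: `δ > 0` with `K' = cthickening δ K ⊆ U` compact (`IsCompact.exists_cthickening_subset_open`, `IsCompact.cthickening`).  For `Q ⊆ closedBall 0 R` (compact ⇒ bounded): `dist (Ψ i y) (z i) = r i ‖(T i).symm y‖ ≤ r i M R ≤ δ` for large `i` (`h.lim`, `Tendsto.eventually_lt`/`eventually_le`), `mem_cthickening_of_dist_le`.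
* `gmt_scale_conv`.  Fix compact `Q`, order `k`; `K'` and "eventually" from `hnb`.  `k ≥ 1`: the limit has `iteratedFDeriv k (fun _ => c) = 0` (`iteratedFDeriv_const_of_ne`), `‖D^k (..) y‖ ≤ M' C_k (r i M)^k → 0`, `C_k = sup_{K'} ‖iteratedFDeriv k a‖` (`ContDiffOn.continuousOn_iteratedFDeriv_of_isOpen`-type + `IsCompact.exists_bound_of_continuousOn`).
  `k = 0` (`iteratedFDeriv_zero_eq_comp`, an isometry: `norm_iteratedFDeriv_zero`, apply it to the difference / use `dist` via `LinearIsometryEquiv.dist_map`): `‖L i (a (Ψ i y)) - c‖ ≤ M' ‖a (Ψ i y) - a (z i)‖ + ‖L i (a (z i)) - c‖`; `a` is uniformly continuous on the compact `K'` (`IsCompact.uniformContinuousOn_of_continuous`), `dist (Ψ i y) (z i) ≤ r i M R → 0`.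
  `Metric.tendstoUniformlyOn_iff`.
* `gmt_blow_conv`.  `c ≤ C` from `gmtInt_ell hd.opn hd.int hK hKU`, `M` from `gmt_frame_bound hm`.  `data`: `gmt_blow_data`; `data'`: `isOpen_univ`, `gmtInt_eu`, `contDiffOn_const`.  `exh`: `gmt_blow_nbhd` (`K' ⊆ U`).
  `convA`: `gmt_scale_conv` with `F = G = Bil m`, `L i B = (det (T i)²)⁻¹ • B.bilinearComp (adj (T i)) (adj (T i))` as a continuous linear map of `B` [define it by `LinearMap.mkContinuous` with bound `M² · M²`: `|L B ξ η| ≤ M² ‖B‖ ‖adj T‖² ‖ξ‖‖η‖`, `‖adj T‖ = ‖T‖ ≤ M`], `L i (A (z i)) = Euclid` (`gmtBlowA_zero`, `Ψ i 0 = z i`).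
  `convf`: `F = G = ℝ`, `L i = (r i |det (T i)|⁻¹) • id`, `‖L i‖ ≤ r i M ≤ M` eventually/after `M' = M · sup r`, `‖L i (f (z i))‖ ≤ r i M sup_K |f| → 0`.
* `gmt_blow_sing`: `gmt_sing_lim hm (gmt_blow_conv ..) _ (fun i => gmt_blow_lam (by omega) _ _ (h.pos i) hS) S' hS' hc y y' (mem_univ _) ?_ hlim`; `y i ∈ gmtSing (gmtBlow .. S) (gmtBlow .. U)` by `gmtSing_gmtBlow` and `hy`.
-/

set_option autoImplicit false
open scoped ContDiff ENNReal RealInnerProductSpace Topology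
open MeasureTheory Metric Set Filter

namespace Claimed.Agent.Gmt

variable {m : ℕ}

/-- derivatives of `L ∘ a ∘ (affine map)`. -/
theorem gmt_iteratedFDeriv_aff {F G : Type} [NormedAddCommGroup F] [NormedSpace ℝ F]
    [NormedAddCommGroup G] [NormedSpace ℝ G] (L : F →L[ℝ] G) {a : E m → F} {U : Set (E m)}
    (hU : IsOpen U) (ha : ContDiffOn ℝ ∞ a U) (T : E m ≃L[ℝ] E m) (z : E m) (r : ℝ) (k : ℕ)
    {y : E m} (hy : gmtAff T z r y ∈ U) :
    ‖iteratedFDeriv ℝ k (fun y => L (a (gmtAff T z r y))) y‖ ≤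
      ‖L‖ * ‖iteratedFDeriv ℝ k a (gmtAff T z r y)‖ *
        (|r| * ‖(T.symm : E m →L[ℝ] E m)‖) ^ k := by
  set P : E m →L[ℝ] E m := r • (T.symm : E m →L[ℝ] E m) with hP
  set a' : E m → F := fun x => a (z + x) with ha'
  set U' : Set (E m) := (fun x => z + x) ⁻¹' U with hU'
  have hU'o : IsOpen U' := hU.preimage (continuous_const.add continuous_id)
  have hVo : IsOpen (P ⁻¹' U') := hU'o.preimage P.continuous
  have hyV : P y ∈ U' := hy
  have ha's : ContDiffOn ℝ ∞ a' U' :=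
    ha.comp (contDiff_const.add contDiff_id).contDiffOn (fun x hx => hx)
  have hcomp : ContDiffOn ℝ ∞ (a' ∘ P) (P ⁻¹' U') := ha's.comp P.contDiff.contDiffOn (fun x hx => hx)
  have hfun : (fun y => L (a (gmtAff T z r y))) = L ∘ (a' ∘ P) := rfl
  have hk : (k : ℕ∞ω) ≤ (∞ : ℕ∞ω) := by exact_mod_cast le_top
  rw [hfun]
  have h1 := L.norm_iteratedFDeriv_comp_left (n := k) (hcomp.contDiffAt (hVo.mem_nhds hyV)) hk
  have h2 : iteratedFDeriv ℝ k (a' ∘ P) y =
      (iteratedFDeriv ℝ k a (gmtAff T z r y)).compContinuousLinearMap fun _ => P := by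
    rw [← iteratedFDerivWithin_of_isOpen k hVo hyV,
      P.iteratedFDerivWithin_comp_right ha's hU'o.uniqueDiffOn hVo.uniqueDiffOn hyV hk,
      iteratedFDerivWithin_of_isOpen k hU'o hyV, iteratedFDeriv_comp_add_left]
    rfl
  have h3 : ‖iteratedFDeriv ℝ k (a' ∘ P) y‖ ≤
      ‖iteratedFDeriv ℝ k a (gmtAff T z r y)‖ * (|r| * ‖(T.symm : E m →L[ℝ] E m)‖) ^ k := by
    rw [h2]
    refine (ContinuousMultilinearMap.norm_compContinuousLinearMap_le _ _).trans ?_
    rw [Finset.prod_const, Finset.card_univ, Fintype.card_fin, hP, norm_smul, Real.norm_eq_abs]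
  calc ‖iteratedFDeriv ℝ k (L ∘ (a' ∘ P)) y‖ ≤ ‖L‖ * ‖iteratedFDeriv ℝ k (a' ∘ P) y‖ := h1
    _ ≤ ‖L‖ * (‖iteratedFDeriv ℝ k a (gmtAff T z r y)‖ * (|r| * ‖(T.symm : E m →L[ℝ] E m)‖) ^ k) := by
      gcongr
    _ = _ := by ring

/-- compact sets are eventually mapped into a compact neighbourhood of `K`, close to the centres. -/
theorem gmt_blow_nbhd {U K : Set (E m)} (hU : IsOpen U) (hK : IsCompact K) (hKU : K ⊆ U)
    {z : ℕ → E m} {T : ℕ → E m ≃L[ℝ] E m} {r : ℕ → ℝ} (hz : ∀ i, z i ∈ K) (hr : ∀ i, 0 < r i)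
    (hlim : Tendsto r atTop (𝓝 0)) {M : ℝ} (hM : ∀ i v, ‖(T i).symm v‖ ≤ M * ‖v‖) :
    ∃ K' : Set (E m), IsCompact K' ∧ K ⊆ K' ∧ K' ⊆ U ∧ ∀ Q : Set (E m), IsCompact Q →
      (∀ᶠ i in atTop, ∀ y ∈ Q, gmtAff (T i) (z i) (r i) y ∈ K') ∧
      ∀ ε > 0, ∀ᶠ i in atTop, ∀ y ∈ Q, dist (gmtAff (T i) (z i) (r i) y) (z i) < ε := by
  obtain ⟨δ, hδ, hδU⟩ := hK.exists_cthickening_subset_open hU hKU
  have key : ∀ Q : Set (E m), IsCompact Q →
      ∀ ε > 0, ∀ᶠ i in atTop, ∀ y ∈ Q, dist (gmtAff (T i) (z i) (r i) y) (z i) < ε := by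
    intro Q hQ ε hε
    obtain ⟨R, hR⟩ := hQ.isBounded.subset_closedBall (0 : E m)
    have hB : 0 < |M| * |R| + 1 := by positivity
    have h1 : Tendsto (fun i => r i * (|M| * |R| + 1)) atTop (𝓝 0) := by
      simpa using hlim.mul_const (|M| * |R| + 1)
    filter_upwards [h1.eventually_lt_const hε] with i hi y hy
    have hy' : ‖y‖ ≤ R := by simpa using hR hy
    have h2 : dist (gmtAff (T i) (z i) (r i) y) (z i) = r i * ‖(T i).symm y‖ := by
      unfold gmtAff
      rw [dist_eq_norm, add_sub_cancel_left, norm_smul, Real.norm_of_nonneg (hr i).le]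
    rw [h2]
    refine lt_of_le_of_lt ?_ hi
    have h3 : ‖(T i).symm y‖ ≤ |M| * |R| + 1 := by
      calc ‖(T i).symm y‖ ≤ M * ‖y‖ := hM i y
        _ ≤ |M| * |R| := by
          gcongr
          · exact le_abs_self M
          · exact hy'.trans (le_abs_self R)
        _ ≤ |M| * |R| + 1 := by linarith
    have := (hr i).le
    gcongr
  refine ⟨cthickening δ K, hK.cthickening, self_subset_cthickening K, hδU, fun Q hQ => ⟨?_, key Q hQ⟩⟩
  filter_upwards [key Q hQ δ hδ] with i hi y hy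
  exact mem_cthickening_of_dist_le _ (z i) δ K (hz i) (hi y hy).le

/-- blow-ups of a smooth map converge smoothly to a constant. -/
theorem gmt_scale_conv {F G : Type} [NormedAddCommGroup F] [NormedSpace ℝ F]
    [NormedAddCommGroup G] [NormedSpace ℝ G] {a : E m → F} {U K : Set (E m)} (hU : IsOpen U)
    (ha : ContDiffOn ℝ ∞ a U) (hK : IsCompact K) (hKU : K ⊆ U)
    {z : ℕ → E m} {T : ℕ → E m ≃L[ℝ] E m} {r : ℕ → ℝ} (hz : ∀ i, z i ∈ K) (hr : ∀ i, 0 < r i)
    (hlim : Tendsto r atTop (𝓝 0)) {M : ℝ} (hM : ∀ i v, ‖(T i).symm v‖ ≤ M * ‖v‖)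
    {L : ℕ → F →L[ℝ] G} {M' : ℝ} (hL : ∀ i, ‖L i‖ ≤ M') {c : G}
    (hc : Tendsto (fun i => L i (a (z i))) atTop (𝓝 c)) :
    GmtSmoothConv univ (fun i y => L i (a (gmtAff (T i) (z i) (r i) y))) (fun _ => c) := by
  obtain ⟨K', hK'c, hKK', hK'U, hQ⟩ := gmt_blow_nbhd hU hK hKU hz hr hlim hM
  intro Q hQc _ k
  rw [Metric.tendstoUniformlyOn_iff]
  intro ε hε
  have hM'0 : 0 ≤ M' := (norm_nonneg _).trans (hL 0)
  rcases Nat.eq_zero_or_pos k with rfl | hk
  · have huc := hK'c.uniformContinuousOn_of_continuous (ha.continuousOn.mono hK'U)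
    rw [Metric.uniformContinuousOn_iff] at huc
    obtain ⟨δ, hδ, hδ'⟩ := huc (ε / (2 * (M' + 1))) (by positivity)
    have h1 := (Metric.tendsto_nhds.1 hc) (ε / 2) (by positivity)
    filter_upwards [(hQ Q hQc).1, (hQ Q hQc).2 δ hδ, h1] with i hi1 hi2 hi3 y hy
    rw [iteratedFDeriv_zero_eq_comp, iteratedFDeriv_zero_eq_comp]
    simp only [Function.comp_apply, LinearIsometryEquiv.dist_map]
    have h2 := hδ' _ (hi1 y hy) _ (hKK' (hz i)) (hi2 y hy)
    have h3 : dist (L i (a (z i))) (L i (a (gmtAff (T i) (z i) (r i) y))) ≤ ε / 2 := by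
      rw [dist_comm, dist_eq_norm, ← map_sub]
      calc ‖L i (a (gmtAff (T i) (z i) (r i) y) - a (z i))‖
          ≤ ‖L i‖ * ‖a (gmtAff (T i) (z i) (r i) y) - a (z i)‖ := (L i).le_opNorm _
        _ ≤ M' * (ε / (2 * (M' + 1))) := by
          rw [← dist_eq_norm]
          gcongr
          exact hL i
        _ ≤ ε / 2 := by
          rw [← sub_nonneg]
          have : ε / 2 - M' * (ε / (2 * (M' + 1))) = ε / (2 * (M' + 1)) := by
            field_simp
            ring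
          rw [this]
          positivity
    calc dist c (L i (a (gmtAff (T i) (z i) (r i) y)))
        ≤ dist c (L i (a (z i))) + dist (L i (a (z i))) (L i (a (gmtAff (T i) (z i) (r i) y))) :=
          dist_triangle _ _ _
      _ < ε / 2 + ε / 2 := by
        rw [dist_comm c]
        exact add_lt_add_of_lt_of_le hi3 h3
      _ = ε := by ring
  · have hcont : ContinuousOn (iteratedFDeriv ℝ k a) K' := by
      have h1 := ha.continuousOn_iteratedFDerivWithin (m := k) (by exact_mod_cast le_top) hU.uniqueDiffOn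
      exact (h1.congr (fun x hx => (iteratedFDerivWithin_of_isOpen k hU hx).symm)).mono hK'U
    obtain ⟨C, hC⟩ := hK'c.exists_bound_of_continuousOn hcont
    have h0 : Tendsto (fun i => M' * |C| * (r i * |M|) ^ k) atTop (𝓝 0) := by
      have h1 : Tendsto (fun i => (r i * |M|) ^ k) atTop (𝓝 0) := by
        have := (hlim.mul_const |M|).pow k
        simpa [hk.ne'] using this
      simpa using h1.const_mul (M' * |C|)
    filter_upwards [(hQ Q hQc).1, h0.eventually_lt_const hε] with i hi1 hi2 y hy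
    rw [iteratedFDeriv_const_of_ne hk.ne', Pi.zero_apply, dist_zero_left]
    refine lt_of_le_of_lt ?_ hi2
    have hyU := hK'U (hi1 y hy)
    refine (gmt_iteratedFDeriv_aff (L i) hU ha (T i) (z i) (r i) k hyU).trans ?_
    have hT : ‖((T i).symm : E m →L[ℝ] E m)‖ ≤ |M| :=
      ContinuousLinearMap.opNorm_le_bound _ (abs_nonneg M) (fun v => (hM i v).trans (by
        gcongr
        exact le_abs_self M))
    have hCy := (hC _ (hi1 y hy)).trans (le_abs_self C)
    rw [abs_of_pos (hr i)]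
    have := (hr i).le
    gcongr
    exact hL i

section generic

variable {F G : Type} [NormedAddCommGroup F] [NormedSpace ℝ F] [NormedAddCommGroup G]
  [NormedSpace ℝ G]

theorem gmtFrG_exists_clm (f : F →ₗ[ℝ] G) {C : ℝ} (hC : 0 ≤ C) (h : ∀ x, ‖f x‖ ≤ C * ‖x‖) :
    ∃ L : F →L[ℝ] G, (∀ x, L x = f x) ∧ ‖L‖ ≤ C :=
  ⟨f.mkContinuous C h, fun _ => rfl, f.mkContinuous_norm_le hC h⟩

theorem gmtFrG_norm_smul (c : ℝ) (x : F) : ‖c • x‖ = |c| * ‖x‖ := by
  rw [norm_smul, Real.norm_eq_abs]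

end generic

/-- `B ↦ c • B(P ·, P ·)` as a linear map. -/
noncomputable def gmtFrGl (c : ℝ) (P : E m →L[ℝ] E m) : Bil m →ₗ[ℝ] Bil m where
  toFun B := c • B.bilinearComp P P
  map_add' B B' := by
    ext ξ η
    simp [mul_add]
  map_smul' t B := by
    ext ξ η
    simp
    ring

theorem gmtFrGl_norm (c : ℝ) (P : E m →L[ℝ] E m) (B : Bil m) :
    ‖gmtFrGl c P B‖ ≤ |c| * ‖P‖ ^ 2 * ‖B‖ := by
  show ‖c • B.bilinearComp P P‖ ≤ |c| * ‖P‖ ^ 2 * ‖B‖
  have h0 : ‖c • B.bilinearComp P P‖ = |c| * ‖B.bilinearComp P P‖ :=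
    gmtFrG_norm_smul (F := Bil m) c (B.bilinearComp P P)
  rw [h0, mul_assoc]
  gcongr
  refine ContinuousLinearMap.opNorm_le_bound₂ _ (by positivity) (fun ξ η => ?_)
  rw [ContinuousLinearMap.bilinearComp_apply]
  calc ‖B (P ξ) (P η)‖ ≤ ‖B‖ * ‖P ξ‖ * ‖P η‖ := B.le_opNorm₂ _ _
    _ ≤ ‖B‖ * (‖P‖ * ‖ξ‖) * (‖P‖ * ‖η‖) := by gcongr <;> exact P.le_opNorm _
    _ = ‖P‖ ^ 2 * ‖B‖ * ‖ξ‖ * ‖η‖ := by ring

/-- the blown-up data converge smoothly to `(E m, Euclid, 0)`. -/
theorem gmt_blow_conv (hm : 2 ≤ m) {U K : Set (E m)} {A : E m → Bil m} {f : E m → ℝ}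
    (hd : GmtData U A f) (hK : IsCompact K) (hKU : K ⊆ U) {z : ℕ → E m}
    {T : ℕ → E m ≃L[ℝ] E m} {r : ℕ → ℝ} (h : GmtBlowSeq K A z T r) :
    GmtDataConv (fun i => gmtBlow (T i) (z i) (r i) U) (fun i => gmtBlowA (T i) (z i) (r i) A)
      (fun i => gmtBlowF (T i) (z i) (r i) f) univ (fun _ => gmtEu m) (fun _ => 0) := by
  obtain ⟨c, C, hc, hcC, hell⟩ := gmtInt_ell hd.opn hd.int hK hKU
  obtain ⟨M, hM1, hMb⟩ := gmt_frame_bound hm hc hcC
  have hb := fun i => hMb (A (z i)) (T i) (hell _ (h.mem i)) (h.frame i)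
  have hM0 : 0 ≤ M := by linarith
  refine ⟨fun i => gmt_blow_data (T i) (z i) (h.pos i) hd,
    ⟨isOpen_univ, gmtInt_eu univ, contDiffOn_const⟩, ?_, ?_, ?_⟩
  · intro Q hQ _
    obtain ⟨K', -, -, hK'U, hQ'⟩ := gmt_blow_nbhd hd.opn hK hKU h.mem h.pos h.lim (fun i => (hb i).2.1)
    filter_upwards [(hQ' Q hQ).1] with i hi y hy
    exact hK'U (hi y hy)
  · have hbd : ∀ i (B : Bil m),
        ‖gmtFrGl (((T i : E m →L[ℝ] E m).det ^ 2)⁻¹) (gmtAdj (T i : E m →L[ℝ] E m)) B‖ ≤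
          M ^ 2 * M ^ 2 * ‖B‖ := by
      intro i B
      refine (gmtFrGl_norm _ _ B).trans ?_
      have h1 : |((T i : E m →L[ℝ] E m).det ^ 2)⁻¹| ≤ M ^ 2 := by
        rw [abs_inv, abs_pow, ← inv_pow]
        exact pow_le_pow_left₀ (by positivity) (hb i).2.2.2 2
      have h2 : ‖gmtAdj (T i : E m →L[ℝ] E m)‖ ≤ M := by
        unfold gmtAdj
        rw [LinearIsometryEquiv.norm_map]
        exact ContinuousLinearMap.opNorm_le_bound _ hM0 (hb i).1
      gcongr
    choose L hL1 hL2 using fun i => gmtFrG_exists_clm (F := Bil m) (G := Bil m)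
      (gmtFrGl (((T i : E m →L[ℝ] E m).det ^ 2)⁻¹) (gmtAdj (T i : E m →L[ℝ] E m)))
      (C := M ^ 2 * M ^ 2) (by positivity) (hbd i)
    have key := gmt_scale_conv (F := Bil m) (G := Bil m) hd.opn hd.int.smooth hK hKU h.mem h.pos h.lim
      (fun i => (hb i).2.1) (L := L) (M' := M ^ 2 * M ^ 2) (c := gmtEu m) hL2 (by
        refine tendsto_const_nhds.congr (fun i => ?_)
        have h1 := gmtBlowA_zero (r i) (h.frame i)
        rw [← h1, hL1]
        simp [gmtBlowA, gmtFrGl, gmtAff])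
    have hfun : (fun i y => L i (A (gmtAff (T i) (z i) (r i) y))) =
        fun i => gmtBlowA (T i) (z i) (r i) A := by
      funext i y
      rw [hL1]
      rfl
    rw [hfun] at key
    exact key
  · obtain ⟨R0, hR0⟩ := h.lim.bddAbove_range
    have hR0' : ∀ i, r i ≤ R0 := fun i => hR0 ⟨i, rfl⟩
    obtain ⟨Cf, hCf⟩ := hK.exists_bound_of_continuousOn (hd.f.continuousOn.mono hKU)
    have key := gmt_scale_conv (F := ℝ) (G := ℝ) hd.opn hd.f hK hKU h.mem h.pos h.lim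
      (fun i => (hb i).2.1)
      (L := fun i => (r i * |(T i : E m →L[ℝ] E m).det|⁻¹) • ContinuousLinearMap.id ℝ ℝ)
      (M' := R0 * M) (c := 0) (by
        intro i
        rw [norm_smul, ContinuousLinearMap.norm_id, mul_one, Real.norm_eq_abs, abs_mul,
          abs_of_pos (h.pos i), abs_inv, abs_abs]
        have h1 := (hb i).2.2.2
        have h2 := hR0' i
        have h3 := (h.pos i).le
        have h4 : 0 ≤ R0 := h3.trans h2
        gcongr) (by
        apply squeeze_zero_norm (a := fun i => r i * (M * |Cf|))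
        · intro i
          simp only [smul_apply, ContinuousLinearMap.id_apply, smul_eq_mul, norm_mul, Real.norm_eq_abs,
            abs_inv, abs_abs, abs_of_pos (h.pos i)]
          have h1 := (hb i).2.2.2
          have h2 := (hCf _ (h.mem i)).trans (le_abs_self Cf)
          rw [Real.norm_eq_abs] at h2
          have h3 := (h.pos i).le
          rw [mul_assoc]
          gcongr
        · simpa using h.lim.mul_const (M * |Cf|))
    exact key

/-- limits of singular points. -/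
theorem gmt_blow_sing (hm : 2 ≤ m) {U K S : Set (E m)} {A : E m → Bil m} {f : E m → ℝ}
    (hd : GmtData U A f) (hS : GmtLAM A f U S) (hK : IsCompact K) (hKU : K ⊆ U) {z : ℕ → E m}
    {T : ℕ → E m ≃L[ℝ] E m} {r : ℕ → ℝ} (h : GmtBlowSeq K A z T r) {S' : Set (E m)}
    (hS' : MeasurableSet S') (hc : GmtConv univ (fun i => gmtBlow (T i) (z i) (r i) S) S')
    {y : ℕ → E m} {y' : E m} (hy : ∀ i, gmtAff (T i) (z i) (r i) (y i) ∈ gmtSing S U)
    (hlim : Tendsto y atTop (𝓝 y')) : y' ∈ gmtSing S' univ := by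
  refine gmt_sing_lim hm (gmt_blow_conv hm hd hK hKU h) _
    (fun i => gmt_blow_lam (by omega) _ _ (h.pos i) hS) S' hS' hc y y' (mem_univ _) (fun i => ?_)
    hlim
  rw [gmtSing_gmtBlow _ _ (h.pos i)]
  exact hy i

end Claimed.Agent.Gmt
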