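import Claimed.Agent.Lib.Gmt.CoA
import Claimed.Agent.Lib.Gmt.FrG

/-!
# Lib/Gmt G6 CONES [part B]: density of a local absolute minimiser, tangent cones, upper semicontinuity.   (architect: helper184)

`S` = local absolute minimiser for smooth data `(U,A,f)`, `m ≥ 2`.  Density at `z ∈ U`: `Θ(z) = gmtThA A S z = lim_{ρ→0} I(gmtBlow T z ρ S, 0, 1)` for any frame `T` of `A z`.

PLAN OF PROOFS
* `gmtThA_tendsto`, `gmtThA_le`: `gmt_lam_am` (K = {z} resp. K), `gmtTh_tendsto`, `gmtTh_le`, `gmtI_frame` (independence of the frame), `gmtI_gmtBlow_scale` (`I(gmtBlow T z ρ S,0,1) = I(gmtBlow T z 1 S,0,ρ)`).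
* `gmtConv_affine`: for `K` compact, `|(a_i⁻¹ S_i △ a⁻¹ S') ∩ K| ≤ |a_i⁻¹(S_i △ S') ∩ K| + |(a_i⁻¹ S' △ a⁻¹ S') ∩ K|`.  First term `= |det L_i|⁻¹ |(S_i △ S') ∩ a_i K| → 0` (`a_i K` stays in a fixed ball, `det L_i → det L' ≠ 0`).
  Second term: approximate `χ_{S' ∩ B}` in `L¹` by `g ∈ C_c` (`MeasureTheory.Lp`/`Integrable.exists_hasCompactSupport_integral_sub_le`); `g ∘ a_i → g ∘ a` uniformly on `K`.
* `gmt_tangent_props`: `gmt_blow_limit` (K = {x}): `C` minimises, `μ_i ⇀ μ_C`.  For `ρ > 0`: `I_C(0,ρ) = lim I(gmtBlow T x (r i) S, 0, ρ) = lim I(gmtBlow T x (r i ρ) S,0,1) = Θ(x)` (`gmtI_wk`, `gmtI_gmtBlow_scale`, `gmtThA_tendsto`).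
  So `I_C(0,·)` is constant: `gmt_cone_of_const`.  Boundary and singular points: `gmt_blow_bd`, `gmt_blow_sing` with `y i = 0`.
* `gmt_usc`: fix `σ`.  `z i → x`, so eventually `z i ∈ K = closedBall x δ ⊆ U`.  Frames `T i = gmtFr (A (z i))`.  `Θ(z i) ≤ I(S'_i,0,1) + C σ r i`, `S'_i = gmtBlow (T i) (z i) (σ r i) S` (`gmtThA_le`).
  `S'_i = {y | w_i + σ M_i y ∈ gmtBlow T x (r i) S}`, `w_i = (r i)⁻¹ T (z i - x)`, `M_i = T ∘ (T i)⁻¹`.  Along a subsequence `M_i → O` isometry (`gmt_frame_limit`; `A (z i) → A x`).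
  `gmtConv_affine`: `S'_i → C' = {y | w + σ O y ∈ C}`;  `gmt_blow_limit` + `gmtI_wk`: `I(S'_i,0,1) → I(C',0,1) = I_C(w,σ)` (`gmtI_gmtBlow` with `O.symm`).
* `gmt_usc_spine`: `gmt_usc` for all `σ`, `θ = Θ(x) - ε`, `ε → 0`; `gmt_tangent_props`; `gmt_cone_inv`.
-/

set_option autoImplicit false
open scoped ContDiff ENNReal RealInnerProductSpace Topology
open MeasureTheory Metric Set Filter

namespace Claimed.Agent.Gmt

variable {m : ℕ}

/-- the chosen frame of a smooth integrand at a point of `U`. -/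
theorem gmtFr_frame (hm : 2 ≤ m) {U : Set (E m)} {A : E m → Bil m} {f : E m → ℝ}
    (hd : GmtData U A f) {z : E m} (hz : z ∈ U) : GmtFrame (A z) (gmtFr (A z)) := by
  obtain ⟨c, C₀, hc, -, hell⟩ :=
    gmtInt_ell hd.opn hd.int (isCompact_singleton (x := z)) (Set.singleton_subset_iff.2 hz)
  exact gmtFr_spec hm hc (hell z rfl)

/-- density ratios in an arbitrary frame at scale `ρ` and in the chosen frame at scale `1`. -/
theorem gmtI_frame_scale (hm : 2 ≤ m) {B : Bil m} {T T₀ : E m ≃L[ℝ] E m} (hT : GmtFrame B T)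
    (hT₀ : GmtFrame B T₀) (z : E m) {ρ : ℝ} (hρ : 0 < ρ) {S : Set (E m)} (hS : MeasurableSet S) :
    gmtI (gmtBlow T z ρ S) 0 1 = gmtI (gmtBlow T₀ z 1 S) 0 ρ := by
  rw [gmtI_frame hm hT₀ hT z hρ hS 1]
  have := gmtI_gmtBlow_scale T₀ z one_pos hρ hS 1
  rwa [one_mul, mul_one] at this

/-- the (unnormalised) density of `S` at `z` with respect to the integrand `A`. -/
noncomputable def gmtThA (A : E m → Bil m) (S : Set (E m)) (z : E m) : ℝ :=
  gmtTh (gmtBlow (gmtFr (A z)) z 1 S) 0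

theorem gmtThA_tendsto (hm : 2 ≤ m) {U S : Set (E m)} {A : E m → Bil m} {f : E m → ℝ}
    (hd : GmtData U A f) (hS : GmtLAM A f U S) {z : E m} (hz : z ∈ U) {T : E m ≃L[ℝ] E m}
    (hT : GmtFrame (A z) T) :
    Tendsto (fun ρ => gmtI (gmtBlow T z ρ S) 0 1) (𝓝[>] 0) (𝓝 (gmtThA A S z)) := by
  obtain ⟨κ, Λ, R, hκ, hΛ, hR, -, -, hAM⟩ :=
    gmt_lam_am hm hd hS (isCompact_singleton (x := z)) (Set.singleton_subset_iff.2 hz)
  have hT₀ := gmtFr_frame hm hd hz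
  have h1 := gmtTh_tendsto (by omega) hκ hΛ hR (hAM z rfl _ hT₀)
  refine h1.congr' ?_
  filter_upwards [self_mem_nhdsWithin] with ρ hρ
  exact (gmtI_frame_scale hm hT hT₀ z hρ hS.meas).symm

/-- almost monotonicity, uniformly on compact sets. -/
theorem gmtThA_le (hm : 2 ≤ m) {U K S : Set (E m)} {A : E m → Bil m} {f : E m → ℝ}
    (hd : GmtData U A f) (hS : GmtLAM A f U S) (hK : IsCompact K) (hKU : K ⊆ U) :
    ∃ C R : ℝ, 0 < C ∧ 0 < R ∧ ∀ z ∈ K, ∀ T : E m ≃L[ℝ] E m, GmtFrame (A z) T →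
      ∀ ρ, 0 < ρ → ρ < R → gmtThA A S z ≤ gmtI (gmtBlow T z ρ S) 0 1 + C * ρ := by
  obtain ⟨κ, Λ, R, hκ, hΛ, hR, hκR, hΛR, hAM⟩ := gmt_lam_am hm hd hS hK hKU
  obtain ⟨C, hC, hle⟩ := gmtTh_le m (by omega)
  refine ⟨C * (κ + Λ) + 1, R, by positivity, hR, fun z hz T hT ρ hρ hρR => ?_⟩
  have hT₀ := gmtFr_frame hm hd (hKU hz)
  have h1 := hle κ Λ 0 R _ hκ hΛ hκR hΛR (hAM z hz _ hT₀) ρ hρ hρR
  rw [gmtI_frame_scale hm hT hT₀ z hρ hS.meas]
  have h2 : gmtThA A S z = gmtTh (gmtBlow (gmtFr (A z)) z 1 S) 0 := rfl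
  rw [h2]
  nlinarith

theorem gmtThA_nonneg (hm : 2 ≤ m) {U S : Set (E m)} {A : E m → Bil m} {f : E m → ℝ}
    (hd : GmtData U A f) (hS : GmtLAM A f U S) {z : E m} (hz : z ∈ U) : 0 ≤ gmtThA A S z := by
  refine ge_of_tendsto (gmtThA_tendsto hm hd hS hz (gmtFr_frame hm hd hz)) ?_
  filter_upwards [self_mem_nhdsWithin] with ρ _
  exact gmtI_nonneg _ _ one_pos

/-- Euclidean case. -/
theorem gmtData_eu : GmtData (univ : Set (E m)) (fun _ => gmtEu m) (fun _ => 0) :=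
  ⟨isOpen_univ, gmtInt_eu univ, contDiffOn_const⟩

theorem gmtThA_eu (hm : 2 ≤ m) {C : Set (E m)} (hC : GmtMin univ C) (z : E m) :
    gmtThA (fun _ => gmtEu m) C z = gmtTh C z := by
  have hT₀ : GmtFrame (gmtEu m) (gmtFr (gmtEu m)) :=
    gmtFr_frame hm (A := fun _ => gmtEu m) gmtData_eu (mem_univ z)
  have hfun : gmtI (gmtBlow (gmtFr (gmtEu m)) z 1 C) 0 = gmtI C z := by
    funext ρ
    rw [gmtI_frame hm gmt_frame_eu hT₀ z one_pos hC.meas ρ, gmtBlow_refl,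
      gmtI_gmtDil z one_pos hC.meas 0 ρ]
    simp
  unfold gmtThA gmtTh
  rw [hfun]

/-- volume of an affine preimage. -/
theorem gmt_volume_affine (L : E m ≃L[ℝ] E m) (w : E m) (X : Set (E m)) :
    volume {y | w + L y ∈ X} = ENNReal.ofReal |(L.symm : E m →L[ℝ] E m).det| * volume X := by
  have h1 : {y | w + L y ∈ X} = L ⁻¹' ((fun h => w + h) ⁻¹' X) := rfl
  rw [h1, Measure.addHaar_preimage_continuousLinearEquiv, measure_preimage_add]
  rfl

/-- `L¹_loc` convergence is stable under convergent affine changes of variables. -/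
theorem gmtConv_affine {S : ℕ → Set (E m)} {S' : Set (E m)} (hS : ∀ i, MeasurableSet (S i))
    (hS' : MeasurableSet S') (hc : GmtConv univ S S') {L : ℕ → E m ≃L[ℝ] E m}
    {L' : E m ≃L[ℝ] E m}
    (hL : Tendsto (fun i => (L i : E m →L[ℝ] E m)) atTop (𝓝 (L' : E m →L[ℝ] E m)))
    {w : ℕ → E m} {w' : E m} (hw : Tendsto w atTop (𝓝 w')) :
    GmtConv univ (fun i => {y | w i + L i y ∈ S i}) {y | w' + L' y ∈ S'} := by
  intro K hK _
  obtain ⟨RK, hRK0, hRK⟩ := hK.isBounded.subset_closedBall_lt 0 0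
  -- uniform convergence on `K`
  have hunif : ∀ η > 0, ∀ᶠ i in atTop, ∀ y ∈ K, dist (w i + L i y) (w' + L' y) < η := by
    intro η hη
    have h1 : Tendsto (fun i => ‖w i - w'‖ + ‖(L i : E m →L[ℝ] E m) - L'‖ * RK) atTop
        (𝓝 (0 + 0 * RK)) :=
      (tendsto_iff_norm_sub_tendsto_zero.1 hw).add
        ((tendsto_iff_norm_sub_tendsto_zero.1 hL).mul_const RK)
    simp only [zero_mul, add_zero] at h1
    filter_upwards [h1.eventually (gt_mem_nhds hη)] with i hi y hy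
    have hy' : ‖y‖ ≤ RK := by simpa using hRK hy
    have h2 : w i + L i y - (w' + L' y) = (w i - w') + ((L i : E m →L[ℝ] E m) - L') y := by
      simp only [sub_apply, ContinuousLinearEquiv.coe_coe]; abel
    rw [dist_eq_norm, h2]
    calc ‖(w i - w') + ((L i : E m →L[ℝ] E m) - L') y‖
        ≤ ‖w i - w'‖ + ‖(L i : E m →L[ℝ] E m) - L'‖ * ‖y‖ :=
          norm_add_le_of_le le_rfl (ContinuousLinearMap.le_opNorm _ _)
      _ ≤ ‖w i - w'‖ + ‖(L i : E m →L[ℝ] E m) - L'‖ * RK := by gcongr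
      _ < η := hi
  -- determinants
  have hdet : Tendsto (fun i => |((L i).symm : E m →L[ℝ] E m).det|) atTop
      (𝓝 |(L'.symm : E m →L[ℝ] E m).det|) := by
    simp only [ContinuousLinearEquiv.det_coe_symm]
    have h1 : Tendsto (fun i => (L i : E m →L[ℝ] E m).det) atTop
        (𝓝 (L' : E m →L[ℝ] E m).det) :=
      (ContinuousLinearMap.continuous_det.tendsto _).comp hL
    have h2 : (L' : E m →L[ℝ] E m).det ≠ 0 := (LinearEquiv.isUnit_det' L'.toLinearEquiv).ne_zero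
    exact (h1.inv₀ h2).abs
  set Dr : ℝ := |(L'.symm : E m →L[ℝ] E m).det| + 1 with hDr
  have hDi : ∀ᶠ i in atTop, |((L i).symm : E m →L[ℝ] E m).det| ≤ Dr :=
    (hdet.eventually (gt_mem_nhds (lt_add_one _))).mono fun i h => h.le
  have hD' : |(L'.symm : E m →L[ℝ] E m).det| ≤ Dr := (lt_add_one _).le
  set D : ℝ≥0∞ := ENNReal.ofReal Dr with hD
  have hDtop : D ≠ ⊤ := ENNReal.ofReal_ne_top
  -- the big ball
  set R₁ : ℝ := ‖w'‖ + ‖(L' : E m →L[ℝ] E m)‖ * RK + 1 with hR₁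
  have hq : ∀ y ∈ K, ‖w' + L' y‖ ≤ R₁ - 1 := by
    intro y hy
    have hy' : ‖y‖ ≤ RK := by simpa using hRK hy
    calc ‖w' + L' y‖ ≤ ‖w'‖ + ‖(L' : E m →L[ℝ] E m)‖ * ‖y‖ :=
          norm_add_le_of_le le_rfl ((L' : E m →L[ℝ] E m).le_opNorm y)
      _ ≤ ‖w'‖ + ‖(L' : E m →L[ℝ] E m)‖ * RK := by gcongr
      _ = R₁ - 1 := by rw [hR₁]; ring
  set B : Set (E m) := closedBall 0 R₁ with hB
  have hBc : IsCompact B := isCompact_closedBall _ _
  have hv := hc B hBc (subset_univ _)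
  rw [ENNReal.tendsto_nhds_zero]
  intro ε₀ hε₀
  have hε₀2 : ε₀ / 2 ≠ 0 := (ENNReal.half_pos hε₀.ne').ne'
  set ε : ℝ≥0∞ := ε₀ / 2 / (4 * D) with hε
  have hεne : ε ≠ 0 := ENNReal.div_ne_zero.2 ⟨hε₀2, ENNReal.mul_ne_top (by simp) hDtop⟩
  have hεD : ε * (4 * D) ≤ ε₀ / 2 := ENNReal.mul_le_of_le_div le_rfl
  set X : Set (E m) := S' ∩ B with hX
  have hXm : MeasurableSet X := hS'.inter hBc.measurableSet
  have hXfin : volume X ≠ ⊤ :=
    ((measure_mono inter_subset_right).trans_lt hBc.measure_lt_top).ne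
  obtain ⟨Kc, hKcX, hKc, hKcε⟩ := hXm.exists_isCompact_sdiff_lt hXfin hεne
  obtain ⟨Uo, hXUo, hUo, -, hUoε⟩ := hXm.exists_isOpen_sdiff_lt hXfin hεne
  obtain ⟨η, hη, hηU⟩ := hKc.exists_thickening_subset_open hUo (hKcX.trans hXUo)
  have hv' : ∀ᶠ i in atTop, D * volume (symmDiff (S i) S' ∩ B) ≤ ε₀ / 2 := by
    have : Tendsto (fun i => D * volume (symmDiff (S i) S' ∩ B)) atTop (𝓝 (D * 0)) :=
      ENNReal.Tendsto.const_mul hv (Or.inr hDtop)
    rw [mul_zero] at this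
    exact (ENNReal.tendsto_nhds_zero.1 this) _ (pos_iff_ne_zero.2 hε₀2)
  filter_upwards [hunif (min η 1) (lt_min hη one_pos), hDi, hv'] with i hi hdi hvi
  have hdi' : ENNReal.ofReal |((L i).symm : E m →L[ℝ] E m).det| ≤ D :=
    ENNReal.ofReal_le_ofReal hdi
  have hd' : ENNReal.ofReal |(L'.symm : E m →L[ℝ] E m).det| ≤ D := ENNReal.ofReal_le_ofReal hD'
  have hsub : symmDiff {y | w i + L i y ∈ S i} {y | w' + L' y ∈ S'} ∩ K ⊆
      {y | w i + L i y ∈ symmDiff (S i) S' ∩ B} ∪ ({y | w' + L' y ∈ X \ Kc} ∪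
        {y | w i + L i y ∈ Uo \ X} ∪ {y | w i + L i y ∈ X \ Kc} ∪ {y | w' + L' y ∈ Uo \ X}) := by
    rintro y ⟨hy, hyK⟩
    have hdist := hi y hyK
    have hqB : w' + L' y ∈ B := by
      rw [hB, mem_closedBall_zero_iff]; linarith [hq y hyK]
    have hpB : w i + L i y ∈ B := by
      rw [hB, mem_closedBall_zero_iff]
      have h1 : ‖w i + L i y‖ ≤ ‖w' + L' y‖ + dist (w i + L i y) (w' + L' y) := by
        rw [dist_eq_norm]
        calc ‖w i + L i y‖ = ‖(w' + L' y) + (w i + L i y - (w' + L' y))‖ := by congr 1; abel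
          _ ≤ _ := norm_add_le _ _
      have h2 := hq y hyK
      have h3 : dist (w i + L i y) (w' + L' y) < 1 := hdist.trans_le (min_le_right _ _)
      linarith
    have hdη : dist (w i + L i y) (w' + L' y) < η := hdist.trans_le (min_le_left _ _)
    rw [mem_symmDiff] at hy
    by_cases hpS' : w i + L i y ∈ S'
    · rcases hy with ⟨_, hq'⟩ | ⟨_, hp'⟩
      · -- `p ∈ S'`, `q ∉ S'`
        have hq'' : w' + L' y ∉ S' := hq'
        right
        by_cases hpK : w i + L i y ∈ Kc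
        · right
          refine ⟨hηU (mem_thickening_iff.2 ⟨_, hpK, by rw [dist_comm]; exact hdη⟩), ?_⟩
          exact fun h => hq'' h.1
        · left; right
          exact ⟨⟨hpS', hpB⟩, hpK⟩
      · left
        exact ⟨mem_symmDiff.2 (Or.inr ⟨hpS', hp'⟩), hpB⟩
    · rcases hy with ⟨hp', _⟩ | ⟨hq', _⟩
      · left
        exact ⟨mem_symmDiff.2 (Or.inl ⟨hp', hpS'⟩), hpB⟩
      · have hq'' : w' + L' y ∈ S' := hq'
        right
        by_cases hqK : w' + L' y ∈ Kc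
        · left; left; right
          refine ⟨hηU (mem_thickening_iff.2 ⟨_, hqK, hdη⟩), ?_⟩
          exact fun h => hpS' h.1
        · left; left; left
          exact ⟨⟨hq'', hqB⟩, hqK⟩
  calc volume (symmDiff {y | w i + L i y ∈ S i} {y | w' + L' y ∈ S'} ∩ K)
      ≤ volume ({y | w i + L i y ∈ symmDiff (S i) S' ∩ B} ∪ ({y | w' + L' y ∈ X \ Kc} ∪
        {y | w i + L i y ∈ Uo \ X} ∪ {y | w i + L i y ∈ X \ Kc} ∪ {y | w' + L' y ∈ Uo \ X})) :=
        measure_mono hsub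
    _ ≤ volume {y | w i + L i y ∈ symmDiff (S i) S' ∩ B} + (volume {y | w' + L' y ∈ X \ Kc} +
        volume {y | w i + L i y ∈ Uo \ X} + volume {y | w i + L i y ∈ X \ Kc} +
        volume {y | w' + L' y ∈ Uo \ X}) := by
        refine (measure_union_le _ _).trans (add_le_add le_rfl ?_)
        refine (measure_union_le _ _).trans (add_le_add ?_ le_rfl)
        refine (measure_union_le _ _).trans (add_le_add ?_ le_rfl)
        exact measure_union_le _ _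
    _ ≤ D * volume (symmDiff (S i) S' ∩ B) + (D * ε + D * ε + D * ε + D * ε) := by
        simp only [gmt_volume_affine]
        gcongr
    _ = D * volume (symmDiff (S i) S' ∩ B) + ε * (4 * D) := by ring
    _ ≤ ε₀ / 2 + ε₀ / 2 := add_le_add hvi hεD
    _ = ε₀ := ENNReal.add_halves ε₀

end Claimed.Agent.Gmt
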