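import Claimed.Agent.Lib.Gmt.CoB

/-!
# Lib/Gmt G6 CONES [part C]: density of a local absolute minimiser, tangent cones, upper semicontinuity.   (architect: helper184)

`S` = local absolute minimiser for smooth data `(U,A,f)`, `m ≥ 2`.  Density at `z ∈ U`: `Θ(z) = gmtThA A S z = lim_{ρ→0} I(gmtBlow T z ρ S, 0, 1)` for any frame `T` of `A z`.

PLAN OF PROOFS
* `gmtThA_tendsto`, `gmtThA_le`: `gmt_lam_am` (K = {z} resp. K), `gmtTh_tendsto`, `gmtTh_le`, `gmtI_frame` (independence of the frame), `gmtI_gmtBlow_scale` (`I(gmtBlow T z ρ S,0,1) = I(gmtBlow T z 1 S,0,ρ)`).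
* `gmtConv_affine`: for `K` compact, `|(a_i⁻¹ S_i △ a⁻¹ S') ∩ K| ≤ |a_i⁻¹(S_i △ S') ∩ K| + |(a_i⁻¹ S' △ a⁻¹ S') ∩ K|`.  First term `= |det L_i|⁻¹ |(S_i △ S') ∩ a_i K| → 0` (`a_i K` stays in a fixed ball, `det L_i → det L' ≠ 0`).
  Second term: approximate `χ_{S' ∩ B}` in `L¹` by `g ∈ C_c` (`MeasureTheory.Lp`/`Integrable.exists_hasCompactSupport_integral_sub_le`); `g ∘ a_i → g ∘ a` uniformly on `K`.
* `gmt_tangent_props`: `gmt_blow_limit` (K = {x}): `C` minimises, `μ_i ⇀ μ_C`.  For `ρ > 0`: `I_C(0,ρ) = lim I(gmtBlow T x (r i) S, 0, ρ) = lim I(gmtBlow T x (r i ρ) S,0,1) = Θ(x)` (`gmtI_wk`, `gmtI_gmtBlow_scale`, `gmtThA_tendsto`).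
  So `I_C(0,·)` is constant: `gmt_cone_of_const`.  Boundary and singular points: `gmt_blow_bd`, `gmt_blow_sing` with `y i = 0`.
* `gmt_usc`: fix `σ`.  `z i → x`, so eventually `z i ∈ K = closedBall x δ ⊆ U`.  Frames `T i = gmtFr (A (z i))`.  `Θ(z i) ≤ I(S'_i,0,1) + C σ r i`, `S'_i = gmtBlow (T i) (z i) (σ r i) S` (`gmtThA_le`).
  `S'_i = {y | w_i + σ M_i y ∈ gmtBlow T x (r i) S}`, `w_i = (r i)⁻¹ T (z i - x)`, `M_i = T ∘ (T i)⁻¹`.  Along a subsequence `M_i → O` isometry (`gmt_frame_limit`; `A (z i) → A x`).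
  `gmtConv_affine`: `S'_i → C' = {y | w + σ O y ∈ C}`;  `gmt_blow_limit` + `gmtI_wk`: `I(S'_i,0,1) → I(C',0,1) = I_C(w,σ)` (`gmtI_gmtBlow` with `O.symm`).
* `gmt_usc_spine`: `gmt_usc` for all `σ`, `θ = Θ(x) - ε`, `ε → 0`; `gmt_tangent_props`; `gmt_cone_inv`.
-/

set_option autoImplicit false
open scoped ContDiff ENNReal RealInnerProductSpace Topology
open MeasureTheory Metric Set Filter

namespace Claimed.Agent.Gmt

variable {m : ℕ}

/-- properties of tangent cones. -/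
theorem gmt_tangent_props (hm : 2 ≤ m) {U S : Set (E m)} {A : E m → Bil m} {f : E m → ℝ}
    (hd : GmtData U A f) (hS : GmtLAM A f U S) {x : E m} (hx : x ∈ U) {T : E m ≃L[ℝ] E m}
    (hT : GmtFrame (A x) T) {r : ℕ → ℝ} (hr : ∀ i, 0 < r i) (hr0 : Tendsto r atTop (𝓝 0))
    {C : Set (E m)} (hC : MeasurableSet C)
    (hc : GmtConv univ (fun i => gmtBlow T x (r i) S) C) :
    GmtMin univ C ∧ GmtCone C ∧ gmtI C 0 1 = gmtThA A S x ∧ (x ∈ gmtBd S → (0 : E m) ∈ gmtBd C) ∧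
      (x ∈ gmtSing S U → (0 : E m) ∈ gmtSing C univ) := by
  have hK : IsCompact ({x} : Set (E m)) := isCompact_singleton
  have hKU : ({x} : Set (E m)) ⊆ U := Set.singleton_subset_iff.2 hx
  have hseq : GmtBlowSeq {x} A (fun _ => x) (fun _ => T) r := ⟨fun _ => rfl, fun _ => hT, hr, hr0⟩
  obtain ⟨hmin, hwk⟩ := gmt_blow_limit hm hd hS hK hKU hseq hC hc
  have hI : ∀ ρ, 0 < ρ → gmtI C 0 ρ = gmtThA A S x := by
    intro ρ hρ
    have h1 : Tendsto (fun i => gmtI (gmtBlow T x (r i) S) 0 ρ) atTop (𝓝 (gmtI C 0 ρ)) :=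
      gmtI_wk hwk 0 hρ
    have h2 : Tendsto (fun i => r i * ρ) atTop (𝓝[>] 0) := by
      rw [tendsto_nhdsWithin_iff]
      refine ⟨by simpa using hr0.mul_const ρ, Eventually.of_forall fun i => ?_⟩
      exact mul_pos (hr i) hρ
    have h3 : Tendsto (fun i => gmtI (gmtBlow T x (r i * ρ) S) 0 1) atTop
        (𝓝 (gmtThA A S x)) := (gmtThA_tendsto hm hd hS hx hT).comp h2
    have h4 : (fun i => gmtI (gmtBlow T x (r i * ρ) S) 0 1) =
        fun i => gmtI (gmtBlow T x (r i) S) 0 ρ := by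
      funext i
      rw [gmtI_gmtBlow_scale T x (hr i) hρ hS.meas 1, mul_one]
    rw [h4] at h3
    exact tendsto_nhds_unique h1 h3
  have haff : ∀ i, gmtAff T x (r i) 0 = x := by
    intro i; simp [gmtAff]
  refine ⟨hmin, ?_, hI 1 one_pos, ?_, ?_⟩
  · have := gmt_cone_of_const (by omega) hmin (x := 0) hI
    have h0 : gmtDil (0 : E m) 1 C = C := by
      ext y; simp [gmtDil]
    rwa [h0] at this
  · intro hxb
    exact gmt_blow_bd hm hd hS hK hKU hseq hC hc (y := fun _ => 0) (y' := 0)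
      (fun i => by rw [haff i]; exact hxb) tendsto_const_nhds
  · intro hxs
    exact gmt_blow_sing hm hd hS hK hKU hseq hC hc (y := fun _ => 0) (y' := 0)
      (fun i => by rw [haff i]; exact hxs) tendsto_const_nhds

/-- existence of tangent cones. -/
theorem gmt_tangent_exists (hm : 2 ≤ m) {U S : Set (E m)} {A : E m → Bil m} {f : E m → ℝ}
    (hd : GmtData U A f) (hS : GmtLAM A f U S) {x : E m} (hx : x ∈ U) {T : E m ≃L[ℝ] E m}
    (hT : GmtFrame (A x) T) {r : ℕ → ℝ} (hr : ∀ i, 0 < r i) (hr0 : Tendsto r atTop (𝓝 0)) :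
    ∃ (φ : ℕ → ℕ) (C : Set (E m)), StrictMono φ ∧ MeasurableSet C ∧
      GmtConv univ (fun i => gmtBlow T x (r (φ i)) S) C :=
  gmt_blow_compact hm hd hS isCompact_singleton (Set.singleton_subset_iff.2 hx)
    (z := fun _ => x) (T := fun _ => T) ⟨fun _ => rfl, fun _ => hT, hr, hr0⟩

/-- the homothety `y ↦ σ y` as a continuous linear equivalence. -/
noncomputable def gmtHom (σ : ℝ) (hσ : σ ≠ 0) : E m ≃L[ℝ] E m :=
  ContinuousLinearEquiv.smulLeft (Units.mk0 σ hσ)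

theorem gmtHom_apply (σ : ℝ) (hσ : σ ≠ 0) (y : E m) : gmtHom σ hσ y = σ • y := rfl

/-- core of `gmt_usc`: all hypotheses hold for all indices, and the frames converge. -/
theorem gmt_usc_core (hm : 2 ≤ m) {U K S : Set (E m)} {A : E m → Bil m} {f : E m → ℝ}
    (hd : GmtData U A f) (hS : GmtLAM A f U S) (hK : IsCompact K) (hKU : K ⊆ U) {x : E m}
    {T : E m ≃L[ℝ] E m} {r : ℕ → ℝ} (hr : ∀ i, 0 < r i) (hr0 : Tendsto r atTop (𝓝 0))
    {C : Set (E m)} (hC : MeasurableSet C)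
    (hc : GmtConv univ (fun i => gmtBlow T x (r i) S) C) {z : ℕ → E m} (hz : ∀ i, z i ∈ K)
    {w : E m} (hw : Tendsto (fun i => (r i)⁻¹ • T (z i - x)) atTop (𝓝 w)) {θ : ℝ}
    (hθ : ∀ i, θ ≤ gmtThA A S (z i)) {Ti : ℕ → E m ≃L[ℝ] E m}
    (hTi : ∀ i, GmtFrame (A (z i)) (Ti i)) {O : E m ≃ₗᵢ[ℝ] E m}
    (hO : Tendsto (fun i => ((T : E m →L[ℝ] E m).comp ((Ti i).symm : E m →L[ℝ] E m))) atTop
      (𝓝 (O.toContinuousLinearEquiv : E m →L[ℝ] E m))) {σ : ℝ} (hσ : 0 < σ) :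
    θ ≤ gmtI C w σ := by
  -- the affine maps
  set L : ℕ → E m ≃L[ℝ] E m := fun i => ((Ti i).symm.trans T).trans (gmtHom σ hσ.ne') with hL
  set L' : E m ≃L[ℝ] E m := O.toContinuousLinearEquiv.trans (gmtHom σ hσ.ne') with hL'
  have hLlim : Tendsto (fun i => (L i : E m →L[ℝ] E m)) atTop (𝓝 (L' : E m →L[ℝ] E m)) := by
    have h1 : (fun i => (L i : E m →L[ℝ] E m)) =
        fun i => σ • ((T : E m →L[ℝ] E m).comp ((Ti i).symm : E m →L[ℝ] E m)) := by
      funext i; ext1 y; simp [hL, gmtHom_apply]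
    have h2 : (L' : E m →L[ℝ] E m) = σ • (O.toContinuousLinearEquiv : E m →L[ℝ] E m) := by
      ext1 y; simp [hL', gmtHom_apply]
    rw [h1, h2]
    exact hO.const_smul σ
  have hconv := gmtConv_affine (fun i => measurableSet_gmtBlow T x (r i) hS.meas) hC hc hLlim hw
  -- identification of the sets
  have hset : (fun i => {y | (r i)⁻¹ • T (z i - x) + L i y ∈ gmtBlow T x (r i) S}) =
      fun i => gmtBlow (Ti i) (z i) (σ * r i) S := by
    funext i
    ext y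
    simp only [gmtBlow, gmtAff, mem_preimage, mem_ofPred_eq, hL, ContinuousLinearEquiv.trans_apply,
      gmtHom_apply, map_add, map_smul, ContinuousLinearEquiv.symm_apply_apply]
    have : x + r i • ((r i)⁻¹ • (z i - x) + σ • (Ti i).symm y) =
        z i + (σ * r i) • (Ti i).symm y := by
      rw [smul_add, smul_smul, mul_inv_cancel₀ (hr i).ne', one_smul, smul_smul, mul_comm (r i) σ]
      abel
    rw [this]
  have hset' : {y | w + L' y ∈ C} = gmtBlow O.symm.toContinuousLinearEquiv w σ C := by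
    ext y
    simp [gmtBlow, gmtAff, hL', gmtHom_apply]
  rw [hset, hset'] at hconv
  have hseq : GmtBlowSeq K A z Ti (fun i => σ * r i) :=
    ⟨hz, hTi, fun i => mul_pos hσ (hr i), by simpa using hr0.const_mul σ⟩
  have hC' : MeasurableSet (gmtBlow O.symm.toContinuousLinearEquiv w σ C) :=
    measurableSet_gmtBlow _ _ _ hC
  obtain ⟨-, hwk⟩ := gmt_blow_limit hm hd hS hK hKU hseq hC' hconv
  have hIlim := gmtI_wk hwk 0 one_pos
  have hIeq : gmtI (gmtBlow O.symm.toContinuousLinearEquiv w σ C) 0 1 = gmtI C w σ := by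
    rw [gmtI_gmtBlow O.symm w hσ hC 0 1]
    simp [gmtAff]
  rw [hIeq] at hIlim
  obtain ⟨C₁, R, hC₁, hR, hle⟩ := gmtThA_le hm hd hS hK hKU
  have hsmall : ∀ᶠ i in atTop, σ * r i < R := by
    have : Tendsto (fun i => σ * r i) atTop (𝓝 0) := by simpa using hr0.const_mul σ
    exact this.eventually (gt_mem_nhds hR)
  have hlim2 : Tendsto (fun i => gmtI (gmtBlow (Ti i) (z i) (σ * r i) S) 0 1 + C₁ * (σ * r i))
      atTop (𝓝 (gmtI C w σ + C₁ * (σ * 0))) :=
    hIlim.add ((hr0.const_mul σ).const_mul C₁)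
  have := ge_of_tendsto hlim2 (hsmall.mono fun i hi =>
    (hθ i).trans (hle (z i) (hz i) (Ti i) (hTi i) _ (mul_pos hσ (hr i)) hi))
  simpa using this

/-- UPPER SEMICONTINUITY of the density along a blow-up. -/
theorem gmt_usc (hm : 2 ≤ m) {U S : Set (E m)} {A : E m → Bil m} {f : E m → ℝ}
    (hd : GmtData U A f) (hS : GmtLAM A f U S) {x : E m} (hx : x ∈ U) {T : E m ≃L[ℝ] E m}
    (hT : GmtFrame (A x) T) {r : ℕ → ℝ} (hr : ∀ i, 0 < r i) (hr0 : Tendsto r atTop (𝓝 0))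
    {C : Set (E m)} (hC : MeasurableSet C)
    (hc : GmtConv univ (fun i => gmtBlow T x (r i) S) C) {z : ℕ → E m} {w : E m}
    (hw : Tendsto (fun i => (r i)⁻¹ • T (z i - x)) atTop (𝓝 w)) {θ : ℝ}
    (hθ : ∀ᶠ i in atTop, θ ≤ gmtThA A S (z i)) {σ : ℝ} (hσ : 0 < σ) : θ ≤ gmtI C w σ := by
  obtain ⟨δ, hδ, hδU⟩ := Metric.nhds_basis_closedBall.mem_iff.1 (hd.opn.mem_nhds hx)
  have hK : IsCompact (closedBall x δ) := isCompact_closedBall x δ
  -- `z i → x`
  have hzx : Tendsto z atTop (𝓝 x) := by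
    have h1 : Tendsto (fun i => r i • ((r i)⁻¹ • T (z i - x))) atTop (𝓝 ((0 : ℝ) • w)) :=
      hr0.smul hw
    have h2 : (fun i => r i • ((r i)⁻¹ • T (z i - x))) = fun i => T (z i - x) := by
      funext i; rw [smul_smul, mul_inv_cancel₀ (hr i).ne', one_smul]
    rw [h2, zero_smul] at h1
    have h3 : Tendsto (fun i => T.symm (T (z i - x))) atTop (𝓝 (T.symm 0)) :=
      (T.symm.continuous.tendsto 0).comp h1
    simp only [ContinuousLinearEquiv.symm_apply_apply, map_zero] at h3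
    have h4 := h3.add_const x
    simpa using h4
  have hev : ∀ᶠ i in atTop, z i ∈ closedBall x δ ∧ θ ≤ gmtThA A S (z i) :=
    (hzx.eventually (closedBall_mem_nhds x hδ)).and hθ
  obtain ⟨φ₀, hφ₀, hP⟩ := extraction_of_eventually_atTop hev
  obtain ⟨c, C₀, hc0, -, hell⟩ := gmtInt_ell hd.opn hd.int hK hδU
  have hTi : ∀ i, GmtFrame (A (z (φ₀ i))) (gmtFr (A (z (φ₀ i)))) :=
    fun i => gmtFr_spec hm hc0 (hell _ (hP i).1)
  have hAlim : Tendsto (fun i => A (z (φ₀ i))) atTop (𝓝 (A x)) := by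
    have hcont : ContinuousAt A x :=
      (hd.int.smooth.continuousOn).continuousAt (hd.opn.mem_nhds hx)
    exact hcont.tendsto.comp (hzx.comp hφ₀.tendsto_atTop)
  obtain ⟨φ₁, O, hφ₁, hO⟩ := gmt_frame_limit hm hc0 (fun i => hell _ (hP i).1) hAlim hTi hT
  have hφ : StrictMono (fun i => φ₀ (φ₁ i)) := hφ₀.comp hφ₁
  exact gmt_usc_core hm hd hS hK hδU (r := fun i => r (φ₀ (φ₁ i))) (fun i => hr _)
    (hr0.comp hφ.tendsto_atTop) hC (GmtConv.comp hc hφ) (z := fun i => z (φ₀ (φ₁ i)))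
    (fun i => (hP (φ₁ i)).1) (hw.comp hφ.tendsto_atTop) (fun i => (hP (φ₁ i)).2)
    (Ti := fun i => gmtFr (A (z (φ₀ (φ₁ i))))) (fun i => hTi (φ₁ i)) hO hσ

/-- limits of points of almost maximal density lie in the spine of the tangent cone. -/
theorem gmt_usc_spine (hm : 2 ≤ m) {U S : Set (E m)} {A : E m → Bil m} {f : E m → ℝ}
    (hd : GmtData U A f) (hS : GmtLAM A f U S) {x : E m} (hx : x ∈ U) {T : E m ≃L[ℝ] E m}
    (hT : GmtFrame (A x) T) {r : ℕ → ℝ} (hr : ∀ i, 0 < r i) (hr0 : Tendsto r atTop (𝓝 0))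
    {C : Set (E m)} (hC : MeasurableSet C)
    (hc : GmtConv univ (fun i => gmtBlow T x (r i) S) C) {z : ℕ → E m} {w : E m}
    (hw : Tendsto (fun i => (r i)⁻¹ • T (z i - x)) atTop (𝓝 w))
    (hθ : ∀ ε > 0, ∀ᶠ i in atTop, gmtThA A S x - ε ≤ gmtThA A S (z i)) : w ∈ gmtSpine C := by
  obtain ⟨hmin, hcone, hI, -, -⟩ := gmt_tangent_props hm hd hS hx hT hr hr0 hC hc
  refine gmt_cone_inv (by omega) hmin hcone fun σ hσ => ?_
  refine le_of_forall_pos_le_add fun ε hε => ?_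
  have := gmt_usc hm hd hS hx hT hr hr0 hC hc hw (hθ ε hε) hσ
  rw [hI]; linarith

/-- tangent cones of a minimising cone at `z ≠ 0` are invariant along `z`. -/
theorem gmt_tangent_of_cone (hm : 2 ≤ m) {C₀ : Set (E m)} (hC₀ : GmtMin univ C₀)
    (hc₀ : GmtCone C₀) (z : E m) {r : ℕ → ℝ} (hr : ∀ i, 0 < r i)
    (hr0 : Tendsto r atTop (𝓝 0)) {C : Set (E m)} (hC : MeasurableSet C)
    (hc : GmtConv univ (fun i => gmtDil z (r i) C₀) C) : z ∈ gmtSpine C := by
  have hmin : GmtLAM (fun _ => gmtEu m) (fun _ => 0) univ C₀ := hC₀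
  refine gmt_usc_spine hm gmtData_eu hmin (mem_univ z) gmt_frame_eu hr hr0 hC
    (by simpa only [gmtBlow_refl] using hc) (z := fun i => (1 + r i) • z) (w := z) ?_ ?_
  · have : (fun i => (r i)⁻¹ • (ContinuousLinearEquiv.refl ℝ (E m)) ((1 + r i) • z - z)) =
        fun _ => z := by
      funext i
      have h1 : (1 + r i) • z - z = r i • z := by
        rw [add_smul, one_smul, add_sub_cancel_left]
      simp only [ContinuousLinearEquiv.coe_refl', id_eq, h1]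
      rw [smul_smul, inv_mul_cancel₀ (hr i).ne', one_smul]
    rw [this]
    exact tendsto_const_nhds
  · intro ε hε
    refine Eventually.of_forall fun i => ?_
    rw [gmtThA_eu hm hC₀, gmtThA_eu hm hC₀,
      gmtTh_cone_ray (by omega) hmin.meas hc₀ z (by have := hr i; linarith)]
    linarith

end Claimed.Agent.Gmt
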