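import Claimed.Agent.Lib.Gmt.Defs

/-!
# Lib/Gmt: smooth data and their convergence (definitions used by the interface `IF*.lean`).
Sub-captain: helper184.
-/

set_option autoImplicit false
open scoped ContDiff ENNReal RealInnerProductSpace
open MeasureTheory Metric Set Filter

namespace Claimed.Agent.Gmt

variable {m : ℕ}

/-- smooth data on the open set `U`. -/
structure GmtData (U : Set (E m)) (A : E m → Bil m) (f : E m → ℝ) : Prop where
  opn : IsOpen U
  int : GmtInt U A
  f : ContDiffOn ℝ ∞ f U

/-- smoothly convergent data on exhausting windows. -/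
structure GmtDataConv (U : ℕ → Set (E m)) (A : ℕ → E m → Bil m) (f : ℕ → E m → ℝ)
    (U' : Set (E m)) (A' : E m → Bil m) (f' : E m → ℝ) : Prop where
  data : ∀ i, GmtData (U i) (A i) (f i)
  data' : GmtData U' A' f'
  exh : ∀ K, IsCompact K → K ⊆ U' → ∀ᶠ i in atTop, K ⊆ U i
  convA : GmtSmoothConv U' A A'
  convf : GmtSmoothConv U' f f'

/-- the vector `a ξ` with `⟪a ξ, η⟫ = B ξ η`. -/
noncomputable def gmtSharp (B : Bil m) (ξ : E m) : E m :=
  (InnerProductSpace.toDual ℝ (E m)).symm (B ξ)

end Claimed.Agent.Gmt
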