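import Mathlib

/-!
# Lib/Gmt: codimension one geometric measure theory in a chart.  DEFINITIONS.

Sub-captain: helper184.  Row-neutral library (used by row 315).  Everything lives on open subsets of
`E m = EuclideanSpace ℝ (Fin m)`.

* an *integrand* is a field of positive definite symmetric bilinear forms `A : E m → Bil m`; the
  `A`-perimeter of `S` in the open set `U` is
  `gmtPer A S U = sup { ∫_S div T : T ∈ C¹_c(U), T(x)·ξ ≤ √(A x ξ ξ) for all x, ξ }`
  `            = ∫_U √(A x ν ν) d|Dχ_S|`.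
  For a Riemannian metric with matrix `G`, and a weight `ω`, the weighted perimeter is the one of
  `A = ω² det(G) G⁻¹`.  The Euclidean perimeter is `gmtP S U` (`A = inner`).
* `gmtPerM A S`, `gmtMu S`: perimeter measures (no reference open set, no finiteness hypothesis);
  `gmtNu S`: measure theoretic OUTER unit normal (`GmtNuSpec`: Gauss-Green formula).
* `gmtBd S`: measure theoretic topological boundary `= spt |Dχ_S|`.
* `GmtLAM A f U S`: `S` is a local absolute minimiser of `Per_A - ∫_S f` in `U`.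
* `GmtReg S x`: near `x` the set `S` is `{φ < 0}` (a.e.) for a smooth `φ` without critical points.
-/

set_option autoImplicit false
open scoped ContDiff ENNReal RealInnerProductSpace
open MeasureTheory Metric Set

namespace Claimed.Agent.Gmt

/-- the model space. -/
abbrev E (m : ℕ) := EuclideanSpace ℝ (Fin m)

/-- coordinate vectors. -/
noncomputable abbrev eb {m : ℕ} (i : Fin m) : E m := EuclideanSpace.single i 1

/-- bilinear forms on `E m`. -/
abbrev Bil (m : ℕ) := E m →L[ℝ] E m →L[ℝ] ℝ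

/-- the Euclidean form. -/
noncomputable def gmtEu (m : ℕ) : Bil m := innerSL ℝ

variable {m : ℕ}

/-- divergence of a vector field. -/
noncomputable def gmtDiv (T : E m → E m) (x : E m) : ℝ := ∑ i : Fin m, fderiv ℝ T x (eb i) i

/-- `C¹` test fields with compact support in `U`. -/
structure GmtTest (U : Set (E m)) (T : E m → E m) : Prop where
  c1 : ContDiff ℝ 1 T
  cpt : HasCompactSupport T
  sub : tsupport T ⊆ U

/-- smooth test fields with compact support in `U`. -/
structure GmtTestS (U : Set (E m)) (T : E m → E m) : Prop where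
  smooth : ContDiff ℝ ∞ T
  cpt : HasCompactSupport T
  sub : tsupport T ⊆ U

/-- scalar `C¹` test functions with compact support in `U`. -/
structure GmtTest0 (U : Set (E m)) (φ : E m → ℝ) : Prop where
  c1 : ContDiff ℝ 1 φ
  cpt : HasCompactSupport φ
  sub : tsupport φ ⊆ U

/-- `T` has dual `A`-norm at most one: `T(x)·ξ ≤ √(A x ξ ξ)`. -/
def GmtAdm (A : E m → Bil m) (T : E m → E m) : Prop :=
  ∀ x ξ : E m, ⟪T x, ξ⟫ ≤ Real.sqrt (A x ξ ξ)

/-- the `A`-perimeter of `S` in `U`. -/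
noncomputable def gmtPer (A : E m → Bil m) (S U : Set (E m)) : ℝ≥0∞ :=
  ⨆ (T : E m → E m) (_ : GmtTest U T) (_ : GmtAdm A T), ENNReal.ofReal (∫ x in S, gmtDiv T x)

/-- the Euclidean perimeter of `S` in `U`. -/
noncomputable def gmtP (S U : Set (E m)) : ℝ≥0∞ := gmtPer (fun _ => gmtEu m) S U

/-- smooth elliptic integrand on `U`. -/
structure GmtInt (U : Set (E m)) (A : E m → Bil m) : Prop where
  smooth : ContDiffOn ℝ ∞ A U
  symm : ∀ x ∈ U, ∀ ξ η : E m, A x ξ η = A x η ξ
  pos : ∀ x ∈ U, ∀ ξ : E m, ξ ≠ 0 → 0 < A x ξ ξ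

/-- quantitative control of an integrand on `U`: `κ₀`-close to Euclidean, Lipschitz constant `L`. -/
structure GmtIntQ (κ₀ L : ℝ) (U : Set (E m)) (A : E m → Bil m) : Prop where
  symm : ∀ x ∈ U, ∀ ξ η : E m, A x ξ η = A x η ξ
  close : ∀ x ∈ U, ∀ ξ : E m, |A x ξ ξ - ‖ξ‖ ^ 2| ≤ κ₀ * ‖ξ‖ ^ 2
  lip : ∀ x ∈ U, ∀ y ∈ U, ∀ ξ : E m, |A x ξ ξ - A y ξ ξ| ≤ L * ‖x - y‖ * ‖ξ‖ ^ 2

/-- `W` is open and relatively compact in `U`. -/
def GmtCC (W U : Set (E m)) : Prop := IsOpen W ∧ IsCompact (closure W) ∧ closure W ⊆ U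

/-- `S` and `S'` differ only inside a compact subset of `W`. -/
def GmtCD (S S' W : Set (E m)) : Prop := ∃ K, IsCompact K ∧ K ⊆ W ∧ symmDiff S S' ⊆ K

/-- `S` has locally finite perimeter in `U`. -/
def GmtLF (S U : Set (E m)) : Prop := MeasurableSet S ∧ ∀ W, GmtCC W U → gmtP S W ≠ ⊤

/-- the `A`-perimeter MEASURE of `S`: the outer regular Borel measure whose value on every open set
`U` is `gmtPer A S U` (it exists for all `A`, `S`: De Giorgi-Letta; `gmt_perM_spec`). -/
def GmtPerMSpec (A : E m → Bil m) (S : Set (E m)) (μ : Measure (E m)) : Prop :=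
  μ.OuterRegular ∧ ∀ U, IsOpen U → μ U = gmtPer A S U

open Classical in
/-- the `A`-perimeter measure `√(A x ν ν) |Dχ_S|`. -/
noncomputable def gmtPerM (A : E m → Bil m) (S : Set (E m)) : Measure (E m) :=
  if h : ∃ μ : Measure (E m), GmtPerMSpec A S μ then h.choose else 0

/-- the Euclidean perimeter measure `|Dχ_S|`. -/
noncomputable def gmtMu (S : Set (E m)) : Measure (E m) := gmtPerM (fun _ => gmtEu m) S

/-- `ν` is a measure theoretic OUTER unit normal of `S`: the Gauss-Green formula holds on every open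
set in which `S` has locally finite perimeter. -/
structure GmtNuSpec (S : Set (E m)) (ν : E m → E m) : Prop where
  meas : Measurable ν
  unit : ∀ x, ‖ν x‖ = 1 ∨ ν x = 0
  unit_ae : ∀ U, IsOpen U → GmtLF S U → ∀ᵐ x ∂((gmtMu S).restrict U), ‖ν x‖ = 1
  gg : ∀ U, IsOpen U → GmtLF S U → ∀ T, GmtTest U T →
    ∫ x in S, gmtDiv T x = ∫ x, ⟪T x, ν x⟫ ∂(gmtMu S)

open Classical in
/-- the measure theoretic outer unit normal of `S`. -/
noncomputable def gmtNu (S : Set (E m)) : E m → E m :=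
  if h : ∃ ν : E m → E m, GmtNuSpec S ν then h.choose else 0

/-- measure theoretic topological boundary (`= spt |Dχ_S|`). -/
def gmtBd (S : Set (E m)) : Set (E m) :=
  {x | ∀ r > 0, 0 < volume (S ∩ ball x r) ∧ 0 < volume (ball x r \ S)}

/-- `S` is a local absolute minimiser of `Per_A(S) - ∫_S f` in `U`. -/
structure GmtLAM (A : E m → Bil m) (f : E m → ℝ) (U S : Set (E m)) : Prop where
  meas : MeasurableSet S
  fin : ∀ W, GmtCC W U → gmtPer A S W ≠ ⊤
  min : ∀ W S', GmtCC W U → MeasurableSet S' → GmtCD S S' W → gmtPer A S' W ≠ ⊤ →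
    (gmtPer A S W).toReal - ∫ x in S ∩ W, f x ≤ (gmtPer A S' W).toReal - ∫ x in S' ∩ W, f x

/-- Euclidean perimeter minimiser in `U`. -/
def GmtMin (U S : Set (E m)) : Prop := GmtLAM (fun _ => gmtEu m) (fun _ => 0) U S

/-- `x` is a regular boundary point of `S`. -/
def GmtReg (S : Set (E m)) (x : E m) : Prop :=
  ∃ r > 0, ∃ φ : E m → ℝ, ContDiffOn ℝ ∞ φ (ball x r) ∧ φ x = 0 ∧
    (∀ y ∈ ball x r, fderiv ℝ φ y ≠ 0) ∧
    (S ∩ ball x r : Set (E m)) =ᵐ[volume] ({y | y ∈ ball x r ∧ φ y < 0} : Set (E m))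

/-- the regular part of the boundary in `U`. -/
def gmtRegSet (S U : Set (E m)) : Set (E m) := {x | x ∈ U ∧ GmtReg S x}

/-- the singular set in `U`. -/
def gmtSing (S U : Set (E m)) : Set (E m) := {x | x ∈ U ∧ x ∈ gmtBd S ∧ ¬ GmtReg S x}

/-- the open half space with outer normal `e` through `x`. -/
def gmtHalf (x e : E m) : Set (E m) := {y | ⟪y - x, e⟫ < 0}

/-- horizontal part of `y` with respect to the unit vector `e`. -/
noncomputable def gmtPr (e y : E m) : E m := y - ⟪y, e⟫ • e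

/-- the open cylinder `C(x, r, e)`. -/
def gmtCyl (x : E m) (r : ℝ) (e : E m) : Set (E m) :=
  {y | ‖gmtPr e (y - x)‖ < r ∧ |⟪y - x, e⟫| < r}

/-- the cylindrical excess `e(S, x, r, e) = r^{1-m} ∫_{C(x,r,e)} (1 - ν·e) d|Dχ_S|`. -/
noncomputable def gmtExc (S : Set (E m)) (x : E m) (r : ℝ) (e : E m) : ℝ :=
  (r ^ (m - 1))⁻¹ * ∫ y in gmtCyl x r e, (1 - ⟪gmtNu S y, e⟫) ∂(gmtMu S)

/-- dilation: `gmtDil x ρ S = (S - x)/ρ`. -/
def gmtDil (x : E m) (ρ : ℝ) (S : Set (E m)) : Set (E m) := {y | x + ρ • y ∈ S}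

/-- convergence of sets in `L¹_loc(U)`. -/
def GmtConv (U : Set (E m)) (S : ℕ → Set (E m)) (S' : Set (E m)) : Prop :=
  ∀ K, IsCompact K → K ⊆ U →
    Filter.Tendsto (fun i => volume (symmDiff (S i) S' ∩ K)) Filter.atTop (nhds 0)

/-- `C^∞_loc(U)` convergence of maps into a normed space. -/
def GmtSmoothConv {F : Type} [NormedAddCommGroup F] [NormedSpace ℝ F] (U : Set (E m))
    (a : ℕ → E m → F) (a' : E m → F) : Prop :=
  ∀ K, IsCompact K → K ⊆ U → ∀ k : ℕ,
    TendstoUniformlyOn (fun i x => iteratedFDeriv ℝ k (a i) x) (fun x => iteratedFDeriv ℝ k a' x)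
      Filter.atTop K

/-- volume of the unit ball of `E k`. -/
noncomputable def gmtOm (k : ℕ) : ℝ := (volume (ball (0 : E k) 1)).toReal

/-- `S` is a cone with vertex `0` (up to null sets). -/
def GmtCone (S : Set (E m)) : Prop := ∀ ρ > 0, (gmtDil 0 ρ S : Set (E m)) =ᵐ[volume] S

/-- `S` is invariant under the translation by `v` (up to null sets). -/
def GmtInv (S : Set (E m)) (v : E m) : Prop :=
  ({y | y + v ∈ S} : Set (E m)) =ᵐ[volume] S

/-! ### vertical / horizontal coordinates on `E (n+1)` -/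

/-- the point `(z, t)` of `E (n+1)`. -/
noncomputable def gmtJoin {n : ℕ} (z : E n) (t : ℝ) : E (n + 1) :=
  WithLp.toLp 2 (Fin.snoc (α := fun _ => ℝ) (fun i => z i) t)

/-- the first `n` coordinates, as a continuous linear map. -/
noncomputable def gmtHorL (n : ℕ) : E (n + 1) →L[ℝ] E n :=
  ((EuclideanSpace.equiv (Fin n) ℝ).symm : (Fin n → ℝ) →L[ℝ] E n).comp
    (ContinuousLinearMap.pi fun i => EuclideanSpace.proj (Fin.castSucc i))

/-- the last coordinate, as a continuous linear map. -/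
noncomputable def gmtVerL (n : ℕ) : E (n + 1) →L[ℝ] ℝ := EuclideanSpace.proj (Fin.last n)

/-- the first `n` coordinates. -/
noncomputable def gmtHor {n : ℕ} (y : E (n + 1)) : E n := gmtHorL n y

/-- the last coordinate. -/
noncomputable def gmtVer {n : ℕ} (y : E (n + 1)) : ℝ := gmtVerL n y

/-- the vertical unit vector. -/
noncomputable abbrev gmtEn (n : ℕ) : E (n + 1) := eb (Fin.last n)

/-- the open subgraph of `u`. -/
def gmtSub {n : ℕ} (u : E n → ℝ) : Set (E (n + 1)) := {y | gmtVer y < u (gmtHor y)}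

/-- the cylinder over `S` : `S × ℝ`. -/
def gmtTimesR {n : ℕ} (S : Set (E n)) : Set (E (n + 1)) := {y | gmtHor y ∈ S}

/-- the product integrand `A ⊕ c dt²` on `E (n+1)`.  (For the product metric `G ⊕ dt²` with the
pulled back weight `ω` one has `A = ω² det G G⁻¹` and `c = ω² det G`.) -/
noncomputable def gmtProdInt {n : ℕ} (A : E n → Bil n) (c : E n → ℝ) : E (n + 1) → Bil (n + 1) :=
  fun y => (A (gmtHor y)).bilinearComp (gmtHorL n) (gmtHorL n) +
    c (gmtHor y) • (gmtVerL n).smulRight (gmtVerL n)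

/-! ### the centred class of almost minimisers -/

/-- **The class `AM(κ, Λ; x₀, R)`**: `S` has locally finite perimeter in `B_R(x₀)` and for `r ≤ R`
* (AM) `P(S;W) ≤ (1 + κ r) P(S';W) + Λ |S Δ S'|` whenever `S Δ S' ⊂⊂ W ⊂⊂ B_r(x₀)`;
* (FV) `|∫ (div X - ν·DX ν) dμ_S| ≤ ∫ (κ r |DX| + (κ + Λ) |X|) dμ_S` for smooth `X` with compact
  support in `B_r(x₀)`.
Local absolute minimisers of `Per_A - ∫ f` belong to it after the affine normalisation
`A x₀ = Euclidean`. -/
structure GmtAM (κ Λ : ℝ) (x₀ : E m) (R : ℝ) (S : Set (E m)) : Prop where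
  lf : GmtLF S (ball x₀ R)
  am : ∀ r ≤ R, ∀ W S', GmtCC W (ball x₀ r) → MeasurableSet S' → GmtCD S S' W →
    gmtP S W ≤ ENNReal.ofReal (1 + κ * r) * gmtP S' W + ENNReal.ofReal Λ * volume (symmDiff S S')
  fv : ∀ r ≤ R, ∀ X, GmtTestS (ball x₀ r) X →
    |∫ x, (gmtDiv X x - ⟪gmtNu S x, fderiv ℝ X x (gmtNu S x)⟫) ∂(gmtMu S)| ≤
      ∫ x, (κ * r * ‖fderiv ℝ X x‖ + (κ + Λ) * ‖X x‖) ∂(gmtMu S)

end Claimed.Agent.Gmt
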