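import Claimed.Agent.Lib.Gmt.DiffeoA

/-!
# Lib/Gmt DIF: invariance of boundary / regular / singular points under local diffeomorphisms.   (architect: helper184)

Used by `R315/Ct/RegA.lean` (independence of the chart).  `FrD.gmtBd_gmtBlow`, `FrD.gmtReg_gmtBlow`, `FrD.gmtSing_gmtBlow` are the special case `W = W' = univ`, `τ = (gmtAff T z r)⁻¹`.
Pure Mathlib (no BV theory).  The structure `GmtDiffeo W W' τ σ` and its basic API (`symm`, `differentiableAt`, `fderiv_comp`, `fderiv_comp'`, `injOn`, `image_eq`, `isOpen_image`, `restrict`) are in `DiffeoA.lean` (helper274).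

PLAN OF PROOFS
* `GmtDiffeo.null_image`: `MeasureTheory.Measure.addHaar_image_eq_zero_of_differentiableOn_of_addHaar_eq_zero` (`τ` differentiable on `N ⊆ W`).
* `GmtDiffeo.preimage_eq`: `τ ⁻¹' N' ∩ W = σ '' (N' ∩ W')` (set algebra with `left`, `right`, `maps`, `maps'`).
* `GmtDiffeo.exists_ball`: `σ` is continuous at `τ u` (`ContDiffOn.continuousOn`, `IsOpen.mem_nhds`), `σ (τ u) = u`; `Metric.continuousAt_iff`; intersect with a ball inside `W'`.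
* `gmtFull_diffeo` (→): `ball u r \ S` null; shrink `r` so that `ball u r ⊆ W`; `r'` from `exists_ball`; `ball (τ u) r' \ S' ⊆ τ '' (ball u r \ S)` [`v = τ (σ v)`, `σ v ∈ ball u r`, `σ v ∉ S` by `hS`]; `null_image`.  (←): apply (→) to `h.symm` (`S' ∩ W' = σ ⁻¹' S ∩ W'`).   `gmtNull_diffeo`: the same with `∩`.
* `gmtBd_diffeo`: `u ∉ gmtBd S ↔ (∃ r > 0, volume (S ∩ ball u r) = 0) ∨ (∃ r > 0, volume (ball u r \ S) = 0)` (`pos_iff_ne_zero`, `not_and_or`, `push_neg`), then `gmtNull_diffeo`, `gmtFull_diffeo`.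
* `gmtReg_diffeo` (←): `(r', φ')` for `S'` at `τ u`, w.l.o.g. `ball (τ u) r' ⊆ W'`; `r` with `ball u r ⊆ W`, `τ '' ball u r ⊆ ball (τ u) r'`; `φ = φ' ∘ τ`: smooth on `ball u r`; `fderiv φ y = (fderiv φ' (τ y)).comp (fderiv τ y)`, `fderiv τ y` is invertible
  (`(fderiv σ (τ y)).comp (fderiv τ y) = id` by the chain rule for `σ ∘ τ = id` near `y`), so `fderiv φ y ≠ 0`;  `symmDiff (S ∩ ball u r) {y ∈ ball u r | φ y < 0} ⊆ σ '' (symmDiff (S' ∩ ball (τ u) r') {...})` null.  (→): `h.symm`.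
* `gmtReg_mem_gmtBd`: `φ x = 0`, `fderiv φ x ≠ 0`: pick `v` with `fderiv φ x v < 0`; `φ (x + s v) < 0 < φ (x - s v)` for small `s > 0` (`HasFDerivAt` ⇒ `HasDerivAt` of `s ↦ φ (x + s v)`; `HasDerivAt.eventually...`/ little-o); the open nonempty sets `{φ < 0} ∩ ball x ρ`, `{φ > 0} ∩ ball x ρ` have positive volume (`IsOpen.measure_pos`) and are a.e. contained in `S`, resp. `Sᶜ`.
* `gmtReg_open`: with `(r, φ)` at `x`: if `y ∈ ball x r ∩ gmtBd S` then `φ y = 0` [if `φ y < 0` then `S` has full measure in a small ball around `y`; if `φ y > 0` it is null there]; `(r - dist y x, φ)` is a regular datum at `y`.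
-/

set_option autoImplicit false
open scoped ContDiff ENNReal RealInnerProductSpace Topology
open MeasureTheory Metric Set Filter

namespace Claimed.Agent.Gmt

variable {m : ℕ}

variable {W W' : Set (E m)} {τ σ : E m → E m}

theorem gmtDiffeo_refl (hW : IsOpen W) : GmtDiffeo W W id id :=
  ⟨hW, hW, contDiffOn_id, contDiffOn_id, fun _ h => h, fun _ h => h, fun _ _ => rfl, fun _ _ => rfl⟩

theorem GmtDiffeo.null_image (h : GmtDiffeo W W' τ σ) {N : Set (E m)} (hN : N ⊆ W)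
    (h0 : volume N = 0) : volume (τ '' N) = 0 := by
  exact MeasureTheory.addHaar_image_eq_zero_of_differentiableOn_of_addHaar_eq_zero volume
    (fun x hx => (h.differentiableAt (hN hx)).differentiableWithinAt) h0

theorem GmtDiffeo.preimage_eq (h : GmtDiffeo W W' τ σ) (N' : Set (E m)) :
    τ ⁻¹' N' ∩ W = σ '' (N' ∩ W') := by
  ext x
  constructor
  · rintro ⟨h1, h2⟩
    exact ⟨τ x, ⟨h1, h.maps h2⟩, h.left x h2⟩
  · rintro ⟨y, ⟨hy1, hy2⟩, rfl⟩
    refine ⟨?_, h.maps' hy2⟩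
    show τ (σ y) ∈ N'
    rw [h.right y hy2]
    exact hy1

theorem GmtDiffeo.symm_rel (h : GmtDiffeo W W' τ σ) {S S' : Set (E m)}
    (hS : S ∩ W = τ ⁻¹' S' ∩ W) : S' ∩ W' = σ ⁻¹' S ∩ W' := by
  ext y
  constructor
  · rintro ⟨h1, h2⟩
    refine ⟨?_, h2⟩
    have h3 : σ y ∈ τ ⁻¹' S' ∩ W := by
      refine ⟨?_, h.maps' h2⟩
      show τ (σ y) ∈ S'
      rw [h.right y h2]
      exact h1
    rw [← hS] at h3
    exact h3.1
  · rintro ⟨h1, h2⟩
    refine ⟨?_, h2⟩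
    have h3 : σ y ∈ S ∩ W := ⟨h1, h.maps' h2⟩
    rw [hS] at h3
    have h4 : τ (σ y) ∈ S' := h3.1
    rwa [h.right y h2] at h4

theorem GmtDiffeo.exists_ball (h : GmtDiffeo W W' τ σ) {u : E m} (hu : u ∈ W) {r : ℝ}
    (hr : 0 < r) : ∃ r' > 0, ball (τ u) r' ⊆ W' ∧ ∀ v ∈ ball (τ u) r', σ v ∈ ball u r := by
  have hc : ContinuousAt σ (τ u) := h.smooth'.continuousOn.continuousAt (h.opn'.mem_nhds (h.maps hu))
  have h1 : σ ⁻¹' (ball u r) ∈ 𝓝 (τ u) := by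
    apply hc.preimage_mem_nhds
    rw [h.left u hu]
    exact ball_mem_nhds u hr
  obtain ⟨r', hr', hsub⟩ := Metric.mem_nhds_iff.1 (Filter.inter_mem (h.opn'.mem_nhds (h.maps hu)) h1)
  exact ⟨r', hr', fun v hv => (hsub hv).1, fun v hv => (hsub hv).2⟩

theorem gmtDif_full_aux (h : GmtDiffeo W W' τ σ) {S S' : Set (E m)}
    (hS : S ∩ W = τ ⁻¹' S' ∩ W) {u : E m} (hu : u ∈ W) :
    (∃ r > 0, volume (ball u r \ S) = 0) → ∃ r > 0, volume (ball (τ u) r \ S') = 0 := by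
  rintro ⟨r, hr, h0⟩
  obtain ⟨r₁, hr₁, hsub⟩ := Metric.isOpen_iff.1 h.opn u hu
  have hr₂ : 0 < min r r₁ := lt_min hr hr₁
  obtain ⟨r', hr', hW', hσ⟩ := h.exists_ball hu hr₂
  refine ⟨r', hr', ?_⟩
  have hN : ball u (min r r₁) \ S ⊆ W :=
    fun y hy => hsub (ball_subset_ball (min_le_right _ _) hy.1)
  have hN0 : volume (ball u (min r r₁) \ S) = 0 :=
    measure_mono_null (sdiff_subset_sdiff_left (ball_subset_ball (min_le_left _ _))) h0
  refine measure_mono_null ?_ (h.null_image hN hN0)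
  rintro v ⟨hv, hvS⟩
  refine ⟨σ v, ⟨hσ v hv, fun hs => hvS ?_⟩, h.right v (hW' hv)⟩
  have h3 : σ v ∈ S ∩ W := ⟨hs, h.maps' (hW' hv)⟩
  rw [hS] at h3
  have h4 : τ (σ v) ∈ S' := h3.1
  rwa [h.right v (hW' hv)] at h4

theorem gmtFull_diffeo (h : GmtDiffeo W W' τ σ) {S S' : Set (E m)}
    (hS : S ∩ W = τ ⁻¹' S' ∩ W) {u : E m} (hu : u ∈ W) :
    (∃ r > 0, volume (ball u r \ S) = 0) ↔ ∃ r > 0, volume (ball (τ u) r \ S') = 0 := by
  refine ⟨gmtDif_full_aux h hS hu, fun h1 => ?_⟩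
  have h2 := gmtDif_full_aux h.symm (h.symm_rel hS) (h.maps hu) h1
  rwa [h.left u hu] at h2

theorem gmtNull_diffeo (h : GmtDiffeo W W' τ σ) {S S' : Set (E m)}
    (hS : S ∩ W = τ ⁻¹' S' ∩ W) {u : E m} (hu : u ∈ W) :
    (∃ r > 0, volume (ball u r ∩ S) = 0) ↔ ∃ r > 0, volume (ball (τ u) r ∩ S') = 0 := by
  have hS' : Sᶜ ∩ W = τ ⁻¹' S'ᶜ ∩ W := by
    ext y
    constructor
    · rintro ⟨h1, h2⟩
      refine ⟨fun h3 => h1 ?_, h2⟩
      have h4 : y ∈ τ ⁻¹' S' ∩ W := ⟨h3, h2⟩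
      rw [← hS] at h4
      exact h4.1
    · rintro ⟨h1, h2⟩
      refine ⟨fun h3 => h1 ?_, h2⟩
      have h4 : y ∈ S ∩ W := ⟨h3, h2⟩
      rw [hS] at h4
      exact h4.1
  have h1 := gmtFull_diffeo h hS' hu
  simp only [sdiff_compl] at h1
  exact h1

theorem gmtDif_not_bd (S : Set (E m)) (u : E m) :
    u ∉ gmtBd S ↔ (∃ r > 0, volume (ball u r ∩ S) = 0) ∨ ∃ r > 0, volume (ball u r \ S) = 0 := by
  constructor
  · intro hn
    by_contra hcon
    push Not at hcon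
    apply hn
    intro r hr
    refine ⟨pos_iff_ne_zero.2 ?_, pos_iff_ne_zero.2 (hcon.2 r hr)⟩
    rw [inter_comm]
    exact hcon.1 r hr
  · rintro (⟨r, hr, h0⟩ | ⟨r, hr, h0⟩) hb
    · refine (hb r hr).1.ne' ?_
      rw [inter_comm]
      exact h0
    · exact (hb r hr).2.ne' h0

theorem gmtBd_diffeo (h : GmtDiffeo W W' τ σ) {S S' : Set (E m)}
    (hS : S ∩ W = τ ⁻¹' S' ∩ W) {u : E m} (hu : u ∈ W) : u ∈ gmtBd S ↔ τ u ∈ gmtBd S' := by
  rw [← not_iff_not, gmtDif_not_bd, gmtDif_not_bd, gmtNull_diffeo h hS hu, gmtFull_diffeo h hS hu]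

theorem gmtDif_reg_aux (h : GmtDiffeo W W' τ σ) {S S' : Set (E m)}
    (hS : S ∩ W = τ ⁻¹' S' ∩ W) {u : E m} (hu : u ∈ W) : GmtReg S' (τ u) → GmtReg S u := by
  rintro ⟨r', hr', φ', hφs, hφ0, hφd, hae⟩
  obtain ⟨r, hr, hsubW, hτ⟩ := h.symm.exists_ball (h.maps hu) hr'
  rw [h.left u hu] at hsubW hτ
  refine ⟨r, hr, φ' ∘ τ, hφs.comp (h.smooth.mono hsubW) hτ, hφ0, ?_, ?_⟩
  · intro y hy h0
    have hd' : DifferentiableAt ℝ φ' (τ y) :=
      (hφs.contDiffAt (isOpen_ball.mem_nhds (hτ y hy))).differentiableAt (by simp)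
    rw [fderiv_comp y hd' (h.differentiableAt (hsubW hy))] at h0
    apply hφd (τ y) (hτ y hy)
    have h1 : ((fderiv ℝ φ' (τ y)).comp (fderiv ℝ τ y)).comp (fderiv ℝ σ (τ y)) = 0 := by
      rw [h0, ContinuousLinearMap.zero_comp]
    rw [ContinuousLinearMap.comp_assoc, h.fderiv_comp' (hsubW hy), ContinuousLinearMap.comp_id] at h1
    exact h1
  · rw [← measure_symmDiff_eq_zero_iff] at hae ⊢
    refine measure_mono_null ?_ (h.symm.null_image (inter_subset_right (t := W'))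
      (measure_mono_null inter_subset_left hae))
    intro y hy
    have hyb : y ∈ ball u r := by
      rcases hy with ⟨h1, -⟩ | ⟨h1, -⟩
      · exact h1.2
      · exact h1.1
    have hyW := hsubW hyb
    have hiff : y ∈ S ↔ τ y ∈ S' := by
      constructor
      · intro h1
        have h2 : y ∈ S ∩ W := ⟨h1, hyW⟩
        rw [hS] at h2
        exact h2.1
      · intro h1
        have h2 : y ∈ τ ⁻¹' S' ∩ W := ⟨h1, hyW⟩
        rw [← hS] at h2
        exact h2.1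
    refine ⟨τ y, ⟨?_, h.maps hyW⟩, h.left y hyW⟩
    rcases hy with ⟨h1, h2⟩ | ⟨h1, h2⟩
    · exact Or.inl ⟨⟨hiff.1 h1.1, hτ y hyb⟩, fun h3 => h2 ⟨hyb, h3.2⟩⟩
    · exact Or.inr ⟨⟨hτ y hyb, h1.2⟩, fun h3 => h2 ⟨hiff.2 h3.1, hyb⟩⟩

theorem gmtReg_diffeo (h : GmtDiffeo W W' τ σ) {S S' : Set (E m)}
    (hS : S ∩ W = τ ⁻¹' S' ∩ W) {u : E m} (hu : u ∈ W) : GmtReg S u ↔ GmtReg S' (τ u) := by
  refine ⟨fun h1 => ?_, gmtDif_reg_aux h hS hu⟩
  apply gmtDif_reg_aux h.symm (h.symm_rel hS) (h.maps hu)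
  rwa [h.left u hu]

/-- locality. -/
theorem gmtBd_local (hW : IsOpen W) {S S' : Set (E m)} (hS : S ∩ W = S' ∩ W) {u : E m}
    (hu : u ∈ W) : u ∈ gmtBd S ↔ u ∈ gmtBd S' :=
  gmtBd_diffeo (gmtDiffeo_refl hW) hS hu

theorem gmtReg_local (hW : IsOpen W) {S S' : Set (E m)} (hS : S ∩ W = S' ∩ W) {u : E m}
    (hu : u ∈ W) : GmtReg S u ↔ GmtReg S' u :=
  gmtReg_diffeo (gmtDiffeo_refl hW) hS hu

theorem gmtDif_signs {φ : E m → ℝ} {x : E m} (hd : DifferentiableAt ℝ φ x) (h0 : φ x = 0)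
    (hne : fderiv ℝ φ x ≠ 0) {ρ : ℝ} (hρ : 0 < ρ) :
    (∃ y ∈ ball x ρ, φ y < 0) ∧ ∃ y ∈ ball x ρ, 0 < φ y := by
  obtain ⟨v, hv⟩ : ∃ v, 0 < fderiv ℝ φ x v := by
    by_contra hcon
    push Not at hcon
    apply hne
    ext v
    have h1 := hcon v
    have h2 := hcon (-v)
    rw [map_neg] at h2
    simp only [zero_apply]
    linarith
  have hg : HasDerivAt (fun s : ℝ => φ (x + s • v)) (fderiv ℝ φ x v) 0 := by
    have h1 : HasFDerivAt φ (fderiv ℝ φ x) (x + (0 : ℝ) • v) := by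
      rw [zero_smul, add_zero]
      exact hd.hasFDerivAt
    have h2 : HasDerivAt (fun s : ℝ => x + s • v) v 0 := by
      have := ((hasDerivAt_id (0 : ℝ)).smul_const v).const_add x
      simpa using this
    exact h1.comp_hasDerivAt 0 h2
  rw [hasDerivAt_iff_tendsto_slope] at hg
  have h1 : ∀ᶠ s in 𝓝[≠] (0 : ℝ), 0 < slope (fun s : ℝ => φ (x + s • v)) 0 s :=
    hg.eventually_const_lt hv
  have h2 : ∀ᶠ s in 𝓝[≠] (0 : ℝ), x + s • v ∈ ball x ρ := by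
    apply Filter.Eventually.filter_mono nhdsWithin_le_nhds
    have hc : ContinuousAt (fun s : ℝ => x + s • v) 0 := by fun_prop
    apply hc.preimage_mem_nhds
    simp only [zero_smul, add_zero]
    exact ball_mem_nhds x hρ
  obtain ⟨ε, hε, hsub⟩ := Metric.mem_nhdsWithin_iff.1 (h1.and h2)
  have hp : (ε / 2) ∈ ball (0 : ℝ) ε ∩ {0}ᶜ := by
    refine ⟨?_, by simp [hε.ne']⟩
    rw [mem_ball_zero_iff, Real.norm_of_nonneg (by positivity)]
    linarith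
  have hn : (-(ε / 2)) ∈ ball (0 : ℝ) ε ∩ {0}ᶜ := by
    refine ⟨?_, by simp [hε.ne']⟩
    rw [mem_ball_zero_iff, norm_neg, Real.norm_of_nonneg (by positivity)]
    linarith
  obtain ⟨a1, a2⟩ := hsub hp
  obtain ⟨b1, b2⟩ := hsub hn
  simp only [slope, vsub_eq_sub, sub_zero, zero_smul, add_zero, h0, smul_eq_mul] at a1 b1
  refine ⟨⟨_, b2, ?_⟩, ⟨_, a2, ?_⟩⟩
  · by_contra hcon
    push Not at hcon
    have : (-(ε / 2))⁻¹ * φ (x + -(ε / 2) • v) ≤ 0 := by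
      apply mul_nonpos_of_nonpos_of_nonneg _ hcon
      rw [inv_nonpos]
      linarith
    linarith
  · by_contra hcon
    push Not at hcon
    have : (ε / 2)⁻¹ * φ (x + (ε / 2) • v) ≤ 0 := by
      apply mul_nonpos_of_nonneg_of_nonpos _ hcon
      positivity
    linarith

/-- regular points are boundary points. -/
theorem gmtReg_mem_gmtBd {S : Set (E m)} {x : E m} (h : GmtReg S x) : x ∈ gmtBd S := by
  obtain ⟨r, hr, φ, hφs, hφ0, hφd, hae⟩ := h
  intro ρ hρ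
  have hρ' : 0 < min ρ r := lt_min hρ hr
  have hd : DifferentiableAt ℝ φ x :=
    (hφs.contDiffAt (isOpen_ball.mem_nhds (mem_ball_self hr))).differentiableAt (by simp)
  obtain ⟨⟨y₁, hy₁, hy₁'⟩, ⟨y₂, hy₂, hy₂'⟩⟩ := gmtDif_signs hd hφ0 (hφd x (mem_ball_self hr)) hρ'
  have hcont : ContinuousOn φ (ball x (min ρ r)) :=
    hφs.continuousOn.mono (ball_subset_ball (min_le_right _ _))
  have hO₁ : IsOpen (ball x (min ρ r) ∩ φ ⁻¹' (Iio 0)) := hcont.isOpen_inter_preimage isOpen_ball isOpen_Iio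
  have hO₂ : IsOpen (ball x (min ρ r) ∩ φ ⁻¹' (Ioi 0)) := hcont.isOpen_inter_preimage isOpen_ball isOpen_Ioi
  have hp₁ : 0 < volume (ball x (min ρ r) ∩ φ ⁻¹' (Iio 0)) := hO₁.measure_pos volume ⟨y₁, hy₁, hy₁'⟩
  have hp₂ : 0 < volume (ball x (min ρ r) ∩ φ ⁻¹' (Ioi 0)) := hO₂.measure_pos volume ⟨y₂, hy₂, hy₂'⟩
  obtain ⟨hn1, hn2⟩ := ae_eq_set.1 hae
  constructor
  · refine lt_of_lt_of_le hp₁ ?_
    calc volume (ball x (min ρ r) ∩ φ ⁻¹' (Iio 0))
        ≤ volume ((S ∩ ball x ρ) ∪ ({y | y ∈ ball x r ∧ φ y < 0} \ (S ∩ ball x r))) := by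
          apply measure_mono
          intro y hy
          by_cases hyS : y ∈ S
          · exact Or.inl ⟨hyS, ball_subset_ball (min_le_left _ _) hy.1⟩
          · exact Or.inr ⟨⟨ball_subset_ball (min_le_right _ _) hy.1, hy.2⟩, fun h3 => hyS h3.1⟩
      _ ≤ volume (S ∩ ball x ρ) + volume ({y | y ∈ ball x r ∧ φ y < 0} \ (S ∩ ball x r)) :=
          measure_union_le _ _
      _ = volume (S ∩ ball x ρ) := by rw [hn2, add_zero]
  · refine lt_of_lt_of_le hp₂ ?_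
    calc volume (ball x (min ρ r) ∩ φ ⁻¹' (Ioi 0))
        ≤ volume ((ball x ρ \ S) ∪ ((S ∩ ball x r) \ {y | y ∈ ball x r ∧ φ y < 0})) := by
          apply measure_mono
          intro y hy
          by_cases hyS : y ∈ S
          · refine Or.inr ⟨⟨hyS, ball_subset_ball (min_le_right _ _) hy.1⟩, fun h3 => ?_⟩
            have h4 : 0 < φ y := hy.2
            exact absurd h3.2 (not_lt.2 h4.le)
          · exact Or.inl ⟨ball_subset_ball (min_le_left _ _) hy.1, hyS⟩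
      _ ≤ volume (ball x ρ \ S) + volume ((S ∩ ball x r) \ {y | y ∈ ball x r ∧ φ y < 0}) :=
          measure_union_le _ _
      _ = volume (ball x ρ \ S) := by rw [hn1, add_zero]

/-- the regular part is relatively open in the boundary. -/
theorem gmtReg_open {S : Set (E m)} {x : E m} (h : GmtReg S x) :
    ∃ r > 0, ∀ y ∈ ball x r, y ∈ gmtBd S → GmtReg S y := by
  obtain ⟨r, hr, φ, hφs, hφ0, hφd, hae⟩ := h
  obtain ⟨hn1, hn2⟩ := ae_eq_set.1 hae
  refine ⟨r, hr, fun y hy hyb => ?_⟩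
  have hφy : φ y = 0 := by
    rcases lt_trichotomy (φ y) 0 with hlt | heq | hgt
    · exfalso
      have hO : IsOpen (ball x r ∩ φ ⁻¹' (Iio 0)) := hφs.continuousOn.isOpen_inter_preimage isOpen_ball isOpen_Iio
      obtain ⟨δ, hδ, hsub⟩ := Metric.isOpen_iff.1 hO y ⟨hy, hlt⟩
      refine (hyb δ hδ).2.ne' (measure_mono_null ?_ hn2)
      rintro w ⟨hw, hwS⟩
      exact ⟨⟨(hsub hw).1, (hsub hw).2⟩, fun h3 => hwS h3.1⟩
    · exact heq
    · exfalso
      have hO : IsOpen (ball x r ∩ φ ⁻¹' (Ioi 0)) := hφs.continuousOn.isOpen_inter_preimage isOpen_ball isOpen_Ioi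
      obtain ⟨δ, hδ, hsub⟩ := Metric.isOpen_iff.1 hO y ⟨hy, hgt⟩
      refine (hyb δ hδ).1.ne' (measure_mono_null ?_ hn1)
      rintro w ⟨hwS, hw⟩
      refine ⟨⟨hwS, (hsub hw).1⟩, fun h3 => ?_⟩
      have h4 : 0 < φ w := (hsub hw).2
      exact absurd h3.2 (not_lt.2 h4.le)
  have hρ : 0 < r - dist y x := sub_pos.2 (mem_ball.1 hy)
  have hsub : ball y (r - dist y x) ⊆ ball x r := ball_subset_ball' (by linarith)
  refine ⟨r - dist y x, hρ, φ, hφs.mono hsub, hφy, fun w hw => hφd w (hsub hw), ?_⟩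
  have e1 : S ∩ ball y (r - dist y x) = (S ∩ ball x r) ∩ ball y (r - dist y x) := by
    ext w
    constructor
    · rintro ⟨h1, h2⟩
      exact ⟨⟨h1, hsub h2⟩, h2⟩
    · rintro ⟨⟨h1, -⟩, h2⟩
      exact ⟨h1, h2⟩
  have e2 : {w | w ∈ ball y (r - dist y x) ∧ φ w < 0} =
      {w | w ∈ ball x r ∧ φ w < 0} ∩ ball y (r - dist y x) := by
    ext w
    constructor
    · rintro ⟨h1, h2⟩
      exact ⟨⟨hsub h1, h2⟩, h1⟩
    · rintro ⟨⟨-, h2⟩, h1⟩
      exact ⟨h1, h2⟩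
  rw [e1, e2]
  exact hae.inter (ae_eq_refl _)

end Claimed.Agent.Gmt
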