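import Claimed.Agent.Lib.Gmt.BvC1

/-!
# Lib/Gmt [Diffeo part A]: diffeomorphisms between open sets and the PIOLA TRANSFORM of test fields.   (architect: helper274)

`GmtDiffeo W W' τ σ`: `τ : W → W'` smooth bijection of open sets with smooth inverse `σ`.
`gmtPiola W τ σ T x = |det Dτ(x)| • Dσ(τ x) (T (τ x))` on `W`, `0` off `W`  (`Dσ(τ x) = Dτ(x)⁻¹`: no `ContinuousLinearMap.inverse` anywhere).
`gmtPull τ σ A x ξ η = (det Dτ x)² A (τ x) (Dσ(τ x)ᵀ ξ) (Dσ(τ x)ᵀ η)`.
Consumer: `DiffeoB.lean` (`gmtPer_diffeo`, `gmtPerM_diffeo`), then `R315/Ct/BvB.lean` (`ct_perM_transition`).  `gmt_piola` of `FvB.lean` is the case `W = W' = univ`.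

PLAN (every step is elementary; NO derivative of the cofactor matrix)
1. `GmtDiffeo.*`: chain rule for `σ ∘ τ = id` near `x ∈ W` (`Filter.EventuallyEq.fderiv_eq`, `fderiv_comp`, `fderiv_id`); `det` of a product (`ContinuousLinearMap.det`, `LinearMap.det_comp`);
   `τ '' O = W' ∩ σ ⁻¹' O` is open (`ContinuousOn.isOpen_inter_preimage`).
2. `gmt_contDiffOn_det`: `(L x).det = Matrix.det (entries ⟪eb i, L x (eb j)⟫)` (`LinearMap.det_toMatrix` with `EuclideanSpace.basisFun`), `Matrix.det_apply`, `ContDiffOn.sum`, `contDiffOn_prod`.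
3. `gmtPiola_test`: support `⊆ K := σ '' tsupport T`, compact (`IsCompact.image_of_continuousOn`), `K ⊆ W`.  `C¹` at `x ∈ W`: near `x` the field is the product of `|det Dτ|` (`contDiffAt_abs`, `det ≠ 0`),
   `Dσ ∘ τ` (`ContDiffOn.fderiv_of_isOpen`) applied (`ContDiffAt.clm_apply`) to `T ∘ τ`; at `x ∉ W`: the field vanishes on the open set `Kᶜ ∋ x`.
4. `gmtPiola_adm`: `⟪|det| • L v, ξ⟫ = |det| ⟪v, Lᵀ ξ⟫ ≤ |det| √(A (Lᵀξ)(Lᵀξ)) = √(det² A ..)` (`ContinuousLinearMap.adjoint_inner_right`, `Real.sqrt_mul_self_eq_abs`/`Real.sqrt_sq_eq_abs`, `Real.sqrt_mul`).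
5. `GmtDiffeo.integral_comp`: Mathlib `integral_image_eq_integral_abs_det_fderiv_smul` on `s = τ ⁻¹' S' ∩ W`, `τ '' s = S' ∩ W'`.
6. `gmtPiola_div_ae` WEAK PROOF: `f := div(PT) - |det Dτ| (div T)∘τ` is continuous on `W`.  For `g ∈ C_c^∞(W)`:
   `∫ g div(PT) = -∫ Dg(PT)` (`integral_mul_gmtDiv`) `= -∫_W |det Dτ| [D(g∘σ)(T)]∘τ` (chain rule `D(g∘σ)(τ x) = Dg(x) ∘ Dσ(τ x)`) `= -∫_{W'} D(g∘σ)(T)` (step 5) `= ∫ (g∘σ) div T`
   (`integral_mul_gmtDiv` on `W'` with `u = g ∘ σ ∈ C¹(W')`) `= ∫_W |det Dτ| g (div T)∘τ` (step 5).  Then `IsOpen.ae_eq_zero_of_integral_contDiff_smul_eq_zero`.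
7. `integral_gmtDiv_gmtPiola`: steps 5, 6; `div T = 0` off `W'` (`gmtDiv_eq_zero_of_notMem`).
-/

set_option autoImplicit false
open scoped ContDiff ENNReal RealInnerProductSpace Topology
open MeasureTheory Metric Set Filter

namespace Claimed.Agent.Gmt

variable {m : ℕ}

/-- `τ` is a smooth diffeomorphism of the open set `W` onto the open set `W'`, with inverse `σ`. -/
structure GmtDiffeo (W W' : Set (E m)) (τ σ : E m → E m) : Prop where
  opn : IsOpen W
  opn' : IsOpen W'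
  smooth : ContDiffOn ℝ ∞ τ W
  smooth' : ContDiffOn ℝ ∞ σ W'
  maps : MapsTo τ W W'
  maps' : MapsTo σ W' W
  left : ∀ x ∈ W, σ (τ x) = x
  right : ∀ y ∈ W', τ (σ y) = y

/-- the transformed integrand `(det Dτ)² A(τ x)(Dτ⁻ᵀ ξ, Dτ⁻ᵀ η)`. -/
noncomputable def gmtPull (τ σ : E m → E m) (A : E m → Bil m) (x : E m) : Bil m :=
  ((fderiv ℝ τ x).det ^ 2) • (A (τ x)).bilinearComp
    (ContinuousLinearMap.adjoint (fderiv ℝ σ (τ x))) (ContinuousLinearMap.adjoint (fderiv ℝ σ (τ x)))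

/-- the Piola transform of a field on `W'`. -/
noncomputable def gmtPiola (W : Set (E m)) (τ σ : E m → E m) (T : E m → E m) : E m → E m :=
  W.indicator fun x => |(fderiv ℝ τ x).det| • fderiv ℝ σ (τ x) (T (τ x))

namespace GmtDiffeo

variable {W W' : Set (E m)} {τ σ : E m → E m}

theorem symm (h : GmtDiffeo W W' τ σ) : GmtDiffeo W' W σ τ :=
  ⟨h.opn', h.opn, h.smooth', h.smooth, h.maps', h.maps, h.right, h.left⟩

theorem differentiableAt (h : GmtDiffeo W W' τ σ) {x : E m} (hx : x ∈ W) :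
    DifferentiableAt ℝ τ x :=
  (h.smooth.contDiffAt (h.opn.mem_nhds hx)).differentiableAt (by simp)

theorem fderiv_comp (h : GmtDiffeo W W' τ σ) {x : E m} (hx : x ∈ W) :
    (fderiv ℝ σ (τ x)).comp (fderiv ℝ τ x) = ContinuousLinearMap.id ℝ (E m) := by
  have h1 : σ ∘ τ =ᶠ[𝓝 x] id := by
    filter_upwards [h.opn.mem_nhds hx] with y hy
    exact h.left y hy
  have h2 := h1.fderiv_eq (𝕜 := ℝ)
  rw [_root_.fderiv_comp x (h.symm.differentiableAt (h.maps hx)) (h.differentiableAt hx),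
    fderiv_id] at h2
  exact h2

theorem fderiv_comp' (h : GmtDiffeo W W' τ σ) {x : E m} (hx : x ∈ W) :
    (fderiv ℝ τ x).comp (fderiv ℝ σ (τ x)) = ContinuousLinearMap.id ℝ (E m) := by
  have h1 := h.symm.fderiv_comp (h.maps hx)
  rwa [h.left x hx] at h1

theorem det_mul_det (h : GmtDiffeo W W' τ σ) {x : E m} (hx : x ∈ W) :
    (fderiv ℝ σ (τ x)).det * (fderiv ℝ τ x).det = 1 := by
  have h1 : ((fderiv ℝ σ (τ x)).comp (fderiv ℝ τ x)).det
      = (fderiv ℝ σ (τ x)).det * (fderiv ℝ τ x).det := LinearMap.det_comp _ _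
  rw [← h1, h.fderiv_comp hx]
  exact LinearMap.det_id

theorem det_ne_zero (h : GmtDiffeo W W' τ σ) {x : E m} (hx : x ∈ W) : (fderiv ℝ τ x).det ≠ 0 := by
  intro h0
  have h1 := h.det_mul_det hx
  rw [h0, mul_zero] at h1
  exact zero_ne_one h1

theorem injOn (h : GmtDiffeo W W' τ σ) : InjOn τ W := by
  intro x hx y hy hxy
  rw [← h.left x hx, ← h.left y hy, hxy]

theorem image_eq (h : GmtDiffeo W W' τ σ) {O : Set (E m)} (hO : O ⊆ W) :
    τ '' O = W' ∩ σ ⁻¹' O := by
  ext y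
  constructor
  · rintro ⟨x, hx, rfl⟩
    refine ⟨h.maps (hO hx), ?_⟩
    show σ (τ x) ∈ O
    rw [h.left x (hO hx)]
    exact hx
  · rintro ⟨hy, hy'⟩
    exact ⟨σ y, hy', h.right y hy⟩

theorem isOpen_image (h : GmtDiffeo W W' τ σ) {O : Set (E m)} (hO : IsOpen O) (hOW : O ⊆ W) :
    IsOpen (τ '' O) := by
  rw [h.image_eq hOW]
  exact h.smooth'.continuousOn.isOpen_inter_preimage h.opn' hO

/-- restriction to an open subset. -/
theorem restrict (h : GmtDiffeo W W' τ σ) {O : Set (E m)} (hO : IsOpen O) (hOW : O ⊆ W) :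
    GmtDiffeo O (τ '' O) τ σ := by
  have hsub : τ '' O ⊆ W' := by
    rw [h.image_eq hOW]
    exact inter_subset_left
  refine ⟨hO, h.isOpen_image hO hOW, h.smooth.mono hOW, h.smooth'.mono hsub,
    fun x hx => mem_image_of_mem _ hx, ?_, fun x hx => h.left x (hOW hx),
    fun y hy => h.right y (hsub hy)⟩
  rintro y ⟨x, hx, rfl⟩
  rw [h.left x (hOW hx)]
  exact hx

theorem measurableSet_preimage (h : GmtDiffeo W W' τ σ) {S' : Set (E m)}
    (hS' : MeasurableSet S') : MeasurableSet (τ ⁻¹' S' ∩ W) := by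
  classical
  have hm : Measurable (W.piecewise τ (fun _ => (0 : E m))) :=
    h.smooth.continuousOn.measurable_piecewise continuousOn_const h.opn.measurableSet
  have e : τ ⁻¹' S' ∩ W = (W.piecewise τ (fun _ => (0 : E m))) ⁻¹' S' ∩ W := by
    ext x
    constructor
    · rintro ⟨h1, h2⟩
      refine ⟨?_, h2⟩
      show W.piecewise τ (fun _ => (0 : E m)) x ∈ S'
      rw [piecewise_eq_of_mem _ _ _ h2]
      exact h1
    · rintro ⟨h1, h2⟩
      refine ⟨?_, h2⟩
      have h3 : W.piecewise τ (fun _ => (0 : E m)) x ∈ S' := h1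
      rw [piecewise_eq_of_mem _ _ _ h2] at h3
      exact h3
  rw [e]
  exact (hm hS').inter h.opn.measurableSet

/-- change of variables. -/
theorem integral_comp (h : GmtDiffeo W W' τ σ) {S' : Set (E m)} (hS' : MeasurableSet S')
    (g : E m → ℝ) :
    ∫ x in τ ⁻¹' S' ∩ W, |(fderiv ℝ τ x).det| * g (τ x) = ∫ y in S' ∩ W', g y := by
  have himg : τ '' (τ ⁻¹' S' ∩ W) = S' ∩ W' := by
    ext y
    constructor
    · rintro ⟨x, ⟨h1, h2⟩, rfl⟩
      exact ⟨h1, h.maps h2⟩
    · rintro ⟨h1, h2⟩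
      refine ⟨σ y, ⟨?_, h.maps' h2⟩, h.right y h2⟩
      show τ (σ y) ∈ S'
      rw [h.right y h2]
      exact h1
  rw [← himg, integral_image_eq_integral_abs_det_fderiv_smul volume (h.measurableSet_preimage hS')
    (fun x hx => (h.differentiableAt hx.2).hasFDerivAt.hasFDerivWithinAt)
    (h.injOn.mono inter_subset_right) g]
  rfl

end GmtDiffeo

/-- the determinant of a smooth field of linear maps is smooth. -/
theorem gmt_contDiffOn_det {n : WithTop ℕ∞} {U : Set (E m)} {L : E m → E m →L[ℝ] E m}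
    (hL : ContDiffOn ℝ n L U) : ContDiffOn ℝ n (fun x => (L x).det) U := by
  have hdet : ContDiff ℝ n (fun L : E m →L[ℝ] E m => L.det) := by
    have e : (fun L : E m →L[ℝ] E m => L.det) = fun L : E m →L[ℝ] E m =>
        ∑ σ : Equiv.Perm (Fin m), ((Equiv.Perm.sign σ : ℤ) : ℝ) * ∏ i, L (eb i) (σ i) := by
      funext L
      have e1 : L.det = Matrix.det (Matrix.of fun i j => L (eb j) i) := by
        show LinearMap.det (L : E m →ₗ[ℝ] E m) = _
        rw [← LinearMap.det_toMatrix (EuclideanSpace.basisFun (Fin m) ℝ).toBasis]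
        congr 1
      rw [e1, Matrix.det_apply']
      rfl
    rw [e]
    refine ContDiff.sum fun σ _ => contDiff_const.mul (contDiff_prod fun i _ => ?_)
    exact ((EuclideanSpace.proj (σ i)).comp (ContinuousLinearMap.apply ℝ (E m) (eb i))).contDiff
  exact hdet.comp_contDiffOn hL

variable {W W' : Set (E m)} {τ σ : E m → E m}

theorem gmtPiola_test (h : GmtDiffeo W W' τ σ) {T : E m → E m} (hT : GmtTest W' T) :
    GmtTest W (gmtPiola W τ σ T) := by
  classical
  obtain ⟨K, hKdef⟩ : ∃ K, K = σ '' tsupport T := ⟨_, rfl⟩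
  have hKc : IsCompact K := by
    rw [hKdef]
    exact hT.cpt.isCompact.image_of_continuousOn (h.smooth'.continuousOn.mono hT.sub)
  have hKW : K ⊆ W := by
    rw [hKdef]
    rintro _ ⟨y, hy, rfl⟩
    exact h.maps' (hT.sub hy)
  have hzero : ∀ x, x ∉ K → gmtPiola W τ σ T x = 0 := by
    intro x hx
    unfold gmtPiola
    by_cases hxW : x ∈ W
    · rw [indicator_of_mem hxW]
      have : τ x ∉ tsupport T := fun hh => hx (by
        rw [hKdef]
        exact ⟨τ x, hh, h.left x hxW⟩)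
      rw [image_eq_zero_of_notMem_tsupport this, map_zero, smul_zero]
    · exact indicator_of_notMem hxW _
  have hsupp : tsupport (gmtPiola W τ σ T) ⊆ K :=
    closure_minimal (fun x hx => by_contra fun hxK => hx (hzero x hxK)) hKc.isClosed
  refine ⟨?_, hKc.of_isClosed_subset (isClosed_tsupport _) hsupp, hsupp.trans hKW⟩
  have h1 : ((1 : ℕ∞) : WithTop ℕ∞) ≤ ((⊤ : ℕ∞) : WithTop ℕ∞) := by exact_mod_cast le_top
  have h2 : ((1 : ℕ∞) : WithTop ℕ∞) + 1 ≤ ((⊤ : ℕ∞) : WithTop ℕ∞) := by exact_mod_cast le_top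
  rw [contDiff_iff_contDiffAt]
  intro x
  by_cases hxW : x ∈ W
  · have hev : gmtPiola W τ σ T =ᶠ[𝓝 x]
        fun x => |(fderiv ℝ τ x).det| • fderiv ℝ σ (τ x) (T (τ x)) := by
      filter_upwards [h.opn.mem_nhds hxW] with y hy
      exact indicator_of_mem hy _
    refine ContDiffAt.congr_of_eventuallyEq ?_ hev
    have hDτ : ContDiffOn ℝ 1 (fderiv ℝ τ) W := h.smooth.fderiv_of_isOpen h.opn h2
    have hdet : ContDiffAt ℝ 1 (fun x => (fderiv ℝ τ x).det) x :=
      (gmt_contDiffOn_det hDτ).contDiffAt (h.opn.mem_nhds hxW)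
    have habs : ContDiffAt ℝ 1 (fun x => |(fderiv ℝ τ x).det|) x :=
      ContDiffAt.comp (g := fun r : ℝ => |r|) x (contDiffAt_abs (h.det_ne_zero hxW)) hdet
    have hτ : ContDiffAt ℝ 1 τ x := (h.smooth.contDiffAt (h.opn.mem_nhds hxW)).of_le h1
    have hDσ : ContDiffAt ℝ 1 (fderiv ℝ σ) (τ x) :=
      (h.smooth'.fderiv_of_isOpen h.opn' h2).contDiffAt (h.opn'.mem_nhds (h.maps hxW))
    have hDστ : ContDiffAt ℝ 1 (fun x => fderiv ℝ σ (τ x)) x := hDσ.comp x hτ
    have hTτ : ContDiffAt ℝ 1 (fun x => T (τ x)) x := hT.c1.contDiffAt.comp x hτ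
    exact habs.smul (hDστ.clm_apply hTτ)
  · have hev : gmtPiola W τ σ T =ᶠ[𝓝 x] fun _ => 0 := by
      filter_upwards [hKc.isClosed.isOpen_compl.mem_nhds (fun hh => hxW (hKW hh))] with y hy
      exact hzero y hy
    exact contDiffAt_const.congr_of_eventuallyEq hev

theorem gmtPiola_adm (h : GmtDiffeo W W' τ σ) {A : E m → Bil m} {T : E m → E m}
    (hT : GmtAdm A T) : GmtAdm (gmtPull τ σ A) (gmtPiola W τ σ T) := by
  intro x ξ
  unfold gmtPiola
  by_cases hxW : x ∈ W
  · rw [indicator_of_mem hxW, real_inner_smul_left, ← ContinuousLinearMap.adjoint_inner_right]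
    have e : gmtPull τ σ A x ξ ξ = (fderiv ℝ τ x).det ^ 2 *
        A (τ x) (ContinuousLinearMap.adjoint (fderiv ℝ σ (τ x)) ξ)
          (ContinuousLinearMap.adjoint (fderiv ℝ σ (τ x)) ξ) := rfl
    rw [e, Real.sqrt_mul (sq_nonneg _), Real.sqrt_sq_eq_abs]
    exact mul_le_mul_of_nonneg_left (hT _ _) (abs_nonneg _)
  · rw [indicator_of_notMem hxW, inner_zero_left]
    exact Real.sqrt_nonneg _

/-- PIOLA IDENTITY (almost everywhere; this is all one needs). -/
theorem gmtPiola_div_ae (h : GmtDiffeo W W' τ σ) {T : E m → E m} (hT : GmtTest W' T) :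
    ∀ᵐ x : E m, x ∈ W →
      gmtDiv (gmtPiola W τ σ T) x = |(fderiv ℝ τ x).det| * gmtDiv T (τ x) := by
  have hP : GmtTest W (gmtPiola W τ σ T) := gmtPiola_test h hT
  have h1 : ((1 : ℕ∞) : WithTop ℕ∞) ≤ ((⊤ : ℕ∞) : WithTop ℕ∞) := by exact_mod_cast le_top
  have h2 : ((1 : ℕ∞) : WithTop ℕ∞) + 1 ≤ ((⊤ : ℕ∞) : WithTop ℕ∞) := by exact_mod_cast le_top
  have hdc : ContinuousOn (fun x => |(fderiv ℝ τ x).det|) W :=
    (gmt_contDiffOn_det (h.smooth.fderiv_of_isOpen h.opn h2)).continuousOn.abs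
  have hTc : ContinuousOn (fun x => gmtDiv T (τ x)) W :=
    (continuous_gmtDiv hT).1.comp_continuousOn h.smooth.continuousOn
  have hqc : ContinuousOn (fun x => |(fderiv ℝ τ x).det| * gmtDiv T (τ x)) W := hdc.mul hTc
  have hfc : ContinuousOn (fun x => gmtDiv (gmtPiola W τ σ T) x
      - |(fderiv ℝ τ x).det| * gmtDiv T (τ x)) W :=
    (continuous_gmtDiv hP).1.continuousOn.sub hqc
  have key := h.opn.ae_eq_zero_of_integral_contDiff_smul_eq_zero (μ := volume)
    (hfc.locallyIntegrableOn h.opn.measurableSet) ?_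
  · filter_upwards [key] with x hx hxW
    exact sub_eq_zero.1 (hx hxW)
  intro g hg hgc hgs
  have hu : ContDiffOn ℝ 1 (fun y => g (σ y)) W' :=
    (hg.of_le h1).comp_contDiffOn (h.smooth'.of_le h1)
  have A1 := integral_mul_gmtDiv h.opn (hg.of_le h1).contDiffOn hP
  have A2 := integral_mul_gmtDiv h.opn' hu hT
  have C1 := h.integral_comp MeasurableSet.univ (fun y => g (σ y) * gmtDiv T y)
  have C2 := h.integral_comp MeasurableSet.univ (fun y => fderiv ℝ (fun y => g (σ y)) y (T y))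
  rw [preimage_univ, univ_inter, univ_inter] at C1 C2
  have D1 : ∫ y in W', g (σ y) * gmtDiv T y = ∫ y, g (σ y) * gmtDiv T y :=
    setIntegral_eq_integral_of_forall_compl_eq_zero (fun y hy => by
      rw [gmtDiv_eq_zero_of_notMem (fun hh => hy (hT.sub hh)), mul_zero])
  have D2 : ∫ y in W', fderiv ℝ (fun y => g (σ y)) y (T y)
      = ∫ y, fderiv ℝ (fun y => g (σ y)) y (T y) :=
    setIntegral_eq_integral_of_forall_compl_eq_zero (fun y hy => by
      rw [image_eq_zero_of_notMem_tsupport (fun hh => hy (hT.sub hh)), map_zero])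
  have E1 : ∫ x in W, |(fderiv ℝ τ x).det| * (g (σ (τ x)) * gmtDiv T (τ x))
      = ∫ x, g x * (|(fderiv ℝ τ x).det| * gmtDiv T (τ x)) := by
    have F1 : ∫ x in W, g x * (|(fderiv ℝ τ x).det| * gmtDiv T (τ x))
        = ∫ x, g x * (|(fderiv ℝ τ x).det| * gmtDiv T (τ x)) :=
      setIntegral_eq_integral_of_forall_compl_eq_zero (fun x hx => by
        rw [image_eq_zero_of_notMem_tsupport (fun hh => hx (hgs hh)), zero_mul])
    rw [← F1]
    refine setIntegral_congr_fun h.opn.measurableSet (fun x hx => ?_)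
    simp only [h.left x hx]
    ring
  have E2 : ∫ x in W, |(fderiv ℝ τ x).det| * (fderiv ℝ (fun y => g (σ y)) (τ x) (T (τ x)))
      = ∫ x, fderiv ℝ g x (gmtPiola W τ σ T x) := by
    have F2 : ∫ x in W, fderiv ℝ g x (gmtPiola W τ σ T x)
        = ∫ x, fderiv ℝ g x (gmtPiola W τ σ T x) :=
      setIntegral_eq_integral_of_forall_compl_eq_zero (fun x hx => by
        rw [image_eq_zero_of_notMem_tsupport (fun hh => hx (hP.sub hh)), map_zero])
    rw [← F2]
    refine setIntegral_congr_fun h.opn.measurableSet (fun x hx => ?_)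
    have hch : fderiv ℝ (fun y => g (σ y)) (τ x) = (fderiv ℝ g x).comp (fderiv ℝ σ (τ x)) := by
      have := fderiv_comp (τ x) (g := g) (f := σ)
        (hg.differentiable (by simp)).differentiableAt (h.symm.differentiableAt (h.maps hx))
      rw [h.left x hx] at this
      exact this
    show _ = fderiv ℝ g x (gmtPiola W τ σ T x)
    unfold gmtPiola
    rw [indicator_of_mem hx, hch, map_smul]
    rfl
  have I1 : Integrable (fun x => g x * gmtDiv (gmtPiola W τ σ T) x) :=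
    (hg.continuous.mul (continuous_gmtDiv hP).1).integrable_of_hasCompactSupport hgc.mul_right
  have I2 : Integrable (fun x => g x * (|(fderiv ℝ τ x).det| * gmtDiv T (τ x))) := by
    have hI : IntegrableOn (fun x => g x * (|(fderiv ℝ τ x).det| * gmtDiv T (τ x)))
        (tsupport g) :=
      ((hg.continuous.continuousOn.mul hqc).mono hgs).integrableOn_compact hgc.isCompact
    rw [integrableOn_iff_integrable_of_support_subset] at hI
    · exact hI
    · intro x hx
      by_contra hh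
      exact hx (by
        show g x * _ = 0
        rw [image_eq_zero_of_notMem_tsupport hh, zero_mul])
  have e : ∀ x, g x • (gmtDiv (gmtPiola W τ σ T) x - |(fderiv ℝ τ x).det| * gmtDiv T (τ x))
      = g x * gmtDiv (gmtPiola W τ σ T) x
        - g x * (|(fderiv ℝ τ x).det| * gmtDiv T (τ x)) := fun x => by
    rw [smul_eq_mul, mul_sub]
  simp only [e]
  rw [integral_sub I1 I2, A1, ← E2, C2, D2, ← E1, C1, D1, A2]
  ring

theorem integral_gmtDiv_gmtPiola (h : GmtDiffeo W W' τ σ) {T : E m → E m} (hT : GmtTest W' T)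
    {S' : Set (E m)} (hS' : MeasurableSet S') :
    ∫ x in τ ⁻¹' S' ∩ W, gmtDiv (gmtPiola W τ σ T) x = ∫ y in S', gmtDiv T y := by
  have e1 : ∫ x in τ ⁻¹' S' ∩ W, gmtDiv (gmtPiola W τ σ T) x
      = ∫ x in τ ⁻¹' S' ∩ W, |(fderiv ℝ τ x).det| * gmtDiv T (τ x) := by
    refine setIntegral_congr_ae (h.measurableSet_preimage hS') ?_
    filter_upwards [gmtPiola_div_ae h hT] with x hx hxS
    exact hx hxS.2
  rw [e1, h.integral_comp hS' (gmtDiv T)]
  refine (setIntegral_eq_of_subset_of_forall_sdiff_eq_zero hS' inter_subset_left ?_).symm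
  intro y hy
  exact gmtDiv_eq_zero_of_notMem (fun hh => hy.2 ⟨hy.1, hT.sub hh⟩)

end Claimed.Agent.Gmt
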