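import Claimed.Agent.Lib.Gmt.DiffeoA
import Claimed.Agent.Lib.Gmt.GgMeasA

/-!
# Lib/Gmt [Diffeo part B]: the `A`-perimeter and the perimeter measure under diffeomorphisms.   (architect + proofs: helper274)

* `gmtPer_congr_quad` (= `gmtPer_congr_int` of `LamBase.lean`, PROVED here), `gmtPerM_congr_int`: only the values of the integrand on the open set matter;
* `gmtPerM_congr_set`: only `S ∩ U` (a.e.) matters, for ARBITRARY subsets `B ⊆ U`;
* `gmtPer_diffeo`: `Per_A(S'; W') = Per_{τ^*A}(τ⁻¹ S' ∩ W; W)`;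
* `gmtPerM_diffeo`: `gmtPerM A S' (τ '' B) = gmtPerM (τ^*A) (τ⁻¹ S' ∩ W) B` for ALL `B ⊆ W` (outer regularity).
Everything here is PROVED from `DiffeoA.lean` and `gmtPerM_spec`, `gmtPerM_open` (`GgMeasA.lean`).
-/

set_option autoImplicit false
open scoped ContDiff ENNReal RealInnerProductSpace Topology
open MeasureTheory Metric Set Filter

namespace Claimed.Agent.Gmt

variable {m : ℕ}

theorem gmtAdm_congr_on {A B : E m → Bil m} {U : Set (E m)} {T : E m → E m}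
    (hT : tsupport T ⊆ U) (hAB : ∀ x ∈ U, ∀ ξ : E m, A x ξ ξ = B x ξ ξ) (h : GmtAdm A T) :
    GmtAdm B T := by
  intro x ξ
  by_cases hx : x ∈ U
  · rw [← hAB x hx]
    exact h x ξ
  · rw [image_eq_zero_of_notMem_tsupport fun h' => hx (hT h'), inner_zero_left]
    exact Real.sqrt_nonneg _

/-- only the values of the integrand on `U` matter. -/
theorem gmtPer_congr_quad {A B : E m → Bil m} (S : Set (E m)) {U : Set (E m)}
    (hAB : ∀ x ∈ U, ∀ ξ : E m, A x ξ ξ = B x ξ ξ) : gmtPer A S U = gmtPer B S U := by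
  unfold gmtPer
  congr 1
  ext T
  congr 1
  ext hT
  have : GmtAdm A T ↔ GmtAdm B T :=
    ⟨gmtAdm_congr_on hT.sub hAB, gmtAdm_congr_on hT.sub fun x hx ξ => (hAB x hx ξ).symm⟩
  simp only [this]

instance gmtPerM_outerRegular (A : E m → Bil m) (S : Set (E m)) : (gmtPerM A S).OuterRegular :=
  (gmtPerM_spec A S).1

/-- comparison of two perimeter measures on subsets of an open set. -/
theorem gmtPerM_le_of_open {A B : E m → Bil m} {S S' U : Set (E m)} (hU : IsOpen U)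
    (H : ∀ O, IsOpen O → O ⊆ U → gmtPer A S O ≤ gmtPer B S' O) {C : Set (E m)} (hC : C ⊆ U) :
    gmtPerM A S C ≤ gmtPerM B S' C := by
  rw [Set.measure_eq_iInf_isOpen C (gmtPerM B S')]
  refine le_iInf fun O => le_iInf fun hCO => le_iInf fun hO => ?_
  calc gmtPerM A S C ≤ gmtPerM A S (O ∩ U) := measure_mono (subset_inter hCO hC)
    _ = gmtPer A S (O ∩ U) := gmtPerM_open A S (hO.inter hU)
    _ ≤ gmtPer B S' (O ∩ U) := H _ (hO.inter hU) inter_subset_right
    _ = gmtPerM B S' (O ∩ U) := (gmtPerM_open B S' (hO.inter hU)).symm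
    _ ≤ gmtPerM B S' O := measure_mono inter_subset_left

theorem gmtPerM_congr_int {A B : E m → Bil m} (S : Set (E m)) {U : Set (E m)} (hU : IsOpen U)
    (hAB : ∀ x ∈ U, ∀ ξ : E m, A x ξ ξ = B x ξ ξ) {C : Set (E m)} (hC : C ⊆ U) :
    gmtPerM A S C = gmtPerM B S C :=
  le_antisymm
    (gmtPerM_le_of_open hU (fun _ _ hOU => (gmtPer_congr_quad S fun x hx => hAB x (hOU hx)).le) hC)
    (gmtPerM_le_of_open hU (fun _ _ hOU => (gmtPer_congr_quad S fun x hx => hAB x (hOU hx)).ge) hC)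

theorem gmt_ae_inter_mono {S S' U O : Set (E m)} (hOU : O ⊆ U)
    (h : (S ∩ U : Set (E m)) =ᵐ[volume] (S' ∩ U : Set (E m))) :
    (S ∩ O : Set (E m)) =ᵐ[volume] (S' ∩ O : Set (E m)) := by
  filter_upwards [h] with x hx
  have hx' : (x ∈ S ∩ U) ↔ (x ∈ S' ∩ U) := Iff.of_eq hx
  refine propext ?_
  constructor
  · rintro ⟨h1, h2⟩
    exact ⟨(hx'.1 ⟨h1, hOU h2⟩).1, h2⟩
  · rintro ⟨h1, h2⟩
    exact ⟨(hx'.2 ⟨h1, hOU h2⟩).1, h2⟩

/-- locality in the set, for arbitrary subsets of `U`. -/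
theorem gmtPerM_congr_set (A : E m → Bil m) {S S' U : Set (E m)} (hU : IsOpen U)
    (hS : MeasurableSet S) (hS' : MeasurableSet S')
    (h : (S ∩ U : Set (E m)) =ᵐ[volume] (S' ∩ U : Set (E m))) {C : Set (E m)} (hC : C ⊆ U) :
    gmtPerM A S C = gmtPerM A S' C :=
  le_antisymm
    (gmtPerM_le_of_open hU (fun _ _ hOU => (gmtPer_congr A hS hS' (gmt_ae_inter_mono hOU h)).le) hC)
    (gmtPerM_le_of_open hU (fun _ _ hOU => (gmtPer_congr A hS hS' (gmt_ae_inter_mono hOU h)).ge) hC)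

variable {W W' : Set (E m)} {τ σ : E m → E m}

theorem gmtPer_diffeo_le (h : GmtDiffeo W W' τ σ) (A : E m → Bil m) {S' : Set (E m)}
    (hS' : MeasurableSet S') :
    gmtPer A S' W' ≤ gmtPer (gmtPull τ σ A) (τ ⁻¹' S' ∩ W) W := by
  unfold gmtPer
  refine iSup_le fun T => iSup_le fun hT => iSup_le fun hadm => ?_
  refine le_iSup_of_le (gmtPiola W τ σ T) (le_iSup_of_le (gmtPiola_test h hT)
    (le_iSup_of_le (gmtPiola_adm h hadm) ?_))
  rw [integral_gmtDiv_gmtPiola h hT hS']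

theorem gmtPull_gmtPull (h : GmtDiffeo W W' τ σ) (A : E m → Bil m) {y : E m} (hy : y ∈ W') :
    gmtPull σ τ (gmtPull τ σ A) y = A y := by
  have h1 := h.symm.fderiv_comp hy
  have h2 := h.symm.det_mul_det hy
  have h3 : (ContinuousLinearMap.adjoint (fderiv ℝ σ y)).comp
      (ContinuousLinearMap.adjoint (fderiv ℝ τ (σ y))) = ContinuousLinearMap.id ℝ (E m) := by
    rw [← ContinuousLinearMap.adjoint_comp, h1]
    exact ContinuousLinearMap.adjoint_id
  have h4 : ∀ ξ, ContinuousLinearMap.adjoint (fderiv ℝ σ y)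
      (ContinuousLinearMap.adjoint (fderiv ℝ τ (σ y)) ξ) = ξ := fun ξ =>
    congrArg (fun L : E m →L[ℝ] E m => L ξ) h3
  ext ξ η
  simp only [gmtPull, h.right y hy, smul_apply,
    ContinuousLinearMap.bilinearComp_apply, smul_eq_mul, h4]
  rw [← mul_assoc, ← mul_pow, mul_comm (fderiv ℝ σ y).det, h2, one_pow, one_mul]

/-- **the `A`-perimeter under a diffeomorphism.** -/
theorem gmtPer_diffeo (h : GmtDiffeo W W' τ σ) (A : E m → Bil m) {S' : Set (E m)}
    (hS' : MeasurableSet S') :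
    gmtPer A S' W' = gmtPer (gmtPull τ σ A) (τ ⁻¹' S' ∩ W) W := by
  refine le_antisymm (gmtPer_diffeo_le h A hS') ?_
  have hm := h.measurableSet_preimage hS'
  refine (gmtPer_diffeo_le h.symm (gmtPull τ σ A) hm).trans ?_
  rw [gmtPer_congr_quad _ fun y hy ξ => by rw [gmtPull_gmtPull h A hy]]
  refine (gmtPer_congr A (h.symm.measurableSet_preimage hm) hS' ?_).le
  refine Eventually.of_forall fun y => propext ?_
  constructor
  · rintro ⟨⟨⟨h1, -⟩, h3⟩, -⟩
    have h1' : τ (σ y) ∈ S' := h1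
    rw [h.right y h3] at h1'
    exact ⟨h1', h3⟩
  · rintro ⟨h1, h3⟩
    refine ⟨⟨⟨?_, h.maps' h3⟩, h3⟩, h3⟩
    show τ (σ y) ∈ S'
    rw [h.right y h3]
    exact h1

/-- the same on an open subset `O ⊆ W`. -/
theorem gmtPer_diffeo_open (h : GmtDiffeo W W' τ σ) (A : E m → Bil m) {S' : Set (E m)}
    (hS' : MeasurableSet S') {O : Set (E m)} (hO : IsOpen O) (hOW : O ⊆ W) :
    gmtPer A S' (τ '' O) = gmtPer (gmtPull τ σ A) (τ ⁻¹' S' ∩ W) O := by
  rw [gmtPer_diffeo (h.restrict hO hOW) A hS']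
  refine gmtPer_congr _ ((h.restrict hO hOW).measurableSet_preimage hS')
    (h.measurableSet_preimage hS') ?_
  refine Eventually.of_forall fun y => propext ?_
  constructor
  · rintro ⟨⟨h1, h2⟩, -⟩
    exact ⟨⟨h1, hOW h2⟩, h2⟩
  · rintro ⟨⟨h1, -⟩, h2⟩
    exact ⟨⟨h1, h2⟩, h2⟩

/-- **the perimeter measure under a diffeomorphism**, for all subsets `B ⊆ W`. -/
theorem gmtPerM_diffeo (h : GmtDiffeo W W' τ σ) (A : E m → Bil m) {S' : Set (E m)}
    (hS' : MeasurableSet S') {B : Set (E m)} (hB : B ⊆ W) :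
    gmtPerM A S' (τ '' B) = gmtPerM (gmtPull τ σ A) (τ ⁻¹' S' ∩ W) B := by
  apply le_antisymm
  · rw [Set.measure_eq_iInf_isOpen B (gmtPerM (gmtPull τ σ A) (τ ⁻¹' S' ∩ W))]
    refine le_iInf fun O => le_iInf fun hBO => le_iInf fun hO => ?_
    have hOW : IsOpen (O ∩ W) := hO.inter h.opn
    calc gmtPerM A S' (τ '' B) ≤ gmtPerM A S' (τ '' (O ∩ W)) :=
          measure_mono (image_mono (subset_inter hBO hB))
      _ = gmtPer A S' (τ '' (O ∩ W)) := gmtPerM_open A S' (h.isOpen_image hOW inter_subset_right)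
      _ = gmtPer (gmtPull τ σ A) (τ ⁻¹' S' ∩ W) (O ∩ W) :=
          gmtPer_diffeo_open h A hS' hOW inter_subset_right
      _ = gmtPerM (gmtPull τ σ A) (τ ⁻¹' S' ∩ W) (O ∩ W) := (gmtPerM_open _ _ hOW).symm
      _ ≤ gmtPerM (gmtPull τ σ A) (τ ⁻¹' S' ∩ W) O := measure_mono inter_subset_left
  · rw [Set.measure_eq_iInf_isOpen (τ '' B) (gmtPerM A S')]
    refine le_iInf fun O' => le_iInf fun hBO => le_iInf fun hO' => ?_
    have hOW' : IsOpen (O' ∩ W') := hO'.inter h.opn'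
    have hO : IsOpen (σ '' (O' ∩ W')) := h.symm.isOpen_image hOW' inter_subset_right
    have hOsub : σ '' (O' ∩ W') ⊆ W := by
      rintro _ ⟨y, hy, rfl⟩
      exact h.maps' hy.2
    have himg : τ '' (σ '' (O' ∩ W')) = O' ∩ W' := by
      rw [image_image]
      ext y
      constructor
      · rintro ⟨z, hz, rfl⟩
        show τ (σ z) ∈ O' ∩ W'
        rw [h.right z hz.2]
        exact hz
      · intro hy
        exact ⟨y, hy, h.right y hy.2⟩
    have hBsub : B ⊆ σ '' (O' ∩ W') := by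
      intro x hx
      exact ⟨τ x, ⟨hBO (mem_image_of_mem τ hx), h.maps (hB hx)⟩, h.left x (hB hx)⟩
    calc gmtPerM (gmtPull τ σ A) (τ ⁻¹' S' ∩ W) B
        ≤ gmtPerM (gmtPull τ σ A) (τ ⁻¹' S' ∩ W) (σ '' (O' ∩ W')) := measure_mono hBsub
      _ = gmtPer (gmtPull τ σ A) (τ ⁻¹' S' ∩ W) (σ '' (O' ∩ W')) := gmtPerM_open _ _ hO
      _ = gmtPer A S' (τ '' (σ '' (O' ∩ W'))) := (gmtPer_diffeo_open h A hS' hO hOsub).symm
      _ = gmtPer A S' (O' ∩ W') := by rw [himg]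
      _ = gmtPerM A S' (O' ∩ W') := (gmtPerM_open A S' hOW').symm
      _ ≤ gmtPerM A S' O' := measure_mono inter_subset_left

end Claimed.Agent.Gmt
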