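import Claimed.Agent.Lib.Gmt.FlFlux

/-!
THIS FILE = PACKAGE L-GMT-FlBad1 (part 1 of 5 of the former `FlBad.lean`, which now only imports the parts; the text below is the plan of the whole former file).
# Lib/Gmt G4.4a (architect: helper190): the slices of `S` are almost intervals (first half of F6).
PACKAGE L-GMT-FlBad.   Input: `FlUnit` (`gg`, `flat`), `fl_exc`, `FlCoord`.

For a.e. `z ∈ ball 0 1` the slice `A = S_z = {t | (z,t) ∈ S}` satisfies `FlSl A ε`: it contains `(-1,-ε)` and misses `(ε,1)` (a.e.).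
`h = flSlH A = |A ∩ (-1,1)| - 1`, `b = flSlB A = |A ∩ (h,1)| = |(-1,h) \ A|`: `b = 0` iff `A ∩ (-1,1) = (-1,h)` a.e.
RESULT `fl_bad`: `∫_{ball 0 (1/2)} b(z) dz ≤ C ε √δ`.

PLAN.
* 1-D lemmas.  `fl_sl_H_abs`: `(-1,-ε) ⊆ A ∩ (-1,1) ⊆ (-1,ε]` a.e.  `fl_sl_B_eq`: `1 + h = |A ∩ (-1,1)| = |A ∩ (-1,h)| + |A ∩ (h,1)| = (h + 1 - |(-1,h) \ A|) + b`.
  `fl_sl_bad`: `P = A ∩ (h,1)`, `Q = (-1,h) \ A`; a.e. `P ⊆ (h,ε]`, `Q ⊆ [-ε,h)`; `b² = |P| |Q| = |Q ×ˢ P|` (`Measure.prod_prod`) and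
  `Q ×ˢ P ⊆ {(s,t) : |s| < 1/4, s ∉ A, t ∈ A, 0 < t - s < 2ε}` up to a null set [if `2ε` is attained: null]; the shear `(s,t) ↦ (s, t - s)` preserves `volume.prod volume`
  (`measurePreserving_add_prod`/`MeasureTheory.measurePreserving_sub_prod`-type lemmas, or Tonelli + translation invariance of the inner integral:
  `∫⁻ s, ∫⁻ t, F s (t - s) = ∫⁻ s, ∫⁻ τ, F s τ`), then Tonelli to put `τ` outside.
* `fl_trans_test`: `Φ(σ) = ∫ 1_S(y) g(y - σ e) dy`.  `Φ'(σ) = - ∫_S ∂_t g(y - σ e) dy` (`hasDerivAt_integral_of_dominated_loc_of_deriv_le`, `g ∈ C¹_c`) `= - ∫ g(y - σe) ν_t dμ` (Gauss-Green `H.gg.gg` for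
  `T = flVert (fun y => g (y - σ • e))`, `fl_vert_test`: for `0 ≤ σ ≤ 1/2` the support lies in `|z| ≤ 3/4`, `|t| ≤ 7/8`; `fl_vert_div`, `fl_vert_inner`).  As `0 ≤ g ≤ 1` and `g(· - σe) = 0` off `C_1`:
  `- ∫ g(y-σe) ν_t dμ ≤ ∫_{C_1} (1 - ν_t) dμ ≤ δ` (`-ν_t ≤ 1 - ν_t`, `1 - ν_t ≥ 0`, `fl_exc`).  Mean value inequality: `Φ(τ) - Φ(0) ≤ τ δ` (`Convex.image_sub_le_mul_sub_of_deriv_le`), and
  `Φ(τ) = ∫ 1_S(y + τ e) g(y) dy` (translation invariance).
* `fl_trans`: let `B = {y | |z| < 1/2, |t| < 1/4, y + τe ∈ S, y ∉ S}` (measurable, bounded).  For `η > 0` choose `K ⊆ B` compact with `|B \ K| < η` (`MeasurableSet.exists_isCompact_lt_add`), and `g ∈ C^∞`, `0 ≤ g ≤ 1`, `g = 1` on `K`, support in a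
  small open neighbourhood `V` of `K`, `V ⊆ {|z| < 3/4, |t| < 3/8}`, `|V \ K| < η` (outer regularity; `exists_contMDiff_zero_one...`/`exists_smooth_zero_one_of_isClosed` with `𝓘(ℝ, E (n+1))`, or `exists_contDiff_...`).  Then
  `|B| - η ≤ |K| = ∫_K (1_S(y+τe) - 1_S(y)) g ≤ ∫ (1_S(y+τe) - 1_S(y)) g + |V \ K| ≤ τ δ + η`.
* `fl_bad_sq`: `fl_slice` gives `FlSl (S_z) ε` for a.e. `z ∈ ball 0 1`; integrate `fl_sl_bad` over `ball 0 (1/2)`, Tonelli (`fl_lintegral_join`), `fl_trans`, `∫_0^{2ε} τ δ dτ = 2 ε² δ`.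
* `fl_bad`: Cauchy-Schwarz on `ball 0 (1/2)`: `∫ b ≤ √|ball| √(∫ b²)`  (e.g. `b ≤ λ/2 + b²/(2λ)` with `λ = ε√δ`, if `λ > 0`; if `δ = 0` then `∫ b² = 0`, `b = 0` a.e.).
-/

set_option autoImplicit false
open scoped ContDiff ENNReal RealInnerProductSpace
open MeasureTheory Metric Set

namespace Claimed.Agent.Gmt

variable {n : ℕ}

/-! ### one dimensional slices -/

/-- a measurable subset of `ℝ` which contains `(-1,-ε)` and misses `(ε,1)` up to null sets. -/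
structure FlSl (A : Set ℝ) (ε : ℝ) : Prop where
  meas : MeasurableSet A
  low : ∀ᵐ t : ℝ, t ∈ Ioo (-1 : ℝ) (-ε) → t ∈ A
  up : ∀ᵐ t : ℝ, t ∈ Ioo ε 1 → t ∉ A

/-- height of a slice. -/
noncomputable def flSlH (A : Set ℝ) : ℝ := (volume (A ∩ Ioo (-1 : ℝ) 1)).toReal - 1

/-- the part of the slice above its height. -/
noncomputable def flSlB (A : Set ℝ) : ℝ := (volume (A ∩ Ioo (flSlH A) 1)).toReal

theorem flb_vol_set {A : Set ℝ} (hA : MeasurableSet A) (a b : ℝ) :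
    (volume (A ∩ Ioo a b)).toReal = ∫ t in Ioo a b, A.indicator (fun _ => (1 : ℝ)) t := by
  rw [setIntegral_indicator hA, setIntegral_const, smul_eq_mul, mul_one, measureReal_def,
    inter_comm]

theorem flb_ii {A : Set ℝ} (hA : MeasurableSet A) (a b : ℝ) :
    IntervalIntegrable (A.indicator (fun _ => (1 : ℝ))) volume a b := by
  rw [intervalIntegrable_iff]
  exact (integrableOn_const (by simp)).indicator hA

theorem flb_vol {A : Set ℝ} (hA : MeasurableSet A) {a b : ℝ} (hab : a ≤ b) :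
    (volume (A ∩ Ioo a b)).toReal = ∫ t in a..b, A.indicator (fun _ => (1 : ℝ)) t := by
  rw [flb_vol_set hA, intervalIntegral.integral_of_le hab, integral_Ioc_eq_integral_Ioo]

theorem flb_vol_diff {A : Set ℝ} (hA : MeasurableSet A) {a b : ℝ} (hab : a ≤ b) :
    (volume (Ioo a b \ A)).toReal = (b - a) - ∫ t in a..b, A.indicator (fun _ => (1 : ℝ)) t := by
  have h1 := measure_inter_add_diff (μ := volume) (Ioo a b) hA
  have h2 : (volume (Ioo a b ∩ A)).toReal + (volume (Ioo a b \ A)).toReal = b - a := by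
    rw [← ENNReal.toReal_add (measure_ne_top_of_subset inter_subset_left (by simp))
      (measure_ne_top_of_subset diff_subset (by simp)), h1, Real.volume_Ioo,
      ENNReal.toReal_ofReal (by linarith)]
  rw [← flb_vol hA hab, inter_comm]
  linarith

theorem fl_sl_H_abs {A : Set ℝ} {ε : ℝ} (h : FlSl A ε) (h0 : 0 < ε) (h1 : ε ≤ 1 / 4) :
    |flSlH A| ≤ ε := by
  unfold flSlH
  rw [flb_vol_set h.meas]
  exact fly_len h.meas h0 h1 ⟨h.low, h.up⟩

theorem fl_sl_B_eq {A : Set ℝ} {ε : ℝ} (h : FlSl A ε) (h0 : 0 < ε) (h1 : ε ≤ 1 / 4) :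
    (volume (Ioo (-1 : ℝ) (flSlH A) \ A)).toReal = flSlB A := by
  have hH := abs_le.1 (fl_sl_H_abs h h0 h1)
  have e1 : flSlH A + 1 = ∫ t in (-1 : ℝ)..1, A.indicator (fun _ => (1 : ℝ)) t := by
    rw [← flb_vol h.meas (by norm_num)]
    unfold flSlH
    ring
  have e2 := intervalIntegral.integral_add_adjacent_intervals (flb_ii h.meas (-1) (flSlH A))
    (flb_ii h.meas (flSlH A) 1)
  unfold flSlB
  rw [flb_vol_diff h.meas (by linarith), flb_vol h.meas (by linarith)]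
  linarith

theorem fl_sl_B_nonneg (A : Set ℝ) : 0 ≤ flSlB A := ENNReal.toReal_nonneg

/-- the part above the height lies below `ε`, the holes below the height lie above `-ε`. -/
theorem fl_sl_loc {A : Set ℝ} {ε : ℝ} (h : FlSl A ε) (h0 : 0 < ε) (h1 : ε ≤ 1 / 4) :
    volume ((A ∩ Ioo (flSlH A) 1) \ Ioc (flSlH A) ε) = 0 ∧
      volume ((Ioo (-1 : ℝ) (flSlH A) \ A) \ Ico (-ε) (flSlH A)) = 0 := by
  constructor
  · refine measure_mono_null (fun t ht => ?_) (ae_iff.1 h.up)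
    obtain ⟨⟨hA, h2, h3⟩, h4⟩ := ht
    have h5 : ε < t := by
      by_contra hc
      exact h4 ⟨h2, not_lt.1 hc⟩
    exact fun hc => hc ⟨h5, h3⟩ hA
  · refine measure_mono_null (fun t ht => ?_) (ae_iff.1 h.low)
    obtain ⟨⟨⟨h2, h3⟩, hA⟩, h4⟩ := ht
    have h5 : t < -ε := by
      by_contra hc
      exact h4 ⟨not_lt.1 hc, h3⟩
    exact fun hc => hA (hc ⟨h2, h5⟩)

theorem fl_sl_B_le {A : Set ℝ} {ε : ℝ} (h : FlSl A ε) (h0 : 0 < ε) (h1 : ε ≤ 1 / 4) :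
    flSlB A ≤ 2 * ε := by
  have hH := abs_le.1 (fl_sl_H_abs h h0 h1)
  have h2 : volume (A ∩ Ioo (flSlH A) 1) ≤ volume (Ioc (flSlH A) ε) := by
    calc volume (A ∩ Ioo (flSlH A) 1)
        ≤ volume (((A ∩ Ioo (flSlH A) 1) \ Ioc (flSlH A) ε) ∪ Ioc (flSlH A) ε) :=
          measure_mono fun t ht => by
            by_cases h3 : t ∈ Ioc (flSlH A) ε
            · exact Or.inr h3
            · exact Or.inl ⟨ht, h3⟩
      _ ≤ volume ((A ∩ Ioo (flSlH A) 1) \ Ioc (flSlH A) ε) + volume (Ioc (flSlH A) ε) :=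
          measure_union_le _ _
      _ = volume (Ioc (flSlH A) ε) := by rw [(fl_sl_loc h h0 h1).1, zero_add]
  rw [Real.volume_Ioc] at h2
  unfold flSlB
  exact (ENNReal.toReal_le_of_le_ofReal (by linarith) h2).trans (by linarith)

end Claimed.Agent.Gmt
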