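import Claimed.Agent.Lib.Gmt.FlBad1

/-!
THIS FILE = PACKAGE L-GMT-FlBad2 (part 2 of 5 of the former `FlBad.lean`, which now only imports the parts; the text below is the plan of the whole former file).
# Lib/Gmt G4.4a (architect: helper190): the slices of `S` are almost intervals (first half of F6).
PACKAGE L-GMT-FlBad.   Input: `FlUnit` (`gg`, `flat`), `fl_exc`, `FlCoord`.

For a.e. `z ∈ ball 0 1` the slice `A = S_z = {t | (z,t) ∈ S}` satisfies `FlSl A ε`: it contains `(-1,-ε)` and misses `(ε,1)` (a.e.).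
`h = flSlH A = |A ∩ (-1,1)| - 1`, `b = flSlB A = |A ∩ (h,1)| = |(-1,h) \ A|`: `b = 0` iff `A ∩ (-1,1) = (-1,h)` a.e.
RESULT `fl_bad`: `∫_{ball 0 (1/2)} b(z) dz ≤ C ε √δ`.

PLAN.
* 1-D lemmas.  `fl_sl_H_abs`: `(-1,-ε) ⊆ A ∩ (-1,1) ⊆ (-1,ε]` a.e.  `fl_sl_B_eq`: `1 + h = |A ∩ (-1,1)| = |A ∩ (-1,h)| + |A ∩ (h,1)| = (h + 1 - |(-1,h) \ A|) + b`.
  `fl_sl_bad`: `P = A ∩ (h,1)`, `Q = (-1,h) \ A`; a.e. `P ⊆ (h,ε]`, `Q ⊆ [-ε,h)`; `b² = |P| |Q| = |Q ×ˢ P|` (`Measure.prod_prod`) and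
  `Q ×ˢ P ⊆ {(s,t) : |s| < 1/4, s ∉ A, t ∈ A, 0 < t - s < 2ε}` up to a null set [if `2ε` is attained: null]; the shear `(s,t) ↦ (s, t - s)` preserves `volume.prod volume`
  (`measurePreserving_add_prod`/`MeasureTheory.measurePreserving_sub_prod`-type lemmas, or Tonelli + translation invariance of the inner integral:
  `∫⁻ s, ∫⁻ t, F s (t - s) = ∫⁻ s, ∫⁻ τ, F s τ`), then Tonelli to put `τ` outside.
* `fl_trans_test`: `Φ(σ) = ∫ 1_S(y) g(y - σ e) dy`.  `Φ'(σ) = - ∫_S ∂_t g(y - σ e) dy` (`hasDerivAt_integral_of_dominated_loc_of_deriv_le`, `g ∈ C¹_c`) `= - ∫ g(y - σe) ν_t dμ` (Gauss-Green `H.gg.gg` for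
  `T = flVert (fun y => g (y - σ • e))`, `fl_vert_test`: for `0 ≤ σ ≤ 1/2` the support lies in `|z| ≤ 3/4`, `|t| ≤ 7/8`; `fl_vert_div`, `fl_vert_inner`).  As `0 ≤ g ≤ 1` and `g(· - σe) = 0` off `C_1`:
  `- ∫ g(y-σe) ν_t dμ ≤ ∫_{C_1} (1 - ν_t) dμ ≤ δ` (`-ν_t ≤ 1 - ν_t`, `1 - ν_t ≥ 0`, `fl_exc`).  Mean value inequality: `Φ(τ) - Φ(0) ≤ τ δ` (`Convex.image_sub_le_mul_sub_of_deriv_le`), and
  `Φ(τ) = ∫ 1_S(y + τ e) g(y) dy` (translation invariance).
* `fl_trans`: let `B = {y | |z| < 1/2, |t| < 1/4, y + τe ∈ S, y ∉ S}` (measurable, bounded).  For `η > 0` choose `K ⊆ B` compact with `|B \ K| < η` (`MeasurableSet.exists_isCompact_lt_add`), and `g ∈ C^∞`, `0 ≤ g ≤ 1`, `g = 1` on `K`, support in a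
  small open neighbourhood `V` of `K`, `V ⊆ {|z| < 3/4, |t| < 3/8}`, `|V \ K| < η` (outer regularity; `exists_contMDiff_zero_one...`/`exists_smooth_zero_one_of_isClosed` with `𝓘(ℝ, E (n+1))`, or `exists_contDiff_...`).  Then
  `|B| - η ≤ |K| = ∫_K (1_S(y+τe) - 1_S(y)) g ≤ ∫ (1_S(y+τe) - 1_S(y)) g + |V \ K| ≤ τ δ + η`.
* `fl_bad_sq`: `fl_slice` gives `FlSl (S_z) ε` for a.e. `z ∈ ball 0 1`; integrate `fl_sl_bad` over `ball 0 (1/2)`, Tonelli (`fl_lintegral_join`), `fl_trans`, `∫_0^{2ε} τ δ dτ = 2 ε² δ`.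
* `fl_bad`: Cauchy-Schwarz on `ball 0 (1/2)`: `∫ b ≤ √|ball| √(∫ b²)`  (e.g. `b ≤ λ/2 + b²/(2λ)` with `λ = ε√δ`, if `λ > 0`; if `δ = 0` then `∫ b² = 0`, `b = 0` a.e.).
-/

set_option autoImplicit false
open scoped ContDiff ENNReal RealInnerProductSpace
open MeasureTheory Metric Set

namespace Claimed.Agent.Gmt

variable {n : ℕ}

/-- `b² ≤ |{(s,τ) : 0 < τ < 2ε, |s| < 1/4, s + τ ∈ A, s ∉ A}|`. -/
theorem fl_sl_bad {A : Set ℝ} {ε : ℝ} (h : FlSl A ε) (h0 : 0 < ε) (h1 : ε ≤ 1 / 4) :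
    ENNReal.ofReal (flSlB A ^ 2) ≤
      ∫⁻ τ in Ioo (0 : ℝ) (2 * ε), volume {s : ℝ | |s| < 1 / 4 ∧ s + τ ∈ A ∧ s ∉ A} := by
  have hH := abs_le.1 (fl_sl_H_abs h h0 h1)
  have hloc := fl_sl_loc h h0 h1
  have hBeq := fl_sl_B_eq h h0 h1
  have vP : volume (A ∩ Ioo (flSlH A) 1) = ENNReal.ofReal (flSlB A) := by
    unfold flSlB
    rw [ENNReal.ofReal_toReal]
    exact measure_ne_top_of_subset inter_subset_right (by simp)
  have vQ : volume (Ioo (-1 : ℝ) (flSlH A) \ A) = ENNReal.ofReal (flSlB A) := by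
    rw [← hBeq, ENNReal.ofReal_toReal]
    exact measure_ne_top_of_subset diff_subset (by simp)
  generalize flSlH A = hh at *
  set P := A ∩ Ioo hh 1 with hP
  set Q := Ioo (-1 : ℝ) hh \ A with hQ
  set P' := P ∩ Ioc hh ε with hP'
  set Q' := Q ∩ Ioo (-ε) hh with hQ'
  have vP' : volume P ≤ volume P' := by
    calc volume P ≤ volume ((P \ Ioc hh ε) ∪ P') := measure_mono fun t ht => by
            by_cases h3 : t ∈ Ioc hh ε
            · exact Or.inr ⟨ht, h3⟩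
            · exact Or.inl ⟨ht, h3⟩
      _ ≤ volume (P \ Ioc hh ε) + volume P' := measure_union_le _ _
      _ = volume P' := by rw [hloc.1, zero_add]
  have vQ' : volume Q ≤ volume Q' := by
    calc volume Q ≤ volume (((Q \ Ico (-ε) hh) ∪ {-ε}) ∪ Q') := measure_mono fun t ht => by
            by_cases h3 : t ∈ Ico (-ε) hh
            · rcases eq_or_lt_of_le h3.1 with h4 | h4
              · exact Or.inl (Or.inr h4.symm)
              · exact Or.inr ⟨ht, h4, h3.2⟩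
            · exact Or.inl (Or.inl ⟨ht, h3⟩)
      _ ≤ (volume (Q \ Ico (-ε) hh) + volume {-ε}) + volume Q' :=
          (measure_union_le _ _).trans (add_le_add_left (measure_union_le _ _) _)
      _ = volume Q' := by rw [hloc.2, Real.volume_singleton]; simp
  set T : Set (ℝ × ℝ) :=
    {p | p.2 ∈ Ioo (0 : ℝ) (2 * ε) ∧ |p.1| < 1 / 4 ∧ p.1 + p.2 ∈ A ∧ p.1 ∉ A} with hT
  have mT : MeasurableSet T :=
    (measurableSet_Ioo.preimage measurable_snd).inter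
      ((measurableSet_lt (continuous_abs.measurable.comp measurable_fst) measurable_const).inter
        ((h.meas.preimage (measurable_fst.add measurable_snd)).inter
          (h.meas.preimage measurable_fst).compl))
  have e1 : ∫⁻ τ in Ioo (0 : ℝ) (2 * ε), volume {s : ℝ | |s| < 1 / 4 ∧ s + τ ∈ A ∧ s ∉ A}
      = (volume.prod volume) T := by
    rw [Measure.prod_apply_symm mT, ← lintegral_indicator measurableSet_Ioo]
    congr 1
    funext τ
    by_cases hτ : τ ∈ Ioo (0 : ℝ) (2 * ε)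
    · rw [indicator_of_mem hτ]
      congr 1
      ext s
      exact ⟨fun hs => ⟨hτ, hs⟩, fun hs => hs.2⟩
    · rw [indicator_of_notMem hτ]
      symm
      refine measure_mono_null (fun s hs => hτ hs.1) measure_empty
  have e2 : (volume.prod volume) T
      = (volume.prod volume) ((fun z : ℝ × ℝ => (z.1, -z.1 + z.2)) ⁻¹' T) :=
    ((measurePreserving_prod_neg_add volume volume).measure_preimage mT.nullMeasurableSet).symm
  rw [e1, e2, sq, ENNReal.ofReal_mul (fl_sl_B_nonneg A)]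
  calc ENNReal.ofReal (flSlB A) * ENNReal.ofReal (flSlB A) = volume Q * volume P := by rw [vP, vQ]
    _ ≤ volume Q' * volume P' := mul_le_mul' vQ' vP'
    _ = (volume.prod volume) (Q' ×ˢ P') := (Measure.prod_prod _ _).symm
    _ ≤ _ := measure_mono fun p hp => ?_
  obtain ⟨⟨⟨⟨q1, q2⟩, q3⟩, q4, q5⟩, ⟨p1, p2, p3⟩, p4, p5⟩ := hp
  refine ⟨⟨?_, ?_⟩, abs_lt.2 ⟨by linarith, by linarith⟩, ?_, q3⟩
  · show 0 < -p.1 + p.2
    linarith
  · show -p.1 + p.2 < 2 * ε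
    linarith
  · show p.1 + (-p.1 + p.2) ∈ A
    rwa [add_neg_cancel_left]

end Claimed.Agent.Gmt
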