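import Claimed.Agent.Lib.Gmt.FlBad2

/-!
THIS FILE = PACKAGE L-GMT-FlBad3 (part 3 of 5 of the former `FlBad.lean`, which now only imports the parts; the text below is the plan of the whole former file).
# Lib/Gmt G4.4a (architect: helper190): the slices of `S` are almost intervals (first half of F6).
PACKAGE L-GMT-FlBad.   Input: `FlUnit` (`gg`, `flat`), `fl_exc`, `FlCoord`.

For a.e. `z ∈ ball 0 1` the slice `A = S_z = {t | (z,t) ∈ S}` satisfies `FlSl A ε`: it contains `(-1,-ε)` and misses `(ε,1)` (a.e.).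
`h = flSlH A = |A ∩ (-1,1)| - 1`, `b = flSlB A = |A ∩ (h,1)| = |(-1,h) \ A|`: `b = 0` iff `A ∩ (-1,1) = (-1,h)` a.e.
RESULT `fl_bad`: `∫_{ball 0 (1/2)} b(z) dz ≤ C ε √δ`.

PLAN.
* 1-D lemmas.  `fl_sl_H_abs`: `(-1,-ε) ⊆ A ∩ (-1,1) ⊆ (-1,ε]` a.e.  `fl_sl_B_eq`: `1 + h = |A ∩ (-1,1)| = |A ∩ (-1,h)| + |A ∩ (h,1)| = (h + 1 - |(-1,h) \ A|) + b`.
  `fl_sl_bad`: `P = A ∩ (h,1)`, `Q = (-1,h) \ A`; a.e. `P ⊆ (h,ε]`, `Q ⊆ [-ε,h)`; `b² = |P| |Q| = |Q ×ˢ P|` (`Measure.prod_prod`) and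
  `Q ×ˢ P ⊆ {(s,t) : |s| < 1/4, s ∉ A, t ∈ A, 0 < t - s < 2ε}` up to a null set [if `2ε` is attained: null]; the shear `(s,t) ↦ (s, t - s)` preserves `volume.prod volume`
  (`measurePreserving_add_prod`/`MeasureTheory.measurePreserving_sub_prod`-type lemmas, or Tonelli + translation invariance of the inner integral:
  `∫⁻ s, ∫⁻ t, F s (t - s) = ∫⁻ s, ∫⁻ τ, F s τ`), then Tonelli to put `τ` outside.
* `fl_trans_test`: `Φ(σ) = ∫ 1_S(y) g(y - σ e) dy`.  `Φ'(σ) = - ∫_S ∂_t g(y - σ e) dy` (`hasDerivAt_integral_of_dominated_loc_of_deriv_le`, `g ∈ C¹_c`) `= - ∫ g(y - σe) ν_t dμ` (Gauss-Green `H.gg.gg` for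
  `T = flVert (fun y => g (y - σ • e))`, `fl_vert_test`: for `0 ≤ σ ≤ 1/2` the support lies in `|z| ≤ 3/4`, `|t| ≤ 7/8`; `fl_vert_div`, `fl_vert_inner`).  As `0 ≤ g ≤ 1` and `g(· - σe) = 0` off `C_1`:
  `- ∫ g(y-σe) ν_t dμ ≤ ∫_{C_1} (1 - ν_t) dμ ≤ δ` (`-ν_t ≤ 1 - ν_t`, `1 - ν_t ≥ 0`, `fl_exc`).  Mean value inequality: `Φ(τ) - Φ(0) ≤ τ δ` (`Convex.image_sub_le_mul_sub_of_deriv_le`), and
  `Φ(τ) = ∫ 1_S(y + τ e) g(y) dy` (translation invariance).
* `fl_trans`: let `B = {y | |z| < 1/2, |t| < 1/4, y + τe ∈ S, y ∉ S}` (measurable, bounded).  For `η > 0` choose `K ⊆ B` compact with `|B \ K| < η` (`MeasurableSet.exists_isCompact_lt_add`), and `g ∈ C^∞`, `0 ≤ g ≤ 1`, `g = 1` on `K`, support in a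
  small open neighbourhood `V` of `K`, `V ⊆ {|z| < 3/4, |t| < 3/8}`, `|V \ K| < η` (outer regularity; `exists_contMDiff_zero_one...`/`exists_smooth_zero_one_of_isClosed` with `𝓘(ℝ, E (n+1))`, or `exists_contDiff_...`).  Then
  `|B| - η ≤ |K| = ∫_K (1_S(y+τe) - 1_S(y)) g ≤ ∫ (1_S(y+τe) - 1_S(y)) g + |V \ K| ≤ τ δ + η`.
* `fl_bad_sq`: `fl_slice` gives `FlSl (S_z) ε` for a.e. `z ∈ ball 0 1`; integrate `fl_sl_bad` over `ball 0 (1/2)`, Tonelli (`fl_lintegral_join`), `fl_trans`, `∫_0^{2ε} τ δ dτ = 2 ε² δ`.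
* `fl_bad`: Cauchy-Schwarz on `ball 0 (1/2)`: `∫ b ≤ √|ball| √(∫ b²)`  (e.g. `b ≤ λ/2 + b²/(2λ)` with `λ = ε√δ`, if `λ > 0`; if `δ = 0` then `∫ b² = 0`, `b = 0` a.e.).
-/

set_option autoImplicit false
open scoped ContDiff ENNReal RealInnerProductSpace
open MeasureTheory Metric Set

namespace Claimed.Agent.Gmt

variable {n : ℕ}

/-- the vertical slice of `S` over `z`. -/
def flSlice (S : Set (E (n + 1))) (z : E n) : Set ℝ := {t | gmtJoin z t ∈ S}

theorem fl_slice_measurable {S : Set (E (n + 1))} (hS : MeasurableSet S) (z : E n) :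
    MeasurableSet (flSlice S z) := fly_measurableSet hS z

theorem flb_indicator (S : Set (E (n + 1))) (z : E n) (t : ℝ) :
    S.indicator (fun _ => (1 : ℝ)) (gmtJoin z t) = (flSlice S z).indicator (fun _ => (1 : ℝ)) t := rfl

theorem fl_H_eq {S : Set (E (n + 1))} (hS : MeasurableSet S) (z : E n) :
    flH S z = flSlH (flSlice S z) := by
  unfold flH flSlH
  rw [flb_vol_set (fl_slice_measurable hS z)]
  rfl

theorem fl_B_eq {S : Set (E (n + 1))} (hS : MeasurableSet S) (z : E n) :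
    flB S z = flSlB (flSlice S z) := by
  unfold flB flSlB
  rw [flb_vol_set (fl_slice_measurable hS z), ← fl_H_eq hS]
  rfl

theorem fl_B_measurable {S : Set (E (n + 1))} (hS : MeasurableSet S) : Measurable (flB S) := by
  have hm : MeasurableSet {p : E n × ℝ | flH S p.1 < p.2 ∧ p.2 < 1} :=
    (measurableSet_lt ((fl_H_measurable hS).comp measurable_fst) measurable_snd).inter
      (measurableSet_lt measurable_snd measurable_const)
  have h1 : StronglyMeasurable fun p : E n × ℝ =>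
      ({p : E n × ℝ | flH S p.1 < p.2 ∧ p.2 < 1}).indicator
        (fun p => S.indicator (fun _ => (1 : ℝ)) (gmtJoin p.1 p.2)) p :=
    (((measurable_const.indicator hS).comp fl_measurable_join).indicator hm).stronglyMeasurable
  have h2 := h1.integral_prod_right' (ν := (volume : Measure ℝ))
  have e : flB S = fun z => ∫ t, ({p : E n × ℝ | flH S p.1 < p.2 ∧ p.2 < 1}).indicator
        (fun p => S.indicator (fun _ => (1 : ℝ)) (gmtJoin p.1 p.2)) (z, t) := by
    funext z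
    unfold flB
    rw [← integral_indicator measurableSet_Ioo]
    rfl
  rw [e]
  exact h2.measurable

theorem fl_B_nonneg (S : Set (E (n + 1))) (z : E n) : 0 ≤ flB S z :=
  integral_nonneg fun t => indicator_nonneg (fun _ _ => zero_le_one) _

theorem fl_B_le_two (S : Set (E (n + 1))) (z : E n) : flB S z ≤ 2 := by
  have hb := abs_le.1 (fl_H_bound_all S z)
  have := integral_mono_of_nonneg (μ := volume.restrict (Ioo (flH S z) 1))
    (f := fun t => S.indicator (fun _ => (1 : ℝ)) (gmtJoin z t)) (g := fun _ => (1 : ℝ))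
    (Filter.Eventually.of_forall fun t => indicator_nonneg (fun _ _ => zero_le_one) _)
    (integrable_const _)
    (Filter.Eventually.of_forall fun t => indicator_le_self' (fun _ _ => zero_le_one) _)
  rw [integral_const, fly_vol_Ioo, max_eq_left (by linarith), smul_eq_mul, mul_one] at this
  unfold flB
  linarith

variable {ε κ δ c₀ C₀ : ℝ} {S : Set (E (n + 1))} {μ : Measure (E (n + 1))}
  {ν : E (n + 1) → E (n + 1)}

theorem fl_slice_sl (H : FlUnit n ε κ δ c₀ C₀ S μ ν) :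
    ∀ᵐ z : E n, ‖z‖ < 1 → FlSl (flSlice S z) ε := by
  filter_upwards [flx_slice H] with z hz h1
  exact ⟨fl_slice_measurable H.gg.mS z, (hz h1).1, (hz h1).2⟩

end Claimed.Agent.Gmt
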