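import Claimed.Agent.Lib.Gmt.FlBad3

/-!
THIS FILE = PACKAGE L-GMT-FlBad4 (part 4 of 5 of the former `FlBad.lean`, which now only imports the parts; the text below is the plan of the whole former file).
# Lib/Gmt G4.4a (architect: helper190): the slices of `S` are almost intervals (first half of F6).
PACKAGE L-GMT-FlBad.   Input: `FlUnit` (`gg`, `flat`), `fl_exc`, `FlCoord`.

For a.e. `z ∈ ball 0 1` the slice `A = S_z = {t | (z,t) ∈ S}` satisfies `FlSl A ε`: it contains `(-1,-ε)` and misses `(ε,1)` (a.e.).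
`h = flSlH A = |A ∩ (-1,1)| - 1`, `b = flSlB A = |A ∩ (h,1)| = |(-1,h) \ A|`: `b = 0` iff `A ∩ (-1,1) = (-1,h)` a.e.
RESULT `fl_bad`: `∫_{ball 0 (1/2)} b(z) dz ≤ C ε √δ`.

PLAN.
* 1-D lemmas.  `fl_sl_H_abs`: `(-1,-ε) ⊆ A ∩ (-1,1) ⊆ (-1,ε]` a.e.  `fl_sl_B_eq`: `1 + h = |A ∩ (-1,1)| = |A ∩ (-1,h)| + |A ∩ (h,1)| = (h + 1 - |(-1,h) \ A|) + b`.
  `fl_sl_bad`: `P = A ∩ (h,1)`, `Q = (-1,h) \ A`; a.e. `P ⊆ (h,ε]`, `Q ⊆ [-ε,h)`; `b² = |P| |Q| = |Q ×ˢ P|` (`Measure.prod_prod`) and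
  `Q ×ˢ P ⊆ {(s,t) : |s| < 1/4, s ∉ A, t ∈ A, 0 < t - s < 2ε}` up to a null set [if `2ε` is attained: null]; the shear `(s,t) ↦ (s, t - s)` preserves `volume.prod volume`
  (`measurePreserving_add_prod`/`MeasureTheory.measurePreserving_sub_prod`-type lemmas, or Tonelli + translation invariance of the inner integral:
  `∫⁻ s, ∫⁻ t, F s (t - s) = ∫⁻ s, ∫⁻ τ, F s τ`), then Tonelli to put `τ` outside.
* `fl_trans_test`: `Φ(σ) = ∫ 1_S(y) g(y - σ e) dy`.  `Φ'(σ) = - ∫_S ∂_t g(y - σ e) dy` (`hasDerivAt_integral_of_dominated_loc_of_deriv_le`, `g ∈ C¹_c`) `= - ∫ g(y - σe) ν_t dμ` (Gauss-Green `H.gg.gg` for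
  `T = flVert (fun y => g (y - σ • e))`, `fl_vert_test`: for `0 ≤ σ ≤ 1/2` the support lies in `|z| ≤ 3/4`, `|t| ≤ 7/8`; `fl_vert_div`, `fl_vert_inner`).  As `0 ≤ g ≤ 1` and `g(· - σe) = 0` off `C_1`:
  `- ∫ g(y-σe) ν_t dμ ≤ ∫_{C_1} (1 - ν_t) dμ ≤ δ` (`-ν_t ≤ 1 - ν_t`, `1 - ν_t ≥ 0`, `fl_exc`).  Mean value inequality: `Φ(τ) - Φ(0) ≤ τ δ` (`Convex.image_sub_le_mul_sub_of_deriv_le`), and
  `Φ(τ) = ∫ 1_S(y + τ e) g(y) dy` (translation invariance).
* `fl_trans`: let `B = {y | |z| < 1/2, |t| < 1/4, y + τe ∈ S, y ∉ S}` (measurable, bounded).  For `η > 0` choose `K ⊆ B` compact with `|B \ K| < η` (`MeasurableSet.exists_isCompact_lt_add`), and `g ∈ C^∞`, `0 ≤ g ≤ 1`, `g = 1` on `K`, support in a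
  small open neighbourhood `V` of `K`, `V ⊆ {|z| < 3/4, |t| < 3/8}`, `|V \ K| < η` (outer regularity; `exists_contMDiff_zero_one...`/`exists_smooth_zero_one_of_isClosed` with `𝓘(ℝ, E (n+1))`, or `exists_contDiff_...`).  Then
  `|B| - η ≤ |K| = ∫_K (1_S(y+τe) - 1_S(y)) g ≤ ∫ (1_S(y+τe) - 1_S(y)) g + |V \ K| ≤ τ δ + η`.
* `fl_bad_sq`: `fl_slice` gives `FlSl (S_z) ε` for a.e. `z ∈ ball 0 1`; integrate `fl_sl_bad` over `ball 0 (1/2)`, Tonelli (`fl_lintegral_join`), `fl_trans`, `∫_0^{2ε} τ δ dτ = 2 ε² δ`.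
* `fl_bad`: Cauchy-Schwarz on `ball 0 (1/2)`: `∫ b ≤ √|ball| √(∫ b²)`  (e.g. `b ≤ λ/2 + b²/(2λ)` with `λ = ε√δ`, if `λ > 0`; if `δ = 0` then `∫ b² = 0`, `b = 0` a.e.).
-/

set_option autoImplicit false
open scoped ContDiff ENNReal RealInnerProductSpace
open MeasureTheory Metric Set

namespace Claimed.Agent.Gmt

variable {n : ℕ}

theorem flb_hor_shift (y : E (n + 1)) (σ : ℝ) : gmtHor (y - σ • gmtEn n) = gmtHor y := by
  show gmtHorL n (y - σ • gmtEn n) = gmtHorL n y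
  have : gmtHorL n (gmtEn n) = 0 := fl_hor_en
  rw [map_sub, map_smul, this, smul_zero, sub_zero]

theorem flb_ver_shift (y : E (n + 1)) (σ : ℝ) : gmtVer (y - σ • gmtEn n) = gmtVer y - σ := by
  show gmtVerL n (y - σ • gmtEn n) = gmtVerL n y - σ
  have : gmtVerL n (gmtEn n) = 1 := fl_ver_en
  rw [map_sub, map_smul, this, smul_eq_mul, mul_one]

theorem flb_shift_tsupport {g : E (n + 1) → ℝ}
    (hs : tsupport g ⊆ {y | ‖gmtHor y‖ ≤ 3 / 4 ∧ |gmtVer y| ≤ 3 / 8}) {σ : ℝ} (h0 : 0 ≤ σ)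
    (h1 : σ ≤ 1 / 2) :
    tsupport (fun y => g (y - σ • gmtEn n)) ⊆ {y | ‖gmtHor y‖ ≤ 3 / 4 ∧ |gmtVer y| ≤ 7 / 8} := by
  refine closure_minimal (fun y hy => ?_)
    ((isClosed_le (continuous_norm.comp fl_continuous_hor) continuous_const).inter
      (isClosed_le (continuous_abs.comp fl_continuous_ver) continuous_const))
  have h2 := hs (subset_tsupport g hy)
  rw [mem_setOf_eq, flb_hor_shift, flb_ver_shift] at h2
  refine ⟨h2.1, ?_⟩
  have h3 := abs_le.1 h2.2
  exact abs_le.2 ⟨by linarith, by linarith⟩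

open scoped Convolution in
theorem flb_Phi_hasDerivAt {S : Set (E (n + 1))} (hS : MeasurableSet S) {g : E (n + 1) → ℝ}
    (hg : ContDiff ℝ 1 g) (hc : HasCompactSupport g) (σ : ℝ) :
    HasDerivAt (fun σ : ℝ => ∫ y, S.indicator (fun _ => (1 : ℝ)) y * g (y - σ • gmtEn n))
      (-∫ y in S, fderiv ℝ g (y - σ • gmtEn n) (gmtEn n)) σ := by
  set f : E (n + 1) → ℝ := S.indicator (fun _ => (1 : ℝ)) with hf
  set k : E (n + 1) → ℝ := fun x => g (-x) with hk
  have hfl : LocallyIntegrable f := (locallyIntegrable_const (1 : ℝ)).indicator hS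
  have hk1 : ContDiff ℝ 1 k := hg.comp contDiff_neg
  have hkc : HasCompactSupport k := hc.comp_homeomorph (Homeomorph.neg _)
  have hkd : ∀ x, fderiv ℝ k x = -(fderiv ℝ g (-x)) := fun x => by
    have h0 := ((hg.differentiable (by simp)) (-x)).hasFDerivAt.comp x
      (hasFDerivAt_id x).neg
    have h00 : fderiv ℝ k x = _ := h0.fderiv
    rw [h00]
    ext v
    simp
  have h1 := hkc.hasFDerivAt_convolution_right (ContinuousLinearMap.mul ℝ ℝ) hfl hk1
    (σ • gmtEn n)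
  have h2 : HasDerivAt (fun σ : ℝ => σ • gmtEn n) (gmtEn n) σ := by
    simpa using (hasDerivAt_id σ).smul_const (gmtEn n)
  have h3 := h1.comp_hasDerivAt σ h2
  have hex := (hkc.fderiv ℝ).convolutionExists_right
    ((ContinuousLinearMap.mul ℝ ℝ).precompR (E (n + 1))) hfl (hk1.continuous_fderiv (by simp))
    (σ • gmtEn n)
  unfold ConvolutionExistsAt at hex
  have e1 : (f ⋆[(ContinuousLinearMap.mul ℝ ℝ).precompR (E (n + 1)), volume] fderiv ℝ k)
      (σ • gmtEn n) (gmtEn n) = -∫ y in S, fderiv ℝ g (y - σ • gmtEn n) (gmtEn n) := by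
    unfold convolution
    rw [ContinuousLinearMap.integral_apply hex, ← integral_indicator hS, ← integral_neg]
    congr 1
    funext y
    rw [hkd, neg_sub]
    by_cases hy : y ∈ S
    · simp [hf, hy]
    · simp [hf, hy]
  rw [e1] at h3
  refine h3.congr_of_eventuallyEq (Filter.Eventually.of_forall fun s => ?_)
  show (∫ y, f y * g (y - s • gmtEn n)) = (f ⋆[ContinuousLinearMap.mul ℝ ℝ, volume] k) (s • gmtEn n)
  unfold convolution
  congr 1
  funext y
  simp [hk]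

variable {ε κ δ c₀ C₀ : ℝ} {S : Set (E (n + 1))} {μ : Measure (E (n + 1))}
  {ν : E (n + 1) → E (n + 1)}

theorem flb_deriv_le (H : FlUnit n ε κ δ c₀ C₀ S μ ν) {g : E (n + 1) → ℝ} (hg : ContDiff ℝ 1 g)
    (h01 : ∀ y, 0 ≤ g y ∧ g y ≤ 1)
    (hs : tsupport g ⊆ {y | ‖gmtHor y‖ ≤ 3 / 4 ∧ |gmtVer y| ≤ 3 / 8}) {σ : ℝ} (h0 : 0 ≤ σ)
    (h1 : σ ≤ 1 / 2) : -∫ y in S, fderiv ℝ g (y - σ • gmtEn n) (gmtEn n) ≤ δ := by
  set a : E (n + 1) → ℝ := fun y => g (y - σ • gmtEn n) with ha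
  have ha1 : ContDiff ℝ 1 a := hg.comp (contDiff_id.sub contDiff_const)
  have had : Differentiable ℝ a := ha1.differentiable (by simp)
  have hsa := flb_shift_tsupport hs h0 h1
  have hT : GmtTest (ball 0 4) (flVert a) := fl_vert_test ha1
    (hsa.trans fun y hy => ⟨hy.1.trans (by norm_num), hy.2.trans (by norm_num)⟩)
  have hgg := H.gg.gg _ hT
  have e1 : ∀ y, gmtDiv (flVert a) y = fderiv ℝ g (y - σ • gmtEn n) (gmtEn n) := fun y => by
    rw [fl_vert_div (had y), ha, fderiv_comp_sub]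
  simp only [e1, fl_vert_inner] at hgg
  rw [hgg, ← integral_neg]
  have hmν := H.gg.mν
  have hfin : μ (flCyl 1) < ⊤ := fl_mu_cyl_lt_top H
  have : IsFiniteMeasure (μ.restrict (flCyl 1)) := ⟨by rwa [Measure.restrict_apply_univ]⟩
  have hvt : ∀ y, |gmtVer (ν y)| ≤ 1 := fun y => (fl_abs_ver_le _).trans (H.gg.le1 y)
  have hmvt : Measurable fun y => gmtVer (ν y) := fl_continuous_ver.measurable.comp hmν
  rw [← setIntegral_eq_integral_of_forall_compl_eq_zero (s := flCyl 1)]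
  · refine le_trans (integral_mono ?_ ?_ fun y => ?_) (fl_exc H)
    · refine Integrable.of_bound ((ha1.continuous.measurable.mul hmvt).neg).aestronglyMeasurable 1
        (Filter.Eventually.of_forall fun y => ?_)
      rw [norm_neg, norm_mul, Real.norm_eq_abs, Real.norm_eq_abs, abs_of_nonneg (h01 _).1]
      exact mul_le_one₀ (h01 _).2 (abs_nonneg _) (hvt y)
    · refine Integrable.of_bound (measurable_const.sub hmvt).aestronglyMeasurable 2
        (Filter.Eventually.of_forall fun y => ?_)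
      rw [Real.norm_eq_abs]
      have := abs_le.1 (hvt y)
      exact abs_le.2 ⟨by linarith, by linarith⟩
    · have h2 := abs_le.1 (hvt y)
      have h3 := h01 (y - σ • gmtEn n)
      show -(g (y - σ • gmtEn n) * gmtVer (ν y)) ≤ 1 - gmtVer (ν y)
      nlinarith
  · intro y hy
    have : a y = 0 := by
      refine image_eq_zero_of_notMem_tsupport fun hc => hy ?_
      have := hsa hc
      exact ⟨lt_of_le_of_lt this.1 (by norm_num), lt_of_le_of_lt this.2 (by norm_num)⟩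
    rw [this]
    simp

theorem fl_trans_test (H : FlUnit n ε κ δ c₀ C₀ S μ ν) {g : E (n + 1) → ℝ} (hg : ContDiff ℝ 1 g)
    (h01 : ∀ y, 0 ≤ g y ∧ g y ≤ 1)
    (hs : tsupport g ⊆ {y | ‖gmtHor y‖ ≤ 3 / 4 ∧ |gmtVer y| ≤ 3 / 8}) {τ : ℝ} (h0 : 0 ≤ τ)
    (h1 : τ ≤ 1 / 2) :
    ∫ y, (S.indicator (fun _ => (1 : ℝ)) (y + τ • gmtEn n) - S.indicator (fun _ => (1 : ℝ)) y) * g y
      ≤ τ * δ := by
  have hS := H.gg.mS
  have hc : HasCompactSupport g := flx_compact
    (hs.trans fun y hy => ⟨hy.1.trans (by norm_num), hy.2.trans (by norm_num)⟩)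
  have hgi : Integrable g := hg.continuous.integrable_of_hasCompactSupport hc
  have hd := flb_Phi_hasDerivAt (n := n) hS hg hc
  have hmv := Convex.image_sub_le_mul_sub_of_deriv_le (convex_Icc 0 τ)
    (f := fun σ : ℝ => ∫ y, S.indicator (fun _ => (1 : ℝ)) y * g (y - σ • gmtEn n))
    (fun σ _ => (hd σ).continuousAt.continuousWithinAt)
    (fun σ _ => (hd σ).differentiableAt.differentiableWithinAt) (C := δ)
    (fun σ hσ => by
      rw [(hd σ).deriv]
      rw [interior_Icc] at hσ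
      exact flb_deriv_le H hg h01 hs hσ.1.le (hσ.2.le.trans h1))
    0 (left_mem_Icc.2 h0) τ (right_mem_Icc.2 h0) h0
  simp only [zero_smul, sub_zero] at hmv
  have e1 : ∫ y, S.indicator (fun _ => (1 : ℝ)) y * g (y - τ • gmtEn n)
      = ∫ y, S.indicator (fun _ => (1 : ℝ)) (y + τ • gmtEn n) * g y := by
    rw [← integral_add_right_eq_self
      (fun y => S.indicator (fun _ => (1 : ℝ)) y * g (y - τ • gmtEn n)) (τ • gmtEn n)]
    simp only [add_sub_cancel_right]
  have i0 : ∀ A : Set (E (n + 1)), MeasurableSet A →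
      Integrable fun y => A.indicator (fun _ => (1 : ℝ)) y * g y := fun A hA => by
    have : (fun y => A.indicator (fun _ => (1 : ℝ)) y * g y) = A.indicator g := by
      funext y
      by_cases hy : y ∈ A
      · rw [indicator_of_mem hy, indicator_of_mem hy, one_mul]
      · rw [indicator_of_notMem hy, indicator_of_notMem hy, zero_mul]
    rw [this]
    exact hgi.indicator hA
  have i1 : Integrable fun y => S.indicator (fun _ => (1 : ℝ)) (y + τ • gmtEn n) * g y :=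
    i0 ((fun y => y + τ • gmtEn n) ⁻¹' S) ((measurable_id.add_const _) hS)
  have e2 : ∫ y, (S.indicator (fun _ => (1 : ℝ)) (y + τ • gmtEn n)
      - S.indicator (fun _ => (1 : ℝ)) y) * g y
      = (∫ y, S.indicator (fun _ => (1 : ℝ)) (y + τ • gmtEn n) * g y)
        - ∫ y, S.indicator (fun _ => (1 : ℝ)) y * g y := by
    rw [← integral_sub i1 (i0 S hS)]
    congr 1; funext y; ring
  rw [e2, ← e1]
  linarith

open scoped Manifold in
theorem flb_urysohn {m : ℕ} {V K : Set (E m)} (hV : IsOpen V) (hK : IsClosed K) (h : K ⊆ V) :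
    ∃ g : E m → ℝ, ContDiff ℝ ∞ g ∧ (∀ y, 0 ≤ g y ∧ g y ≤ 1) ∧ Function.support g = V ∧
      ∀ y ∈ K, g y = 1 := by
  obtain ⟨f, hf, hr, hs, h1⟩ :=
    exists_contMDiff_support_eq_eq_one_iff (n := ⊤) 𝓘(ℝ, E m) hV hK h
  exact ⟨f, contMDiff_iff_contDiff.1 hf, fun y => hr (mem_range_self y), hs,
    fun y hy => (h1 y).1 hy⟩

theorem flb_ind01 {α : Type*} (A : Set α) (y : α) :
    0 ≤ A.indicator (fun _ => (1 : ℝ)) y ∧ A.indicator (fun _ => (1 : ℝ)) y ≤ 1 :=
  ⟨indicator_nonneg (fun _ _ => zero_le_one) _, indicator_le_self' (fun _ _ => zero_le_one) _⟩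

theorem flb_int (hS : MeasurableSet S) {g : E (n + 1) → ℝ} (hgi : Integrable g) (τ : ℝ) :
    Integrable fun y => (S.indicator (fun _ => (1 : ℝ)) (y + τ • gmtEn n)
      - S.indicator (fun _ => (1 : ℝ)) y) * g y := by
  refine hgi.bdd_mul (c := 1) ?_ (Filter.Eventually.of_forall fun y => ?_)
  · exact (((measurable_const.indicator hS).comp (measurable_id.add_const _)).sub
      (measurable_const.indicator hS)).aestronglyMeasurable
  · have h1 := flb_ind01 S (y + τ • gmtEn n)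
    have h2 := flb_ind01 S y
    rw [Real.norm_eq_abs]
    exact abs_le.2 ⟨by linarith, by linarith⟩

theorem fl_trans (H : FlUnit n ε κ δ c₀ C₀ S μ ν) {τ : ℝ} (h0 : 0 ≤ τ) (h1 : τ ≤ 1 / 2) :
    volume {y : E (n + 1) | ‖gmtHor y‖ < 1 / 2 ∧ |gmtVer y| < 1 / 4 ∧ y + τ • gmtEn n ∈ S ∧ y ∉ S} ≤
      ENNReal.ofReal (τ * δ) := by
  have hS := H.gg.mS
  set W : Set (E (n + 1)) := {y | ‖gmtHor y‖ < 1 / 2 ∧ |gmtVer y| < 1 / 4} with hWdef
  have hW : IsOpen W :=
    (isOpen_lt (continuous_norm.comp fl_continuous_hor) continuous_const).inter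
      (isOpen_lt (continuous_abs.comp fl_continuous_ver) continuous_const)
  set B : Set (E (n + 1)) :=
    {y | ‖gmtHor y‖ < 1 / 2 ∧ |gmtVer y| < 1 / 4 ∧ y + τ • gmtEn n ∈ S ∧ y ∉ S} with hBdef
  have eB : B = W ∩ (((fun y => y + τ • gmtEn n) ⁻¹' S) ∩ Sᶜ) := by
    ext y
    exact ⟨fun h => ⟨⟨h.1, h.2.1⟩, h.2.2.1, h.2.2.2⟩, fun h => ⟨h.1.1, h.1.2, h.2.1, h.2.2⟩⟩
  have mB : MeasurableSet B := by
    rw [eB]
    exact hW.measurableSet.inter (((measurable_id.add_const _) hS).inter hS.compl)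
  have hBW : B ⊆ W := fun y hy => ⟨hy.1, hy.2.1⟩
  have hWb : W ⊆ ball 0 2 := fun y hy =>
    fl_cyl_subset_ball (hy.1.le.trans (by norm_num)) (hy.2.le.trans (by norm_num))
  have hBfin : volume B ≠ ⊤ := measure_ne_top_of_subset (hBW.trans hWb) measure_ball_lt_top.ne
  rw [mB.measure_eq_iSup_isCompact_of_ne_top hBfin]
  refine iSup₂_le fun K hKB => iSup_le fun hK => ?_
  refine ENNReal.le_of_forall_pos_le_add fun η hη _ => ?_
  obtain ⟨V, hKV, hVo, hVm⟩ := hK.exists_isOpen_lt_add (μ := (volume : Measure (E (n + 1))))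
    (ε := (η : ℝ≥0∞)) (by simpa using hη.ne')
  have hV'o : IsOpen (V ∩ W) := hVo.inter hW
  have hKV' : K ⊆ V ∩ W := fun y hy => ⟨hKV hy, hBW (hKB hy)⟩
  obtain ⟨g, g1, g2, g3, g4⟩ := flb_urysohn hV'o hK.isClosed hKV'
  have hts : tsupport g ⊆ {y | ‖gmtHor y‖ ≤ 3 / 4 ∧ |gmtVer y| ≤ 3 / 8} := by
    refine closure_minimal (fun y hy => ?_)
      ((isClosed_le (continuous_norm.comp fl_continuous_hor) continuous_const).inter
        (isClosed_le (continuous_abs.comp fl_continuous_ver) continuous_const))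
    rw [g3] at hy
    exact ⟨hy.2.1.le.trans (by norm_num), hy.2.2.le.trans (by norm_num)⟩
  have hc : HasCompactSupport g := flx_compact
    (hts.trans fun y hy => ⟨hy.1.trans (by norm_num), hy.2.trans (by norm_num)⟩)
  have hgi : Integrable g := g1.continuous.integrable_of_hasCompactSupport hc
  have ht := fl_trans_test H (g1.of_le (by simp)) g2 hts h0 h1
  have hKfin : volume K ≠ ⊤ := hK.measure_lt_top.ne
  have hD : volume ((V ∩ W) \ K) ≤ η := by
    rw [measure_diff_le_iff_le_add hK.measurableSet.nullMeasurableSet hKV' hKfin]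
    exact (measure_mono inter_subset_left).trans hVm.le
  have hDfin : volume ((V ∩ W) \ K) ≠ ⊤ := ne_top_of_le_ne_top ENNReal.coe_ne_top hD
  have mD : MeasurableSet ((V ∩ W) \ K) := hV'o.measurableSet.diff hK.measurableSet
  have iK : Integrable (K.indicator fun _ => (1 : ℝ)) :=
    (integrable_indicator_iff hK.measurableSet).2 (integrableOn_const hKfin)
  have iD : Integrable (((V ∩ W) \ K).indicator fun _ => (1 : ℝ)) :=
    (integrable_indicator_iff mD).2 (integrableOn_const hDfin)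
  have hlow : (volume K).toReal - (volume ((V ∩ W) \ K)).toReal
      ≤ ∫ y, (S.indicator (fun _ => (1 : ℝ)) (y + τ • gmtEn n)
        - S.indicator (fun _ => (1 : ℝ)) y) * g y := by
    have e : (volume K).toReal - (volume ((V ∩ W) \ K)).toReal
        = ∫ y, (K.indicator (fun _ => (1 : ℝ)) y
          - ((V ∩ W) \ K).indicator (fun _ => (1 : ℝ)) y) := by
      rw [integral_sub iK iD, integral_indicator_const _ hK.measurableSet,
        integral_indicator_const _ mD]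
      simp [measureReal_def]
    rw [e]
    refine integral_mono (iK.sub iD) (flb_int hS hgi τ) fun y => ?_
    show K.indicator (fun _ => (1 : ℝ)) y - ((V ∩ W) \ K).indicator (fun _ => (1 : ℝ)) y
      ≤ (S.indicator (fun _ => (1 : ℝ)) (y + τ • gmtEn n) - S.indicator (fun _ => (1 : ℝ)) y) * g y
    by_cases hyK : y ∈ K
    · have hyB := hKB hyK
      rw [indicator_of_mem hyK, indicator_of_notMem (fun h => h.2 hyK),
        indicator_of_mem hyB.2.2.1, indicator_of_notMem hyB.2.2.2, g4 y hyK]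
      norm_num
    · by_cases hyV : y ∈ V ∩ W
      · rw [indicator_of_notMem hyK, indicator_of_mem (show y ∈ (V ∩ W) \ K from ⟨hyV, hyK⟩)]
        have a1 := flb_ind01 S (y + τ • gmtEn n)
        have a2 := flb_ind01 S y
        have a3 := g2 y
        nlinarith
      · have : g y = 0 := by
          by_contra hc0
          exact hyV (g3 ▸ (Function.mem_support.2 hc0))
        rw [indicator_of_notMem hyK, indicator_of_notMem (fun h => hyV h.1), this]
        simp
  have hDr : (volume ((V ∩ W) \ K)).toReal ≤ (η : ℝ) := by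
    have := ENNReal.toReal_mono ENNReal.coe_ne_top hD
    simpa using this
  have hfinal : (volume K).toReal ≤ τ * δ + η := by linarith
  have hτδ : 0 ≤ τ * δ := mul_nonneg h0 H.hδ
  calc volume K = ENNReal.ofReal (volume K).toReal := (ENNReal.ofReal_toReal hKfin).symm
    _ ≤ ENNReal.ofReal (τ * δ + η) := ENNReal.ofReal_le_ofReal hfinal
    _ = ENNReal.ofReal (τ * δ) + η := by
        rw [ENNReal.ofReal_add hτδ η.coe_nonneg, ENNReal.ofReal_coe_nnreal]

end Claimed.Agent.Gmt
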