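import Claimed.Agent.Lib.Gmt.FlCacc1

/-!
THIS FILE = PACKAGE L-GMT-FlCacc2 (part 2 of 2 of the former `FlCacc.lean`, which now only imports the parts; the text below is the plan of the whole former file).
# Lib/Gmt G4.2 (architect: helper190): Caccioppoli inequality and almost harmonicity of the height (F3, F4).
PACKAGE L-GMT-FlCacc.   Input: `FlUnit.fv`, `FlFlux`.

PLAN.
* `fl_cacc`.  `ζ = flCut (3/4) (7/8)`, `a(y) = ζ(z)² η(t) t = flPr (ζ²) (fun t => η t * t)`, `X = flVert a` (`fl_vert_testS`).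
  At `μ`-a.e. point of `C_1` (`|t| ≤ ε ≤ 1/4`, so `η = 1`, `η' = 0`; `|ν| = 1`):
  `Da(v) = 2 ζ t ∇ζ·v' + ζ² v_t`, `flTdiv X ν = ζ² (1 - ν_t²) - 2 ζ t ν_t ∇ζ·ν' = ζ² |ν'|² - 2 ζ t ν_t ∇ζ·ν'` (`fl_vert_tdiv`, `fl_norm_sq`).
  `2 |ζ t ν_t ∇ζ·ν'| ≤ ζ²|ν'|²/2 + 2 ε² |∇ζ|²`.  (FV): `|∫ flTdiv| ≤ κ ∫ (|Da| + |a|) dμ ≤ κ (1 + 2 C_ζ + 1) μ(C_1)`.  Off `C_1` everything vanishes.
  Hence `∫ ζ²|ν'|² ≤ 4 ε² C_ζ² μ(C_1) + 2 κ (2 + 2 C_ζ) μ(C_1)`, `μ(C_1) ≤ ω_n + 1`, `ζ = 1` on `C_{3/4}`.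
* `fl_cross`: Cauchy-Schwarz: `∫_{C_{3/4}} (1-ν_t)|ν'| ≤ (∫ (1-ν_t)²)^{1/2} (∫ |ν'|²)^{1/2}`, `(1-ν_t)² ≤ 2 (1-ν_t)` (as `|ν_t| ≤ 1`), `fl_exc`, `fl_cacc`.
* `fl_harm`.  `X = flVert (flPr ψ η)`: `μ`-a.e. on `C_1`: `flTdiv X ν = - ν_t ∇ψ(z)·ν'`, `|DX| = |∇ψ|`, `|X| = |ψ|`.  So `|∫_{C_1} ν_t ∇ψ·ν' dμ| ≤ κ · 2M μ(C_1)`.
  `fl_H_grad` with `Ψ = gradient ψ`: `∫ h Δψ = ∫_{C_1} ∇ψ·ν' dμ = ∫ ν_t ∇ψ·ν' + ∫ (1-ν_t) ∇ψ·ν'`; the last integrand vanishes off `C_{3/4}` and is `≤ M (1-ν_t)|ν'|`.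
-/

set_option autoImplicit false
open scoped ContDiff ENNReal RealInnerProductSpace
open MeasureTheory Metric Set

namespace Claimed.Agent.Gmt

variable {n : ℕ}

/-- Cauchy-Schwarz for Bochner integrals, any measure. -/
theorem flc_cs {α : Type*} [MeasurableSpace α] {μ : Measure α} {u v : α → ℝ}
    (hu : Integrable (fun x => u x ^ 2) μ) (hv : Integrable (fun x => v x ^ 2) μ)
    (huv : Integrable (fun x => u x * v x) μ) :
    (∫ x, u x * v x ∂μ) ^ 2 ≤ (∫ x, u x ^ 2 ∂μ) * ∫ x, v x ^ 2 ∂μ := by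
  have h : ∀ t : ℝ, 0 ≤ (∫ x, u x ^ 2 ∂μ) * (t * t) + (-2 * ∫ x, u x * v x ∂μ) * t
      + ∫ x, v x ^ 2 ∂μ := by
    intro t
    have e : ∫ x, (u x * t - v x) ^ 2 ∂μ =
        (∫ x, u x ^ 2 ∂μ) * (t * t) + (-2 * ∫ x, u x * v x ∂μ) * t + ∫ x, v x ^ 2 ∂μ := by
      have e1 : (fun x => (u x * t - v x) ^ 2) =
          fun x => u x ^ 2 * (t * t) + (-2 * (u x * v x)) * t + v x ^ 2 := by
        funext x; ring
      have hs : Integrable (fun x => u x ^ 2 * (t * t) + (-2 * (u x * v x)) * t) μ :=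
        (hu.mul_const _).add ((huv.const_mul _).mul_const _)
      rw [e1, integral_add hs hv, integral_add (hu.mul_const _) ((huv.const_mul _).mul_const _),
        integral_mul_const, integral_mul_const, integral_const_mul]
    rw [← e]
    exact integral_nonneg (fun x => sq_nonneg _)
  have := discrim_le_zero h
  rw [discrim] at this
  nlinarith

theorem fl_cross (n : ℕ) : ∃ C : ℝ, 0 < C ∧ ∀ (ε κ δ c₀ C₀ : ℝ) (S : Set (E (n + 1)))
    (μ : Measure (E (n + 1))) (ν : E (n + 1) → E (n + 1)), FlUnit n ε κ δ c₀ C₀ S μ ν →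
      ∫ y in flCyl (3 / 4), (1 - gmtVer (ν y)) * ‖gmtHor (ν y)‖ ∂μ ≤
        C * Real.sqrt (δ * (ε ^ 2 + κ)) := by
  obtain ⟨Cc, hCc, Hc⟩ := fl_cacc n
  refine ⟨Real.sqrt (2 * Cc), Real.sqrt_pos.2 (by positivity), ?_⟩
  intro ε κ δ c₀ C₀ S μ ν H
  have hcacc := Hc ε κ δ c₀ C₀ S μ ν H
  have hmν := H.gg.mν
  have hsub : (flCyl (3 / 4) : Set (E (n + 1))) ⊆ flCyl 1 := fl_cyl_mono (by norm_num)
  have hfin1 : μ (flCyl 1) < ⊤ := fl_mu_cyl_lt_top H
  have : IsFiniteMeasure (μ.restrict (flCyl 1)) := ⟨by rwa [Measure.restrict_apply_univ]⟩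
  have : IsFiniteMeasure (μ.restrict (flCyl (3 / 4))) := ⟨by
    rw [Measure.restrict_apply_univ]; exact (measure_mono hsub).trans_lt hfin1⟩
  have hvt : ∀ y, |gmtVer (ν y)| ≤ 1 := fun y => (fl_abs_ver_le _).trans (H.gg.le1 y)
  have hp1 : ∀ y, ‖gmtHor (ν y)‖ ≤ 1 := fun y => (fl_norm_hor_le _).trans (H.gg.le1 y)
  have hu0 : ∀ y, 0 ≤ 1 - gmtVer (ν y) := fun y => by have := (abs_le.1 (hvt y)).2; linarith
  have hu2 : ∀ y, 1 - gmtVer (ν y) ≤ 2 := fun y => by have := (abs_le.1 (hvt y)).1; linarith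
  have hmu : Measurable fun y => 1 - gmtVer (ν y) :=
    measurable_const.sub (fl_continuous_ver.measurable.comp hmν)
  have hmv : Measurable fun y => ‖gmtHor (ν y)‖ := (fl_continuous_hor.measurable.comp hmν).norm
  have ibd : ∀ {σ : Measure (E (n + 1))} [IsFiniteMeasure σ] {F : E (n + 1) → ℝ}, Measurable F →
      ∀ M : ℝ, (∀ y, |F y| ≤ M) → Integrable F σ := fun hF M hM =>
    Integrable.of_bound hF.aestronglyMeasurable M (Filter.Eventually.of_forall fun y => by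
      rw [Real.norm_eq_abs]; exact hM y)
  have iu2 : Integrable (fun y => (1 - gmtVer (ν y)) ^ 2) (μ.restrict (flCyl (3 / 4))) :=
    ibd (hmu.pow_const 2) 4 fun y => by
      rw [abs_of_nonneg (by positivity)]; nlinarith [hu0 y, hu2 y]
  have iv2 : Integrable (fun y => ‖gmtHor (ν y)‖ ^ 2) (μ.restrict (flCyl (3 / 4))) :=
    ibd (hmv.pow_const 2) 1 fun y => by
      rw [abs_of_nonneg (by positivity)]; exact pow_le_one₀ (norm_nonneg _) (hp1 y)
  have iuv : Integrable (fun y => (1 - gmtVer (ν y)) * ‖gmtHor (ν y)‖)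
      (μ.restrict (flCyl (3 / 4))) :=
    ibd (hmu.mul hmv) 2 fun y => by
      rw [abs_of_nonneg (mul_nonneg (hu0 y) (norm_nonneg _))]
      nlinarith [hu0 y, hu2 y, hp1 y, norm_nonneg (gmtHor (ν y))]
  have iu1 : Integrable (fun y => 1 - gmtVer (ν y)) (μ.restrict (flCyl 1)) :=
    ibd hmu 2 fun y => by rw [abs_of_nonneg (hu0 y)]; exact hu2 y
  have hcs := flc_cs iu2 iv2 iuv
  have hA : ∫ y in flCyl (3 / 4), (1 - gmtVer (ν y)) ^ 2 ∂μ ≤ 2 * δ := by
    have h1 : ∫ y in flCyl (3 / 4), (1 - gmtVer (ν y)) ^ 2 ∂μ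
        ≤ ∫ y in flCyl (3 / 4), 2 * (1 - gmtVer (ν y)) ∂μ :=
      integral_mono iu2 ((iu1.mono_measure (Measure.restrict_mono hsub le_rfl)).const_mul 2)
        fun y => by
          show (1 - gmtVer (ν y)) ^ 2 ≤ 2 * (1 - gmtVer (ν y))
          nlinarith [hu0 y, hu2 y]
    rw [integral_const_mul] at h1
    have h2 : ∫ y in flCyl (3 / 4), (1 - gmtVer (ν y)) ∂μ ≤ ∫ y in flCyl 1, (1 - gmtVer (ν y)) ∂μ :=
      setIntegral_mono_set iu1 (Filter.Eventually.of_forall hu0) (Filter.Eventually.of_forall hsub)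
    have h3 := fl_exc H
    linarith
  have hA0 : 0 ≤ ∫ y in flCyl (3 / 4), (1 - gmtVer (ν y)) ^ 2 ∂μ :=
    integral_nonneg fun y => by positivity
  have hB0 : 0 ≤ ∫ y in flCyl (3 / 4), ‖gmtHor (ν y)‖ ^ 2 ∂μ :=
    integral_nonneg fun y => by positivity
  have hδ := H.hδ
  have hκ := H.hκ
  have hfinal : (∫ y in flCyl (3 / 4), (1 - gmtVer (ν y)) * ‖gmtHor (ν y)‖ ∂μ) ^ 2
      ≤ (2 * Cc) * (δ * (ε ^ 2 + κ)) := by
    refine hcs.trans ?_
    calc _ ≤ (2 * δ) * (Cc * (ε ^ 2 + κ)) := mul_le_mul hA hcacc hB0 (by positivity)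
      _ = _ := by ring
  rw [← Real.sqrt_mul (by positivity)]
  exact Real.le_sqrt_of_sq_le hfinal

/-- derivative of `ψ(z) η(t)` in the slab. -/
theorem flc_P_fderiv {ψ : E n → ℝ} (hψ : ContDiff ℝ ∞ ψ) {y : E (n + 1)} (hy : |gmtVer y| < 1 / 2)
    (v : E (n + 1)) :
    fderiv ℝ (flPr ψ flEta) y v = fderiv ℝ ψ (gmtHor y) (gmtHor v) := by
  rw [fl_pr_fderiv ((hψ.differentiable (by simp)) _) ((fl_eta_props.1.differentiable (by simp)) _),
    fl_eta_deriv hy, fl_eta_props.2.2.1 _ hy.le]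
  ring

/-- F4: the height function is almost harmonic. -/
theorem fl_harm (n : ℕ) : ∃ C : ℝ, 0 < C ∧ ∀ (ε κ δ c₀ C₀ : ℝ) (S : Set (E (n + 1)))
    (μ : Measure (E (n + 1))) (ν : E (n + 1) → E (n + 1)), FlUnit n ε κ δ c₀ C₀ S μ ν →
      FlAH (flH S) (C * (Real.sqrt (δ * (ε ^ 2 + κ)) + κ)) := by
  obtain ⟨Cx, hCx, Hx⟩ := fl_cross n
  refine ⟨Cx + 2 * (|gmtOm n| + 1), by positivity, ?_⟩
  intro ε κ δ c₀ C₀ S μ ν H ψ hψ hψs M hM0 hM1
  have hcross := Hx ε κ δ c₀ C₀ S μ ν H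
  have hε0 := H.hε
  have hε4 := H.hε'
  have hκ := H.hκ
  have hM : 0 ≤ M := (abs_nonneg _).trans (hM0 0)
  have hmν := H.gg.mν
  have hψc : HasCompactSupport ψ :=
    (isCompact_closedBall (0 : E n) (3 / 4)).of_isClosed_subset (isClosed_tsupport _)
      (hψs.trans ball_subset_closedBall)
  set a := flPr ψ flEta with hadef
  have ha : ContDiff ℝ ∞ a := fl_pr_contDiff (N := ⊤) hψ fl_eta_props.1
  have ha1 : ContDiff ℝ 1 a := ha.of_le (by simp)
  have had : Differentiable ℝ a := ha.differentiable (by simp)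
  have hsupp : tsupport a ⊆ {y | ‖gmtHor y‖ ≤ 3 / 4 ∧ |gmtVer y| ≤ 3 / 4} :=
    fl_pr_tsupport (hψs.trans ball_subset_closedBall) (fun t ht => fl_eta_props.2.2.2 t ht)
  have hX : GmtTestS (ball 0 4) (flVert a) := fl_vert_testS ha
    (hsupp.trans fun y hy => ⟨hy.1.trans (by norm_num), hy.2.trans (by norm_num)⟩)
  have hfv := H.fv _ hX
  have hoff : ∀ y, y ∉ (flCyl 1 : Set (E (n + 1))) → y ∉ tsupport a := fun y hy hy' =>
    hy ⟨lt_of_le_of_lt (hsupp hy').1 (by norm_num), lt_of_le_of_lt (hsupp hy').2 (by norm_num)⟩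
  have hF1 : ∀ y, flTdiv (flVert a) ν y
      = fderiv ℝ a y (gmtEn n) - gmtVer (ν y) * fderiv ℝ a y (ν y) := fun y =>
    fl_vert_tdiv (had y) ν
  have hF2 : ∀ y, ‖fderiv ℝ (flVert a) y‖ + ‖flVert a y‖ = ‖fderiv ℝ a y‖ + |a y| := fun y => by
    rw [fl_vert_norm_fderiv (had y), fl_vert_norm]
  simp only [hF1, hF2] at hfv
  have e1 : ∫ y, (fderiv ℝ a y (gmtEn n) - gmtVer (ν y) * fderiv ℝ a y (ν y)) ∂μ
      = ∫ y in flCyl 1, (fderiv ℝ a y (gmtEn n) - gmtVer (ν y) * fderiv ℝ a y (ν y)) ∂μ := by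
    refine (setIntegral_eq_integral_of_forall_compl_eq_zero fun y hy => ?_).symm
    rw [fderiv_of_notMem_tsupport ℝ (hoff y hy)]
    simp
  have e2 : ∫ y, (‖fderiv ℝ a y‖ + |a y|) ∂μ = ∫ y in flCyl 1, (‖fderiv ℝ a y‖ + |a y|) ∂μ := by
    refine (setIntegral_eq_integral_of_forall_compl_eq_zero fun y hy => ?_).symm
    rw [fderiv_of_notMem_tsupport ℝ (hoff y hy), image_eq_zero_of_notMem_tsupport (hoff y hy)]
    simp
  rw [e1, e2] at hfv
  have hfin : μ (flCyl 1) < ⊤ := fl_mu_cyl_lt_top H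
  have : IsFiniteMeasure (μ.restrict (flCyl 1)) := ⟨by rwa [Measure.restrict_apply_univ]⟩
  have hmass : (μ.restrict (flCyl 1)).real univ ≤ |gmtOm n| + 1 := by
    rw [measureReal_def, Measure.restrict_apply_univ]
    exact (fl_mu_cyl_le H).trans (by linarith [le_abs_self (gmtOm n)])
  set Mu : ℝ := (μ.restrict (flCyl 1)).real univ with hMu
  have hMu0 : 0 ≤ Mu := measureReal_nonneg
  -- the function `Dψ(z)(ν')`
  set D : E (n + 1) → ℝ := fun y => fderiv ℝ ψ (gmtHor y) (gmtHor (ν y)) with hD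
  have hψ1 : ContDiff ℝ 1 ψ := hψ.of_le (by simp)
  have hDm : Measurable D :=
    ContinuousLinearMap.measurable_apply₂.comp
      ((((hψ1.continuous_fderiv (by simp)).comp fl_continuous_hor).measurable).prodMk
        (fl_continuous_hor.measurable.comp hmν))
  have hp1 : ∀ y, ‖gmtHor (ν y)‖ ≤ 1 := fun y => (fl_norm_hor_le _).trans (H.gg.le1 y)
  have hvt : ∀ y, |gmtVer (ν y)| ≤ 1 := fun y => (fl_abs_ver_le _).trans (H.gg.le1 y)
  have hDb : ∀ y, |D y| ≤ M * ‖gmtHor (ν y)‖ := fun y => by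
    rw [← Real.norm_eq_abs]
    exact (ContinuousLinearMap.le_opNorm _ _).trans
      (mul_le_mul_of_nonneg_right (hM1 _) (norm_nonneg _))
  have hDM : ∀ y, |D y| ≤ M := fun y => (hDb y).trans (by nlinarith [hp1 y])
  have ibd : ∀ {F : E (n + 1) → ℝ}, Measurable F →
      ∀ K : ℝ, (∀ y, |F y| ≤ K) → Integrable F (μ.restrict (flCyl 1)) := fun hF K hK =>
    Integrable.of_bound hF.aestronglyMeasurable K (Filter.Eventually.of_forall fun y => by
      rw [Real.norm_eq_abs]; exact hK y)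
  have hmvt : Measurable fun y => gmtVer (ν y) := fl_continuous_ver.measurable.comp hmν
  have iD : Integrable D (μ.restrict (flCyl 1)) := ibd hDm M hDM
  have iD1 : Integrable (fun y => gmtVer (ν y) * D y) (μ.restrict (flCyl 1)) :=
    ibd (hmvt.mul hDm) M fun y => by
      rw [abs_mul]
      calc |gmtVer (ν y)| * |D y| ≤ 1 * M := mul_le_mul (hvt y) (hDM y) (abs_nonneg _) (by norm_num)
        _ = M := one_mul _
  -- (FV)
  have hpt : ∀ᵐ y ∂(μ.restrict (flCyl 1)),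
      fderiv ℝ a y (gmtEn n) - gmtVer (ν y) * fderiv ℝ a y (ν y) = - (gmtVer (ν y) * D y) ∧
        ‖fderiv ℝ a y‖ + |a y| ≤ 2 * M := by
    filter_upwards [fl_ae_slab H] with y hy
    have hyt2 : |gmtVer y| < 1 / 2 := lt_of_le_of_lt hy.1 (by linarith)
    constructor
    · rw [flc_P_fderiv hψ hyt2, flc_P_fderiv hψ hyt2, fl_hor_en, map_zero, zero_sub]
    · have h1 : ‖fderiv ℝ a y‖ ≤ M := by
        refine ContinuousLinearMap.opNorm_le_bound _ hM fun v => ?_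
        rw [flc_P_fderiv hψ hyt2]
        exact (ContinuousLinearMap.le_opNorm _ _).trans
          (mul_le_mul (hM1 _) (fl_norm_hor_le v) (norm_nonneg _) hM)
      have h2 : |a y| ≤ M := by
        show |ψ (gmtHor y) * flEta (gmtVer y)| ≤ M
        rw [fl_eta_props.2.2.1 _ hyt2.le, mul_one]
        exact hM0 _
      linarith
  have hI1 : |∫ y in flCyl 1, gmtVer (ν y) * D y ∂μ| ≤ κ * (2 * M * Mu) := by
    have h1 : ∫ y in flCyl 1, (fderiv ℝ a y (gmtEn n) - gmtVer (ν y) * fderiv ℝ a y (ν y)) ∂μ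
        = - ∫ y in flCyl 1, gmtVer (ν y) * D y ∂μ := by
      rw [← integral_neg]
      exact integral_congr_ae (hpt.mono fun y hy => hy.1)
    rw [h1, abs_neg] at hfv
    refine hfv.trans (mul_le_mul_of_nonneg_left ?_ hκ)
    have := integral_mono_of_nonneg (μ := μ.restrict (flCyl 1))
      (f := fun y => ‖fderiv ℝ a y‖ + |a y|) (g := fun _ => 2 * M)
      (Filter.Eventually.of_forall fun y => by positivity) (integrable_const _)
      (hpt.mono fun y hy => hy.2)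
    rw [integral_const, smul_eq_mul, mul_comm] at this
    exact this
  -- the cross term
  have hI2 : |∫ y in flCyl 1, (1 - gmtVer (ν y)) * D y ∂μ|
      ≤ M * (Cx * Real.sqrt (δ * (ε ^ 2 + κ))) := by
    have hsub : (flCyl (3 / 4) : Set (E (n + 1))) ⊆ flCyl 1 := fl_cyl_mono (by norm_num)
    have h1 : ∫ y in flCyl 1, (1 - gmtVer (ν y)) * D y ∂μ
        = ∫ y in flCyl (3 / 4), (1 - gmtVer (ν y)) * D y ∂μ := by
      refine setIntegral_eq_of_subset_of_forall_sdiff_eq_zero (fl_isOpen_cyl 1).measurableSet hsub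
        fun y hy => ?_
      have hz : gmtHor y ∉ tsupport ψ := fun hz => by
        have h2 := hψs hz
        rw [mem_ball, dist_zero_right] at h2
        exact hy.2 ⟨h2, hy.1.2⟩
      show (1 - gmtVer (ν y)) * fderiv ℝ ψ (gmtHor y) (gmtHor (ν y)) = 0
      rw [fderiv_of_notMem_tsupport ℝ hz]
      simp
    rw [h1]
    have hu0 : ∀ y, 0 ≤ 1 - gmtVer (ν y) := fun y => by have := (abs_le.1 (hvt y)).2; linarith
    have hu2 : ∀ y, 1 - gmtVer (ν y) ≤ 2 := fun y => by have := (abs_le.1 (hvt y)).1; linarith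
    have ig : Integrable (fun y => M * ((1 - gmtVer (ν y)) * ‖gmtHor (ν y)‖))
        (μ.restrict (flCyl (3 / 4))) := by
      refine (ibd (F := fun y => M * ((1 - gmtVer (ν y)) * ‖gmtHor (ν y)‖))
        (measurable_const.mul ((measurable_const.sub hmvt).mul
          (fl_continuous_hor.measurable.comp hmν).norm)) (M * 2) fun y => ?_).mono_measure
        (Measure.restrict_mono hsub le_rfl)
      rw [abs_of_nonneg (mul_nonneg hM (mul_nonneg (hu0 y) (norm_nonneg _)))]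
      refine mul_le_mul_of_nonneg_left ?_ hM
      nlinarith [hu0 y, hu2 y, hp1 y, norm_nonneg (gmtHor (ν y))]
    rw [← Real.norm_eq_abs]
    refine (norm_integral_le_of_norm_le ig (Filter.Eventually.of_forall fun y => ?_)).trans ?_
    · rw [Real.norm_eq_abs, abs_mul, abs_of_nonneg (hu0 y)]
      calc (1 - gmtVer (ν y)) * |D y| ≤ (1 - gmtVer (ν y)) * (M * ‖gmtHor (ν y)‖) :=
            mul_le_mul_of_nonneg_left (hDb y) (hu0 y)
        _ = M * ((1 - gmtVer (ν y)) * ‖gmtHor (ν y)‖) := by ring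
    · rw [integral_const_mul]
      exact mul_le_mul_of_nonneg_left hcross hM
  -- F2
  have hgrad := fl_H_grad H (fl_grad_test hψ hψc (hψs.trans (ball_subset_ball (by norm_num))))
  have e3 : ∫ y in flCyl 1, ⟪gradient ψ (gmtHor y), gmtHor (ν y)⟫ ∂μ = ∫ y in flCyl 1, D y ∂μ := by
    refine integral_congr_ae (Filter.Eventually.of_forall fun y => ?_)
    show ⟪gradient ψ (gmtHor y), gmtHor (ν y)⟫ = fderiv ℝ ψ (gmtHor y) (gmtHor (ν y))
    unfold gradient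
    rw [InnerProductSpace.toDual_symm_apply]
  have e4 : ∫ y in flCyl 1, D y ∂μ
      = ∫ y in flCyl 1, gmtVer (ν y) * D y ∂μ + ∫ y in flCyl 1, (1 - gmtVer (ν y)) * D y ∂μ := by
    have i2 : Integrable (fun y => (1 - gmtVer (ν y)) * D y) (μ.restrict (flCyl 1)) := by
      have := iD.sub iD1
      refine this.congr (Filter.Eventually.of_forall fun y => ?_)
      show D y - gmtVer (ν y) * D y = (1 - gmtVer (ν y)) * D y
      ring
    rw [← integral_add iD1 i2]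
    refine integral_congr_ae (Filter.Eventually.of_forall fun y => ?_)
    show D y = gmtVer (ν y) * D y + (1 - gmtVer (ν y)) * D y
    ring
  have e5 : ∫ z, flH S z * flLap ψ z = ∫ y in flCyl 1, D y ∂μ := by
    rw [← e3, ← hgrad]
    rfl
  rw [e5, e4]
  refine (abs_add_le _ _).trans ((add_le_add hI1 hI2).trans ?_)
  set R : ℝ := Real.sqrt (δ * (ε ^ 2 + κ)) with hR
  have hR0 : 0 ≤ R := Real.sqrt_nonneg _
  have t1 : κ * (2 * M * Mu) ≤ κ * (2 * M * (|gmtOm n| + 1)) := by gcongr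
  have t2 : 0 ≤ Cx * κ * M := by positivity
  have t3 : 0 ≤ 2 * (|gmtOm n| + 1) * R * M := by positivity
  nlinarith

end Claimed.Agent.Gmt
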