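import Claimed.Agent.Lib.Gmt.FlBad4
import Claimed.Agent.Lib.Gmt.FlCacc2

/-!
THIS FILE = PACKAGE L-GMT-FlBad5 (part 5 of 5 of the former `FlBad.lean`, which now only imports the parts; the text below is the plan of the whole former file).
# Lib/Gmt G4.4a (architect: helper190): the slices of `S` are almost intervals (first half of F6).
PACKAGE L-GMT-FlBad.   Input: `FlUnit` (`gg`, `flat`), `fl_exc`, `FlCoord`.

For a.e. `z ∈ ball 0 1` the slice `A = S_z = {t | (z,t) ∈ S}` satisfies `FlSl A ε`: it contains `(-1,-ε)` and misses `(ε,1)` (a.e.).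
`h = flSlH A = |A ∩ (-1,1)| - 1`, `b = flSlB A = |A ∩ (h,1)| = |(-1,h) \ A|`: `b = 0` iff `A ∩ (-1,1) = (-1,h)` a.e.
RESULT `fl_bad`: `∫_{ball 0 (1/2)} b(z) dz ≤ C ε √δ`.

PLAN.
* 1-D lemmas.  `fl_sl_H_abs`: `(-1,-ε) ⊆ A ∩ (-1,1) ⊆ (-1,ε]` a.e.  `fl_sl_B_eq`: `1 + h = |A ∩ (-1,1)| = |A ∩ (-1,h)| + |A ∩ (h,1)| = (h + 1 - |(-1,h) \ A|) + b`.
  `fl_sl_bad`: `P = A ∩ (h,1)`, `Q = (-1,h) \ A`; a.e. `P ⊆ (h,ε]`, `Q ⊆ [-ε,h)`; `b² = |P| |Q| = |Q ×ˢ P|` (`Measure.prod_prod`) and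
  `Q ×ˢ P ⊆ {(s,t) : |s| < 1/4, s ∉ A, t ∈ A, 0 < t - s < 2ε}` up to a null set [if `2ε` is attained: null]; the shear `(s,t) ↦ (s, t - s)` preserves `volume.prod volume`
  (`measurePreserving_add_prod`/`MeasureTheory.measurePreserving_sub_prod`-type lemmas, or Tonelli + translation invariance of the inner integral:
  `∫⁻ s, ∫⁻ t, F s (t - s) = ∫⁻ s, ∫⁻ τ, F s τ`), then Tonelli to put `τ` outside.
* `fl_trans_test`: `Φ(σ) = ∫ 1_S(y) g(y - σ e) dy`.  `Φ'(σ) = - ∫_S ∂_t g(y - σ e) dy` (`hasDerivAt_integral_of_dominated_loc_of_deriv_le`, `g ∈ C¹_c`) `= - ∫ g(y - σe) ν_t dμ` (Gauss-Green `H.gg.gg` for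
  `T = flVert (fun y => g (y - σ • e))`, `fl_vert_test`: for `0 ≤ σ ≤ 1/2` the support lies in `|z| ≤ 3/4`, `|t| ≤ 7/8`; `fl_vert_div`, `fl_vert_inner`).  As `0 ≤ g ≤ 1` and `g(· - σe) = 0` off `C_1`:
  `- ∫ g(y-σe) ν_t dμ ≤ ∫_{C_1} (1 - ν_t) dμ ≤ δ` (`-ν_t ≤ 1 - ν_t`, `1 - ν_t ≥ 0`, `fl_exc`).  Mean value inequality: `Φ(τ) - Φ(0) ≤ τ δ` (`Convex.image_sub_le_mul_sub_of_deriv_le`), and
  `Φ(τ) = ∫ 1_S(y + τ e) g(y) dy` (translation invariance).
* `fl_trans`: let `B = {y | |z| < 1/2, |t| < 1/4, y + τe ∈ S, y ∉ S}` (measurable, bounded).  For `η > 0` choose `K ⊆ B` compact with `|B \ K| < η` (`MeasurableSet.exists_isCompact_lt_add`), and `g ∈ C^∞`, `0 ≤ g ≤ 1`, `g = 1` on `K`, support in a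
  small open neighbourhood `V` of `K`, `V ⊆ {|z| < 3/4, |t| < 3/8}`, `|V \ K| < η` (outer regularity; `exists_contMDiff_zero_one...`/`exists_smooth_zero_one_of_isClosed` with `𝓘(ℝ, E (n+1))`, or `exists_contDiff_...`).  Then
  `|B| - η ≤ |K| = ∫_K (1_S(y+τe) - 1_S(y)) g ≤ ∫ (1_S(y+τe) - 1_S(y)) g + |V \ K| ≤ τ δ + η`.
* `fl_bad_sq`: `fl_slice` gives `FlSl (S_z) ε` for a.e. `z ∈ ball 0 1`; integrate `fl_sl_bad` over `ball 0 (1/2)`, Tonelli (`fl_lintegral_join`), `fl_trans`, `∫_0^{2ε} τ δ dτ = 2 ε² δ`.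
* `fl_bad`: Cauchy-Schwarz on `ball 0 (1/2)`: `∫ b ≤ √|ball| √(∫ b²)`  (e.g. `b ≤ λ/2 + b²/(2λ)` with `λ = ε√δ`, if `λ > 0`; if `δ = 0` then `∫ b² = 0`, `b = 0` a.e.).
-/

set_option autoImplicit false
open scoped ContDiff ENNReal RealInnerProductSpace
open MeasureTheory Metric Set

namespace Claimed.Agent.Gmt

variable {n : ℕ}

theorem flb_join_add (z : E n) (t τ : ℝ) : gmtJoin z t + τ • gmtEn n = gmtJoin z (t + τ) := by
  rw [fl_join_eq, fl_join_eq z (t + τ), add_smul, add_assoc]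

/-- the set of translation defects, sliced. -/
theorem flb_vol_slice {S : Set (E (n + 1))} (hS : MeasurableSet S) (τ : ℝ) :
    volume {y : E (n + 1) | ‖gmtHor y‖ < 1 / 2 ∧ |gmtVer y| < 1 / 4 ∧ y + τ • gmtEn n ∈ S ∧ y ∉ S}
      = ∫⁻ z in ball (0 : E n) (1 / 2),
          volume {s : ℝ | |s| < 1 / 4 ∧ s + τ ∈ flSlice S z ∧ s ∉ flSlice S z} := by
  set B : Set (E (n + 1)) :=
    {y | ‖gmtHor y‖ < 1 / 2 ∧ |gmtVer y| < 1 / 4 ∧ y + τ • gmtEn n ∈ S ∧ y ∉ S} with hBdef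
  have mB : MeasurableSet B := by
    have eB : B = ({y | ‖gmtHor y‖ < 1 / 2} ∩ {y | |gmtVer y| < 1 / 4})
        ∩ (((fun y => y + τ • gmtEn n) ⁻¹' S) ∩ Sᶜ) := by
      ext y
      exact ⟨fun h => ⟨⟨h.1, h.2.1⟩, h.2.2.1, h.2.2.2⟩, fun h => ⟨h.1.1, h.1.2, h.2.1, h.2.2⟩⟩
    rw [eB]
    exact (((isOpen_lt (continuous_norm.comp fl_continuous_hor) continuous_const).measurableSet).inter
      ((isOpen_lt (continuous_abs.comp fl_continuous_ver) continuous_const).measurableSet)).inter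
        (((measurable_id.add_const _) hS).inter hS.compl)
  rw [← lintegral_indicator_one mB, fl_lintegral_join (measurable_one.indicator mB),
    ← lintegral_indicator measurableSet_ball]
  congr 1
  funext z
  have e : ∀ t, B.indicator (1 : E (n + 1) → ℝ≥0∞) (gmtJoin z t)
      = ({t : ℝ | gmtJoin z t ∈ B}).indicator 1 t := fun t => rfl
  have mz : MeasurableSet {t : ℝ | gmtJoin z t ∈ B} :=
    (fl_measurable_join.comp (measurable_const.prodMk measurable_id)) mB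
  simp only [e]
  rw [lintegral_indicator_one mz]
  by_cases hz : z ∈ ball (0 : E n) (1 / 2)
  · rw [indicator_of_mem hz]
    congr 1
    ext t
    have hz' : ‖z‖ < 1 / 2 := by simpa using hz
    simp only [hBdef, mem_setOf_eq, fl_hor_join, fl_ver_join, flb_join_add, flSlice, hz', true_and]
  · rw [indicator_of_notMem hz]
    refine measure_mono_null (fun t ht => hz ?_) measure_empty
    have := ht.1
    rw [fl_hor_join] at this
    simpa using this

theorem flb_G_measurable {S : Set (E (n + 1))} (hS : MeasurableSet S) :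
    Measurable (Function.uncurry fun (z : E n) (τ : ℝ) =>
      volume {s : ℝ | |s| < 1 / 4 ∧ s + τ ∈ flSlice S z ∧ s ∉ flSlice S z}) := by
  set Θ : Set ((E n × ℝ) × ℝ) :=
    {q | |q.2| < 1 / 4 ∧ gmtJoin q.1.1 (q.2 + q.1.2) ∈ S ∧ gmtJoin q.1.1 q.2 ∉ S} with hΘ
  have mΘ : MeasurableSet Θ := by
    have m1 : Measurable fun q : (E n × ℝ) × ℝ => gmtJoin q.1.1 (q.2 + q.1.2) :=
      fl_measurable_join.comp
        ((measurable_fst.comp measurable_fst).prodMk
          (measurable_snd.add (measurable_snd.comp measurable_fst)))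
    have m2 : Measurable fun q : (E n × ℝ) × ℝ => gmtJoin q.1.1 q.2 :=
      fl_measurable_join.comp ((measurable_fst.comp measurable_fst).prodMk measurable_snd)
    exact (measurableSet_lt (continuous_abs.measurable.comp measurable_snd) measurable_const).inter
      ((m1 hS).inter (m2 hS).compl)
  exact measurable_measure_prodMk_left (ν := (volume : Measure ℝ)) mΘ

variable {ε κ δ c₀ C₀ : ℝ} {S : Set (E (n + 1))} {μ : Measure (E (n + 1))}
  {ν : E (n + 1) → E (n + 1)}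

theorem flb_bad_lint (H : FlUnit n ε κ δ c₀ C₀ S μ ν) :
    ∫⁻ z in ball (0 : E n) (1 / 2), ENNReal.ofReal (flB S z ^ 2)
      ≤ ENNReal.ofReal (2 * ε ^ 2 * δ) := by
  have hS := H.gg.mS
  have hε0 := H.hε
  have hε4 := H.hε'
  calc ∫⁻ z in ball (0 : E n) (1 / 2), ENNReal.ofReal (flB S z ^ 2)
      ≤ ∫⁻ z in ball (0 : E n) (1 / 2), ∫⁻ τ in Ioo (0 : ℝ) (2 * ε),
          volume {s : ℝ | |s| < 1 / 4 ∧ s + τ ∈ flSlice S z ∧ s ∉ flSlice S z} := by
        refine lintegral_mono_ae ((ae_restrict_iff' measurableSet_ball).2 ?_)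
        filter_upwards [fl_slice_sl H] with z hz hzb
        rw [fl_B_eq hS]
        exact fl_sl_bad (hz (lt_trans (by simpa using hzb) (by norm_num))) hε0 hε4
    _ = ∫⁻ τ in Ioo (0 : ℝ) (2 * ε), ∫⁻ z in ball (0 : E n) (1 / 2),
          volume {s : ℝ | |s| < 1 / 4 ∧ s + τ ∈ flSlice S z ∧ s ∉ flSlice S z} :=
        lintegral_lintegral_swap (flb_G_measurable hS).aemeasurable
    _ = ∫⁻ τ in Ioo (0 : ℝ) (2 * ε), volume {y : E (n + 1) | ‖gmtHor y‖ < 1 / 2 ∧
          |gmtVer y| < 1 / 4 ∧ y + τ • gmtEn n ∈ S ∧ y ∉ S} := by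
        simp only [flb_vol_slice hS]
    _ ≤ ∫⁻ τ in Ioo (0 : ℝ) (2 * ε), ENNReal.ofReal (τ * δ) :=
        setLIntegral_mono' measurableSet_Ioo fun τ hτ =>
          fl_trans H hτ.1.le (by linarith [hτ.2])
    _ = ENNReal.ofReal (2 * ε ^ 2 * δ) := by
        rw [← ofReal_integral_eq_lintegral_ofReal]
        · congr 1
          rw [integral_mul_const, ← integral_Ioc_eq_integral_Ioo,
            ← intervalIntegral.integral_of_le (by linarith), integral_id]
          ring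
        · exact ((continuous_id.mul continuous_const).integrableOn_Icc (a := 0)
            (b := 2 * ε)).mono_set Ioo_subset_Icc_self
        · exact (ae_restrict_iff' measurableSet_Ioo).2
            (Filter.Eventually.of_forall fun τ hτ => mul_nonneg hτ.1.le H.hδ)

theorem fl_bad_sq (H : FlUnit n ε κ δ c₀ C₀ S μ ν) :
    ∫ z in ball (0 : E n) (1 / 2), flB S z ^ 2 ≤ 2 * ε ^ 2 * δ := by
  rw [integral_eq_lintegral_of_nonneg_ae (Filter.Eventually.of_forall fun z => sq_nonneg _)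
    ((fl_B_measurable H.gg.mS).pow_const 2).aestronglyMeasurable]
  exact ENNReal.toReal_le_of_le_ofReal (by have := H.hδ; positivity) (flb_bad_lint H)

/-- **the bad part of the slices is small in `L¹`.** -/
theorem fl_bad (n : ℕ) : ∃ C : ℝ, 0 < C ∧ ∀ (ε κ δ c₀ C₀ : ℝ) (S : Set (E (n + 1)))
    (μ : Measure (E (n + 1))) (ν : E (n + 1) → E (n + 1)), FlUnit n ε κ δ c₀ C₀ S μ ν →
      ∫ z in ball (0 : E n) (1 / 2), flB S z ≤ C * ε * Real.sqrt δ := by
  set V : ℝ := (volume (ball (0 : E n) (1 / 2))).toReal with hV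
  have hV0 : 0 ≤ V := ENNReal.toReal_nonneg
  refine ⟨Real.sqrt (2 * V) + 1, by positivity, fun ε κ δ c₀ C₀ S μ ν H => ?_⟩
  have hfin : volume (ball (0 : E n) (1 / 2)) ≠ ⊤ := measure_ball_lt_top.ne
  have hm := fl_B_measurable H.gg.mS
  have hb : ∀ z, |flB S z| ≤ 2 := fun z => by
    rw [abs_of_nonneg (fl_B_nonneg S z)]; exact fl_B_le_two S z
  have i1 : IntegrableOn (fun z => flB S z ^ 2) (ball (0 : E n) (1 / 2)) :=
    Measure.integrableOn_of_bounded (M := 2 ^ 2) hfin (hm.pow_const 2).aestronglyMeasurable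
      (Filter.Eventually.of_forall fun z => by
        rw [Real.norm_eq_abs, abs_pow]
        exact pow_le_pow_left₀ (abs_nonneg _) (hb z) 2)
  have i2 : IntegrableOn (fun _ : E n => (1 : ℝ) ^ 2) (ball (0 : E n) (1 / 2)) :=
    integrableOn_const hfin
  have i3 : IntegrableOn (fun z => flB S z * 1) (ball (0 : E n) (1 / 2)) :=
    Measure.integrableOn_of_bounded (M := 2) hfin (hm.mul_const 1).aestronglyMeasurable
      (Filter.Eventually.of_forall fun z => by
        rw [Real.norm_eq_abs, mul_one]; exact hb z)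
  have hcs := flc_cs i1 i2 i3
  simp only [mul_one, one_pow] at hcs
  rw [setIntegral_const, smul_eq_mul, mul_one, measureReal_def, ← hV] at hcs
  have hsq := fl_bad_sq H
  have hδ := H.hδ
  have hε := H.hε
  have h0 : 0 ≤ ∫ z in ball (0 : E n) (1 / 2), flB S z := integral_nonneg fun z => fl_B_nonneg S z
  have h1 : (∫ z in ball (0 : E n) (1 / 2), flB S z) ^ 2
      ≤ (Real.sqrt (2 * V) * ε * Real.sqrt δ) ^ 2 := by
    rw [mul_pow, mul_pow, Real.sq_sqrt (by positivity), Real.sq_sqrt hδ]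
    calc (∫ z in ball (0 : E n) (1 / 2), flB S z) ^ 2
        ≤ (∫ z in ball (0 : E n) (1 / 2), flB S z ^ 2) * V := hcs
      _ ≤ (2 * ε ^ 2 * δ) * V := mul_le_mul_of_nonneg_right hsq hV0
      _ = 2 * V * ε ^ 2 * δ := by ring
  have h2 := abs_le_of_sq_le_sq h1 (by positivity)
  have h3 : 0 ≤ ε * Real.sqrt δ := by positivity
  have h4 := (le_abs_self _).trans h2
  nlinarith

end Claimed.Agent.Gmt
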