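import Claimed.Agent.Lib.Gmt.FlFlux

/-!
THIS FILE = PACKAGE L-GMT-FlCacc1 (part 1 of 2 of the former `FlCacc.lean`, which now only imports the parts; the text below is the plan of the whole former file).
# Lib/Gmt G4.2 (architect: helper190): Caccioppoli inequality and almost harmonicity of the height (F3, F4).
PACKAGE L-GMT-FlCacc.   Input: `FlUnit.fv`, `FlFlux`.

PLAN.
* `fl_cacc`.  `ζ = flCut (3/4) (7/8)`, `a(y) = ζ(z)² η(t) t = flPr (ζ²) (fun t => η t * t)`, `X = flVert a` (`fl_vert_testS`).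
  At `μ`-a.e. point of `C_1` (`|t| ≤ ε ≤ 1/4`, so `η = 1`, `η' = 0`; `|ν| = 1`):
  `Da(v) = 2 ζ t ∇ζ·v' + ζ² v_t`, `flTdiv X ν = ζ² (1 - ν_t²) - 2 ζ t ν_t ∇ζ·ν' = ζ² |ν'|² - 2 ζ t ν_t ∇ζ·ν'` (`fl_vert_tdiv`, `fl_norm_sq`).
  `2 |ζ t ν_t ∇ζ·ν'| ≤ ζ²|ν'|²/2 + 2 ε² |∇ζ|²`.  (FV): `|∫ flTdiv| ≤ κ ∫ (|Da| + |a|) dμ ≤ κ (1 + 2 C_ζ + 1) μ(C_1)`.  Off `C_1` everything vanishes.
  Hence `∫ ζ²|ν'|² ≤ 4 ε² C_ζ² μ(C_1) + 2 κ (2 + 2 C_ζ) μ(C_1)`, `μ(C_1) ≤ ω_n + 1`, `ζ = 1` on `C_{3/4}`.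
* `fl_cross`: Cauchy-Schwarz: `∫_{C_{3/4}} (1-ν_t)|ν'| ≤ (∫ (1-ν_t)²)^{1/2} (∫ |ν'|²)^{1/2}`, `(1-ν_t)² ≤ 2 (1-ν_t)` (as `|ν_t| ≤ 1`), `fl_exc`, `fl_cacc`.
* `fl_harm`.  `X = flVert (flPr ψ η)`: `μ`-a.e. on `C_1`: `flTdiv X ν = - ν_t ∇ψ(z)·ν'`, `|DX| = |∇ψ|`, `|X| = |ψ|`.  So `|∫_{C_1} ν_t ∇ψ·ν' dμ| ≤ κ · 2M μ(C_1)`.
  `fl_H_grad` with `Ψ = gradient ψ`: `∫ h Δψ = ∫_{C_1} ∇ψ·ν' dμ = ∫ ν_t ∇ψ·ν' + ∫ (1-ν_t) ∇ψ·ν'`; the last integrand vanishes off `C_{3/4}` and is `≤ M (1-ν_t)|ν'|`.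
-/

set_option autoImplicit false
open scoped ContDiff ENNReal RealInnerProductSpace
open MeasureTheory Metric Set

namespace Claimed.Agent.Gmt

variable {n : ℕ}

/-- `h` is `om`-almost harmonic in `ball 0 (3/4)`. -/
def FlAH (h : E n → ℝ) (om : ℝ) : Prop :=
  ∀ ψ : E n → ℝ, ContDiff ℝ ∞ ψ → tsupport ψ ⊆ ball 0 (3 / 4) → ∀ M : ℝ, (∀ z, |ψ z| ≤ M) →
    (∀ z, ‖fderiv ℝ ψ z‖ ≤ M) → |∫ z, h z * flLap ψ z| ≤ om * M

/-- the vertical profile `η(t) t`. -/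
noncomputable def flcK (t : ℝ) : ℝ := flEta t * t

theorem flc_K_contDiff : ContDiff ℝ ∞ flcK := fl_eta_props.1.mul contDiff_id

theorem flc_K_zero {t : ℝ} (ht : 3 / 4 ≤ |t|) : flcK t = 0 := by
  unfold flcK
  rw [fl_eta_props.2.2.2 t ht, zero_mul]

theorem flc_K_eq {t : ℝ} (ht : |t| ≤ 1 / 2) : flcK t = t := by
  unfold flcK
  rw [fl_eta_props.2.2.1 t ht, one_mul]

theorem flc_K_deriv {t : ℝ} (ht : |t| < 1 / 2) : deriv flcK t = 1 := by
  have h1 : DifferentiableAt ℝ flEta t := (fl_eta_props.1.differentiable (by simp)) t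
  have : deriv flcK t = deriv flEta t * t + flEta t * 1 := by
    have h2 : HasDerivAt flcK (deriv flEta t * t + flEta t * 1) t :=
      h1.hasDerivAt.mul (hasDerivAt_id t)
    exact h2.deriv
  rw [this, fl_eta_deriv ht, fl_eta_props.2.2.1 t ht.le]
  ring

/-- measurability of `y ↦ Da(y)(ν y)`. -/
theorem flc_measurable_apply {m : ℕ} {a : E m → ℝ} (ha : ContDiff ℝ 1 a) {ν : E m → E m}
    (hν : Measurable ν) : Measurable fun y => fderiv ℝ a y (ν y) :=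
  ContinuousLinearMap.measurable_apply₂.comp
    ((ha.continuous_fderiv (by simp)).measurable.prodMk hν)

/-- the pointwise algebra of the Caccioppoli inequality. -/
theorem flc_real {ζ t ε p νt d Cζ : ℝ} (h0 : 0 ≤ ζ) (ht : |t| ≤ ε)
    (hn : p ^ 2 + νt ^ 2 = 1) (hd : |d| ≤ Cζ * p) :
    |ζ ^ 2 - νt * (2 * ζ * d * t + ζ ^ 2 * νt) - ζ ^ 2 * p ^ 2| ≤ 2 * ((ζ * p) * (ε * Cζ)) := by
  have hν : |νt| ≤ 1 := by
    rw [← sq_le_one_iff_abs_le_one]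
    nlinarith [sq_nonneg p]
  have hε : 0 ≤ ε := (abs_nonneg _).trans ht
  have e : ζ ^ 2 - νt * (2 * ζ * d * t + ζ ^ 2 * νt) - ζ ^ 2 * p ^ 2 = - (2 * (ζ * t * νt * d)) := by
    have : νt ^ 2 = 1 - p ^ 2 := by linarith
    ring_nf
    rw [this]
    ring
  rw [e, abs_neg, abs_mul, abs_two]
  refine mul_le_mul_of_nonneg_left ?_ (by norm_num)
  rw [abs_mul, abs_mul, abs_mul, abs_of_nonneg h0]
  calc ζ * |t| * |νt| * |d| ≤ ζ * ε * 1 * (Cζ * p) := by gcongr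
    _ = (ζ * p) * (ε * Cζ) := by ring

theorem flc_young (A B : ℝ) : 2 * (A * B) ≤ A ^ 2 / 2 + 2 * B ^ 2 := by
  nlinarith [sq_nonneg (A - 2 * B)]

section

variable {ζ : E n → ℝ}

/-- the scalar function `ζ(z)² η(t) t`. -/
noncomputable def flcA (ζ : E n → ℝ) : E (n + 1) → ℝ := flPr (fun z => ζ z ^ 2) flcK

theorem flc_A_contDiff (hζ : ContDiff ℝ ∞ ζ) : ContDiff ℝ ∞ (flcA ζ) :=
  fl_pr_contDiff (N := ⊤) (hζ.pow 2) flc_K_contDiff

theorem flc_A_fderiv (hζ : ContDiff ℝ ∞ ζ) {y : E (n + 1)} (hy : |gmtVer y| < 1 / 2)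
    (v : E (n + 1)) :
    fderiv ℝ (flcA ζ) y v = 2 * ζ (gmtHor y) * fderiv ℝ ζ (gmtHor y) (gmtHor v) * gmtVer y
      + ζ (gmtHor y) ^ 2 * gmtVer v := by
  have hd : DifferentiableAt ℝ ζ (gmtHor y) := (hζ.differentiable (by simp)) _
  have h2 : HasFDerivAt (fun z => ζ z ^ 2) ((2 * ζ (gmtHor y)) • fderiv ℝ ζ (gmtHor y))
      (gmtHor y) := by
    have := hd.hasFDerivAt.pow 2
    simpa using this
  unfold flcA
  rw [fl_pr_fderiv h2.differentiableAt ((flc_K_contDiff.differentiable (by simp)) _), h2.fderiv,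
    flc_K_eq hy.le, flc_K_deriv hy]
  simp only [_root_.smul_apply, smul_eq_mul]
  ring

end

/-- F3: Caccioppoli inequality. -/
theorem fl_cacc (n : ℕ) : ∃ C : ℝ, 0 < C ∧ ∀ (ε κ δ c₀ C₀ : ℝ) (S : Set (E (n + 1)))
    (μ : Measure (E (n + 1))) (ν : E (n + 1) → E (n + 1)), FlUnit n ε κ δ c₀ C₀ S μ ν →
      ∫ y in flCyl (3 / 4), ‖gmtHor (ν y)‖ ^ 2 ∂μ ≤ C * (ε ^ 2 + κ) := by
  obtain ⟨hζ, hζ01, hζ1, -, hζs, Cζ, hCζ, hζd⟩ :=
    fl_cut_props (n := n) (a := 3 / 4) (b := 7 / 8) (by norm_num) (by norm_num)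
  set ζ : E n → ℝ := flCut (3 / 4) (7 / 8) with hζdef
  refine ⟨(4 * Cζ ^ 2 + 4 * Cζ + 4) * (|gmtOm n| + 1) + 1, by positivity, ?_⟩
  intro ε κ δ c₀ C₀ S μ ν H
  have hε0 := H.hε
  have hε4 := H.hε'
  set a := flcA ζ with hadef
  have ha : ContDiff ℝ ∞ a := flc_A_contDiff hζ
  have ha1 : ContDiff ℝ 1 a := ha.of_le (by simp)
  have had : Differentiable ℝ a := ha.differentiable (by simp)
  have hsupp : tsupport a ⊆ {y | ‖gmtHor y‖ ≤ 7 / 8 ∧ |gmtVer y| ≤ 3 / 4} := by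
    refine fl_pr_tsupport ?_ (fun t ht => flc_K_zero ht)
    refine (closure_mono fun z hz => ?_).trans hζs
    intro h0
    apply hz
    show ζ z ^ 2 = 0
    rw [h0]; norm_num
  have hX : GmtTestS (ball 0 4) (flVert a) := fl_vert_testS ha
    (hsupp.trans fun y hy => ⟨hy.1.trans (by norm_num), hy.2.trans (by norm_num)⟩)
  have hfv := H.fv _ hX
  have hoff : ∀ y, y ∉ (flCyl 1 : Set (E (n + 1))) → y ∉ tsupport a := fun y hy hy' =>
    hy ⟨lt_of_le_of_lt (hsupp hy').1 (by norm_num), lt_of_le_of_lt (hsupp hy').2 (by norm_num)⟩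
  have hF1 : ∀ y, flTdiv (flVert a) ν y
      = fderiv ℝ a y (gmtEn n) - gmtVer (ν y) * fderiv ℝ a y (ν y) := fun y =>
    fl_vert_tdiv (had y) ν
  have hF2 : ∀ y, ‖fderiv ℝ (flVert a) y‖ + ‖flVert a y‖ = ‖fderiv ℝ a y‖ + |a y| := fun y => by
    rw [fl_vert_norm_fderiv (had y), fl_vert_norm]
  simp only [hF1, hF2] at hfv
  -- restriction to the cylinder
  have e1 : ∫ y, (fderiv ℝ a y (gmtEn n) - gmtVer (ν y) * fderiv ℝ a y (ν y)) ∂μ
      = ∫ y in flCyl 1, (fderiv ℝ a y (gmtEn n) - gmtVer (ν y) * fderiv ℝ a y (ν y)) ∂μ := by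
    refine (setIntegral_eq_integral_of_forall_compl_eq_zero fun y hy => ?_).symm
    rw [fderiv_of_notMem_tsupport ℝ (hoff y hy)]
    simp
  have e2 : ∫ y, (‖fderiv ℝ a y‖ + |a y|) ∂μ = ∫ y in flCyl 1, (‖fderiv ℝ a y‖ + |a y|) ∂μ := by
    refine (setIntegral_eq_integral_of_forall_compl_eq_zero fun y hy => ?_).symm
    rw [fderiv_of_notMem_tsupport ℝ (hoff y hy), image_eq_zero_of_notMem_tsupport (hoff y hy)]
    simp
  rw [e1, e2] at hfv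
  have hfin : μ (flCyl 1) < ⊤ := fl_mu_cyl_lt_top H
  have : IsFiniteMeasure (μ.restrict (flCyl 1)) := ⟨by rwa [Measure.restrict_apply_univ]⟩
  have hmass : (μ.restrict (flCyl 1)).real univ ≤ |gmtOm n| + 1 := by
    rw [measureReal_def, Measure.restrict_apply_univ]
    exact (fl_mu_cyl_le H).trans (by linarith [le_abs_self (gmtOm n)])
  set Mu : ℝ := (μ.restrict (flCyl 1)).real univ with hMu
  have hMu0 : 0 ≤ Mu := measureReal_nonneg
  have hmν := H.gg.mν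
  have hmhor : Measurable fun y => ‖gmtHor (ν y)‖ := (fl_continuous_hor.measurable.comp hmν).norm
  set G : E (n + 1) → ℝ := fun y => ζ (gmtHor y) ^ 2 * ‖gmtHor (ν y)‖ ^ 2 with hG
  have hGm : Measurable G :=
    ((hζ.continuous.comp fl_continuous_hor).measurable.pow_const 2).mul (hmhor.pow_const 2)
  have hp1 : ∀ y, ‖gmtHor (ν y)‖ ≤ 1 := fun y => (fl_norm_hor_le _).trans (H.gg.le1 y)
  have hG0 : ∀ y, 0 ≤ G y := fun y => by positivity
  have hG1 : ∀ y, G y ≤ 1 := fun y => by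
    have h1 := hζ01 (gmtHor y)
    have h2 : ζ (gmtHor y) ^ 2 ≤ 1 := pow_le_one₀ h1.1 h1.2
    have h3 : ‖gmtHor (ν y)‖ ^ 2 ≤ 1 := pow_le_one₀ (norm_nonneg _) (hp1 y)
    calc G y ≤ 1 * 1 := mul_le_mul h2 h3 (by positivity) (by norm_num)
      _ = 1 := by norm_num
  have hGi : Integrable G (μ.restrict (flCyl 1)) :=
    Integrable.of_bound hGm.aestronglyMeasurable 1 (Filter.Eventually.of_forall fun y => by
      rw [Real.norm_eq_abs, abs_of_nonneg (hG0 y)]; exact hG1 y)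
  -- the pointwise facts
  have hpt : ∀ᵐ y ∂(μ.restrict (flCyl 1)),
      |fderiv ℝ a y (gmtEn n) - gmtVer (ν y) * fderiv ℝ a y (ν y) - G y|
          ≤ 2 * ((ζ (gmtHor y) * ‖gmtHor (ν y)‖) * (ε * Cζ)) ∧
        ‖fderiv ℝ a y‖ + |a y| ≤ 2 * Cζ + 2 := by
    filter_upwards [fl_ae_slab H] with y hy
    obtain ⟨hyt, hyν⟩ := hy
    have hyt2 : |gmtVer y| < 1 / 2 := lt_of_le_of_lt hyt (by linarith)
    have hζy := hζ01 (gmtHor y)
    constructor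
    · rw [flc_A_fderiv hζ hyt2, flc_A_fderiv hζ hyt2, fl_hor_en, fl_ver_en, map_zero]
      have hn : ‖gmtHor (ν y)‖ ^ 2 + gmtVer (ν y) ^ 2 = 1 := by
        rw [← fl_norm_sq, hyν]; norm_num
      have hd : |fderiv ℝ ζ (gmtHor y) (gmtHor (ν y))| ≤ Cζ * ‖gmtHor (ν y)‖ := by
        rw [← Real.norm_eq_abs]
        exact (ContinuousLinearMap.le_opNorm _ _).trans
          (mul_le_mul_of_nonneg_right (hζd _) (norm_nonneg _))
      have := flc_real hζy.1 hyt hn hd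
      convert this using 2
      ring
    · have h1 : ‖fderiv ℝ a y‖ ≤ 2 * Cζ + 1 := by
        refine ContinuousLinearMap.opNorm_le_bound _ (by positivity) fun v => ?_
        rw [flc_A_fderiv hζ hyt2, Real.norm_eq_abs]
        have b1 : |fderiv ℝ ζ (gmtHor y) (gmtHor v)| ≤ Cζ * ‖v‖ := by
          rw [← Real.norm_eq_abs]
          exact (ContinuousLinearMap.le_opNorm _ _).trans
            (mul_le_mul (hζd _) (fl_norm_hor_le v) (norm_nonneg _) hCζ)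
        have b2 : |gmtVer v| ≤ ‖v‖ := fl_abs_ver_le v
        have b3 : |2 * ζ (gmtHor y) * fderiv ℝ ζ (gmtHor y) (gmtHor v) * gmtVer y|
            ≤ 2 * 1 * (Cζ * ‖v‖) * 1 := by
          rw [abs_mul, abs_mul, abs_mul, abs_two, abs_of_nonneg hζy.1]
          have : |gmtVer y| ≤ 1 := by linarith
          gcongr
          exact hζy.2
        have b4 : |ζ (gmtHor y) ^ 2 * gmtVer v| ≤ 1 * ‖v‖ := by
          rw [abs_mul, abs_of_nonneg (by positivity)]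
          exact mul_le_mul (pow_le_one₀ hζy.1 hζy.2) b2 (abs_nonneg _) (by norm_num)
        calc _ ≤ _ := abs_add_le _ _
          _ ≤ 2 * 1 * (Cζ * ‖v‖) * 1 + 1 * ‖v‖ := add_le_add b3 b4
          _ = (2 * Cζ + 1) * ‖v‖ := by ring
      have h2 : |a y| ≤ 1 := by
        show |ζ (gmtHor y) ^ 2 * flcK (gmtVer y)| ≤ 1
        rw [flc_K_eq hyt2.le, abs_mul, abs_of_nonneg (by positivity)]
        calc ζ (gmtHor y) ^ 2 * |gmtVer y| ≤ 1 * 1 :=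
              mul_le_mul (pow_le_one₀ hζy.1 hζy.2) (by linarith) (abs_nonneg _) (by norm_num)
          _ = 1 := by norm_num
      linarith
  set F₁ : E (n + 1) → ℝ := fun y => fderiv ℝ a y (gmtEn n) - gmtVer (ν y) * fderiv ℝ a y (ν y)
    with hF₁
  have hF₁m : Measurable F₁ :=
    ((ha1.continuous_fderiv (by simp)).measurable.apply_continuousLinearMap _).sub
      ((fl_continuous_ver.measurable.comp hmν).mul (flc_measurable_apply ha1 hmν))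
  have hF₁i : Integrable F₁ (μ.restrict (flCyl 1)) := by
    refine Integrable.of_bound hF₁m.aestronglyMeasurable (1 + 2 * Cζ) ?_
    filter_upwards [hpt] with y hy
    have h1 := hy.1
    have hζy := hζ01 (gmtHor y)
    have h2 : 2 * ((ζ (gmtHor y) * ‖gmtHor (ν y)‖) * (ε * Cζ)) ≤ 2 * ((1 * 1) * (1 * Cζ)) := by
      have := hp1 y
      have hε1 : ε ≤ 1 := by linarith
      gcongr
      exact hζy.2
    rw [Real.norm_eq_abs]
    have h3 : |F₁ y| ≤ |F₁ y - G y| + |G y| := by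
      have := abs_add_le (F₁ y - G y) (G y)
      simpa using this
    rw [abs_of_nonneg (hG0 y)] at h3
    have := hG1 y
    linarith
  -- lower bound
  have hlow : ∫ y in flCyl 1, (G y / 2 - 2 * (ε * Cζ) ^ 2) ∂μ ≤ ∫ y in flCyl 1, F₁ y ∂μ := by
    refine integral_mono_ae ((hGi.div_const 2).sub (integrable_const _)) hF₁i ?_
    filter_upwards [hpt] with y hy
    have h1 := (abs_le.1 hy.1).1
    have h2 := flc_young (ζ (gmtHor y) * ‖gmtHor (ν y)‖) (ε * Cζ)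
    have h3 : (ζ (gmtHor y) * ‖gmtHor (ν y)‖) ^ 2 = G y := by rw [hG]; ring
    rw [h3] at h2
    show G y / 2 - 2 * (ε * Cζ) ^ 2 ≤ F₁ y
    linarith
  have hup : ∫ y in flCyl 1, (‖fderiv ℝ a y‖ + |a y|) ∂μ ≤ (2 * Cζ + 2) * Mu := by
    have := integral_mono_of_nonneg (μ := μ.restrict (flCyl 1))
      (f := fun y => ‖fderiv ℝ a y‖ + |a y|) (g := fun _ => 2 * Cζ + 2)
      (Filter.Eventually.of_forall fun y => by positivity) (integrable_const _)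
      (hpt.mono fun y hy => hy.2)
    rw [integral_const, smul_eq_mul, mul_comm] at this
    exact this
  have hlow' : ∫ y in flCyl 1, (G y / 2 - 2 * (ε * Cζ) ^ 2) ∂μ
      = (∫ y in flCyl 1, G y ∂μ) / 2 - Mu * (2 * (ε * Cζ) ^ 2) := by
    rw [integral_sub (hGi.div_const 2) (integrable_const _), integral_div, integral_const,
      smul_eq_mul]
  have hmain : ∫ y in flCyl 1, G y ∂μ ≤ (4 * Cζ ^ 2 * ε ^ 2 + (4 * Cζ + 4) * κ) * Mu := by
    have h1 := (le_abs_self _).trans hfv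
    have h2 := mul_le_mul_of_nonneg_left hup H.hκ
    rw [hlow'] at hlow
    nlinarith
  -- from `C_1` to `C_{3/4}`
  have hsub : ∫ y in flCyl (3 / 4), ‖gmtHor (ν y)‖ ^ 2 ∂μ ≤ ∫ y in flCyl 1, G y ∂μ := by
    have h1 : ∫ y in flCyl (3 / 4), ‖gmtHor (ν y)‖ ^ 2 ∂μ = ∫ y in flCyl (3 / 4), G y ∂μ := by
      refine setIntegral_congr_fun (fl_isOpen_cyl _).measurableSet fun y hy => ?_
      show _ = ζ (gmtHor y) ^ 2 * ‖gmtHor (ν y)‖ ^ 2
      rw [hζ1 _ hy.1.le]; ring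
    rw [h1]
    exact setIntegral_mono_set hGi (Filter.Eventually.of_forall hG0)
      (Filter.Eventually.of_forall (fl_cyl_mono (by norm_num)))
  refine hsub.trans (hmain.trans ?_)
  have hκ := H.hκ
  have t1 : (4 * Cζ ^ 2 * ε ^ 2 + (4 * Cζ + 4) * κ) ≤ (4 * Cζ ^ 2 + 4 * Cζ + 4) * (ε ^ 2 + κ) := by
    have : 0 ≤ Cζ ^ 2 * κ := by positivity
    have : 0 ≤ (4 * Cζ + 4) * ε ^ 2 := by positivity
    nlinarith
  have t0 : 0 ≤ 4 * Cζ ^ 2 * ε ^ 2 + (4 * Cζ + 4) * κ := by positivity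
  have t2 : 0 ≤ ε ^ 2 + κ := by positivity
  calc (4 * Cζ ^ 2 * ε ^ 2 + (4 * Cζ + 4) * κ) * Mu
      ≤ ((4 * Cζ ^ 2 + 4 * Cζ + 4) * (ε ^ 2 + κ)) * (|gmtOm n| + 1) :=
        mul_le_mul t1 hmass hMu0 (by positivity)
    _ ≤ ((4 * Cζ ^ 2 + 4 * Cζ + 4) * (|gmtOm n| + 1) + 1) * (ε ^ 2 + κ) := by nlinarith


end Claimed.Agent.Gmt
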