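import Claimed.Agent.Lib.Gmt.FlDefs

/-!
THIS FILE = PACKAGE L-GMT-FlCoord1 (part 1 of 5 of the former `FlCoord.lean`, which now only imports the parts; the text below is the plan of the whole former file).
# Lib/Gmt G4.0 (architect: helper190): coordinates `y = (z,t)` on `E (n+1)`, Fubini, cut-offs,
vertical and horizontal test fields.        PACKAGE L-GMT-FlCoord (pure Mathlib, no GMT input).

PLAN.  Everything is unfolding of `gmtJoin`, `gmtHorL`, `gmtVerL` (`EuclideanSpace.proj`, `Fin.snoc`,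
`Fin.sum_univ_castSucc`).
* `fl_measurePreserving`: compose `EuclideanSpace.volume_preserving_measurableEquiv` (or
  `PiLp.volume_preserving_ofLp`) on `Fin (n+1)`, `MeasureTheory.volume_preserving_piFinSuccAbove
  (fun _ => ℝ) (Fin.last n)` (gives `ℝ × (Fin n → ℝ)`), `Measure.prod_swap`, and the inverse of the
  first equivalence on `Fin n`.
* `fl_eta_props`, `fl_cut_props`: `Real.smoothTransition.contDiff`, `.zero_of_nonpos`,
  `.one_of_one_le`, `.nonneg`, `.le_one`; `contDiff_norm_sq`; the bound of the derivative: a continuous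
  function with compact support is bounded (`Continuous.bounded_above_of_compact_support` /
  `HasCompactSupport.exists_bound_of_continuous`).
* divergences: `gmtDiv T y = ∑ i, fderiv T y (eb i) i`, split the sum with `Fin.sum_univ_castSucc`;
  `eb (castSucc i) = gmtJoin (eb i) 0`, `eb (last n) = gmtEn n`.
-/

set_option autoImplicit false
open scoped ContDiff ENNReal RealInnerProductSpace
open MeasureTheory Metric Set

namespace Claimed.Agent.Gmt

variable {n : ℕ}

theorem fl_hor_apply (y : E (n + 1)) (i : Fin n) : gmtHor y i = y (Fin.castSucc i) := by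
  simp [gmtHor, gmtHorL]

theorem fl_ver_apply (y : E (n + 1)) : gmtVer y = y (Fin.last n) := by
  simp [gmtVer, gmtVerL]

theorem fl_join_castSucc (z : E n) (t : ℝ) (i : Fin n) : gmtJoin z t (Fin.castSucc i) = z i := by
  simp [gmtJoin]

theorem fl_join_last (z : E n) (t : ℝ) : gmtJoin z t (Fin.last n) = t := by
  simp [gmtJoin]

theorem fl_join_hor_ver (y : E (n + 1)) : gmtJoin (gmtHor y) (gmtVer y) = y := by
  ext i
  refine Fin.lastCases ?_ (fun j => ?_) i
  · rw [fl_join_last, fl_ver_apply]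
  · rw [fl_join_castSucc, fl_hor_apply]

theorem fl_hor_join (z : E n) (t : ℝ) : gmtHor (gmtJoin z t) = z := by
  ext i
  rw [fl_hor_apply, fl_join_castSucc]

theorem fl_ver_join (z : E n) (t : ℝ) : gmtVer (gmtJoin z t) = t := by
  rw [fl_ver_apply, fl_join_last]

theorem fl_inner (y y' : E (n + 1)) :
    ⟪y, y'⟫ = ⟪gmtHor y, gmtHor y'⟫ + gmtVer y * gmtVer y' := by
  simp only [PiLp.inner_apply, Fin.sum_univ_castSucc, fl_hor_apply, fl_ver_apply]
  simp [mul_comm]

theorem fl_norm_sq (y : E (n + 1)) : ‖y‖ ^ 2 = ‖gmtHor y‖ ^ 2 + gmtVer y ^ 2 := by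
  rw [← real_inner_self_eq_norm_sq, ← real_inner_self_eq_norm_sq, fl_inner]
  ring

theorem fl_hor_en : gmtHor (gmtEn n) = 0 := by
  ext i
  rw [fl_hor_apply]
  simp [Fin.castSucc_ne_last]

theorem fl_ver_en : gmtVer (gmtEn n) = 1 := by
  rw [fl_ver_apply]
  simp

theorem fl_ver_eq_inner (y : E (n + 1)) : gmtVer y = ⟪y, gmtEn n⟫ := by
  rw [fl_inner, fl_hor_en, fl_ver_en]
  simp

theorem fl_norm_hor_le (y : E (n + 1)) : ‖gmtHor y‖ ≤ ‖y‖ := by
  have := fl_norm_sq y
  exact abs_le_of_sq_le_sq' (by nlinarith [sq_nonneg (gmtVer y)]) (norm_nonneg y) |>.2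

theorem fl_abs_ver_le (y : E (n + 1)) : |gmtVer y| ≤ ‖y‖ := by
  have := fl_norm_sq y
  exact abs_le_of_sq_le_sq (by nlinarith [sq_nonneg ‖gmtHor y‖]) (norm_nonneg y)

/-- the inclusion `z ↦ (z,0)` as a continuous linear map. -/
noncomputable def flInc (n : ℕ) : E n →L[ℝ] E (n + 1) :=
  LinearMap.toContinuousLinearMap
    { toFun := fun z => gmtJoin z 0
      map_add' := fun x y => by
        ext i
        refine Fin.lastCases ?_ (fun j => ?_) i <;> simp [gmtJoin]
      map_smul' := fun c x => by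
        ext i
        refine Fin.lastCases ?_ (fun j => ?_) i <;> simp [gmtJoin] }

theorem fl_inc_apply (z : E n) : flInc n z = gmtJoin z 0 := rfl

theorem fl_join_eq (z : E n) (t : ℝ) : gmtJoin z t = flInc n z + t • gmtEn n := by
  ext i
  refine Fin.lastCases ?_ (fun j => ?_) i
  · simp [fl_inc_apply, fl_join_last]
  · simp [fl_inc_apply, fl_join_castSucc, Fin.castSucc_ne_last]

theorem fl_norm_inc (z : E n) : ‖flInc n z‖ = ‖z‖ := by
  have := fl_norm_sq (flInc n z)
  rw [fl_inc_apply, fl_hor_join, fl_ver_join] at this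
  have h2 : ‖gmtJoin z 0‖ ^ 2 = ‖z‖ ^ 2 := by rw [this]; ring
  rw [fl_inc_apply]
  exact (sq_eq_sq₀ (norm_nonneg _) (norm_nonneg _)).1 h2

theorem fl_continuous_join : Continuous fun p : E n × ℝ => gmtJoin p.1 p.2 := by
  have : (fun p : E n × ℝ => gmtJoin p.1 p.2) = fun p => flInc n p.1 + p.2 • gmtEn n := by
    funext p; exact fl_join_eq _ _
  rw [this]
  fun_prop

theorem fl_measurable_join : Measurable fun p : E n × ℝ => gmtJoin p.1 p.2 :=
  fl_continuous_join.measurable

end Claimed.Agent.Gmt
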