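import Claimed.Agent.Lib.Gmt.FlCoord1

/-!
THIS FILE = PACKAGE L-GMT-FlCoord2 (part 2 of 5 of the former `FlCoord.lean`, which now only imports the parts; the text below is the plan of the whole former file).
# Lib/Gmt G4.0 (architect: helper190): coordinates `y = (z,t)` on `E (n+1)`, Fubini, cut-offs,
vertical and horizontal test fields.        PACKAGE L-GMT-FlCoord (pure Mathlib, no GMT input).

PLAN.  Everything is unfolding of `gmtJoin`, `gmtHorL`, `gmtVerL` (`EuclideanSpace.proj`, `Fin.snoc`,
`Fin.sum_univ_castSucc`).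
* `fl_measurePreserving`: compose `EuclideanSpace.volume_preserving_measurableEquiv` (or
  `PiLp.volume_preserving_ofLp`) on `Fin (n+1)`, `MeasureTheory.volume_preserving_piFinSuccAbove
  (fun _ => ℝ) (Fin.last n)` (gives `ℝ × (Fin n → ℝ)`), `Measure.prod_swap`, and the inverse of the
  first equivalence on `Fin n`.
* `fl_eta_props`, `fl_cut_props`: `Real.smoothTransition.contDiff`, `.zero_of_nonpos`,
  `.one_of_one_le`, `.nonneg`, `.le_one`; `contDiff_norm_sq`; the bound of the derivative: a continuous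
  function with compact support is bounded (`Continuous.bounded_above_of_compact_support` /
  `HasCompactSupport.exists_bound_of_continuous`).
* divergences: `gmtDiv T y = ∑ i, fderiv T y (eb i) i`, split the sum with `Fin.sum_univ_castSucc`;
  `eb (castSucc i) = gmtJoin (eb i) 0`, `eb (last n) = gmtEn n`.
-/

set_option autoImplicit false
open scoped ContDiff ENNReal RealInnerProductSpace
open MeasureTheory Metric Set

namespace Claimed.Agent.Gmt

variable {n : ℕ}

/-- FUBINI: `y ↦ (z,t)` is measure preserving. -/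
theorem fl_measurePreserving :
    MeasurePreserving (fun y : E (n + 1) => (gmtHor y, gmtVer y)) volume
      ((volume : Measure (E n)).prod (volume : Measure ℝ)) := by
  have h1 : MeasurePreserving (WithLp.ofLp : E (n + 1) → (Fin (n + 1) → ℝ)) :=
    PiLp.volume_preserving_ofLp (Fin (n + 1))
  have h2 := MeasureTheory.volume_preserving_piFinSuccAbove (fun _ : Fin (n + 1) => ℝ) (Fin.last n)
  have h3 : MeasurePreserving (Prod.swap : ℝ × (Fin n → ℝ) → (Fin n → ℝ) × ℝ)
      ((volume : Measure ℝ).prod (volume : Measure (Fin n → ℝ)))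
      ((volume : Measure (Fin n → ℝ)).prod (volume : Measure ℝ)) := Measure.measurePreserving_swap
  have h4 : MeasurePreserving (WithLp.toLp 2 : (Fin n → ℝ) → E n) :=
    PiLp.volume_preserving_toLp (Fin n)
  have h5 := h4.prod (MeasurePreserving.id (volume : Measure ℝ))
  have h6 := h5.comp (h3.comp (h2.comp h1))
  have hfun : (fun y : E (n + 1) => (gmtHor y, gmtVer y)) =
      Prod.map (WithLp.toLp 2) id ∘ Prod.swap ∘
        ⇑(MeasurableEquiv.piFinSuccAbove (fun _ : Fin (n + 1) => ℝ) (Fin.last n)) ∘ WithLp.ofLp := by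
    funext y
    apply Prod.ext
    · ext i
      show _ = (WithLp.ofLp y) ((Fin.last n).succAbove i)
      simp [fl_hor_apply]
    · show _ = (WithLp.ofLp y) (Fin.last n)
      simp [fl_ver_apply]
  rw [hfun]
  exact h6


theorem fl_join_comp (y : E (n + 1)) :
    (fun p : E n × ℝ => gmtJoin p.1 p.2) (gmtHor y, gmtVer y) = y := fl_join_hor_ver y

/-- the inverse map is measure preserving as well. -/
theorem fl_measurePreserving_join :
    MeasurePreserving (fun p : E n × ℝ => gmtJoin p.1 p.2)
      ((volume : Measure (E n)).prod (volume : Measure ℝ)) volume := by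
  refine ⟨fl_measurable_join, ?_⟩
  have h := (fl_measurePreserving (n := n))
  rw [← h.map_eq, Measure.map_map fl_measurable_join h.measurable]
  have : ((fun p : E n × ℝ => gmtJoin p.1 p.2) ∘ fun y : E (n + 1) => (gmtHor y, gmtVer y)) = id := by
    funext y; exact fl_join_hor_ver y
  rw [this, Measure.map_id]

theorem fl_integrable_join {F : E (n + 1) → ℝ} (hF : Integrable F) :
    Integrable (fun p : E n × ℝ => F (gmtJoin p.1 p.2))
      ((volume : Measure (E n)).prod (volume : Measure ℝ)) :=
  fl_measurePreserving_join.integrable_comp_of_integrable hF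

theorem fl_integral_join {F : E (n + 1) → ℝ} (hF : Integrable F) :
    ∫ y, F y = ∫ z, ∫ t, F (gmtJoin z t) := by
  rw [← integral_prod _ (fl_integrable_join hF)]
  have h := fl_measurePreserving_join (n := n)
  rw [← h.map_eq, integral_map fl_measurable_join.aemeasurable]
  rw [h.map_eq]
  exact hF.aestronglyMeasurable

theorem fl_lintegral_join {F : E (n + 1) → ℝ≥0∞} (hF : Measurable F) :
    ∫⁻ y, F y = ∫⁻ z, ∫⁻ t, F (gmtJoin z t) := by
  have h := fl_measurePreserving_join (n := n)
  have h1 := lintegral_prod (μ := (volume : Measure (E n))) (ν := (volume : Measure ℝ))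
    (fun p : E n × ℝ => F (gmtJoin p.1 p.2)) (hF.comp fl_measurable_join).aemeasurable
  rw [← h1, ← h.map_eq, lintegral_map hF fl_measurable_join]

/-- an a.e. statement on `E (n+1)` holds on a.e. vertical line for a.e. height. -/
theorem fl_ae_join {p : E (n + 1) → Prop} (hp : ∀ᵐ y, p y) :
    ∀ᵐ z : E n, ∀ᵐ t : ℝ, p (gmtJoin z t) := by
  have h := fl_measurePreserving_join (n := n)
  have h1 : ∀ᵐ q : E n × ℝ ∂((volume : Measure (E n)).prod (volume : Measure ℝ)),
      p (gmtJoin q.1 q.2) := h.quasiMeasurePreserving.ae hp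
  exact Measure.ae_ae_of_ae_prod h1

/-! ### sets -/

theorem fl_continuous_hor : Continuous (gmtHor : E (n + 1) → E n) := (gmtHorL n).continuous

theorem fl_continuous_ver : Continuous (gmtVer : E (n + 1) → ℝ) := (gmtVerL n).continuous

theorem fl_isOpen_cyl (ρ : ℝ) : IsOpen (flCyl ρ : Set (E (n + 1))) :=
  (isOpen_lt fl_continuous_hor.norm continuous_const).inter
    (isOpen_lt fl_continuous_ver.abs continuous_const)

theorem fl_cyl_mono {ρ ρ' : ℝ} (h : ρ ≤ ρ') : (flCyl ρ : Set (E (n + 1))) ⊆ flCyl ρ' :=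
  fun _ hy => ⟨lt_of_lt_of_le hy.1 h, hy.2⟩

/-- the closed unit cylinder lies in `ball 0 2`. -/
theorem fl_cyl_subset_ball {y : E (n + 1)} (h1 : ‖gmtHor y‖ ≤ 1) (h2 : |gmtVer y| ≤ 1) :
    y ∈ ball (0 : E (n + 1)) 2 := by
  have h := fl_norm_sq y
  have h3 : gmtVer y ^ 2 ≤ 1 := by rw [← sq_abs]; nlinarith [abs_nonneg (gmtVer y)]
  have h4 : ‖gmtHor y‖ ^ 2 ≤ 1 := by nlinarith [norm_nonneg (gmtHor y)]
  simp only [mem_ball, dist_zero_right]
  nlinarith [norm_nonneg y]

theorem fl_ball_subset_cyl {ρ : ℝ} (hρ : ρ ≤ 1) : ball (0 : E (n + 1)) ρ ⊆ flCyl ρ := by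
  intro y hy
  have hy' : ‖y‖ < ρ := by simpa using hy
  exact ⟨lt_of_le_of_lt (fl_norm_hor_le y) hy', lt_of_le_of_lt (fl_abs_ver_le y) (by linarith)⟩

end Claimed.Agent.Gmt
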