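import Claimed.Agent.Lib.Gmt.FlCoord2

/-!
THIS FILE = PACKAGE L-GMT-FlCoord3 (part 3 of 5 of the former `FlCoord.lean`, which now only imports the parts; the text below is the plan of the whole former file).
# Lib/Gmt G4.0 (architect: helper190): coordinates `y = (z,t)` on `E (n+1)`, Fubini, cut-offs,
vertical and horizontal test fields.        PACKAGE L-GMT-FlCoord (pure Mathlib, no GMT input).

PLAN.  Everything is unfolding of `gmtJoin`, `gmtHorL`, `gmtVerL` (`EuclideanSpace.proj`, `Fin.snoc`,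
`Fin.sum_univ_castSucc`).
* `fl_measurePreserving`: compose `EuclideanSpace.volume_preserving_measurableEquiv` (or
  `PiLp.volume_preserving_ofLp`) on `Fin (n+1)`, `MeasureTheory.volume_preserving_piFinSuccAbove
  (fun _ => ℝ) (Fin.last n)` (gives `ℝ × (Fin n → ℝ)`), `Measure.prod_swap`, and the inverse of the
  first equivalence on `Fin n`.
* `fl_eta_props`, `fl_cut_props`: `Real.smoothTransition.contDiff`, `.zero_of_nonpos`,
  `.one_of_one_le`, `.nonneg`, `.le_one`; `contDiff_norm_sq`; the bound of the derivative: a continuous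
  function with compact support is bounded (`Continuous.bounded_above_of_compact_support` /
  `HasCompactSupport.exists_bound_of_continuous`).
* divergences: `gmtDiv T y = ∑ i, fderiv T y (eb i) i`, split the sum with `Fin.sum_univ_castSucc`;
  `eb (castSucc i) = gmtJoin (eb i) 0`, `eb (last n) = gmtEn n`.
-/

set_option autoImplicit false
open scoped ContDiff ENNReal RealInnerProductSpace
open MeasureTheory Metric Set

namespace Claimed.Agent.Gmt

variable {n : ℕ}

theorem fl_eta_props : ContDiff ℝ ∞ flEta ∧ (∀ t, 0 ≤ flEta t ∧ flEta t ≤ 1) ∧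
    (∀ t, |t| ≤ 1 / 2 → flEta t = 1) ∧ (∀ t, 3 / 4 ≤ |t| → flEta t = 0) := by
  refine ⟨Real.smoothTransition.contDiff.comp (by fun_prop),
    fun t => ⟨Real.smoothTransition.nonneg _, Real.smoothTransition.le_one _⟩,
    fun t ht => Real.smoothTransition.one_of_one_le ?_,
    fun t ht => Real.smoothTransition.zero_of_nonpos ?_⟩
  · have : t ^ 2 ≤ (1 / 2) ^ 2 := sq_le_sq' (by linarith [(abs_le.1 ht).1]) (abs_le.1 ht).2
    nlinarith
  · have : (3 / 4 : ℝ) ^ 2 ≤ t ^ 2 := by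
      rw [← sq_abs t]; exact pow_le_pow_left₀ (by norm_num) ht 2
    nlinarith

/-- near the slab the cut-off is locally constant. -/
theorem fl_eta_deriv {t : ℝ} (ht : |t| < 1 / 2) : deriv flEta t = 0 := by
  have h1 : flEta =ᶠ[nhds t] fun _ => 1 := by
    have ho : IsOpen {s : ℝ | |s| < 1 / 2} := isOpen_lt continuous_abs continuous_const
    filter_upwards [ho.mem_nhds ht] with s hs
    exact fl_eta_props.2.2.1 s (le_of_lt hs)
  rw [h1.deriv_eq]
  simp

theorem fl_cut_props {a b : ℝ} (ha : 0 ≤ a) (hab : a < b) :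
    ContDiff ℝ ∞ (flCut a b : E n → ℝ) ∧ (∀ z : E n, 0 ≤ flCut a b z ∧ flCut a b z ≤ 1) ∧
    (∀ z : E n, ‖z‖ ≤ a → flCut a b z = 1) ∧ (∀ z : E n, b ≤ ‖z‖ → flCut a b z = 0) ∧
    tsupport (flCut a b : E n → ℝ) ⊆ closedBall 0 b ∧
    ∃ C : ℝ, 0 ≤ C ∧ ∀ z : E n, ‖fderiv ℝ (flCut a b : E n → ℝ) z‖ ≤ C := by
  have hb : 0 < b := lt_of_le_of_lt ha hab
  have hd : 0 < b ^ 2 - a ^ 2 := by nlinarith
  have h1 : ContDiff ℝ ∞ (flCut a b : E n → ℝ) :=
    Real.smoothTransition.contDiff.comp ((contDiff_const.sub (contDiff_norm_sq ℝ)).div_const _)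
  have h4 : ∀ z : E n, b ≤ ‖z‖ → flCut a b z = 0 := fun z hz =>
    Real.smoothTransition.zero_of_nonpos (div_nonpos_of_nonpos_of_nonneg
      (by nlinarith [pow_le_pow_left₀ hb.le hz 2]) hd.le)
  have h5 : tsupport (flCut a b : E n → ℝ) ⊆ closedBall 0 b := by
    refine closure_minimal (fun z hz => ?_) isClosed_closedBall
    by_contra hc
    apply hz
    rw [mem_closedBall, dist_zero_right, not_le] at hc
    exact h4 z hc.le
  have hcs : HasCompactSupport (flCut a b : E n → ℝ) :=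
    (isCompact_closedBall (0 : E n) b).of_isClosed_subset (isClosed_tsupport _) h5
  refine ⟨h1, fun z => ⟨Real.smoothTransition.nonneg _, Real.smoothTransition.le_one _⟩,
    fun z hz => Real.smoothTransition.one_of_one_le ?_, h4, h5, ?_⟩
  · rw [le_div_iff₀ hd]
    nlinarith [pow_le_pow_left₀ (norm_nonneg z) hz 2]
  · obtain ⟨C, hC⟩ := (hcs.fderiv ℝ).exists_bound_of_continuous (h1.continuous_fderiv (by simp))
    exact ⟨C, (norm_nonneg _).trans (hC 0), hC⟩

/-! ### product functions and the two kinds of test fields -/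

/-- `ψ(z) k(t)`. -/
noncomputable def flPr (ψ : E n → ℝ) (k : ℝ → ℝ) (y : E (n + 1)) : ℝ := ψ (gmtHor y) * k (gmtVer y)

theorem fl_pr_contDiff {N : ℕ∞} {ψ : E n → ℝ} {k : ℝ → ℝ} (hψ : ContDiff ℝ N ψ)
    (hk : ContDiff ℝ N k) : ContDiff ℝ N (flPr ψ k) :=
  (hψ.comp (gmtHorL n).contDiff).mul (hk.comp (gmtVerL n).contDiff)

theorem fl_pr_fderiv {ψ : E n → ℝ} {k : ℝ → ℝ} {y : E (n + 1)}
    (hψ : DifferentiableAt ℝ ψ (gmtHor y)) (hk : DifferentiableAt ℝ k (gmtVer y)) (v : E (n + 1)) :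
    fderiv ℝ (flPr ψ k) y v =
      fderiv ℝ ψ (gmtHor y) (gmtHor v) * k (gmtVer y) + ψ (gmtHor y) * (deriv k (gmtVer y) * gmtVer v) := by
  have h1 : HasFDerivAt (fun y : E (n + 1) => ψ (gmtHor y))
      ((fderiv ℝ ψ (gmtHor y)).comp (gmtHorL n)) y :=
    hψ.hasFDerivAt.comp y (gmtHorL n).hasFDerivAt
  have h2 : HasFDerivAt (fun y : E (n + 1) => k (gmtVer y))
      (deriv k (gmtVer y) • (gmtVerL n)) y :=
    hk.hasDerivAt.comp_hasFDerivAt y (gmtVerL n).hasFDerivAt
  have h3 : HasFDerivAt (flPr ψ k) _ y := h1.mul h2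
  rw [h3.fderiv]
  simp only [ContinuousLinearMap.add_apply, _root_.smul_apply, smul_eq_mul,
    ContinuousLinearMap.comp_apply]
  show ψ (gmtHor y) * (deriv k (gmtVer y) * gmtVer v)
    + k (gmtVer y) * fderiv ℝ ψ (gmtHor y) (gmtHor v) = _
  ring

/-- support of a product function. -/
theorem fl_pr_tsupport {ψ : E n → ℝ} {k : ℝ → ℝ} {ρ τ : ℝ} (hψ : tsupport ψ ⊆ closedBall 0 ρ)
    (hk : ∀ t, τ ≤ |t| → k t = 0) :
    tsupport (flPr ψ k) ⊆ {y | ‖gmtHor y‖ ≤ ρ ∧ |gmtVer y| ≤ τ} := by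
  refine closure_minimal (fun y hy => ?_)
    ((isClosed_le (continuous_norm.comp fl_continuous_hor) continuous_const).inter
      (isClosed_le (continuous_abs.comp fl_continuous_ver) continuous_const))
  by_contra hc
  apply hy
  show ψ (gmtHor y) * k (gmtVer y) = 0
  by_cases h1 : ‖gmtHor y‖ ≤ ρ
  · have h2 : ¬ |gmtVer y| ≤ τ := fun h2 => hc ⟨h1, h2⟩
    rw [hk _ (not_le.1 h2).le, mul_zero]
  · have h3 : ψ (gmtHor y) = 0 :=
      image_eq_zero_of_notMem_tsupport fun h => h1 (by simpa using hψ h)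
    rw [h3, zero_mul]

end Claimed.Agent.Gmt
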