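import Claimed.Agent.Lib.Gmt.FlCoord3

/-!
THIS FILE = PACKAGE L-GMT-FlCoord4 (part 4 of 5 of the former `FlCoord.lean`, which now only imports the parts; the text below is the plan of the whole former file).
# Lib/Gmt G4.0 (architect: helper190): coordinates `y = (z,t)` on `E (n+1)`, Fubini, cut-offs,
vertical and horizontal test fields.        PACKAGE L-GMT-FlCoord (pure Mathlib, no GMT input).

PLAN.  Everything is unfolding of `gmtJoin`, `gmtHorL`, `gmtVerL` (`EuclideanSpace.proj`, `Fin.snoc`,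
`Fin.sum_univ_castSucc`).
* `fl_measurePreserving`: compose `EuclideanSpace.volume_preserving_measurableEquiv` (or
  `PiLp.volume_preserving_ofLp`) on `Fin (n+1)`, `MeasureTheory.volume_preserving_piFinSuccAbove
  (fun _ => ℝ) (Fin.last n)` (gives `ℝ × (Fin n → ℝ)`), `Measure.prod_swap`, and the inverse of the
  first equivalence on `Fin n`.
* `fl_eta_props`, `fl_cut_props`: `Real.smoothTransition.contDiff`, `.zero_of_nonpos`,
  `.one_of_one_le`, `.nonneg`, `.le_one`; `contDiff_norm_sq`; the bound of the derivative: a continuous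
  function with compact support is bounded (`Continuous.bounded_above_of_compact_support` /
  `HasCompactSupport.exists_bound_of_continuous`).
* divergences: `gmtDiv T y = ∑ i, fderiv T y (eb i) i`, split the sum with `Fin.sum_univ_castSucc`;
  `eb (castSucc i) = gmtJoin (eb i) 0`, `eb (last n) = gmtEn n`.
-/

set_option autoImplicit false
open scoped ContDiff ENNReal RealInnerProductSpace
open MeasureTheory Metric Set

namespace Claimed.Agent.Gmt

variable {n : ℕ}

theorem flv_tsupport (a : E (n + 1) → ℝ) : tsupport (flVert a) ⊆ tsupport a :=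
  tsupport_smul_subset_left a fun _ => gmtEn n

theorem flv_sub {a : E (n + 1) → ℝ}
    (hs : tsupport a ⊆ {y | ‖gmtHor y‖ ≤ 1 ∧ |gmtVer y| ≤ 1}) :
    tsupport (flVert a) ⊆ ball 0 2 :=
  (flv_tsupport a).trans (hs.trans fun _ hy => fl_cyl_subset_ball hy.1 hy.2)

theorem flv_cpt {a : E (n + 1) → ℝ}
    (hs : tsupport a ⊆ {y | ‖gmtHor y‖ ≤ 1 ∧ |gmtVer y| ≤ 1}) : HasCompactSupport (flVert a) :=
  (isCompact_closedBall (0 : E (n + 1)) 2).of_isClosed_subset (isClosed_tsupport _)
    ((flv_sub hs).trans ball_subset_closedBall)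

/-- a `C^N` scalar function supported in the closed unit cylinder gives a vertical test field. -/
theorem fl_vert_test {a : E (n + 1) → ℝ} (ha : ContDiff ℝ 1 a)
    (hs : tsupport a ⊆ {y | ‖gmtHor y‖ ≤ 1 ∧ |gmtVer y| ≤ 1}) : GmtTest (ball 0 4) (flVert a) :=
  ⟨ha.smul contDiff_const, flv_cpt hs, (flv_sub hs).trans (ball_subset_ball (by norm_num))⟩

theorem fl_vert_testS {a : E (n + 1) → ℝ} (ha : ContDiff ℝ ∞ a)
    (hs : tsupport a ⊆ {y | ‖gmtHor y‖ ≤ 1 ∧ |gmtVer y| ≤ 1}) : GmtTestS (ball 0 4) (flVert a) :=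
  ⟨ha.smul contDiff_const, flv_cpt hs, (flv_sub hs).trans (ball_subset_ball (by norm_num))⟩

theorem fl_vert_fderiv {a : E (n + 1) → ℝ} {y : E (n + 1)} (ha : DifferentiableAt ℝ a y) :
    fderiv ℝ (flVert a) y = (fderiv ℝ a y).smulRight (gmtEn n) :=
  (ha.hasFDerivAt.smul_const (gmtEn n)).fderiv

theorem fl_vert_div {a : E (n + 1) → ℝ} {y : E (n + 1)} (ha : DifferentiableAt ℝ a y) :
    gmtDiv (flVert a) y = fderiv ℝ a y (gmtEn n) := by
  unfold gmtDiv
  rw [fl_vert_fderiv ha, Finset.sum_eq_single (Fin.last n)]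
  · simp
  · intro i _ hi
    simp [hi]
  · simp

theorem fl_vert_norm_fderiv {a : E (n + 1) → ℝ} {y : E (n + 1)} (ha : DifferentiableAt ℝ a y) :
    ‖fderiv ℝ (flVert a) y‖ = ‖fderiv ℝ a y‖ := by
  rw [fl_vert_fderiv ha, ContinuousLinearMap.norm_smulRight_apply]
  simp

theorem fl_vert_norm (a : E (n + 1) → ℝ) (y : E (n + 1)) : ‖flVert a y‖ = |a y| := by
  unfold flVert
  rw [norm_smul]
  simp

theorem fl_vert_inner (a : E (n + 1) → ℝ) (y v : E (n + 1)) : ⟪flVert a y, v⟫ = a y * gmtVer v := by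
  unfold flVert
  rw [inner_smul_left, fl_ver_eq_inner, real_inner_comm]
  simp

/-- tangential divergence of a vertical field. -/
theorem fl_vert_tdiv {a : E (n + 1) → ℝ} {y : E (n + 1)} (ha : DifferentiableAt ℝ a y)
    (ν : E (n + 1) → E (n + 1)) :
    flTdiv (flVert a) ν y = fderiv ℝ a y (gmtEn n) - gmtVer (ν y) * fderiv ℝ a y (ν y) := by
  unfold flTdiv
  rw [fl_vert_div ha, fl_vert_fderiv ha, ContinuousLinearMap.smulRight_apply, inner_smul_right,
    ← fl_ver_eq_inner]
  ring

end Claimed.Agent.Gmt
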