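import Claimed.Agent.Lib.Gmt.FlCoord4
import Claimed.Agent.Lib.Gmt.BvBasicA

/-!
THIS FILE = PACKAGE L-GMT-FlCoord5 (part 5 of 5 of the former `FlCoord.lean`, which now only imports the parts; the text below is the plan of the whole former file).
# Lib/Gmt G4.0 (architect: helper190): coordinates `y = (z,t)` on `E (n+1)`, Fubini, cut-offs,
vertical and horizontal test fields.        PACKAGE L-GMT-FlCoord (pure Mathlib, no GMT input).

PLAN.  Everything is unfolding of `gmtJoin`, `gmtHorL`, `gmtVerL` (`EuclideanSpace.proj`, `Fin.snoc`,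
`Fin.sum_univ_castSucc`).
* `fl_measurePreserving`: compose `EuclideanSpace.volume_preserving_measurableEquiv` (or
  `PiLp.volume_preserving_ofLp`) on `Fin (n+1)`, `MeasureTheory.volume_preserving_piFinSuccAbove
  (fun _ => ℝ) (Fin.last n)` (gives `ℝ × (Fin n → ℝ)`), `Measure.prod_swap`, and the inverse of the
  first equivalence on `Fin n`.
* `fl_eta_props`, `fl_cut_props`: `Real.smoothTransition.contDiff`, `.zero_of_nonpos`,
  `.one_of_one_le`, `.nonneg`, `.le_one`; `contDiff_norm_sq`; the bound of the derivative: a continuous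
  function with compact support is bounded (`Continuous.bounded_above_of_compact_support` /
  `HasCompactSupport.exists_bound_of_continuous`).
* divergences: `gmtDiv T y = ∑ i, fderiv T y (eb i) i`, split the sum with `Fin.sum_univ_castSucc`;
  `eb (castSucc i) = gmtJoin (eb i) 0`, `eb (last n) = gmtEn n`.
-/

set_option autoImplicit false
open scoped ContDiff ENNReal RealInnerProductSpace
open MeasureTheory Metric Set

namespace Claimed.Agent.Gmt

variable {n : ℕ}

theorem fl_horF_tsupport {Ψ : E n → E n} (hΨ : GmtTest (ball 0 1) Ψ) :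
    tsupport (flHorF Ψ) ⊆ flCyl 1 := by
  have hcl : IsClosed ((gmtHor ⁻¹' tsupport Ψ : Set (E (n + 1))) ∩ {y | |gmtVer y| ≤ 3 / 4}) :=
    ((isClosed_tsupport Ψ).preimage fl_continuous_hor).inter
      (isClosed_le (continuous_abs.comp fl_continuous_ver) continuous_const)
  have h1 : tsupport (flHorF Ψ)
      ⊆ (gmtHor ⁻¹' tsupport Ψ : Set (E (n + 1))) ∩ {y | |gmtVer y| ≤ 3 / 4} := by
    refine closure_minimal (fun y hy => ?_) hcl
    by_contra hc
    apply hy
    unfold flHorF
    by_cases h2 : gmtHor y ∈ tsupport Ψ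
    · have h3 : ¬ |gmtVer y| ≤ 3 / 4 := fun h3 => hc ⟨h2, h3⟩
      rw [fl_eta_props.2.2.2 _ (not_le.1 h3).le, zero_smul]
    · rw [image_eq_zero_of_notMem_tsupport h2, ← fl_inc_apply, map_zero, smul_zero]
  refine h1.trans fun y hy => ⟨by simpa using hΨ.sub hy.1, lt_of_le_of_lt hy.2 (by norm_num)⟩

theorem fl_horF_test {Ψ : E n → E n} (hΨ : GmtTest (ball 0 1) Ψ) : GmtTest (ball 0 4) (flHorF Ψ) := by
  have hs : tsupport (flHorF Ψ) ⊆ ball 0 2 :=
    (fl_horF_tsupport hΨ).trans fun y hy => fl_cyl_subset_ball hy.1.le hy.2.le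
  refine ⟨?_, (isCompact_closedBall (0 : E (n + 1)) 2).of_isClosed_subset (isClosed_tsupport _)
    (hs.trans ball_subset_closedBall), hs.trans (ball_subset_ball (by norm_num))⟩
  have h1 : ContDiff ℝ 1 fun y : E (n + 1) => flEta (gmtVer y) :=
    (fl_eta_props.1.of_le (by simp)).comp (gmtVerL n).contDiff
  have h2 : ContDiff ℝ 1 fun y : E (n + 1) => flInc n (Ψ (gmtHor y)) :=
    (flInc n).contDiff.comp (hΨ.c1.comp (gmtHorL n).contDiff)
  exact h1.smul h2

theorem flh_hor_eb (i : Fin n) : gmtHor (eb (Fin.castSucc i) : E (n + 1)) = eb i := by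
  ext j
  rw [fl_hor_apply]
  simp [eb]

theorem fl_horF_div {Ψ : E n → E n} {y : E (n + 1)} (hΨ : DifferentiableAt ℝ Ψ (gmtHor y)) :
    gmtDiv (flHorF Ψ) y = flEta (gmtVer y) * gmtDiv Ψ (gmtHor y) := by
  have h1 : HasFDerivAt (fun y : E (n + 1) => flEta (gmtVer y))
      (deriv flEta (gmtVer y) • (gmtVerL n)) y :=
    ((fl_eta_props.1.differentiable (by simp)) _).hasDerivAt.comp_hasFDerivAt y
      (gmtVerL n).hasFDerivAt
  have h2 : HasFDerivAt (fun y : E (n + 1) => flInc n (Ψ (gmtHor y)))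
      ((flInc n).comp ((fderiv ℝ Ψ (gmtHor y)).comp (gmtHorL n))) y :=
    (flInc n).hasFDerivAt.comp y (hΨ.hasFDerivAt.comp y (gmtHorL n).hasFDerivAt)
  have h3 := gmtDiv_smul h1.differentiableAt h2.differentiableAt
  have e : flHorF Ψ = fun y => flEta (gmtVer y) • flInc n (Ψ (gmtHor y)) := rfl
  rw [e, h3, h1.fderiv]
  have e2 : (deriv flEta (gmtVer y) • gmtVerL n) (flInc n (Ψ (gmtHor y))) = 0 := by
    rw [_root_.smul_apply, fl_inc_apply]
    show deriv flEta (gmtVer y) • gmtVer (gmtJoin (Ψ (gmtHor y)) 0) = 0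
    rw [fl_ver_join, smul_zero]
  rw [e2, add_zero]
  congr 1
  unfold gmtDiv
  rw [h2.fderiv, Fin.sum_univ_castSucc]
  have e3 : ∀ v : E (n + 1), ((flInc n).comp ((fderiv ℝ Ψ (gmtHor y)).comp (gmtHorL n))) v
      = gmtJoin (fderiv ℝ Ψ (gmtHor y) (gmtHor v)) 0 := fun v => rfl
  simp only [e3, fl_join_castSucc, fl_join_last, add_zero, flh_hor_eb]

theorem fl_horF_inner (Ψ : E n → E n) (y v : E (n + 1)) :
    ⟪flHorF Ψ y, v⟫ = flEta (gmtVer y) * ⟪Ψ (gmtHor y), gmtHor v⟫ := by
  unfold flHorF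
  rw [inner_smul_left, fl_inner, fl_hor_join, fl_ver_join]
  simp

/-- `∫ div Ψ = 0`. -/
theorem fl_integral_div_zero {U : Set (E n)} {Ψ : E n → E n} (hΨ : GmtTest U Ψ) :
    ∫ z, gmtDiv Ψ z = 0 := integral_gmtDiv_eq_zero hΨ

/-- the gradient of a smooth compactly supported function is a test field. -/
theorem fl_grad_test {U : Set (E n)} {ψ : E n → ℝ} (hψ : ContDiff ℝ ∞ ψ) (hc : HasCompactSupport ψ)
    (hs : tsupport ψ ⊆ U) : GmtTest U (gradient ψ) := by
  have h1 : tsupport (gradient ψ) ⊆ tsupport ψ := by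
    refine closure_minimal (fun x hx => ?_) (isClosed_tsupport ψ)
    by_contra hcc
    apply hx
    unfold gradient
    rw [fderiv_of_notMem_tsupport ℝ hcc, map_zero]
  refine ⟨?_, hc.of_isClosed_subset (isClosed_tsupport _) h1, h1.trans hs⟩
  unfold gradient
  exact (LinearIsometryEquiv.contDiff _).comp
    ((hψ.fderiv_right (m := ∞) (by simp)).of_le (by simp))

end Claimed.Agent.Gmt
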