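import Claimed.Agent.Lib.Gmt.Defs

/-!
# Lib/Gmt G4 (architect: helper190): flatness ⇒ `C^{1,1/2}`.  DEFINITIONS.

ROUTE (no excess decay à la De Giorgi, no Lipschitz approximation, no harmonic approximation lemma,
no compactness, no Sobolev space).  Unit scale, vertical direction `e = gmtEn n` in `E (n+1)`,
`y = (z,t)`, `z = gmtHor y`, `t = gmtVer y`, `ν = (ν', ν_t)`; hypotheses `FlUnit`:
Gauss-Green pair `(μ,ν)` in `B_4`, first variation bound `|∫ div_S X dμ| ≤ κ ∫ (|DX|+|X|) dμ`,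
density bounds, boundary in the slab `|t| ≤ ε` with `S` below, `μ(C_1) ≤ ω_n + δ`.
* F1 `FlFlux`: `∫_{C_1} ψ(z) ν_t dμ = ∫ ψ dz`, hence `∫_{C_1} (1-ν_t) dμ ≤ δ`.
* F2 `FlFlux`: `h(z) = |{t : (z,t) ∈ S, |t|<1}| - 1`, `∫ h div Ψ dz = ∫_{C_1} Ψ(z)·ν' dμ`.
* F3 `FlCacc`: `X = ζ(z)² η(t) t e` in (FV): `∫_{C_{3/4}} |ν'|² dμ ≤ C (ε² + κ)`.
* F4 `FlCacc`: `X = ψ(z) η(t) e` in (FV): `|∫ h Δψ| ≤ C (√(δ(ε²+κ)) + κ) (sup|ψ| + sup|∇ψ|)`.
* F5 `FlMoll` (pure analysis): there is an affine `ℓ` with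
  `∫_{D_ρ} (h-ℓ)² ≤ C (ε ω + ε² ρ^{n+4})` (`ω` = the constant of F4).
* F6 `FlBad`, `FlHeight`: `∫ φ(z) (t-ℓ(z))² dμ ≤ ∫ φ (h-ℓ)² dz + C ε² √δ`.
* F7 `FlMean` (any dimension, any pair `(μ,ν)` with (FV)): mean value inequality for `f = L²`,
  `L` affine, with ONE explicit test field.
* F8 `FlStep`: improvement of flatness at unit scale; `FlScale`: at all scales for `GmtAM`;
  `FlIter`: decay; `FlGraph`, `FlCamp`: `C^{1,1/2}` graph.
-/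

set_option autoImplicit false
open scoped ContDiff ENNReal RealInnerProductSpace
open MeasureTheory Metric Set

namespace Claimed.Agent.Gmt

variable {m n : ℕ}

/-- the boundary of `S` lies in the slab `|⟪y-x,e⟫| ≤ ε r` in `ball x r`, with `S` below. -/
structure FlFlat (S : Set (E m)) (x : E m) (r ε : ℝ) (e : E m) : Prop where
  unit : ‖e‖ = 1
  below : ∀ᵐ y : E m, y ∈ ball x r → ⟪y - x, e⟫ < -(ε * r) → y ∈ S
  above : ∀ᵐ y : E m, y ∈ ball x r → ε * r < ⟪y - x, e⟫ → y ∉ S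

/-- abstract Gauss-Green pair of `S` in the open set `U` (`ν` = outer normal). -/
structure FlGG (U S : Set (E m)) (μ : Measure (E m)) (ν : E m → E m) : Prop where
  mS : MeasurableSet S
  fin : ∀ K, IsCompact K → K ⊆ U → μ K ≠ ⊤
  mν : Measurable ν
  le1 : ∀ x, ‖ν x‖ ≤ 1
  unit : ∀ᵐ x ∂(μ.restrict U), ‖ν x‖ = 1
  gg : ∀ T, GmtTest U T → ∫ x in S, gmtDiv T x = ∫ x, ⟪T x, ν x⟫ ∂μ

/-- tangential divergence `div X - ν·DX ν`. -/
noncomputable def flTdiv (X ν : E m → E m) (x : E m) : ℝ :=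
  gmtDiv X x - ⟪ν x, fderiv ℝ X x (ν x)⟫

/-- first variation bound with constant `κ` in `U`. -/
def FlFV (κ : ℝ) (U : Set (E m)) (μ : Measure (E m)) (ν : E m → E m) : Prop :=
  ∀ X, GmtTestS U X → |∫ x, flTdiv X ν x ∂μ| ≤ κ * ∫ x, (‖fderiv ℝ X x‖ + ‖X x‖) ∂μ

/-- density bounds in `U`. -/
structure FlDens (c₀ C₀ : ℝ) (U S : Set (E m)) (μ : Measure (E m)) : Prop where
  up : ∀ y s, 0 < s → ball y s ⊆ U → μ (ball y s) ≤ ENNReal.ofReal (C₀ * s ^ (m - 1))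
  lo : ∀ y ∈ gmtBd S, ∀ s, 0 < s → ball y s ⊆ U → ENNReal.ofReal (c₀ * s ^ (m - 1)) ≤ μ (ball y s)

/-- the cylinder `{|z| < ρ, |t| < 1}`. -/
def flCyl {n : ℕ} (ρ : ℝ) : Set (E (n + 1)) := {y | ‖gmtHor y‖ < ρ ∧ |gmtVer y| < 1}

/-- fixed vertical cut-off: `1` on `[-1/2,1/2]`, `0` off `(-3/4,3/4)`. -/
noncomputable def flEta (t : ℝ) : ℝ := Real.smoothTransition ((9 / 16 - t ^ 2) * (16 / 5))

/-- radial cut-off on `E n`: `1` on `closedBall 0 a`, `0` off `ball 0 b`. -/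
noncomputable def flCut (a b : ℝ) (z : E n) : ℝ :=
  Real.smoothTransition ((b ^ 2 - ‖z‖ ^ 2) / (b ^ 2 - a ^ 2))

/-- vertical field `a(y) e`. -/
noncomputable def flVert (a : E (n + 1) → ℝ) (y : E (n + 1)) : E (n + 1) := a y • gmtEn n

/-- horizontal field `η(t) (Ψ(z), 0)`. -/
noncomputable def flHorF (Ψ : E n → E n) (y : E (n + 1)) : E (n + 1) :=
  flEta (gmtVer y) • gmtJoin (Ψ (gmtHor y)) 0

/-- Laplacian. -/
noncomputable def flLap (ψ : E n → ℝ) (z : E n) : ℝ := gmtDiv (gradient ψ) z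

/-- height function: length of the vertical slice of `S` in `(-1,1)`, minus one. -/
noncomputable def flH (S : Set (E (n + 1))) (z : E n) : ℝ :=
  (∫ t in Ioo (-1 : ℝ) 1, S.indicator (fun _ => (1 : ℝ)) (gmtJoin z t)) - 1

/-- the part of the slice above the height: `|{t ∈ (h(z),1) : (z,t) ∈ S}|`. -/
noncomputable def flB (S : Set (E (n + 1))) (z : E n) : ℝ :=
  ∫ t in Ioo (flH S z) 1, S.indicator (fun _ => (1 : ℝ)) (gmtJoin z t)

/-- **hypotheses at unit scale** (centre `0`, vertical direction). -/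
structure FlUnit (n : ℕ) (ε κ δ c₀ C₀ : ℝ) (S : Set (E (n + 1))) (μ : Measure (E (n + 1)))
    (ν : E (n + 1) → E (n + 1)) : Prop where
  hε : 0 < ε
  hε' : ε ≤ 1 / 4
  hκ : 0 ≤ κ
  hκ' : κ ≤ 1
  hδ : 0 ≤ δ
  hδ' : δ ≤ 1
  hc : 0 < c₀
  hC : 0 < C₀
  gg : FlGG (ball 0 4) S μ ν
  fv : FlFV κ (ball 0 4) μ ν
  dens : FlDens c₀ C₀ (ball 0 4) S μ
  flat : FlFlat S 0 4 (ε / 4) (gmtEn n)
  exc : μ (flCyl 1) ≤ ENNReal.ofReal (gmtOm n + δ)


end Claimed.Agent.Gmt
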