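import Claimed.Agent.Lib.Gmt.FlCoord

/-!
THIS FILE = PACKAGE L-GMT-FlFlux1 (part 1 of 4 of the former `FlFlux.lean`, which now only imports the parts; the text below is the plan of the whole former file).
# Lib/Gmt G4.1 (architect: helper190): flux identities at unit scale (F1, F2).
PACKAGE L-GMT-FlFlux.   Input: `FlUnit` (only `gg`, `flat`, `exc`), `FlCoord`.

NOTATION `y = (z,t)`, `ν = (ν', ν_t)`, `C_ρ = flCyl ρ`, `η = flEta`, `h = flH S`.

PLAN.
* `FlGG.null_of_ae_mem`, `FlGG.null_of_ae_not_mem`: `W ⊆ U` open and `S` full (resp. null) in `W`.  For `T ∈ C¹_c(W)`: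
  `∫_S div T = ∫ div T = 0` (resp. `= 0`), so `∫ ⟪T,ν⟫ dμ = 0` for all such `T`.  Then `μ W = 0`: let `K ⊆ W` compact; `ν 1_K ∈ L¹(μ|_W ; E m)`
  is approximated in `L¹(μ|_{W'})` (`K ⊆ W' ⋐ W`) by continuous compactly supported fields, these uniformly by `C¹` fields;
  so `μ K = ∫_K |ν|² = lim ∫ ⟪T_j, ν⟫ = 0`.  (Or quote `gmt_polar_open` of `GgRiesz.lean` for `μ.restrict U`; importing it is allowed.)
* `fl_mu_slab`: apply them to `W = ball 0 4 ∩ {t > ε}` and `ball 0 4 ∩ {t < -ε}` (`FlFlat` with `ε/4 * 4 = ε`, `⟪y - 0, e⟫ = t`).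
* `fl_flux`: `T = flVert (flPr ψ η)`; `div T = ψ(z) η'(t)`; Fubini: `∫_S div T = ∫ ψ(z) ∫ 1_S(z,t) η'(t) dt dz`; for a.e. `z` in `ball 0 1`
  `1_S(z,t) = 1` for a.e. `t ∈ (-1,-ε)`, `= 0` for a.e. `t ∈ (ε,1)`, and `η' = 0` on `[-ε,ε]`; so the inner integral is `∫_{-1}^{-ε} η' = η(-ε) - η(-1) = 1`.
  Right side: `∫ ψ η ν_t dμ`, the integrand vanishes off `C_1`, and `η = 1` `μ`-a.e. on `C_1` by `fl_mu_slab`.
* `fl_flux_full`: `ψ_j = flCut (1 - 1/(j+2)) (1 - 1/(j+3)) ↑ 1_{ball 0 1}`, dominated convergence on both sides (`μ (C_1) < ∞`).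
* `fl_exc`: `∫_{C_1} (1 - ν_t) dμ = μ(C_1) - ω_n ≤ δ`.
* `fl_H_bound`: for a.e. `z ∈ ball 0 1`: `(-1,-ε) ⊆ S_z ⊆ (-1,ε)` up to null sets, so `1 - ε ≤ |S_z ∩ (-1,1)| ≤ 1 + ε`.
* `fl_H_grad`: `T = flHorF Ψ`, `div T = η(t) div Ψ(z)`, `∫ 1_S(z,t) η(t) dt = h(z) + c` with the constant `c = 1 - ∫_{-1}^{1}... ` precisely
  `∫ 1_S η dt - ∫_{(-1,1)} 1_S dt = ∫_{-1}^{-ε} (η - 1) dt =: c'` (independent of `z`; on `[-ε,ε]` `η = 1`, above `1_S = 0`); and `∫ div Ψ = 0`.
-/

set_option autoImplicit false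
open scoped ContDiff ENNReal RealInnerProductSpace
open MeasureTheory Metric Set

namespace Claimed.Agent.Gmt

variable {m n : ℕ}

/-- bounded measurable functions with bounded support in `U` are `μ`-integrable. -/
theorem FlGG.integrableOn {U S K : Set (E m)} {μ : Measure (E m)} {ν : E m → E m}
    (h : FlGG U S μ ν) (hK : IsCompact K) (hKU : K ⊆ U) {F : E m → ℝ} (hF : Measurable F) {M : ℝ}
    (hM : ∀ y, |F y| ≤ M) : IntegrableOn F K μ :=
  Measure.integrableOn_of_bounded (M := M) (h.fin K hK hKU) hF.aestronglyMeasurable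
    (Filter.Eventually.of_forall hM)

theorem fl_div_off {T : E m → E m} {y : E m} (hy : y ∉ tsupport T) : gmtDiv T y = 0 := by
  simp [gmtDiv, fderiv_of_notMem_tsupport ℝ hy]

/-- if the flux of all test fields supported in `W` vanishes, then `μ W = 0`. -/
theorem FlGG.null_of_flux {U S W : Set (E m)} {μ : Measure (E m)} {ν : E m → E m}
    (h : FlGG U S μ ν) (hU : IsOpen U) (hW : IsOpen W) (hWU : W ⊆ U)
    (hfl : ∀ T, GmtTest W T → ∫ x, ⟪T x, ν x⟫ ∂μ = 0) : μ W = 0 := by
  have hloc : LocallyIntegrableOn ν W μ := by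
    rw [locallyIntegrableOn_iff hW.isLocallyClosed]
    intro k hk hkc
    exact Measure.integrableOn_of_bounded (M := 1) (h.fin k hkc (hk.trans hWU))
      h.mν.aestronglyMeasurable (Filter.Eventually.of_forall h.le1)
  have hzero : ∀ᵐ x ∂μ, x ∈ W → ν x = 0 := by
    refine hW.ae_eq_zero_of_integral_contDiff_smul_eq_zero hloc ?_
    intro g hg hgc hgs
    have hint : Integrable (fun x => g x • ν x) μ := by
      have h1 : IntegrableOn (fun x => g x • ν x) (tsupport g) μ := by
        obtain ⟨M, hM⟩ := hgc.exists_bound_of_continuous hg.continuous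
        refine Measure.integrableOn_of_bounded (M := M * 1) (h.fin _ hgc (hgs.trans hWU))
          ((hg.continuous.measurable.smul h.mν).aestronglyMeasurable)
          (Filter.Eventually.of_forall fun x => ?_)
        rw [norm_smul]
        exact mul_le_mul (hM x) (h.le1 x) (norm_nonneg _) ((norm_nonneg _).trans (hM x))
      refine (integrableOn_iff_integrable_of_support_subset ?_).1 h1
      intro x hx
      apply subset_tsupport g
      simp only [Function.mem_support, ne_eq] at hx ⊢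
      intro h0; apply hx; rw [h0, zero_smul]
    apply ext_inner_left ℝ
    intro v
    rw [inner_zero_right, ← integral_inner hint]
    have hT : GmtTest W (fun x => g x • v) := by
      refine ⟨(hg.of_le (by simp)).smul contDiff_const, hgc.smul_right, ?_⟩
      refine Subset.trans (closure_mono ?_) hgs
      intro x hx
      simp only [Function.mem_support, ne_eq] at hx ⊢
      intro h0; apply hx; rw [h0, zero_smul]
    have := hfl _ hT
    rw [← this]
    congr 1
    funext x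
    rw [real_inner_smul_left, real_inner_smul_right]
  have hunit : ∀ᵐ x ∂μ, x ∈ U → ‖ν x‖ = 1 := (ae_restrict_iff' hU.measurableSet).1 h.unit
  have : ∀ᵐ x ∂μ, x ∉ W := by
    filter_upwards [hzero, hunit] with x a1 a2 a3
    have := a2 (hWU a3)
    rw [a1 a3, norm_zero] at this
    exact zero_ne_one this
  have h0 := ae_iff.1 this
  simpa using h0

theorem FlGG.null_of_ae_mem {U S W : Set (E m)} {μ : Measure (E m)} {ν : E m → E m}
    (h : FlGG U S μ ν) (hU : IsOpen U) (hW : IsOpen W) (hWU : W ⊆ U)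
    (hS : ∀ᵐ y : E m, y ∈ W → y ∈ S) : μ W = 0 := by
  refine h.null_of_flux hU hW hWU fun T hT => ?_
  have hT' : GmtTest U T := ⟨hT.c1, hT.cpt, hT.sub.trans hWU⟩
  rw [← h.gg T hT', ← integral_indicator h.mS, ← fl_integral_div_zero hT]
  apply integral_congr_ae
  filter_upwards [hS] with y hy
  by_cases hyW : y ∈ tsupport T
  · rw [indicator_of_mem (hy (hT.sub hyW))]
  · rw [fl_div_off hyW]
    exact indicator_apply_eq_zero.2 fun _ => fl_div_off hyW

theorem FlGG.null_of_ae_not_mem {U S W : Set (E m)} {μ : Measure (E m)} {ν : E m → E m}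
    (h : FlGG U S μ ν) (hU : IsOpen U) (hW : IsOpen W) (hWU : W ⊆ U)
    (hS : ∀ᵐ y : E m, y ∈ W → y ∉ S) : μ W = 0 := by
  refine h.null_of_flux hU hW hWU fun T hT => ?_
  have hT' : GmtTest U T := ⟨hT.c1, hT.cpt, hT.sub.trans hWU⟩
  rw [← h.gg T hT', ← integral_indicator h.mS]
  have : (S.indicator fun x => gmtDiv T x) =ᵐ[volume] 0 := by
    filter_upwards [hS] with y hy
    by_cases hyW : y ∈ tsupport T
    · rw [indicator_of_notMem (hy (hT.sub hyW))]; rfl
    · exact indicator_apply_eq_zero.2 fun _ => fl_div_off hyW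
  rw [integral_congr_ae this]
  simp

end Claimed.Agent.Gmt
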