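import Claimed.Agent.Lib.Gmt.FlFlux1

/-!
THIS FILE = PACKAGE L-GMT-FlFlux2 (part 2 of 4 of the former `FlFlux.lean`, which now only imports the parts; the text below is the plan of the whole former file).
# Lib/Gmt G4.1 (architect: helper190): flux identities at unit scale (F1, F2).
PACKAGE L-GMT-FlFlux.   Input: `FlUnit` (only `gg`, `flat`, `exc`), `FlCoord`.

NOTATION `y = (z,t)`, `ν = (ν', ν_t)`, `C_ρ = flCyl ρ`, `η = flEta`, `h = flH S`.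

PLAN.
* `FlGG.null_of_ae_mem`, `FlGG.null_of_ae_not_mem`: `W ⊆ U` open and `S` full (resp. null) in `W`.  For `T ∈ C¹_c(W)`:
  `∫_S div T = ∫ div T = 0` (resp. `= 0`), so `∫ ⟪T,ν⟫ dμ = 0` for all such `T`.  Then `μ W = 0`: let `K ⊆ W` compact; `ν 1_K ∈ L¹(μ|_W ; E m)`
  is approximated in `L¹(μ|_{W'})` (`K ⊆ W' ⋐ W`) by continuous compactly supported fields, these uniformly by `C¹` fields;
  so `μ K = ∫_K |ν|² = lim ∫ ⟪T_j, ν⟫ = 0`.  (Or quote `gmt_polar_open` of `GgRiesz.lean` for `μ.restrict U`; importing it is allowed.)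
* `fl_mu_slab`: apply them to `W = ball 0 4 ∩ {t > ε}` and `ball 0 4 ∩ {t < -ε}` (`FlFlat` with `ε/4 * 4 = ε`, `⟪y - 0, e⟫ = t`).
* `fl_flux`: `T = flVert (flPr ψ η)`; `div T = ψ(z) η'(t)`; Fubini: `∫_S div T = ∫ ψ(z) ∫ 1_S(z,t) η'(t) dt dz`; for a.e. `z` in `ball 0 1`
  `1_S(z,t) = 1` for a.e. `t ∈ (-1,-ε)`, `= 0` for a.e. `t ∈ (ε,1)`, and `η' = 0` on `[-ε,ε]`; so the inner integral is `∫_{-1}^{-ε} η' = η(-ε) - η(-1) = 1`.
  Right side: `∫ ψ η ν_t dμ`, the integrand vanishes off `C_1`, and `η = 1` `μ`-a.e. on `C_1` by `fl_mu_slab`.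
* `fl_flux_full`: `ψ_j = flCut (1 - 1/(j+2)) (1 - 1/(j+3)) ↑ 1_{ball 0 1}`, dominated convergence on both sides (`μ (C_1) < ∞`).
* `fl_exc`: `∫_{C_1} (1 - ν_t) dμ = μ(C_1) - ω_n ≤ δ`.
* `fl_H_bound`: for a.e. `z ∈ ball 0 1`: `(-1,-ε) ⊆ S_z ⊆ (-1,ε)` up to null sets, so `1 - ε ≤ |S_z ∩ (-1,1)| ≤ 1 + ε`.
* `fl_H_grad`: `T = flHorF Ψ`, `div T = η(t) div Ψ(z)`, `∫ 1_S(z,t) η(t) dt = h(z) + c` with the constant `c = 1 - ∫_{-1}^{1}... ` precisely
  `∫ 1_S η dt - ∫_{(-1,1)} 1_S dt = ∫_{-1}^{-ε} (η - 1) dt =: c'` (independent of `z`; on `[-ε,ε]` `η = 1`, above `1_S = 0`); and `∫ div Ψ = 0`.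
-/

set_option autoImplicit false
open scoped ContDiff ENNReal RealInnerProductSpace
open MeasureTheory Metric Set

namespace Claimed.Agent.Gmt

variable {m n : ℕ}

variable {ε κ δ c₀ C₀ : ℝ} {S : Set (E (n + 1))} {μ : Measure (E (n + 1))}
  {ν : E (n + 1) → E (n + 1)}

theorem fl_cyl_subset_closedBall : (flCyl 1 : Set (E (n + 1))) ⊆ closedBall 0 2 := fun _ hy =>
  ball_subset_closedBall (fl_cyl_subset_ball hy.1.le hy.2.le)

theorem fl_cyl_subset_ball4 : (flCyl 1 : Set (E (n + 1))) ⊆ ball 0 4 := fun _ hy =>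
  ball_subset_ball (by norm_num) (fl_cyl_subset_ball hy.1.le hy.2.le)

theorem fl_mu_cyl_lt_top (H : FlUnit n ε κ δ c₀ C₀ S μ ν) : μ (flCyl 1) < ⊤ :=
  lt_of_le_of_lt (measure_mono fl_cyl_subset_closedBall)
    (H.gg.fin _ (isCompact_closedBall _ _) (closedBall_subset_ball (by norm_num))).lt_top

/-- `μ` lives in the slab. -/
theorem fl_mu_slab (H : FlUnit n ε κ δ c₀ C₀ S μ ν) :
    μ {y | y ∈ ball (0 : E (n + 1)) 4 ∧ ε < |gmtVer y|} = 0 := by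
  have hε' : ε / 4 * 4 = ε := by ring
  have h1 : μ (ball (0 : E (n + 1)) 4 ∩ {y | ε < gmtVer y}) = 0 := by
    refine H.gg.null_of_ae_not_mem isOpen_ball
      (isOpen_ball.inter (isOpen_lt continuous_const fl_continuous_ver)) inter_subset_left ?_
    filter_upwards [H.flat.above] with y hy hyW
    apply hy hyW.1
    rw [hε', sub_zero, ← fl_ver_eq_inner]
    exact hyW.2
  have h2 : μ (ball (0 : E (n + 1)) 4 ∩ {y | gmtVer y < -ε}) = 0 := by
    refine H.gg.null_of_ae_mem isOpen_ball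
      (isOpen_ball.inter (isOpen_lt fl_continuous_ver continuous_const)) inter_subset_left ?_
    filter_upwards [H.flat.below] with y hy hyW
    apply hy hyW.1
    rw [hε', sub_zero, ← fl_ver_eq_inner]
    exact hyW.2
  rw [← nonpos_iff_eq_zero]
  calc μ {y | y ∈ ball (0 : E (n + 1)) 4 ∧ ε < |gmtVer y|}
      ≤ μ ((ball (0 : E (n + 1)) 4 ∩ {y | ε < gmtVer y}) ∪
          (ball (0 : E (n + 1)) 4 ∩ {y | gmtVer y < -ε})) := by
        apply measure_mono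
        rintro y ⟨hy1, hy2⟩
        rcases lt_abs.1 hy2 with h | h
        · exact Or.inl ⟨hy1, h⟩
        · exact Or.inr ⟨hy1, by show gmtVer y < -ε; linarith⟩
    _ ≤ _ := measure_union_le _ _
    _ = 0 := by rw [h1, h2, add_zero]

theorem fl_ae_slab (H : FlUnit n ε κ δ c₀ C₀ S μ ν) :
    ∀ᵐ y ∂(μ.restrict (flCyl 1)), |gmtVer y| ≤ ε ∧ ‖ν y‖ = 1 := by
  have h1 : ∀ᵐ y ∂(μ.restrict (flCyl 1)), ‖ν y‖ = 1 :=
    ae_restrict_of_ae_restrict_of_subset fl_cyl_subset_ball4 H.gg.unit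
  have h2 : ∀ᵐ y ∂μ, ¬ (y ∈ ball (0 : E (n + 1)) 4 ∧ ε < |gmtVer y|) := by
    rw [ae_iff]; simpa using fl_mu_slab H
  have h3 : ∀ᵐ y ∂(μ.restrict (flCyl 1)), y ∈ (flCyl 1 : Set (E (n + 1))) :=
    ae_restrict_mem (fl_isOpen_cyl 1).measurableSet
  filter_upwards [h1, ae_restrict_of_ae h2, h3] with y a1 a2 a3
  refine ⟨?_, a1⟩
  by_contra hcon
  exact a2 ⟨fl_cyl_subset_ball4 a3, not_le.1 hcon⟩

/-- slices: for a.e. `z` in the unit ball the slice contains `(-1,-ε)` and misses `(ε,1)`. -/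
theorem fl_slice (H : FlUnit n ε κ δ c₀ C₀ S μ ν) :
    ∀ᵐ z : E n, ‖z‖ < 1 → (∀ᵐ t : ℝ, t ∈ Ioo (-1 : ℝ) (-ε) → gmtJoin z t ∈ S) ∧
      (∀ᵐ t : ℝ, t ∈ Ioo ε 1 → gmtJoin z t ∉ S) := by
  have hε' : ε / 4 * 4 = ε := by ring
  have hε := H.hε
  filter_upwards [fl_ae_join H.flat.below, fl_ae_join H.flat.above] with z a1 a2 hz
  have hball : ∀ t : ℝ, |t| < 1 → gmtJoin z t ∈ ball (0 : E (n + 1)) 4 := by
    intro t ht
    apply fl_cyl_subset_ball4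
    exact ⟨by rw [fl_hor_join]; exact hz, by rw [fl_ver_join]; exact ht⟩
  constructor
  · filter_upwards [a1] with t ht htI
    apply ht (hball t (abs_lt.2 ⟨htI.1, by linarith [htI.2]⟩))
    rw [hε', sub_zero, ← fl_ver_eq_inner, fl_ver_join]
    exact htI.2
  · filter_upwards [a2] with t ht htI
    apply ht (hball t (abs_lt.2 ⟨by linarith [htI.1], htI.2⟩))
    rw [hε', sub_zero, ← fl_ver_eq_inner, fl_ver_join]
    exact htI.1

end Claimed.Agent.Gmt
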