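import Claimed.Agent.Lib.Gmt.FlFlux2

/-!
THIS FILE = PACKAGE L-GMT-FlFlux3 (part 3 of 4 of the former `FlFlux.lean`, which now only imports the parts; the text below is the plan of the whole former file).
# Lib/Gmt G4.1 (architect: helper190): flux identities at unit scale (F1, F2).
PACKAGE L-GMT-FlFlux.   Input: `FlUnit` (only `gg`, `flat`, `exc`), `FlCoord`.

NOTATION `y = (z,t)`, `ν = (ν', ν_t)`, `C_ρ = flCyl ρ`, `η = flEta`, `h = flH S`.

PLAN.
* `FlGG.null_of_ae_mem`, `FlGG.null_of_ae_not_mem`: `W ⊆ U` open and `S` full (resp. null) in `W`.  For `T ∈ C¹_c(W)`: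
  `∫_S div T = ∫ div T = 0` (resp. `= 0`), so `∫ ⟪T,ν⟫ dμ = 0` for all such `T`.  Then `μ W = 0`: let `K ⊆ W` compact; `ν 1_K ∈ L¹(μ|_W ; E m)`
  is approximated in `L¹(μ|_{W'})` (`K ⊆ W' ⋐ W`) by continuous compactly supported fields, these uniformly by `C¹` fields;
  so `μ K = ∫_K |ν|² = lim ∫ ⟪T_j, ν⟫ = 0`.  (Or quote `gmt_polar_open` of `GgRiesz.lean` for `μ.restrict U`; importing it is allowed.)
* `fl_mu_slab`: apply them to `W = ball 0 4 ∩ {t > ε}` and `ball 0 4 ∩ {t < -ε}` (`FlFlat` with `ε/4 * 4 = ε`, `⟪y - 0, e⟫ = t`).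
* `fl_flux`: `T = flVert (flPr ψ η)`; `div T = ψ(z) η'(t)`; Fubini: `∫_S div T = ∫ ψ(z) ∫ 1_S(z,t) η'(t) dt dz`; for a.e. `z` in `ball 0 1`
  `1_S(z,t) = 1` for a.e. `t ∈ (-1,-ε)`, `= 0` for a.e. `t ∈ (ε,1)`, and `η' = 0` on `[-ε,ε]`; so the inner integral is `∫_{-1}^{-ε} η' = η(-ε) - η(-1) = 1`.
  Right side: `∫ ψ η ν_t dμ`, the integrand vanishes off `C_1`, and `η = 1` `μ`-a.e. on `C_1` by `fl_mu_slab`.
* `fl_flux_full`: `ψ_j = flCut (1 - 1/(j+2)) (1 - 1/(j+3)) ↑ 1_{ball 0 1}`, dominated convergence on both sides (`μ (C_1) < ∞`).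
* `fl_exc`: `∫_{C_1} (1 - ν_t) dμ = μ(C_1) - ω_n ≤ δ`.
* `fl_H_bound`: for a.e. `z ∈ ball 0 1`: `(-1,-ε) ⊆ S_z ⊆ (-1,ε)` up to null sets, so `1 - ε ≤ |S_z ∩ (-1,1)| ≤ 1 + ε`.
* `fl_H_grad`: `T = flHorF Ψ`, `div T = η(t) div Ψ(z)`, `∫ 1_S(z,t) η(t) dt = h(z) + c` with the constant `c = 1 - ∫_{-1}^{1}... ` precisely
  `∫ 1_S η dt - ∫_{(-1,1)} 1_S dt = ∫_{-1}^{-ε} (η - 1) dt =: c'` (independent of `z`; on `[-ε,ε]` `η = 1`, above `1_S = 0`); and `∫ div Ψ = 0`.
-/

set_option autoImplicit false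
open scoped ContDiff ENNReal RealInnerProductSpace
open MeasureTheory Metric Set

namespace Claimed.Agent.Gmt

variable {m n : ℕ}

theorem flx_eta_deriv_far {t : ℝ} (ht : 3 / 4 < |t|) : deriv flEta t = 0 := by
  have h1 : flEta =ᶠ[nhds t] fun _ => 0 := by
    have ho : IsOpen {s : ℝ | 3 / 4 < |s|} := isOpen_lt continuous_const continuous_abs
    filter_upwards [ho.mem_nhds ht] with s hs
    exact fl_eta_props.2.2.2 s (le_of_lt hs)
  rw [h1.deriv_eq]
  simp

theorem flx_eta_differentiable : Differentiable ℝ flEta := fl_eta_props.1.differentiable (by simp)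

theorem flx_eta_continuous_deriv : Continuous (deriv flEta) :=
  fl_eta_props.1.continuous_deriv (by simp)

/-- `∫_{-1}^{-ε} η' = 1`. -/
theorem flx_int_eta' {ε : ℝ} (hε0 : 0 < ε) (hε : ε ≤ 1 / 4) :
    ∫ t in Ioo (-1 : ℝ) (-ε), deriv flEta t = 1 := by
  rw [← integral_Ioc_eq_integral_Ioo, ← intervalIntegral.integral_of_le (by linarith),
    intervalIntegral.integral_deriv_eq_sub (fun t _ => flx_eta_differentiable t)
      (flx_eta_continuous_deriv.intervalIntegrable _ _),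
    fl_eta_props.2.2.1 (-ε) (by rw [abs_neg, abs_of_pos hε0]; linarith),
    fl_eta_props.2.2.2 (-1) (by norm_num)]
  norm_num

/-- the slice condition. -/
def FlxSl (A : Set ℝ) (ε : ℝ) : Prop :=
  (∀ᵐ t : ℝ, t ∈ Ioo (-1 : ℝ) (-ε) → t ∈ A) ∧ (∀ᵐ t : ℝ, t ∈ Ioo ε 1 → t ∉ A)

/-- a.e. identity: `1_A k = 1_{(-1,-ε)} k` if `k` vanishes on `[-ε,ε]` and off `(-1,1)`. -/
theorem flx_slice_ae {A : Set ℝ} {ε : ℝ} (h : FlxSl A ε) {k : ℝ → ℝ}
    (hk1 : ∀ t, |t| ≤ ε → k t = 0) (hk2 : ∀ t, 1 ≤ |t| → k t = 0) :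
    (fun t => A.indicator (fun _ => (1 : ℝ)) t * k t)
      =ᵐ[volume] (Ioo (-1 : ℝ) (-ε)).indicator k := by
  filter_upwards [h.1, h.2] with t h1 h2
  by_cases ht1 : t ∈ Ioo (-1 : ℝ) (-ε)
  · rw [indicator_of_mem ht1, indicator_of_mem (h1 ht1), one_mul]
  · rw [indicator_of_notMem ht1]
    by_cases ht2 : t ∈ Ioo ε 1
    · rw [indicator_of_notMem (h2 ht2), zero_mul]
    · by_cases ht3 : |t| ≤ ε
      · rw [hk1 t ht3, mul_zero]
      · rw [hk2 t ?_, mul_zero]
        rw [not_le] at ht3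
        by_contra hc
        rw [not_le, abs_lt] at hc
        rcases lt_abs.1 ht3 with h3 | h3
        · exact ht2 ⟨h3, hc.2⟩
        · exact ht1 ⟨hc.1, by linarith⟩

theorem flx_slice_eta' {A : Set ℝ} {ε : ℝ} (hε0 : 0 < ε) (hε : ε ≤ 1 / 4) (h : FlxSl A ε) :
    ∫ t, A.indicator (fun _ => (1 : ℝ)) t * deriv flEta t = 1 := by
  rw [integral_congr_ae (flx_slice_ae h (fun t ht => fl_eta_deriv (lt_of_le_of_lt ht (by linarith)))
    (fun t ht => flx_eta_deriv_far (lt_of_lt_of_le (by norm_num) ht))),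
    integral_indicator measurableSet_Ioo, flx_int_eta' hε0 hε]

variable {ε κ δ c₀ C₀ : ℝ} {S : Set (E (n + 1))} {μ : Measure (E (n + 1))}
  {ν : E (n + 1) → E (n + 1)}

/-- the slice of `S` over `z`. -/
def flxA (S : Set (E (n + 1))) (z : E n) : Set ℝ := {t | gmtJoin z t ∈ S}

theorem flx_indicator (S : Set (E (n + 1))) (g : E (n + 1) → ℝ) (z : E n) (t : ℝ) :
    S.indicator g (gmtJoin z t) = (flxA S z).indicator (fun _ => (1 : ℝ)) t * g (gmtJoin z t) := by
  by_cases h : gmtJoin z t ∈ S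
  · rw [indicator_of_mem h, indicator_of_mem (show t ∈ flxA S z from h), one_mul]
  · rw [indicator_of_notMem h, indicator_of_notMem (show t ∉ flxA S z from h), zero_mul]

theorem flx_slice (H : FlUnit n ε κ δ c₀ C₀ S μ ν) : ∀ᵐ z : E n, ‖z‖ < 1 → FlxSl (flxA S z) ε :=
  fl_slice H

theorem flx_psi_zero {F : Type*} [Zero F] {ψ : E n → F} (hs : tsupport ψ ⊆ ball 0 1) {z : E n}
    (hz : ¬ ‖z‖ < 1) : ψ z = 0 :=
  image_eq_zero_of_notMem_tsupport fun h => hz (by simpa using hs h)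

theorem flx_compact {a : E (n + 1) → ℝ}
    (hs : tsupport a ⊆ {y | ‖gmtHor y‖ ≤ 1 ∧ |gmtVer y| ≤ 1}) : HasCompactSupport a :=
  (isCompact_closedBall (0 : E (n + 1)) 2).of_isClosed_subset (isClosed_tsupport _)
    (hs.trans fun _ hy => ball_subset_closedBall (fl_cyl_subset_ball hy.1 hy.2))

/-- F1. -/
theorem fl_flux (H : FlUnit n ε κ δ c₀ C₀ S μ ν) {ψ : E n → ℝ} (hψ : ContDiff ℝ 1 ψ)
    (hs : tsupport ψ ⊆ ball 0 1) :
    ∫ y in flCyl 1, ψ (gmtHor y) * gmtVer (ν y) ∂μ = ∫ z, ψ z := by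
  have hε0 := H.hε
  have hε4 := H.hε'
  set a := flPr ψ flEta with hadef
  have ha : ContDiff ℝ 1 a :=
    fl_pr_contDiff (N := 1) (by exact_mod_cast hψ) (fl_eta_props.1.of_le (by simp))
  have had : Differentiable ℝ a := ha.differentiable (by simp)
  have hsupp : tsupport a ⊆ {y | ‖gmtHor y‖ ≤ 1 ∧ |gmtVer y| ≤ 1} :=
    (fl_pr_tsupport (hs.trans ball_subset_closedBall)
      (fun t ht => fl_eta_props.2.2.2 t ht)).trans fun y hy => ⟨hy.1, hy.2.trans (by norm_num)⟩
  have hT : GmtTest (ball 0 4) (flVert a) := fl_vert_test ha hsupp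
  have hgg := H.gg.gg _ hT
  have eR : ∫ y, ⟪flVert a y, ν y⟫ ∂μ = ∫ y in flCyl 1, ψ (gmtHor y) * gmtVer (ν y) ∂μ := by
    simp only [fl_vert_inner]
    rw [← setIntegral_eq_integral_of_forall_compl_eq_zero (s := flCyl 1)]
    · refine integral_congr_ae ?_
      filter_upwards [fl_ae_slab H] with y hy
      show ψ (gmtHor y) * flEta (gmtVer y) * gmtVer (ν y) = _
      rw [fl_eta_props.2.2.1 _ (hy.1.trans (by linarith)), mul_one]
    · intro y hy
      show ψ (gmtHor y) * flEta (gmtVer y) * gmtVer (ν y) = 0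
      by_cases h1 : ‖gmtHor y‖ < 1
      · have h2 : ¬ |gmtVer y| < 1 := fun h2 => hy ⟨h1, h2⟩
        rw [fl_eta_props.2.2.2 _ (by linarith [not_lt.1 h2])]
        ring
      · rw [flx_psi_zero hs h1]
        ring
  have hdiv : ∀ y, gmtDiv (flVert a) y = ψ (gmtHor y) * deriv flEta (gmtVer y) := fun y => by
    rw [fl_vert_div (had y), fl_pr_fderiv ((hψ.differentiable (by simp)) _)
      (flx_eta_differentiable _), fl_hor_en, fl_ver_en, map_zero]
    ring
  have hgi : Integrable fun y : E (n + 1) => ψ (gmtHor y) * deriv flEta (gmtVer y) := by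
    have h1 : (fun y : E (n + 1) => ψ (gmtHor y) * deriv flEta (gmtVer y))
        = fun y => fderiv ℝ a y (gmtEn n) := by
      funext y
      rw [← hdiv y, fl_vert_div (had y)]
    rw [h1]
    exact ((ha.continuous_fderiv (by simp)).clm_apply continuous_const).integrable_of_hasCompactSupport
      ((flx_compact hsupp).fderiv_apply ℝ _)
  have eL : ∫ y in S, gmtDiv (flVert a) y = ∫ z, ψ z := by
    simp only [hdiv]
    rw [← integral_indicator H.gg.mS, fl_integral_join (hgi.indicator H.gg.mS)]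
    refine integral_congr_ae ?_
    filter_upwards [flx_slice H] with z hz
    simp only [flx_indicator, fl_hor_join, fl_ver_join]
    by_cases h1 : ‖z‖ < 1
    · have := flx_slice_eta' hε0 hε4 (hz h1)
      calc ∫ t, (flxA S z).indicator (fun _ => (1 : ℝ)) t * (ψ z * deriv flEta t)
          = ∫ t, ψ z * ((flxA S z).indicator (fun _ => (1 : ℝ)) t * deriv flEta t) := by
            congr 1; funext t; ring
        _ = ψ z := by rw [integral_const_mul, this, mul_one]
    · rw [flx_psi_zero hs h1]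
      simp
  rw [← eR, ← hgg, eL]

/-- the exhausting cut-offs. -/
noncomputable def flxPsi (n j : ℕ) : E n → ℝ := flCut (1 - 1 / ((j : ℝ) + 2)) (1 - 1 / ((j : ℝ) + 3))

theorem flx_Psi_props (n j : ℕ) : ContDiff ℝ ∞ (flxPsi n j) ∧
    (∀ z, 0 ≤ flxPsi n j z ∧ flxPsi n j z ≤ 1) ∧
    (∀ z : E n, ‖z‖ ≤ 1 - 1 / ((j : ℝ) + 2) → flxPsi n j z = 1) ∧
    tsupport (flxPsi n j) ⊆ ball 0 1 := by
  have hj : (0 : ℝ) ≤ j := Nat.cast_nonneg j
  have h2 : 1 / ((j : ℝ) + 2) ≤ 1 := by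
    rw [div_le_one (by positivity)]; linarith
  have h3 : 1 / ((j : ℝ) + 3) < 1 / ((j : ℝ) + 2) :=
    one_div_lt_one_div_of_lt (by positivity) (by linarith)
  have h4 : 0 < 1 / ((j : ℝ) + 3) := by positivity
  obtain ⟨p1, p2, p3, -, p5, -⟩ := fl_cut_props (n := n) (a := 1 - 1 / ((j : ℝ) + 2))
    (b := 1 - 1 / ((j : ℝ) + 3)) (by linarith) (by linarith)
  exact ⟨p1, p2, p3, p5.trans (closedBall_subset_ball (by linarith))⟩

theorem flx_Psi_eventually (n : ℕ) {z : E n} (hz : ‖z‖ < 1) :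
    ∀ᶠ j : ℕ in Filter.atTop, flxPsi n j z = 1 := by
  obtain ⟨J, hJ⟩ := exists_nat_gt (1 / (1 - ‖z‖))
  filter_upwards [Filter.eventually_ge_atTop J] with j hj
  refine (flx_Psi_props n j).2.2.1 z ?_
  have h1 : 0 < 1 - ‖z‖ := by linarith
  have h2 : (J : ℝ) ≤ j := by exact_mod_cast hj
  have h3 : 1 / ((j : ℝ) + 2) ≤ 1 - ‖z‖ := by
    rw [div_le_iff₀ (by positivity)]
    rw [div_lt_iff₀ h1] at hJ
    nlinarith
  linarith

theorem fl_flux_full (H : FlUnit n ε κ δ c₀ C₀ S μ ν) :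
    ∫ y in flCyl 1, gmtVer (ν y) ∂μ = gmtOm n := by
  have hmν := H.gg.mν
  have hfin : μ (flCyl 1) < ⊤ := fl_mu_cyl_lt_top H
  have : IsFiniteMeasure (μ.restrict (flCyl 1)) := ⟨by rwa [Measure.restrict_apply_univ]⟩
  have hvt : ∀ y, |gmtVer (ν y)| ≤ 1 := fun y => (fl_abs_ver_le _).trans (H.gg.le1 y)
  have hmvt : Measurable fun y => gmtVer (ν y) := fl_continuous_ver.measurable.comp hmν
  have hflux : ∀ j : ℕ, ∫ y in flCyl 1, flxPsi n j (gmtHor y) * gmtVer (ν y) ∂μ
      = ∫ z, flxPsi n j z := fun j =>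
    fl_flux H ((flx_Psi_props n j).1.of_le (by simp)) (flx_Psi_props n j).2.2.2
  have hL : Filter.Tendsto (fun j : ℕ => ∫ y in flCyl 1, flxPsi n j (gmtHor y) * gmtVer (ν y) ∂μ)
      Filter.atTop (nhds (∫ y in flCyl 1, gmtVer (ν y) ∂μ)) := by
    refine tendsto_integral_of_dominated_convergence (fun _ => (1 : ℝ)) (fun j => ?_)
      (integrable_const _) (fun j => Filter.Eventually.of_forall fun y => ?_) ?_
    · exact ((((flx_Psi_props n j).1.continuous.comp fl_continuous_hor).measurable).mul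
        hmvt).aestronglyMeasurable
    · have h1 := (flx_Psi_props n j).2.1 (gmtHor y)
      rw [Real.norm_eq_abs, abs_mul, abs_of_nonneg h1.1]
      calc flxPsi n j (gmtHor y) * |gmtVer (ν y)| ≤ 1 * 1 :=
            mul_le_mul h1.2 (hvt y) (abs_nonneg _) (by norm_num)
        _ = 1 := by norm_num
    · refine (ae_restrict_iff' (fl_isOpen_cyl 1).measurableSet).2
        (Filter.Eventually.of_forall fun y hy => ?_)
      refine tendsto_const_nhds.congr' ?_
      filter_upwards [flx_Psi_eventually n hy.1] with j hj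
      rw [hj, one_mul]
  have hR : Filter.Tendsto (fun j : ℕ => ∫ z, flxPsi n j z) Filter.atTop (nhds (gmtOm n)) := by
    have e : gmtOm n = ∫ z, (ball (0 : E n) 1).indicator (fun _ => (1 : ℝ)) z := by
      rw [integral_indicator measurableSet_ball, setIntegral_const, smul_eq_mul, mul_one]
      rfl
    rw [e]
    refine tendsto_integral_of_dominated_convergence
      ((ball (0 : E n) 1).indicator (fun _ => (1 : ℝ))) (fun j => ?_)
      ((integrable_indicator_iff measurableSet_ball).2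
        (integrableOn_const (measure_ball_lt_top).ne)) (fun j => Filter.Eventually.of_forall fun z => ?_)
      (Filter.Eventually.of_forall fun z => ?_)
    · exact (flx_Psi_props n j).1.continuous.aestronglyMeasurable
    · have h1 := (flx_Psi_props n j).2.1 z
      by_cases hz : ‖z‖ < 1
      · rw [indicator_of_mem (by simpa using hz), Real.norm_eq_abs, abs_of_nonneg h1.1]
        exact h1.2
      · rw [flx_psi_zero (flx_Psi_props n j).2.2.2 hz, norm_zero]
        exact indicator_nonneg (fun _ _ => zero_le_one) _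
    · by_cases hz : ‖z‖ < 1
      · rw [indicator_of_mem (by simpa using hz)]
        refine tendsto_const_nhds.congr' ?_
        filter_upwards [flx_Psi_eventually n hz] with j hj
        rw [hj]
      · rw [indicator_of_notMem (by simpa using hz)]
        refine tendsto_const_nhds.congr fun j => ?_
        rw [flx_psi_zero (flx_Psi_props n j).2.2.2 hz]
  simp only [hflux] at hL
  exact tendsto_nhds_unique hL hR

theorem flx_om_nonneg (n : ℕ) : 0 ≤ gmtOm n := ENNReal.toReal_nonneg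

theorem flx_mu_le (H : FlUnit n ε κ δ c₀ C₀ S μ ν) : (μ (flCyl 1)).toReal ≤ gmtOm n + δ :=
  ENNReal.toReal_le_of_le_ofReal (add_nonneg (flx_om_nonneg n) H.hδ) H.exc

/-- the oriented excess is at most `δ`. -/
theorem fl_exc (H : FlUnit n ε κ δ c₀ C₀ S μ ν) :
    ∫ y in flCyl 1, (1 - gmtVer (ν y)) ∂μ ≤ δ := by
  have hmν := H.gg.mν
  have hfin : μ (flCyl 1) < ⊤ := fl_mu_cyl_lt_top H
  have : IsFiniteMeasure (μ.restrict (flCyl 1)) := ⟨by rwa [Measure.restrict_apply_univ]⟩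
  have hvt : ∀ y, |gmtVer (ν y)| ≤ 1 := fun y => (fl_abs_ver_le _).trans (H.gg.le1 y)
  have hmvt : Measurable fun y => gmtVer (ν y) := fl_continuous_ver.measurable.comp hmν
  have iv : Integrable (fun y => gmtVer (ν y)) (μ.restrict (flCyl 1)) :=
    Integrable.of_bound hmvt.aestronglyMeasurable 1 (Filter.Eventually.of_forall fun y => by
      rw [Real.norm_eq_abs]; exact hvt y)
  rw [integral_sub (integrable_const _) iv, fl_flux_full H, integral_const, smul_eq_mul, mul_one,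
    measureReal_def, Measure.restrict_apply_univ]
  have := flx_mu_le H
  linarith

theorem fl_mu_cyl_le (H : FlUnit n ε κ δ c₀ C₀ S μ ν) : (μ (flCyl 1)).toReal ≤ gmtOm n + 1 :=
  (flx_mu_le H).trans (by linarith [H.hδ'])


end Claimed.Agent.Gmt
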