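import Claimed.Agent.Lib.Gmt.FlFlux3

/-!
THIS FILE = PACKAGE L-GMT-FlFlux4 (part 4 of 4 of the former `FlFlux.lean`, which now only imports the parts; the text below is the plan of the whole former file).
# Lib/Gmt G4.1 (architect: helper190): flux identities at unit scale (F1, F2).
PACKAGE L-GMT-FlFlux.   Input: `FlUnit` (only `gg`, `flat`, `exc`), `FlCoord`.

NOTATION `y = (z,t)`, `ν = (ν', ν_t)`, `C_ρ = flCyl ρ`, `η = flEta`, `h = flH S`.

PLAN.
* `FlGG.null_of_ae_mem`, `FlGG.null_of_ae_not_mem`: `W ⊆ U` open and `S` full (resp. null) in `W`.  For `T ∈ C¹_c(W)`: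
  `∫_S div T = ∫ div T = 0` (resp. `= 0`), so `∫ ⟪T,ν⟫ dμ = 0` for all such `T`.  Then `μ W = 0`: let `K ⊆ W` compact; `ν 1_K ∈ L¹(μ|_W ; E m)`
  is approximated in `L¹(μ|_{W'})` (`K ⊆ W' ⋐ W`) by continuous compactly supported fields, these uniformly by `C¹` fields;
  so `μ K = ∫_K |ν|² = lim ∫ ⟪T_j, ν⟫ = 0`.  (Or quote `gmt_polar_open` of `GgRiesz.lean` for `μ.restrict U`; importing it is allowed.)
* `fl_mu_slab`: apply them to `W = ball 0 4 ∩ {t > ε}` and `ball 0 4 ∩ {t < -ε}` (`FlFlat` with `ε/4 * 4 = ε`, `⟪y - 0, e⟫ = t`).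
* `fl_flux`: `T = flVert (flPr ψ η)`; `div T = ψ(z) η'(t)`; Fubini: `∫_S div T = ∫ ψ(z) ∫ 1_S(z,t) η'(t) dt dz`; for a.e. `z` in `ball 0 1`
  `1_S(z,t) = 1` for a.e. `t ∈ (-1,-ε)`, `= 0` for a.e. `t ∈ (ε,1)`, and `η' = 0` on `[-ε,ε]`; so the inner integral is `∫_{-1}^{-ε} η' = η(-ε) - η(-1) = 1`.
  Right side: `∫ ψ η ν_t dμ`, the integrand vanishes off `C_1`, and `η = 1` `μ`-a.e. on `C_1` by `fl_mu_slab`.
* `fl_flux_full`: `ψ_j = flCut (1 - 1/(j+2)) (1 - 1/(j+3)) ↑ 1_{ball 0 1}`, dominated convergence on both sides (`μ (C_1) < ∞`).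
* `fl_exc`: `∫_{C_1} (1 - ν_t) dμ = μ(C_1) - ω_n ≤ δ`.
* `fl_H_bound`: for a.e. `z ∈ ball 0 1`: `(-1,-ε) ⊆ S_z ⊆ (-1,ε)` up to null sets, so `1 - ε ≤ |S_z ∩ (-1,1)| ≤ 1 + ε`.
* `fl_H_grad`: `T = flHorF Ψ`, `div T = η(t) div Ψ(z)`, `∫ 1_S(z,t) η(t) dt = h(z) + c` with the constant `c = 1 - ∫_{-1}^{1}... ` precisely
  `∫ 1_S η dt - ∫_{(-1,1)} 1_S dt = ∫_{-1}^{-ε} (η - 1) dt =: c'` (independent of `z`; on `[-ε,ε]` `η = 1`, above `1_S = 0`); and `∫ div Ψ = 0`.
-/

set_option autoImplicit false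
open scoped ContDiff ENNReal RealInnerProductSpace
open MeasureTheory Metric Set

namespace Claimed.Agent.Gmt

variable {m n : ℕ}

variable {ε κ δ c₀ C₀ : ℝ} {S : Set (E (n + 1))} {μ : Measure (E (n + 1))}
  {ν : E (n + 1) → E (n + 1)}

theorem fl_H_measurable (hS : MeasurableSet S) : Measurable (flH S) := by
  have h1 : StronglyMeasurable fun p : E n × ℝ => S.indicator (fun _ => (1 : ℝ)) (gmtJoin p.1 p.2) :=
    ((measurable_const.indicator hS).comp fl_measurable_join).stronglyMeasurable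
  have h2 := h1.integral_prod_right' (ν := volume.restrict (Ioo (-1 : ℝ) 1))
  exact h2.measurable.sub_const 1

theorem fly_measurableSet (hS : MeasurableSet S) (z : E n) : MeasurableSet (flxA S z) :=
  (fl_measurable_join.comp (measurable_const.prodMk measurable_id)) hS

theorem fly_H_eq (S : Set (E (n + 1))) (z : E n) :
    flH S z = (∫ t in Ioo (-1 : ℝ) 1, (flxA S z).indicator (fun _ => (1 : ℝ)) t) - 1 := by
  unfold flH
  congr 2

theorem fly_vol_Ioo (a b : ℝ) : (volume.restrict (Ioo a b)).real univ = max (b - a) 0 := by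
  rw [measureReal_def, Measure.restrict_apply_univ, Real.volume_Ioo]
  rcases le_total 0 (b - a) with h | h
  · rw [ENNReal.toReal_ofReal h, max_eq_left h]
  · rw [ENNReal.ofReal_of_nonpos h, max_eq_right h]; rfl

theorem fl_H_bound_all (S : Set (E (n + 1))) (z : E n) : |flH S z| ≤ 1 := by
  rw [fly_H_eq]
  have h0 : 0 ≤ ∫ t in Ioo (-1 : ℝ) 1, (flxA S z).indicator (fun _ => (1 : ℝ)) t :=
    integral_nonneg fun t => indicator_nonneg (fun _ _ => zero_le_one) _
  have h2 : ∫ t in Ioo (-1 : ℝ) 1, (flxA S z).indicator (fun _ => (1 : ℝ)) t ≤ 2 := by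
    have := integral_mono_of_nonneg (μ := volume.restrict (Ioo (-1 : ℝ) 1))
      (f := (flxA S z).indicator (fun _ => (1 : ℝ))) (g := fun _ => (1 : ℝ))
      (Filter.Eventually.of_forall fun t => indicator_nonneg (fun _ _ => zero_le_one) _)
      (integrable_const _)
      (Filter.Eventually.of_forall fun t => indicator_le_self' (fun _ _ => zero_le_one) _)
    rw [integral_const, fly_vol_Ioo] at this
    norm_num at this
    exact this
  rw [abs_le]
  constructor <;> linarith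

/-- 1-D: the length of the slice. -/
theorem fly_len {A : Set ℝ} (hA : MeasurableSet A) {ε : ℝ} (hε0 : 0 < ε) (hε : ε ≤ 1 / 4)
    (h : FlxSl A ε) : |(∫ t in Ioo (-1 : ℝ) 1, A.indicator (fun _ => (1 : ℝ)) t) - 1| ≤ ε := by
  have iA : Integrable (A.indicator fun _ => (1 : ℝ)) (volume.restrict (Ioo (-1 : ℝ) 1)) :=
    (integrable_const _).indicator hA
  have hlow : 1 - ε ≤ ∫ t in Ioo (-1 : ℝ) 1, A.indicator (fun _ => (1 : ℝ)) t := by
    have h1 : ∫ t in Ioo (-1 : ℝ) 1, (Ioo (-1 : ℝ) (-ε)).indicator (fun _ => (1 : ℝ)) t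
        ≤ ∫ t in Ioo (-1 : ℝ) 1, A.indicator (fun _ => (1 : ℝ)) t := by
      refine integral_mono_ae ((integrable_const _).indicator measurableSet_Ioo) iA ?_
      refine ae_restrict_of_ae ?_
      filter_upwards [h.1] with t ht
      by_cases h2 : t ∈ Ioo (-1 : ℝ) (-ε)
      · rw [indicator_of_mem h2, indicator_of_mem (ht h2)]
      · rw [indicator_of_notMem h2]
        exact indicator_nonneg (fun _ _ => zero_le_one) _
    have h2 : ∫ t in Ioo (-1 : ℝ) 1, (Ioo (-1 : ℝ) (-ε)).indicator (fun _ => (1 : ℝ)) t = 1 - ε := by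
      rw [integral_indicator measurableSet_Ioo, Measure.restrict_restrict measurableSet_Ioo,
        inter_eq_left.2 (Ioo_subset_Ioo le_rfl (by linarith)), integral_const, fly_vol_Ioo,
        max_eq_left (by linarith)]
      simp; ring
    linarith
  have hup : ∫ t in Ioo (-1 : ℝ) 1, A.indicator (fun _ => (1 : ℝ)) t ≤ 1 + ε := by
    have h1 : ∫ t in Ioo (-1 : ℝ) 1, A.indicator (fun _ => (1 : ℝ)) t
        ≤ ∫ t in Ioo (-1 : ℝ) 1, (Ioc (-1 : ℝ) ε).indicator (fun _ => (1 : ℝ)) t := by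
      refine integral_mono_ae iA ((integrable_const _).indicator measurableSet_Ioc) ?_
      refine (ae_restrict_iff' measurableSet_Ioo).2 ?_
      filter_upwards [h.2] with t ht ht1
      by_cases h2 : t ≤ ε
      · rw [indicator_of_mem (show t ∈ Ioc (-1 : ℝ) ε from ⟨ht1.1, h2⟩)]
        exact indicator_le_self' (fun _ _ => zero_le_one) _
      · rw [indicator_of_notMem (ht ⟨not_le.1 h2, ht1.2⟩)]
        exact indicator_nonneg (fun _ _ => zero_le_one) _
    have h2 : ∫ t in Ioo (-1 : ℝ) 1, (Ioc (-1 : ℝ) ε).indicator (fun _ => (1 : ℝ)) t = 1 + ε := by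
      rw [integral_indicator measurableSet_Ioc, Measure.restrict_restrict measurableSet_Ioc,
        inter_eq_left.2 (show Ioc (-1 : ℝ) ε ⊆ Ioo (-1) 1 from
          fun t ht => ⟨ht.1, lt_of_le_of_lt ht.2 (by linarith)⟩),
        integral_Ioc_eq_integral_Ioo, integral_const, fly_vol_Ioo, max_eq_left (by linarith)]
      simp; ring
    linarith
  rw [abs_le]
  constructor <;> linarith

theorem fl_H_bound (H : FlUnit n ε κ δ c₀ C₀ S μ ν) : ∀ᵐ z : E n, ‖z‖ < 1 → |flH S z| ≤ ε := by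
  filter_upwards [flx_slice H] with z hz h1
  rw [fly_H_eq]
  exact fly_len (fly_measurableSet H.gg.mS z) H.hε H.hε' (hz h1)

theorem fly_div_continuous {Ψ : E n → E n} (hΨ : ContDiff ℝ 1 Ψ) : Continuous (gmtDiv Ψ) := by
  unfold gmtDiv
  refine continuous_finsetSum _ fun i _ => ?_
  have h1 : Continuous fun x => fderiv ℝ Ψ x (eb i) :=
    (hΨ.continuous_fderiv (by simp)).clm_apply continuous_const
  exact (EuclideanSpace.proj (𝕜 := ℝ) i).continuous.comp h1

theorem fly_eta_integrable : Integrable flEta :=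
  fl_eta_props.1.continuous.integrable_of_hasCompactSupport
    (HasCompactSupport.intro (isCompact_Icc (a := (-1 : ℝ)) (b := 1)) fun t ht =>
      fl_eta_props.2.2.2 t (by
        by_contra hc
        rw [not_le, abs_lt] at hc
        exact ht ⟨by linarith [hc.1], by linarith [hc.2]⟩))

/-- `∫ 1_A η = |A ∩ (-1,1)| + c`. -/
theorem fly_slice_eta {A : Set ℝ} (hA : MeasurableSet A) {ε : ℝ} (hε0 : 0 < ε) (hε : ε ≤ 1 / 4)
    (h : FlxSl A ε) :
    ∫ t, A.indicator (fun _ => (1 : ℝ)) t * flEta t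
      = (∫ t in Ioo (-1 : ℝ) 1, A.indicator (fun _ => (1 : ℝ)) t)
        + ∫ t in Ioo (-1 : ℝ) (-ε), (flEta t - 1) := by
  set k : ℝ → ℝ := fun t => flEta t - (Ioo (-1 : ℝ) 1).indicator (fun _ => (1 : ℝ)) t with hk
  have hk1 : ∀ t, |t| ≤ ε → k t = 0 := fun t ht => by
    have h1 := abs_le.1 ht
    rw [hk]
    simp only
    rw [fl_eta_props.2.2.1 t (ht.trans (by linarith)),
      indicator_of_mem (show t ∈ Ioo (-1 : ℝ) 1 from ⟨by linarith [h1.1], by linarith [h1.2]⟩), sub_self]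
  have hk2 : ∀ t, 1 ≤ |t| → k t = 0 := fun t ht => by
    rw [hk]
    simp only
    rw [fl_eta_props.2.2.2 t (le_trans (by norm_num) ht),
      indicator_of_notMem (fun h1 : t ∈ Ioo (-1 : ℝ) 1 =>
        absurd (abs_lt.2 ⟨h1.1, h1.2⟩) (not_lt.2 ht)), sub_self]
  have h1 := integral_congr_ae (flx_slice_ae h hk1 hk2)
  rw [integral_indicator measurableSet_Ioo] at h1
  have h2 : ∫ t in Ioo (-1 : ℝ) (-ε), k t = ∫ t in Ioo (-1 : ℝ) (-ε), (flEta t - 1) := by
    refine setIntegral_congr_fun measurableSet_Ioo fun t ht => ?_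
    show flEta t - (Ioo (-1 : ℝ) 1).indicator (fun _ => (1 : ℝ)) t = _
    rw [indicator_of_mem (show t ∈ Ioo (-1 : ℝ) 1 from ⟨ht.1, by linarith [ht.2]⟩)]
  have i1 : Integrable fun t => A.indicator (fun _ => (1 : ℝ)) t * flEta t := by
    have : (fun t => A.indicator (fun _ => (1 : ℝ)) t * flEta t) = A.indicator flEta := by
      funext t
      by_cases ht : t ∈ A
      · rw [indicator_of_mem ht, indicator_of_mem ht, one_mul]
      · rw [indicator_of_notMem ht, indicator_of_notMem ht, zero_mul]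
    rw [this]
    exact fly_eta_integrable.indicator hA
  have i2 : Integrable fun t => (Ioo (-1 : ℝ) 1).indicator (A.indicator (fun _ => (1 : ℝ))) t :=
    (integrable_indicator_iff measurableSet_Ioo).2 ((integrable_const _).indicator hA)
  have h3 : ∫ t, A.indicator (fun _ => (1 : ℝ)) t * k t
      = (∫ t, A.indicator (fun _ => (1 : ℝ)) t * flEta t)
        - ∫ t, (Ioo (-1 : ℝ) 1).indicator (A.indicator (fun _ => (1 : ℝ))) t := by
    rw [← integral_sub i1 i2]
    congr 1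
    funext t
    show A.indicator (fun _ => (1 : ℝ)) t
      * (flEta t - (Ioo (-1 : ℝ) 1).indicator (fun _ => (1 : ℝ)) t) = _
    by_cases ht : t ∈ Ioo (-1 : ℝ) 1
    · rw [indicator_of_mem ht, indicator_of_mem ht]; ring
    · rw [indicator_of_notMem ht, indicator_of_notMem ht]; ring
  rw [integral_indicator measurableSet_Ioo] at h3
  linarith

/-- F2: `D h = - p_# (ν' μ)`. -/
theorem fl_H_grad (H : FlUnit n ε κ δ c₀ C₀ S μ ν) {Ψ : E n → E n} (hΨ : GmtTest (ball 0 1) Ψ) :
    ∫ z, flH S z * gmtDiv Ψ z = ∫ y in flCyl 1, ⟪Ψ (gmtHor y), gmtHor (ν y)⟫ ∂μ := by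
  have hε0 := H.hε
  have hε4 := H.hε'
  have hT : GmtTest (ball 0 4) (flHorF Ψ) := fl_horF_test hΨ
  have hgg := H.gg.gg _ hT
  have hd : Differentiable ℝ Ψ := hΨ.c1.differentiable (by simp)
  have eR : ∫ y, ⟪flHorF Ψ y, ν y⟫ ∂μ = ∫ y in flCyl 1, ⟪Ψ (gmtHor y), gmtHor (ν y)⟫ ∂μ := by
    simp only [fl_horF_inner]
    rw [← setIntegral_eq_integral_of_forall_compl_eq_zero (s := flCyl 1)]
    · refine integral_congr_ae ?_
      filter_upwards [fl_ae_slab H] with y hy
      rw [fl_eta_props.2.2.1 _ (hy.1.trans (by linarith)), one_mul]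
    · intro y hy
      by_cases h1 : ‖gmtHor y‖ < 1
      · have h2 : ¬ |gmtVer y| < 1 := fun h2 => hy ⟨h1, h2⟩
        rw [fl_eta_props.2.2.2 _ (by linarith [not_lt.1 h2]), zero_mul]
      · rw [flx_psi_zero hΨ.sub h1, inner_zero_left, mul_zero]
  have hdc : Continuous (gmtDiv Ψ) := fly_div_continuous hΨ.c1
  have hdz : ∀ z, ¬ ‖z‖ < 1 → gmtDiv Ψ z = 0 := fun z hz =>
    fl_div_off fun h => hz (by simpa using hΨ.sub h)
  have hdcs : HasCompactSupport (gmtDiv Ψ) :=
    HasCompactSupport.intro (isCompact_closedBall (0 : E n) 1) fun z hz =>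
      hdz z fun h => hz (by simpa using h.le)
  have hdi : Integrable (gmtDiv Ψ) := hdc.integrable_of_hasCompactSupport hdcs
  have hgi : Integrable fun y : E (n + 1) => flEta (gmtVer y) * gmtDiv Ψ (gmtHor y) := by
    refine Continuous.integrable_of_hasCompactSupport
      ((fl_eta_props.1.continuous.comp fl_continuous_ver).mul (hdc.comp fl_continuous_hor))
      (flx_compact ?_)
    refine closure_minimal (fun y hy => ?_)
      ((isClosed_le (continuous_norm.comp fl_continuous_hor) continuous_const).inter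
        (isClosed_le (continuous_abs.comp fl_continuous_ver) continuous_const))
    by_contra hc
    apply hy
    show flEta (gmtVer y) * gmtDiv Ψ (gmtHor y) = 0
    by_cases h1 : ‖gmtHor y‖ < 1
    · have h2 : ¬ |gmtVer y| ≤ 1 := fun h2 => hc ⟨h1.le, h2⟩
      rw [fl_eta_props.2.2.2 _ (by linarith [not_le.1 h2]), zero_mul]
    · rw [hdz _ h1, mul_zero]
  set c : ℝ := ∫ t in Ioo (-1 : ℝ) (-ε), (flEta t - 1) with hc
  have eL : ∫ y in S, gmtDiv (flHorF Ψ) y = ∫ z, (flH S z + (1 + c)) * gmtDiv Ψ z := by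
    simp only [fun y => fl_horF_div (hd (gmtHor y))]
    rw [← integral_indicator H.gg.mS, fl_integral_join (hgi.indicator H.gg.mS)]
    refine integral_congr_ae ?_
    filter_upwards [flx_slice H] with z hz
    simp only [flx_indicator, fl_hor_join, fl_ver_join]
    by_cases h1 : ‖z‖ < 1
    · have := fly_slice_eta (fly_measurableSet H.gg.mS z) hε0 hε4 (hz h1)
      calc ∫ t, (flxA S z).indicator (fun _ => (1 : ℝ)) t * (flEta t * gmtDiv Ψ z)
          = ∫ t, ((flxA S z).indicator (fun _ => (1 : ℝ)) t * flEta t) * gmtDiv Ψ z := by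
            congr 1; funext t; ring
        _ = _ := by rw [integral_mul_const, this, fly_H_eq]; ring
    · rw [hdz z h1]
      simp
  have ih : Integrable fun z => flH S z * gmtDiv Ψ z :=
    hdi.bdd_mul (fl_H_measurable H.gg.mS).aestronglyMeasurable (c := 1)
      (Filter.Eventually.of_forall fun z => by rw [Real.norm_eq_abs]; exact fl_H_bound_all S z)
  have e2 : ∫ z, (flH S z + (1 + c)) * gmtDiv Ψ z
      = ∫ z, (flH S z * gmtDiv Ψ z + (1 + c) * gmtDiv Ψ z) := by
    congr 1; funext z; ring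
  rw [← eR, ← hgg, eL, e2, integral_add ih (hdi.const_mul _), integral_const_mul,
    fl_integral_div_zero hΨ, mul_zero, add_zero]

end Claimed.Agent.Gmt
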