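import Claimed.Agent.Lib.Gmt.FrC
import Claimed.Agent.Lib.Gmt.Dif

/-!
# Lib/Gmt FRAMES [part D: boundary/regular/singular points, perimeter measure]: affine changes of variables (blow-up maps).   (architect: helper184)

`gmtAff T z r y = z + r T⁻¹ y`;  `gmtBlow T z r S = (gmtAff T z r)⁻¹ S` is "`S` seen from `z` at scale `r` in the frame `T`".
With `Ā = gmtBlowA T z r A`, `f̄ = gmtBlowF T z r f`:
`Per_A(S;U) = r^{m-1} Per_Ā(S̄;Ū)`,  `∫_{S∩W} f = r^{m-1} ∫_{S̄∩W̄} f̄`;  so local absolute minimisers are preserved.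

PLAN OF PROOFS  (`Ψ = gmtAff T z r`, `σ x = r⁻¹ • T (x - z)`)
* `gmtAff_diffeo`: all fields from `FrB` (`isOpen_gmtBlow`, `gmtAff_inv`, affine maps are smooth: `contDiff_const.add (contDiff_const.smul T.symm.contDiff)`); `σ (Ψ y) = y`: `add_sub_cancel_left`, `map_smul`, `T.apply_symm_apply`, `smul_smul`, `inv_mul_cancel₀`.
* `gmtBd_gmtBlow`, `gmtReg_gmtBlow`: `Dif.lean`: `gmtBd_diffeo (gmtAff_diffeo T z hr isOpen_univ) (S := gmtBlow T z r S) (S' := S) rfl (mem_univ y)` (`gmtBlow T z r univ = univ`), `gmtReg_diffeo` likewise.   `gmtSing_gmtBlow`: `ext y`, the two previous lemmas.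
* `gmtReg_congr`: the a.e. equality `S ∩ ball =ᵐ {φ < 0}` is transported by `h.inter (ae_eq_refl _)` (`Filter.EventuallyEq.inter`).   `gmtSing_congr`: `gmtBd` only depends on the a.e. class (`measure_congr`, `EventuallyEq.inter`, `EventuallyEq.diff`) + `gmtReg_congr`.
* `gmtReg_gmtHalf`: `r = 1`, `φ w = ⟪w - x, e⟫` smooth, `fderiv φ w = innerSL ℝ`-form `v ↦ ⟪v, e⟫ ≠ 0` (evaluate at `e`: `‖e‖² ≠ 0`), `gmtHalf x e ∩ ball = {w ∈ ball | φ w < 0}` (`inter_comm`, rfl).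
* `gmtLF_gmtBlow`: windows as in `gmt_blow_lam` (`gmtCC_gmtBlow`).  `gmtP S W ≠ ⊤` ⇒ (`gmtPer_gmtBlow` with `A = Euclid`) `gmtPer Ā S̄ W̄ ≠ ⊤`, `Ā = gmtBlowA T z r (Eu)` a CONSTANT positive definite form: `c² ‖ξ‖² ≤ Ā ξ ξ` with `c = |det T|⁻¹ ‖T⁻ᵀ‖⁻¹`-type constant (`‖ξ‖ ≤ ‖adj T⁻¹‖ ‖adj T ξ‖`); `mul_gmtP_le_gmtPer` ⇒ `gmtP S̄ W̄ ≠ ⊤`.
* `integral_gmtMu_gmtBlow`: measure identity `gmtMu S = ofReal (r^(m-1)) • (gmtMu S̄).map Ψ`: the right side is outer regular (homeomorphic image) and on open sets `O`: `gmtMu S̄ (Ψ ⁻¹' O) = gmtP S̄ (gmtBlow .. O)`, `gmtPer_gmtBlow` + `gmtBlowA_eu`; `gmtPerM_unique`.  Then `integral_smul_measure`, `integral_map` (`Ψ` is a measurable embedding: `Homeomorph.measurableEmbedding.integral_map`, no measurability of `g` needed).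
-/

set_option autoImplicit false
open scoped ContDiff ENNReal RealInnerProductSpace Topology
open MeasureTheory Metric Set Filter

namespace Claimed.Agent.Gmt

variable {m : ℕ}

/-! ### boundary, regular and singular points -/

/-- blow-up maps are diffeomorphisms. -/
theorem gmtAff_diffeo (T : E m ≃L[ℝ] E m) (z : E m) {r : ℝ} (hr : 0 < r) {U : Set (E m)}
    (hU : IsOpen U) :
    GmtDiffeo (gmtBlow T z r U) U (gmtAff T z r) (fun x => r⁻¹ • T (x - z)) := by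
  refine ⟨isOpen_gmtBlow T z r hU, hU, (gmtFrC_contDiff T z r).contDiffOn, ?_, fun y hy => hy, ?_, ?_,
    fun x _ => gmtAff_inv T z hr x⟩
  · exact ((T.contDiff.comp (contDiff_id.sub contDiff_const)).const_smul _).contDiffOn
  · intro x hx
    show gmtAff T z r (r⁻¹ • T (x - z)) ∈ U
    rw [gmtAff_inv T z hr]
    exact hx
  · intro y _
    exact (gmtAff_bijective T z hr).1 (gmtAff_inv T z hr _)

theorem gmtBd_gmtBlow (T : E m ≃L[ℝ] E m) (z : E m) {r : ℝ} (hr : 0 < r) (S : Set (E m)) :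
    gmtBd (gmtBlow T z r S) = gmtBlow T z r (gmtBd S) := by
  ext y
  exact gmtBd_diffeo (gmtAff_diffeo T z hr isOpen_univ) (S := gmtBlow T z r S) (S' := S) rfl (mem_univ _)

theorem gmtReg_gmtBlow (T : E m ≃L[ℝ] E m) (z : E m) {r : ℝ} (hr : 0 < r) (S : Set (E m))
    (y : E m) : GmtReg (gmtBlow T z r S) y ↔ GmtReg S (gmtAff T z r y) := by
  exact gmtReg_diffeo (gmtAff_diffeo T z hr isOpen_univ) (S := gmtBlow T z r S) (S' := S) rfl (mem_univ _)

theorem gmtSing_gmtBlow (T : E m ≃L[ℝ] E m) (z : E m) {r : ℝ} (hr : 0 < r) (S U : Set (E m)) :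
    gmtSing (gmtBlow T z r S) (gmtBlow T z r U) = gmtBlow T z r (gmtSing S U) := by
  ext y
  show (y ∈ gmtBlow T z r U ∧ y ∈ gmtBd (gmtBlow T z r S) ∧ ¬ GmtReg (gmtBlow T z r S) y) ↔
    (gmtAff T z r y ∈ U ∧ gmtAff T z r y ∈ gmtBd S ∧ ¬ GmtReg S (gmtAff T z r y))
  rw [gmtBd_gmtBlow T z hr, gmtReg_gmtBlow T z hr]
  rfl

/-- regularity only depends on the a.e. class. -/
theorem gmtReg_congr {S S' : Set (E m)} (h : S =ᵐ[volume] S') (x : E m) :
    GmtReg S x ↔ GmtReg S' x := by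
  have key : ∀ {S S' : Set (E m)}, S =ᵐ[volume] S' → GmtReg S x → GmtReg S' x := by
    rintro S S' h ⟨r, hr, φ, h1, h2, h3, h4⟩
    exact ⟨r, hr, φ, h1, h2, h3, (h.symm.inter (ae_eq_refl _)).trans h4⟩
  exact ⟨key h, key h.symm⟩

theorem gmtFrD_bd_congr {S S' : Set (E m)} (h : S =ᵐ[volume] S') : gmtBd S = gmtBd S' := by
  ext x
  unfold gmtBd
  simp only [mem_ofPred_eq]
  refine forall_congr' fun r => forall_congr' fun _ => ?_
  rw [measure_congr (h.inter (ae_eq_refl (ball x r))), measure_congr ((ae_eq_refl (ball x r)).diff h)]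

theorem gmtSing_congr {S S' : Set (E m)} (h : S =ᵐ[volume] S') (U : Set (E m)) :
    gmtSing S U = gmtSing S' U := by
  ext x
  unfold gmtSing
  simp only [mem_ofPred_eq]
  rw [gmtFrD_bd_congr h, gmtReg_congr h]

/-- half spaces are regular. -/
theorem gmtReg_gmtHalf (x : E m) {e : E m} (he : e ≠ 0) (y : E m) (hy : ⟪y - x, e⟫ = 0) :
    GmtReg (gmtHalf x e) y := by
  have hφ : ContDiff ℝ ∞ (fun w : E m => ⟪w - x, e⟫) :=
    (contDiff_id.sub contDiff_const).inner ℝ contDiff_const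
  refine ⟨1, one_pos, fun w => ⟪w - x, e⟫, hφ.contDiffOn, hy, ?_, ?_⟩
  · intro w _ h0
    have h1 : HasFDerivAt (fun w : E m => ⟪w - x, e⟫) ((innerSL ℝ e : E m →L[ℝ] ℝ)) w := by
      have h2 : (fun w : E m => ⟪w - x, e⟫) = fun w => (innerSL ℝ e : E m →L[ℝ] ℝ) (w - x) := by
        funext w
        rw [innerSL_apply_apply, real_inner_comm]
      rw [h2]
      exact (innerSL ℝ e : E m →L[ℝ] ℝ).hasFDerivAt.comp w ((hasFDerivAt_id w).sub_const x)
    rw [h1.fderiv] at h0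
    have h3 := congrArg (fun L : E m →L[ℝ] ℝ => L e) h0
    simp only [innerSL_apply_apply, real_inner_self_eq_norm_sq, zero_apply] at h3
    exact he (norm_eq_zero.1 (pow_eq_zero_iff (two_ne_zero)|>.1 h3))
  · have : gmtHalf x e ∩ ball y 1 = {w | w ∈ ball y 1 ∧ ⟪w - x, e⟫ < 0} := by
      ext w
      exact and_comm
    rw [this]
    exact ae_eq_refl _

/-! ### the Euclidean perimeter measure under similarities -/

/-- `∫ g dμ_S = r^{m-1} ∫ g(z + r O⁻¹ y) dμ_{S̄}(y)`. -/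
theorem integral_gmtMu_gmtBlow (O : E m ≃ₗᵢ[ℝ] E m) (z : E m) {r : ℝ} (hr : 0 < r)
    {S : Set (E m)} (hS : MeasurableSet S) (g : E m → ℝ) :
    ∫ x, g x ∂(gmtMu S) = r ^ (m - 1) *
      ∫ y, g (gmtAff O.toContinuousLinearEquiv z r y)
        ∂(gmtMu (gmtBlow O.toContinuousLinearEquiv z r S)) := by
  have hk : 0 < r ^ (m - 1) := pow_pos hr _
  have hspec : GmtPerMSpec (fun _ => gmtEu m) S (ENNReal.ofReal (r ^ (m - 1)) •
      Measure.map (gmtFrBH O.toContinuousLinearEquiv z hr) (gmtMu (gmtBlow O.toContinuousLinearEquiv z r S))) := by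
    have : (gmtMu (gmtBlow O.toContinuousLinearEquiv z r S)).OuterRegular := (gmtPerM_spec _ _).1
    have := Measure.OuterRegular.map (gmtFrBH O.toContinuousLinearEquiv z hr)
      (gmtMu (gmtBlow O.toContinuousLinearEquiv z r S))
    refine ⟨Measure.OuterRegular.smul _ ENNReal.ofReal_ne_top, ?_⟩
    intro U hU
    rw [Measure.smul_apply, smul_eq_mul,
      Measure.map_apply (gmtFrBH O.toContinuousLinearEquiv z hr).continuous.measurable hU.measurableSet,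
      gmtPer_gmtBlow O.toContinuousLinearEquiv z hr _ hS U, gmtBlowA_eu,
      ← gmtFrB_blow_eq, gmtMu_open _ (isOpen_gmtBlow _ z r hU)]
    rfl
  have h1 : gmtMu S = _ := (gmtPerM_unique hspec).symm
  rw [h1, integral_smul_measure, ENNReal.toReal_ofReal hk.le, smul_eq_mul,
    (gmtFrBH O.toContinuousLinearEquiv z hr).measurableEmbedding.integral_map]
  rfl

theorem gmtLF_gmtBlow (T : E m ≃L[ℝ] E m) (z : E m) {r : ℝ} (hr : 0 < r) {S U : Set (E m)}
    (hS : GmtLF S U) : GmtLF (gmtBlow T z r S) (gmtBlow T z r U) := by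
  have hinj := (gmtAff_bijective T z hr).1
  have hsurj : ∀ X : Set (E m), gmtBlow T z r (gmtAff T z r '' X) = X := fun X => preimage_image_eq X hinj
  have hk : 0 < r ^ (m - 1) := pow_pos hr _
  have hk0 : ENNReal.ofReal (r ^ (m - 1)) ≠ 0 := by
    rw [Ne, ENNReal.ofReal_eq_zero, not_le]
    exact hk
  refine ⟨measurableSet_gmtBlow T z r hS.1, ?_⟩
  intro W' hW'
  obtain ⟨W, rfl⟩ : ∃ W, gmtBlow T z r W = W' := ⟨_, hsurj W'⟩
  have h1 := hS.2 W ((gmtCC_gmtBlow T z hr).1 hW')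
  unfold gmtP at h1
  rw [gmtPer_gmtBlow T z hr _ hS.1 W] at h1
  have h2 : gmtPer (gmtBlowA T z r fun _ => gmtEu m) (gmtBlow T z r S) (gmtBlow T z r W) ≠ ⊤ := by
    intro h2
    rw [h2, ENNReal.mul_top hk0] at h1
    exact h1 rfl
  have hd := abs_pos.2 (gmtFrC_det_ne T)
  set M : ℝ := ‖gmtAdj (T.symm : E m →L[ℝ] E m)‖ + 1 with hM
  have hMpos : 0 < M := by positivity
  have hc : 0 < |(T : E m →L[ℝ] E m).det|⁻¹ * M⁻¹ := by positivity
  have h3 := mul_gmtP_le_gmtPer (A := gmtBlowA T z r fun _ => gmtEu m) (U := gmtBlow T z r W) hc.le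
    (fun y _ ξ => by
      have e1 := gmtFrC_adj_adj T.symm ξ
      rw [T.symm_symm] at e1
      have e2 : ‖ξ‖ ≤ M * ‖gmtAdj (T : E m →L[ℝ] E m) ξ‖ := by
        calc ‖ξ‖ = ‖gmtAdj (T.symm : E m →L[ℝ] E m) (gmtAdj (T : E m →L[ℝ] E m) ξ)‖ := by rw [e1]
          _ ≤ ‖gmtAdj (T.symm : E m →L[ℝ] E m)‖ * ‖gmtAdj (T : E m →L[ℝ] E m) ξ‖ :=
            ContinuousLinearMap.le_opNorm _ _
          _ ≤ M * ‖gmtAdj (T : E m →L[ℝ] E m) ξ‖ := by
            gcongr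
            rw [hM]
            linarith
      simp only [gmtBlowA, smul_apply, ContinuousLinearMap.bilinearComp_apply, smul_eq_mul, gmtEu_apply,
        real_inner_self_eq_norm_sq]
      have e3 : M⁻¹ * ‖ξ‖ ≤ ‖gmtAdj (T : E m →L[ℝ] E m) ξ‖ := by
        rw [inv_mul_le_iff₀ hMpos]
        exact e2
      have e4 : (M⁻¹ * ‖ξ‖) ^ 2 ≤ ‖gmtAdj (T : E m →L[ℝ] E m) ξ‖ ^ 2 := by
        gcongr
      calc (|(T : E m →L[ℝ] E m).det|⁻¹ * M⁻¹) ^ 2 * ‖ξ‖ ^ 2
          = ((T : E m →L[ℝ] E m).det ^ 2)⁻¹ * (M⁻¹ * ‖ξ‖) ^ 2 := by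
            rw [← sq_abs (T : E m →L[ℝ] E m).det]
            ring
        _ ≤ ((T : E m →L[ℝ] E m).det ^ 2)⁻¹ * ‖gmtAdj (T : E m →L[ℝ] E m) ξ‖ ^ 2 := by
            gcongr) (gmtBlow T z r S)
  intro h4
  rw [h4, ENNReal.mul_top (by rw [Ne, ENNReal.ofReal_eq_zero, not_le]; exact hc)] at h3
  exact h2 (top_le_iff.1 h3)

end Claimed.Agent.Gmt
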