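import Claimed.Agent.Lib.Gmt.FlDefs
import Claimed.Agent.Lib.Gmt.FrD

/-!
THIS FILE = PACKAGE L-GMT-FlGeo1 (part 1 of 6 of the former `FlGeo.lean`, which now only imports the parts; the text below is the plan of the whole former file).
# Lib/Gmt G4.6 (architect: helper190): elementary geometry of flatness (`FlFlat`), constancy, affine changes of variables.
PACKAGES L-GMT-FlGeoA (section 'affine changes of variables': `fl_blow_*`, `fl_pt_*`, `fl_dir_*`, `fl_exists_rot`, `FlFlat.blow*`) and L-GMT-FlGeoB (the rest).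
PURE measure theory / topology / linear algebra on `E m` (no perimeter, no BV).

`FlFlat S x r ε e`: a.e. point of `ball x r` below the slab `|⟪y-x,e⟫| ≤ ε r` is in `S`, a.e. point above is not.
`gmtBd S = {x | ∀ r>0, 0 < |S ∩ B_r(x)| ∧ 0 < |B_r(x) \ S|}`.

PLAN.
* `fl_blow_ae`: `y ↦ z + r • T.symm y` is a homeomorphism which maps null sets to null sets in both directions (`ContinuousLinearEquiv`, `Measure.addHaar_image_continuousLinearMap`/
  `MeasureTheory.Measure.addHaar_preimage_continuousLinearEquiv`, translations, `Measure.addHaar_smul`): quasi measure preserving.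
* affine maps: `gmtBlow T z r S = {y | z + r • T.symm y ∈ S}` and its API are helper184's (`FrB`, `FrD`: `gmtBlow_gmtBlow`, `gmtBd_gmtBlow`, `measurableSet_gmtBlow`, `gmtAff_inv`, ...): use them.
* `FlFlat.blow`: computation in the doc-string.
* `FlFlat.bd_slab`: if `⟪y-x,e⟫ > ε r`, a small ball around `y` lies in `ball x r ∩ {⟪·-x,e⟫ > ε r}`, where a.e. point is not in `S`: `|S ∩ B| = 0`, so `y ∉ gmtBd S`.  Same below.
* `fl_constancy`: `W₁ = {x ∈ W | ∃ r>0, |B_r(x) \ S| = 0}`, `W₀ = {x ∈ W | ∃ r>0, |S ∩ B_r(x)| = 0}` are open, cover `W` (no boundary point), are disjoint (a ball has positive measure);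
  `W` preconnected ⇒ `W = W₁` or `W = W₀` (`IsPreconnected.subset_left_of_subset_union`...); a set covered by balls in which `S` is null is a set in which `S` is null (Lindelöf: `TopologicalSpace.countable_cover_nhds`/`measure_null_of_locally_null`).
* `fl_flat_of_bd`: the caps `W⁻ = ball x r' ∩ {⟪y-x,e'⟫ < -η r'}`, `W⁺` are open convex (preconnected) and contain no boundary point: `fl_constancy`.  The point `y⁻ = x - (r'/2) e'` lies in `W⁻` (`η < 1/2`) and
  `⟪y⁻-x,e⟫ = -(r'/2)⟪e',e⟫ ≤ -r'/4 < -ε r` (`⟪e,e'⟫ = 1 - ‖e-e'‖²/2 ≥ 1/2`), so near `y⁻` a.e. point is in `S`: the alternative "a.e. point of `W⁻` is outside `S`" is impossible.  Same for `W⁺`.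
* `fl_flat_compare`: `w = (e'-e)/‖e'-e‖`, `y = x + (r'/2) w`: `⟪y-x,e'⟫ = r'‖e'-e‖/4`, `⟪y-x,e⟫ = -r'‖e'-e‖/4`.  If `‖e'-e‖ > 4 ε r/r'` and `> 4 ε'`, then near `y` a.e. point is in `S` and not in `S`.
-/

set_option autoImplicit false
open scoped ContDiff ENNReal RealInnerProductSpace
open MeasureTheory Metric Set

namespace Claimed.Agent.Gmt

variable {m n : ℕ}

/-! ### affine changes of variables -/

/-- the image of the point `x`. -/
noncomputable def flPt (T : E m ≃L[ℝ] E m) (z : E m) (r : ℝ) (x : E m) : E m := r⁻¹ • T (x - z)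

/-- the image of the (co)direction `e`: `T^{-t} e` normalised. -/
noncomputable def flDir (T : E m ≃L[ℝ] E m) (e : E m) : E m :=
  (‖ContinuousLinearMap.adjoint (T.symm : E m →L[ℝ] E m) e‖)⁻¹ •
    ContinuousLinearMap.adjoint (T.symm : E m →L[ℝ] E m) e

theorem fl_aff_pt (T : E m ≃L[ℝ] E m) (z : E m) {r : ℝ} (hr : 0 < r) (x : E m) :
    gmtAff T z r (flPt T z r x) = x := by
  unfold gmtAff flPt
  rw [map_smul, ContinuousLinearEquiv.symm_apply_apply, smul_smul, mul_inv_cancel₀ hr.ne', one_smul]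
  abel

/-- undoing a blow-up. -/
theorem fl_blow_symm (T : E m ≃L[ℝ] E m) (z : E m) {r : ℝ} (hr : 0 < r) (S : Set (E m)) :
    gmtBlow T.symm (flPt T z r 0) r⁻¹ (gmtBlow T z r S) = S := by
  ext x
  have h : gmtAff T z r (gmtAff T.symm (flPt T z r 0) r⁻¹ x) = x := by
    have h1 : gmtAff T.symm (flPt T z r 0) r⁻¹ x = flPt T z r x := by
      unfold gmtAff flPt
      rw [ContinuousLinearEquiv.symm_symm, ← smul_add, ← map_add]
      congr 2
      abel
    rw [h1, fl_aff_pt T z hr]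
  show gmtAff T z r (gmtAff T.symm (flPt T z r 0) r⁻¹ x) ∈ S ↔ x ∈ S
  rw [h]

theorem fl_pt_mem (T : E m ≃L[ℝ] E m) (z : E m) {r : ℝ} (hr : 0 < r) (S : Set (E m)) (x : E m) :
    flPt T z r x ∈ gmtBlow T z r S ↔ x ∈ S := by
  show gmtAff T z r (flPt T z r x) ∈ S ↔ x ∈ S
  rw [fl_aff_pt T z hr]

theorem fl_pt_self (T : E m ≃L[ℝ] E m) (z : E m) (r : ℝ) : flPt T z r z = 0 := by
  simp [flPt]

theorem fl_blow_ae (T : E m ≃L[ℝ] E m) (z : E m) {r : ℝ} (hr : 0 < r) {p : E m → Prop}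
    (hp : ∀ᵐ w : E m, p w) : ∀ᵐ y : E m, p (z + r • T.symm y) := by
  rw [ae_iff] at hp ⊢
  have h : {y : E m | ¬ p (z + r • T.symm y)} =
      T.symm ⁻¹' ((fun y => r • y) ⁻¹' ((fun y => z + y) ⁻¹' {w | ¬ p w})) := rfl
  rw [h, Measure.addHaar_preimage_continuousLinearEquiv, Measure.addHaar_preimage_smul _ hr.ne',
    measure_preimage_add, hp, mul_zero, mul_zero]

theorem fl_blow_ball_subset (T : E m ≃L[ℝ] E m) (z : E m) {r : ℝ} (hr : 0 < r) (x : E m) (ρ : ℝ) :
    ball (flPt T z r x) (ρ / (r * ‖(T.symm : E m →L[ℝ] E m)‖)) ⊆ gmtBlow T z r (ball x ρ) := by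
  intro y hy
  rcases (mul_nonneg hr.le (norm_nonneg (T.symm : E m →L[ℝ] E m))).eq_or_lt with h0 | h0
  · rw [← h0, div_zero, ball_zero] at hy
    exact absurd hy (Set.notMem_empty _)
  · show gmtAff T z r y ∈ ball x ρ
    rw [mem_ball, dist_eq_norm] at hy ⊢
    rw [lt_div_iff₀ h0] at hy
    have h1 : gmtAff T z r y - x = r • T.symm (y - flPt T z r x) := by
      conv_lhs => rw [← fl_aff_pt T z hr x]
      unfold gmtAff
      rw [map_sub, smul_sub]
      abel
    rw [h1, norm_smul, Real.norm_of_nonneg hr.le]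
    have h2 := (T.symm : E m →L[ℝ] E m).le_opNorm (y - flPt T z r x)
    have h3 := mul_le_mul_of_nonneg_left h2 hr.le
    calc r * ‖T.symm (y - flPt T z r x)‖ ≤ r * (‖(T.symm : E m →L[ℝ] E m)‖ * ‖y - flPt T z r x‖) := h3
      _ = ‖y - flPt T z r x‖ * (r * ‖(T.symm : E m →L[ℝ] E m)‖) := by ring
      _ < ρ := hy

/-- (`1 ≤ m` is needed: for `m = 0` the radius on the right is `0`.) -/
theorem fl_blow_subset_ball (hm : 1 ≤ m) (T : E m ≃L[ℝ] E m) (z : E m) {r : ℝ} (hr : 0 < r) (x : E m) (ρ : ℝ) :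
    gmtBlow T z r (ball x ρ) ⊆ ball (flPt T z r x) (ρ * ‖(T : E m →L[ℝ] E m)‖ / r) := by
  intro y hy
  have hy' : gmtAff T z r y ∈ ball x ρ := hy
  have : Nonempty (Fin m) := ⟨⟨0, hm⟩⟩
  have : Nontrivial (E m) := inferInstance
  have hT : 0 < ‖(T : E m →L[ℝ] E m)‖ := T.norm_pos
  rw [mem_ball, dist_eq_norm] at hy' ⊢
  have h1 : y - flPt T z r x = r⁻¹ • T (gmtAff T z r y - x) := by
    unfold gmtAff flPt
    have : z + r • T.symm y - x = r • T.symm y - (x - z) := by abel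
    rw [this, map_sub T (r • T.symm y), map_smul, ContinuousLinearEquiv.apply_symm_apply, smul_sub, smul_smul,
      inv_mul_cancel₀ hr.ne', one_smul]
  rw [h1, norm_smul, norm_inv, Real.norm_of_nonneg hr.le]
  have h2 := (T : E m →L[ℝ] E m).le_opNorm (gmtAff T z r y - x)
  have h3 : ‖(T : E m →L[ℝ] E m)‖ * ‖gmtAff T z r y - x‖ < ‖(T : E m →L[ℝ] E m)‖ * ρ :=
    mul_lt_mul_of_pos_left hy' hT
  have h4 : ‖T (gmtAff T z r y - x)‖ < ρ * ‖(T : E m →L[ℝ] E m)‖ := by
    calc ‖T (gmtAff T z r y - x)‖ ≤ ‖(T : E m →L[ℝ] E m)‖ * ‖gmtAff T z r y - x‖ := h2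
      _ < ‖(T : E m →L[ℝ] E m)‖ * ρ := h3
      _ = ρ * ‖(T : E m →L[ℝ] E m)‖ := mul_comm _ _
  rw [inv_mul_eq_div]
  exact div_lt_div_of_pos_right h4 hr

end Claimed.Agent.Gmt
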