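import Claimed.Agent.Lib.Gmt.FlGeo1

/-!
THIS FILE = PACKAGE L-GMT-FlGeo2 (part 2 of 6 of the former `FlGeo.lean`, which now only imports the parts; the text below is the plan of the whole former file).
# Lib/Gmt G4.6 (architect: helper190): elementary geometry of flatness (`FlFlat`), constancy, affine changes of variables.
PACKAGES L-GMT-FlGeoA (section 'affine changes of variables': `fl_blow_*`, `fl_pt_*`, `fl_dir_*`, `fl_exists_rot`, `FlFlat.blow*`) and L-GMT-FlGeoB (the rest).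
PURE measure theory / topology / linear algebra on `E m` (no perimeter, no BV).

`FlFlat S x r ε e`: a.e. point of `ball x r` below the slab `|⟪y-x,e⟫| ≤ ε r` is in `S`, a.e. point above is not.
`gmtBd S = {x | ∀ r>0, 0 < |S ∩ B_r(x)| ∧ 0 < |B_r(x) \ S|}`.

PLAN.
* `fl_blow_ae`: `y ↦ z + r • T.symm y` is a homeomorphism which maps null sets to null sets in both directions (`ContinuousLinearEquiv`, `Measure.addHaar_image_continuousLinearMap`/
  `MeasureTheory.Measure.addHaar_preimage_continuousLinearEquiv`, translations, `Measure.addHaar_smul`): quasi measure preserving.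
* affine maps: `gmtBlow T z r S = {y | z + r • T.symm y ∈ S}` and its API are helper184's (`FrB`, `FrD`: `gmtBlow_gmtBlow`, `gmtBd_gmtBlow`, `measurableSet_gmtBlow`, `gmtAff_inv`, ...): use them.
* `FlFlat.blow`: computation in the doc-string.
* `FlFlat.bd_slab`: if `⟪y-x,e⟫ > ε r`, a small ball around `y` lies in `ball x r ∩ {⟪·-x,e⟫ > ε r}`, where a.e. point is not in `S`: `|S ∩ B| = 0`, so `y ∉ gmtBd S`.  Same below.
* `fl_constancy`: `W₁ = {x ∈ W | ∃ r>0, |B_r(x) \ S| = 0}`, `W₀ = {x ∈ W | ∃ r>0, |S ∩ B_r(x)| = 0}` are open, cover `W` (no boundary point), are disjoint (a ball has positive measure);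
  `W` preconnected ⇒ `W = W₁` or `W = W₀` (`IsPreconnected.subset_left_of_subset_union`...); a set covered by balls in which `S` is null is a set in which `S` is null (Lindelöf: `TopologicalSpace.countable_cover_nhds`/`measure_null_of_locally_null`).
* `fl_flat_of_bd`: the caps `W⁻ = ball x r' ∩ {⟪y-x,e'⟫ < -η r'}`, `W⁺` are open convex (preconnected) and contain no boundary point: `fl_constancy`.  The point `y⁻ = x - (r'/2) e'` lies in `W⁻` (`η < 1/2`) and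
  `⟪y⁻-x,e⟫ = -(r'/2)⟪e',e⟫ ≤ -r'/4 < -ε r` (`⟪e,e'⟫ = 1 - ‖e-e'‖²/2 ≥ 1/2`), so near `y⁻` a.e. point is in `S`: the alternative "a.e. point of `W⁻` is outside `S`" is impossible.  Same for `W⁺`.
* `fl_flat_compare`: `w = (e'-e)/‖e'-e‖`, `y = x + (r'/2) w`: `⟪y-x,e'⟫ = r'‖e'-e‖/4`, `⟪y-x,e⟫ = -r'‖e'-e‖/4`.  If `‖e'-e‖ > 4 ε r/r'` and `> 4 ε'`, then near `y` a.e. point is in `S` and not in `S`.
-/

set_option autoImplicit false
open scoped ContDiff ENNReal RealInnerProductSpace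
open MeasureTheory Metric Set

namespace Claimed.Agent.Gmt

variable {m n : ℕ}

theorem fl_dir_adj_inner (T : E m ≃L[ℝ] E m) (e x : E m) :
    ⟪ContinuousLinearMap.adjoint (T.symm : E m →L[ℝ] E m) e, T x⟫ = ⟪e, x⟫ := by
  rw [ContinuousLinearMap.adjoint_inner_left]
  simp

theorem fl_dir_adj_ne (T : E m ≃L[ℝ] E m) {e : E m} (he : e ≠ 0) :
    ContinuousLinearMap.adjoint (T.symm : E m →L[ℝ] E m) e ≠ 0 := by
  intro h
  have h1 := fl_dir_adj_inner T e e
  rw [h, inner_zero_left] at h1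
  exact he (inner_self_eq_zero.mp h1.symm)

theorem fl_dir_adj_adj (T : E m ≃L[ℝ] E m) (e : E m) :
    ContinuousLinearMap.adjoint (T : E m →L[ℝ] E m)
      (ContinuousLinearMap.adjoint (T.symm : E m →L[ℝ] E m) e) = e := by
  refine ext_inner_right ℝ fun x => ?_
  rw [ContinuousLinearMap.adjoint_inner_left]
  exact fl_dir_adj_inner T e x

theorem fl_dir_norm (T : E m ≃L[ℝ] E m) {e : E m} (he : e ≠ 0) : ‖flDir T e‖ = 1 := by
  have h := fl_dir_adj_ne T he
  rw [flDir, norm_smul, norm_inv, norm_norm, inv_mul_cancel₀ (norm_ne_zero_iff.mpr h)]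

/-- `‖T^{-t} e‖ ‖T‖ ≥ 1`. -/
theorem fl_dir_lower (T : E m ≃L[ℝ] E m) {e : E m} (he : ‖e‖ = 1) :
    1 ≤ ‖ContinuousLinearMap.adjoint (T.symm : E m →L[ℝ] E m) e‖ * ‖(T : E m →L[ℝ] E m)‖ := by
  have h1 := fl_dir_adj_inner T e e
  rw [real_inner_self_eq_norm_sq, he] at h1
  have h2 := real_inner_le_norm (ContinuousLinearMap.adjoint (T.symm : E m →L[ℝ] E m) e) (T e)
  have h3 : ‖T e‖ ≤ ‖(T : E m →L[ℝ] E m)‖ := by
    have := (T : E m →L[ℝ] E m).le_opNorm e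
    rw [he, mul_one] at this
    exact this
  have h4 := mul_le_mul_of_nonneg_left h3
    (norm_nonneg (ContinuousLinearMap.adjoint (T.symm : E m →L[ℝ] E m) e))
  linarith

theorem fl_dir_symm (T : E m ≃L[ℝ] E m) {e : E m} (he : ‖e‖ = 1) :
    flDir T.symm (flDir T e) = e := by
  have he0 : e ≠ 0 := by
    intro h; rw [h, norm_zero] at he; exact zero_ne_one he
  have h := norm_pos_iff.mpr (fl_dir_adj_ne T he0)
  unfold flDir
  rw [ContinuousLinearEquiv.symm_symm, map_smul, fl_dir_adj_adj, norm_smul, he, mul_one, norm_inv, norm_norm,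
    inv_inv, smul_smul, mul_inv_cancel₀ h.ne', one_smul]

theorem fl_dir_unit_sub {v v' : E m} (hv : v ≠ 0) (hv' : v' ≠ 0) :
    ‖‖v‖⁻¹ • v - ‖v'‖⁻¹ • v'‖ ≤ 2 * ‖v‖⁻¹ * ‖v - v'‖ := by
  have h1 : 0 < ‖v‖ := norm_pos_iff.mpr hv
  have h2 : 0 < ‖v'‖ := norm_pos_iff.mpr hv'
  have e1 : ‖v‖⁻¹ • v - ‖v'‖⁻¹ • v' = ‖v‖⁻¹ • (v - v') + (‖v‖⁻¹ * (‖v'‖ - ‖v‖)) • (‖v'‖⁻¹ • v') := by
    rw [smul_sub, smul_smul]
    have : ‖v‖⁻¹ * (‖v'‖ - ‖v‖) * ‖v'‖⁻¹ = ‖v‖⁻¹ - ‖v'‖⁻¹ := by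
      field_simp
    rw [this, sub_smul]
    abel
  rw [e1]
  refine (norm_add_le _ _).trans ?_
  rw [norm_smul, norm_smul, norm_smul, norm_inv, norm_norm, norm_inv, norm_norm, inv_mul_cancel₀ h2.ne', mul_one,
    norm_mul, norm_inv, norm_norm, Real.norm_eq_abs]
  have h3 : |‖v'‖ - ‖v‖| ≤ ‖v - v'‖ := by
    rw [norm_sub_rev]; exact abs_norm_sub_norm_le _ _
  have h4 := mul_le_mul_of_nonneg_left h3 (inv_nonneg.mpr h1.le)
  linarith

/-- distortion of directions: `‖flDir T e - flDir T e'‖ ≤ 2 ‖T‖ ‖T⁻¹‖ ‖e - e'‖`. -/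
theorem fl_dir_lip (T : E m ≃L[ℝ] E m) {e e' : E m} (he : ‖e‖ = 1) (he' : ‖e'‖ = 1) :
    ‖flDir T e - flDir T e'‖ ≤
      2 * ‖(T : E m →L[ℝ] E m)‖ * ‖(T.symm : E m →L[ℝ] E m)‖ * ‖e - e'‖ := by
  have he0 : e ≠ 0 := by
    intro h; rw [h, norm_zero] at he; exact zero_ne_one he
  have he0' : e' ≠ 0 := by
    intro h; rw [h, norm_zero] at he'; exact zero_ne_one he'
  have hv := fl_dir_adj_ne T he0
  have hv' := fl_dir_adj_ne T he0'
  have h1 := fl_dir_unit_sub hv hv'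
  have hpos : 0 < ‖ContinuousLinearMap.adjoint (T.symm : E m →L[ℝ] E m) e‖ := norm_pos_iff.mpr hv
  have h2 : ‖ContinuousLinearMap.adjoint (T.symm : E m →L[ℝ] E m) e‖⁻¹ ≤ ‖(T : E m →L[ℝ] E m)‖ := by
    rw [inv_le_iff_one_le_mul₀ hpos, mul_comm]
    exact fl_dir_lower T he
  have h3 : ‖ContinuousLinearMap.adjoint (T.symm : E m →L[ℝ] E m) e
      - ContinuousLinearMap.adjoint (T.symm : E m →L[ℝ] E m) e'‖ ≤ ‖(T.symm : E m →L[ℝ] E m)‖ * ‖e - e'‖ := by
    rw [← map_sub]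
    have := (ContinuousLinearMap.adjoint (T.symm : E m →L[ℝ] E m)).le_opNorm (e - e')
    rwa [LinearIsometryEquiv.norm_map] at this
  unfold flDir
  refine h1.trans ?_
  have h4 : ‖ContinuousLinearMap.adjoint (T.symm : E m →L[ℝ] E m) e‖⁻¹ *
      ‖ContinuousLinearMap.adjoint (T.symm : E m →L[ℝ] E m) e
      - ContinuousLinearMap.adjoint (T.symm : E m →L[ℝ] E m) e'‖ ≤
      ‖(T : E m →L[ℝ] E m)‖ * (‖(T.symm : E m →L[ℝ] E m)‖ * ‖e - e'‖) :=
    mul_le_mul h2 h3 (norm_nonneg _) (norm_nonneg _)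
  nlinarith

theorem fl_dir_isometry (L : E m ≃ₗᵢ[ℝ] E m) {e : E m} (he : ‖e‖ = 1) :
    flDir L.toContinuousLinearEquiv e = L e := by
  have h : ContinuousLinearMap.adjoint (L.toContinuousLinearEquiv.symm : E m →L[ℝ] E m) e = L e := by
    refine ext_inner_right ℝ fun x => ?_
    rw [ContinuousLinearMap.adjoint_inner_left]
    have : ⟪L e, x⟫ = ⟪L e, L (L.symm x)⟫ := by simp
    rw [this, LinearIsometryEquiv.inner_map_map]
    rfl
  rw [flDir, h, LinearIsometryEquiv.norm_map, he, inv_one, one_smul]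

theorem fl_norm_isometry (hm : 1 ≤ m) (L : E m ≃ₗᵢ[ℝ] E m) :
    ‖(L.toContinuousLinearEquiv : E m →L[ℝ] E m)‖ = 1 ∧
      ‖(L.toContinuousLinearEquiv.symm : E m →L[ℝ] E m)‖ = 1 := by
  have : Nonempty (Fin m) := ⟨⟨0, hm⟩⟩
  have : Nontrivial (E m) := inferInstance
  constructor
  · exact L.toLinearIsometry.norm_toContinuousLinearMap
  · exact L.symm.toLinearIsometry.norm_toContinuousLinearMap

/-- a rotation (reflection) which maps `e` to the vertical vector (`reflection_sub`). -/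
theorem fl_exists_rot {e : E (n + 1)} (he : ‖e‖ = 1) : ∃ L : E (n + 1) ≃ₗᵢ[ℝ] E (n + 1), L e = gmtEn n :=
  ⟨(ℝ ∙ (e - gmtEn n))ᗮ.reflection, Submodule.reflection_sub (by rw [he]; simp)⟩

end Claimed.Agent.Gmt
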