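import Claimed.Agent.Lib.Gmt.FlGeo2

/-!
THIS FILE = PACKAGE L-GMT-FlGeo3 (part 3 of 6 of the former `FlGeo.lean`, which now only imports the parts; the text below is the plan of the whole former file).
# Lib/Gmt G4.6 (architect: helper190): elementary geometry of flatness (`FlFlat`), constancy, affine changes of variables.
PACKAGES L-GMT-FlGeoA (section 'affine changes of variables': `fl_blow_*`, `fl_pt_*`, `fl_dir_*`, `fl_exists_rot`, `FlFlat.blow*`) and L-GMT-FlGeoB (the rest).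
PURE measure theory / topology / linear algebra on `E m` (no perimeter, no BV).

`FlFlat S x r ε e`: a.e. point of `ball x r` below the slab `|⟪y-x,e⟫| ≤ ε r` is in `S`, a.e. point above is not.
`gmtBd S = {x | ∀ r>0, 0 < |S ∩ B_r(x)| ∧ 0 < |B_r(x) \ S|}`.

PLAN.
* `fl_blow_ae`: `y ↦ z + r • T.symm y` is a homeomorphism which maps null sets to null sets in both directions (`ContinuousLinearEquiv`, `Measure.addHaar_image_continuousLinearMap`/
  `MeasureTheory.Measure.addHaar_preimage_continuousLinearEquiv`, translations, `Measure.addHaar_smul`): quasi measure preserving.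
* affine maps: `gmtBlow T z r S = {y | z + r • T.symm y ∈ S}` and its API are helper184's (`FrB`, `FrD`: `gmtBlow_gmtBlow`, `gmtBd_gmtBlow`, `measurableSet_gmtBlow`, `gmtAff_inv`, ...): use them.
* `FlFlat.blow`: computation in the doc-string.
* `FlFlat.bd_slab`: if `⟪y-x,e⟫ > ε r`, a small ball around `y` lies in `ball x r ∩ {⟪·-x,e⟫ > ε r}`, where a.e. point is not in `S`: `|S ∩ B| = 0`, so `y ∉ gmtBd S`.  Same below.
* `fl_constancy`: `W₁ = {x ∈ W | ∃ r>0, |B_r(x) \ S| = 0}`, `W₀ = {x ∈ W | ∃ r>0, |S ∩ B_r(x)| = 0}` are open, cover `W` (no boundary point), are disjoint (a ball has positive measure);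
  `W` preconnected ⇒ `W = W₁` or `W = W₀` (`IsPreconnected.subset_left_of_subset_union`...); a set covered by balls in which `S` is null is a set in which `S` is null (Lindelöf: `TopologicalSpace.countable_cover_nhds`/`measure_null_of_locally_null`).
* `fl_flat_of_bd`: the caps `W⁻ = ball x r' ∩ {⟪y-x,e'⟫ < -η r'}`, `W⁺` are open convex (preconnected) and contain no boundary point: `fl_constancy`.  The point `y⁻ = x - (r'/2) e'` lies in `W⁻` (`η < 1/2`) and
  `⟪y⁻-x,e⟫ = -(r'/2)⟪e',e⟫ ≤ -r'/4 < -ε r` (`⟪e,e'⟫ = 1 - ‖e-e'‖²/2 ≥ 1/2`), so near `y⁻` a.e. point is in `S`: the alternative "a.e. point of `W⁻` is outside `S`" is impossible.  Same for `W⁺`.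
* `fl_flat_compare`: `w = (e'-e)/‖e'-e‖`, `y = x + (r'/2) w`: `⟪y-x,e'⟫ = r'‖e'-e‖/4`, `⟪y-x,e⟫ = -r'‖e'-e‖/4`.  If `‖e'-e‖ > 4 ε r/r'` and `> 4 ε'`, then near `y` a.e. point is in `S` and not in `S`.
-/

set_option autoImplicit false
open scoped ContDiff ENNReal RealInnerProductSpace
open MeasureTheory Metric Set

namespace Claimed.Agent.Gmt

variable {m n : ℕ}

/-- **flatness under affine maps.**  With `w = z + r T⁻¹ y`, `x' = flPt T z r x`: `w - x = r T⁻¹ (y - x')`, `‖w - x‖ ≤ r ‖T⁻¹‖ ‖y - x'‖`,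
`⟪w - x, e⟫ = r N ⟪y - x', flDir T e⟫`, `N = ‖T^{-t} e‖ ≥ 1/‖T‖`. -/
theorem FlFlat.blow {S : Set (E m)} {x : E m} {ρ ε : ℝ} {e : E m} (h : FlFlat S x ρ ε e)
    (hρ : 0 < ρ) (hε : 0 ≤ ε) (T : E m ≃L[ℝ] E m) (z : E m) {r : ℝ} (hr : 0 < r) :
    FlFlat (gmtBlow T z r S) (flPt T z r x) (ρ / (r * ‖(T.symm : E m →L[ℝ] E m)‖))
      (ε * ‖(T : E m →L[ℝ] E m)‖ * ‖(T.symm : E m →L[ℝ] E m)‖) (flDir T e) := by
  have he0 : e ≠ 0 := by
    intro h0
    have := h.unit
    rw [h0, norm_zero] at this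
    norm_num at this
  set N := ‖ContinuousLinearMap.adjoint (T.symm : E m →L[ℝ] E m) e‖ with hN
  set a := ‖(T : E m →L[ℝ] E m)‖ with ha
  set c := ‖(T.symm : E m →L[ℝ] E m)‖ with hc
  have hlow : 1 ≤ N * a := fl_dir_lower T h.unit
  have ha0 : 0 ≤ a := norm_nonneg _
  have hN0 : 0 < N := by
    rcases (norm_nonneg (ContinuousLinearMap.adjoint (T.symm : E m →L[ℝ] E m) e)).eq_or_lt with h0 | h0
    · rw [← hN] at h0
      rw [← h0] at hlow
      norm_num at hlow
    · exact h0
  have hc0 : 0 < c := by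
    rcases (norm_nonneg (T.symm : E m →L[ℝ] E m)).eq_or_lt with h0 | h0
    · exfalso
      have h1 : (T.symm : E m →L[ℝ] E m) = 0 := norm_eq_zero.1 h0.symm
      have h2 : N = 0 := by rw [hN, h1]; simp
      exact hN0.ne' h2
    · exact h0
  have hdiff : ∀ y : E m, z + r • T.symm y - x = r • T.symm (y - flPt T z r x) := by
    intro y
    unfold flPt
    rw [map_sub, map_smul, ContinuousLinearEquiv.symm_apply_apply, smul_sub, smul_smul,
      mul_inv_cancel₀ hr.ne', one_smul]
    abel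
  have hball : ∀ y : E m, y ∈ ball (flPt T z r x) (ρ / (r * c)) → z + r • T.symm y ∈ ball x ρ := by
    intro y hy
    rw [mem_ball, dist_eq_norm] at hy ⊢
    rw [hdiff, norm_smul, Real.norm_of_nonneg hr.le]
    have h1 : ‖T.symm (y - flPt T z r x)‖ ≤ c * ‖y - flPt T z r x‖ :=
      (T.symm : E m →L[ℝ] E m).le_opNorm _
    have h2 : r * (c * ‖y - flPt T z r x‖) < r * (c * (ρ / (r * c))) := by gcongr
    have h3 : r * (c * (ρ / (r * c))) = ρ := by field_simp
    calc r * ‖T.symm (y - flPt T z r x)‖ ≤ r * (c * ‖y - flPt T z r x‖) := by gcongr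
      _ < ρ := by rw [← h3]; exact h2
  have hinn : ∀ y : E m, ⟪z + r • T.symm y - x, e⟫ = r * N * ⟪y - flPt T z r x, flDir T e⟫ := by
    intro y
    rw [hdiff, inner_smul_left]
    simp only [conj_trivial]
    have h1 : ⟪T.symm (y - flPt T z r x), e⟫
        = ⟪y - flPt T z r x, ContinuousLinearMap.adjoint (T.symm : E m →L[ℝ] E m) e⟫ :=
      (ContinuousLinearMap.adjoint_inner_right (T.symm : E m →L[ℝ] E m) _ _).symm
    rw [h1]
    unfold flDir
    rw [inner_smul_right, ← hN]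
    field_simp
  have hprod : ε * a * c * (ρ / (r * c)) = ε * a * ρ / r := by field_simp
  have hkey : ε * ρ ≤ r * N * (ε * a * ρ / r) := by
    have e1 : r * N * (ε * a * ρ / r) = (N * a) * (ε * ρ) := by field_simp
    rw [e1]
    have : 0 ≤ ε * ρ := by positivity
    nlinarith
  have hrN : 0 < r * N := by positivity
  refine ⟨fl_dir_norm T he0, ?_, ?_⟩
  · filter_upwards [fl_blow_ae T z hr h.below] with y hy h1 h2
    refine hy (hball y h1) ?_
    rw [hinn]
    rw [hprod] at h2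
    have h3 : r * N * ⟪y - flPt T z r x, flDir T e⟫ < r * N * (-(ε * a * ρ / r)) := by gcongr
    linarith
  · filter_upwards [fl_blow_ae T z hr h.above] with y hy h1 h2
    refine hy (hball y h1) ?_
    rw [hinn]
    rw [hprod] at h2
    have h3 : r * N * (ε * a * ρ / r) < r * N * ⟪y - flPt T z r x, flDir T e⟫ := by gcongr
    linarith

/-- similarity case. -/
theorem FlFlat.blow_isometry {S : Set (E m)} {x : E m} {ρ ε : ℝ} {e : E m}
    (h : FlFlat S x ρ ε e) (L : E m ≃ₗᵢ[ℝ] E m) {r : ℝ} (hr : 0 < r) :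
    FlFlat (gmtBlow L.toContinuousLinearEquiv x r S) 0 (ρ / r) ε (L e) := by
  have hball : ∀ y : E m, y ∈ ball (0 : E m) (ρ / r) → x + r • L.toContinuousLinearEquiv.symm y ∈ ball x ρ := by
    intro y hy
    rw [mem_ball, dist_eq_norm] at hy ⊢
    rw [sub_zero, lt_div_iff₀ hr] at hy
    have e1 : x + r • L.toContinuousLinearEquiv.symm y - x = r • L.symm y := by
      rw [add_sub_cancel_left]
      rfl
    rw [e1, norm_smul, Real.norm_of_nonneg hr.le, LinearIsometryEquiv.norm_map]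
    linarith
  have hinn : ∀ y : E m, ⟪x + r • L.toContinuousLinearEquiv.symm y - x, e⟫ = r * ⟪y - 0, L e⟫ := by
    intro y
    have e1 : x + r • L.toContinuousLinearEquiv.symm y - x = r • L.symm y := by
      rw [add_sub_cancel_left]
      rfl
    rw [e1, inner_smul_left, sub_zero]
    simp only [conj_trivial]
    rw [← LinearIsometryEquiv.inner_map_map L (L.symm y) e, LinearIsometryEquiv.apply_symm_apply]
  have hprod : r * (ε * (ρ / r)) = ε * ρ := by field_simp
  refine ⟨by rw [LinearIsometryEquiv.norm_map]; exact h.unit, ?_, ?_⟩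
  · filter_upwards [fl_blow_ae L.toContinuousLinearEquiv x hr h.below] with y hy h1 h2
    refine hy (hball y h1) ?_
    rw [hinn]
    have h3 : r * ⟪y - 0, L e⟫ < r * (-(ε * (ρ / r))) := by gcongr
    linarith
  · filter_upwards [fl_blow_ae L.toContinuousLinearEquiv x hr h.above] with y hy h1 h2
    refine hy (hball y h1) ?_
    rw [hinn]
    have h3 : r * (ε * (ρ / r)) < r * ⟪y - 0, L e⟫ := by gcongr
    linarith

theorem FlFlat.of_blow_isometry {S : Set (E m)} {x : E m} {ρ ε : ℝ} {e : E m}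
    (L : E m ≃ₗᵢ[ℝ] E m) {r : ℝ} (hr : 0 < r)
    (h : FlFlat (gmtBlow L.toContinuousLinearEquiv x r S) 0 ρ ε e) :
    FlFlat S x (ρ * r) ε (L.symm e) := by
  have hr' : 0 < r⁻¹ := inv_pos.2 hr
  -- the inverse affine map
  have hy : ∀ w : E m, -(r⁻¹ • L x) + r⁻¹ • L.symm.toContinuousLinearEquiv.symm w = r⁻¹ • L (w - x) := by
    intro w
    have e1 : L.symm.toContinuousLinearEquiv.symm w = L w := rfl
    rw [e1, map_sub, smul_sub]
    abel
  have hmem : ∀ w : E m, r⁻¹ • L (w - x) ∈ gmtBlow L.toContinuousLinearEquiv x r S ↔ w ∈ S := by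
    intro w
    show x + r • L.toContinuousLinearEquiv.symm (r⁻¹ • L (w - x)) ∈ S ↔ w ∈ S
    have e1 : L.toContinuousLinearEquiv.symm (r⁻¹ • L (w - x)) = r⁻¹ • (w - x) := by
      show L.symm (r⁻¹ • L (w - x)) = r⁻¹ • (w - x)
      rw [map_smul, LinearIsometryEquiv.symm_apply_apply]
    rw [e1, smul_smul, mul_inv_cancel₀ hr.ne', one_smul, add_sub_cancel]
  have hball : ∀ w : E m, w ∈ ball x (ρ * r) → r⁻¹ • L (w - x) ∈ ball (0 : E m) ρ := by
    intro w hw
    rw [mem_ball, dist_eq_norm] at hw ⊢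
    rw [sub_zero, norm_smul, Real.norm_of_nonneg hr'.le, LinearIsometryEquiv.norm_map, inv_mul_lt_iff₀ hr]
    linarith
  have hinn : ∀ w : E m, ⟪r⁻¹ • L (w - x) - 0, e⟫ = r⁻¹ * ⟪w - x, L.symm e⟫ := by
    intro w
    rw [sub_zero, inner_smul_left]
    simp only [conj_trivial]
    rw [← LinearIsometryEquiv.inner_map_map L (w - x) (L.symm e), LinearIsometryEquiv.apply_symm_apply]
  have hprod : r⁻¹ * (ε * (ρ * r)) = ε * ρ := by field_simp
  refine ⟨by rw [LinearIsometryEquiv.norm_map]; exact h.unit, ?_, ?_⟩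
  · filter_upwards [fl_blow_ae L.symm.toContinuousLinearEquiv (-(r⁻¹ • L x)) hr' h.below] with w hw h1 h2
    rw [hy] at hw
    rw [← hmem w]
    refine hw (hball w h1) ?_
    rw [hinn]
    have h3 : r⁻¹ * ⟪w - x, L.symm e⟫ < r⁻¹ * (-(ε * (ρ * r))) := by gcongr
    linarith
  · filter_upwards [fl_blow_ae L.symm.toContinuousLinearEquiv (-(r⁻¹ • L x)) hr' h.above] with w hw h1 h2
    rw [hy] at hw
    rw [← hmem w]
    refine hw (hball w h1) ?_
    rw [hinn]
    have h3 : r⁻¹ * (ε * (ρ * r)) < r⁻¹ * ⟪w - x, L.symm e⟫ := by gcongr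
    linarith

/-! ### elementary properties of flatness -/

end Claimed.Agent.Gmt
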