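import Claimed.Agent.Lib.Gmt.FlGeo3

/-!
THIS FILE = PACKAGE L-GMT-FlGeo4 (part 4 of 6 of the former `FlGeo.lean`, which now only imports the parts; the text below is the plan of the whole former file).
# Lib/Gmt G4.6 (architect: helper190): elementary geometry of flatness (`FlFlat`), constancy, affine changes of variables.
PACKAGES L-GMT-FlGeoA (section 'affine changes of variables': `fl_blow_*`, `fl_pt_*`, `fl_dir_*`, `fl_exists_rot`, `FlFlat.blow*`) and L-GMT-FlGeoB (the rest).
PURE measure theory / topology / linear algebra on `E m` (no perimeter, no BV).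

`FlFlat S x r ε e`: a.e. point of `ball x r` below the slab `|⟪y-x,e⟫| ≤ ε r` is in `S`, a.e. point above is not.
`gmtBd S = {x | ∀ r>0, 0 < |S ∩ B_r(x)| ∧ 0 < |B_r(x) \ S|}`.

PLAN.
* `fl_blow_ae`: `y ↦ z + r • T.symm y` is a homeomorphism which maps null sets to null sets in both directions (`ContinuousLinearEquiv`, `Measure.addHaar_image_continuousLinearMap`/
  `MeasureTheory.Measure.addHaar_preimage_continuousLinearEquiv`, translations, `Measure.addHaar_smul`): quasi measure preserving.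
* affine maps: `gmtBlow T z r S = {y | z + r • T.symm y ∈ S}` and its API are helper184's (`FrB`, `FrD`: `gmtBlow_gmtBlow`, `gmtBd_gmtBlow`, `measurableSet_gmtBlow`, `gmtAff_inv`, ...): use them.
* `FlFlat.blow`: computation in the doc-string.
* `FlFlat.bd_slab`: if `⟪y-x,e⟫ > ε r`, a small ball around `y` lies in `ball x r ∩ {⟪·-x,e⟫ > ε r}`, where a.e. point is not in `S`: `|S ∩ B| = 0`, so `y ∉ gmtBd S`.  Same below.
* `fl_constancy`: `W₁ = {x ∈ W | ∃ r>0, |B_r(x) \ S| = 0}`, `W₀ = {x ∈ W | ∃ r>0, |S ∩ B_r(x)| = 0}` are open, cover `W` (no boundary point), are disjoint (a ball has positive measure);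
  `W` preconnected ⇒ `W = W₁` or `W = W₀` (`IsPreconnected.subset_left_of_subset_union`...); a set covered by balls in which `S` is null is a set in which `S` is null (Lindelöf: `TopologicalSpace.countable_cover_nhds`/`measure_null_of_locally_null`).
* `fl_flat_of_bd`: the caps `W⁻ = ball x r' ∩ {⟪y-x,e'⟫ < -η r'}`, `W⁺` are open convex (preconnected) and contain no boundary point: `fl_constancy`.  The point `y⁻ = x - (r'/2) e'` lies in `W⁻` (`η < 1/2`) and
  `⟪y⁻-x,e⟫ = -(r'/2)⟪e',e⟫ ≤ -r'/4 < -ε r` (`⟪e,e'⟫ = 1 - ‖e-e'‖²/2 ≥ 1/2`), so near `y⁻` a.e. point is in `S`: the alternative "a.e. point of `W⁻` is outside `S`" is impossible.  Same for `W⁺`.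
* `fl_flat_compare`: `w = (e'-e)/‖e'-e‖`, `y = x + (r'/2) w`: `⟪y-x,e'⟫ = r'‖e'-e‖/4`, `⟪y-x,e⟫ = -r'‖e'-e‖/4`.  If `‖e'-e‖ > 4 ε r/r'` and `> 4 ε'`, then near `y` a.e. point is in `S` and not in `S`.
-/

set_option autoImplicit false
open scoped ContDiff ENNReal RealInnerProductSpace
open MeasureTheory Metric Set

namespace Claimed.Agent.Gmt

variable {m n : ℕ}

theorem FlFlat.mono {S : Set (E m)} {x : E m} {r ε ε' : ℝ} {e : E m} (h : FlFlat S x r ε e)
    (hr : 0 ≤ r) (hε : ε ≤ ε') : FlFlat S x r ε' e := by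
  have h1 : ε * r ≤ ε' * r := mul_le_mul_of_nonneg_right hε hr
  refine ⟨h.unit, ?_, ?_⟩
  · filter_upwards [h.below] with y hy hb hl
    exact hy hb (by linarith)
  · filter_upwards [h.above] with y hy hb hl
    exact hy hb (by linarith)

theorem FlFlat.shrink {S : Set (E m)} {x : E m} {r ε r' : ℝ} {e : E m} (h : FlFlat S x r ε e)
    (hr' : 0 < r') (hrr : r' ≤ r) : FlFlat S x r' (ε * r / r') e := by
  have h1 : ε * r / r' * r' = ε * r := div_mul_cancel₀ _ hr'.ne'
  refine ⟨h.unit, ?_, ?_⟩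
  · filter_upwards [h.below] with y hy hb hl
    rw [h1] at hl
    exact hy (ball_subset_ball hrr hb) hl
  · filter_upwards [h.above] with y hy hb hl
    rw [h1] at hl
    exact hy (ball_subset_ball hrr hb) hl

theorem FlFlat.congr {S S' : Set (E m)} {x : E m} {r ε : ℝ} {e : E m} (h : FlFlat S x r ε e)
    (hS : S =ᵐ[volume] S') : FlFlat S' x r ε e := by
  refine ⟨h.unit, ?_, ?_⟩
  · filter_upwards [h.below, hS.mem_iff] with y hy hi hb hl
    exact hi.mp (hy hb hl)
  · filter_upwards [h.above, hS.mem_iff] with y hy hi hb hl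
    exact fun hc => hy hb hl (hi.mpr hc)

/-- boundary points lie in the closed slab. -/
theorem FlFlat.bd_slab {S : Set (E m)} {x : E m} {r ε : ℝ} {e : E m} (h : FlFlat S x r ε e)
    {y : E m} (hy : y ∈ gmtBd S) (hyr : y ∈ ball x r) : |⟪y - x, e⟫| ≤ ε * r := by
  have hc : Continuous fun w : E m => ⟪w - x, e⟫ := by fun_prop
  rw [abs_le]
  constructor
  · by_contra hlt
    rw [not_le] at hlt
    have hU : IsOpen (ball x r ∩ {w : E m | ⟪w - x, e⟫ < -(ε * r)}) :=
      isOpen_ball.inter (isOpen_lt hc continuous_const)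
    obtain ⟨δ, hδ, hsub⟩ := Metric.isOpen_iff.mp hU y ⟨hyr, hlt⟩
    have h0 : volume (ball y δ \ S) = 0 := by
      refine measure_mono_null ?_ (ae_iff.mp h.below)
      intro w hw
      have := hsub hw.1
      simp only [mem_ofPred_eq, Classical.not_imp]
      exact ⟨this.1, this.2, hw.2⟩
    exact (hy δ hδ).2.ne' h0
  · by_contra hlt
    rw [not_le] at hlt
    have hU : IsOpen (ball x r ∩ {w : E m | ε * r < ⟪w - x, e⟫}) :=
      isOpen_ball.inter (isOpen_lt continuous_const hc)
    obtain ⟨δ, hδ, hsub⟩ := Metric.isOpen_iff.mp hU y ⟨hyr, hlt⟩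
    have h0 : volume (S ∩ ball y δ) = 0 := by
      refine measure_mono_null ?_ (ae_iff.mp h.above)
      intro w hw
      have := hsub hw.2
      simp only [mem_ofPred_eq, Classical.not_imp, not_not]
      exact ⟨this.1, this.2, hw.1⟩
    exact (hy δ hδ).1.ne' h0

/-- change of the centre. -/
theorem FlFlat.recentre {S : Set (E m)} {x : E m} {r ε : ℝ} {e : E m} (h : FlFlat S x r ε e)
    {y : E m} (hy : |⟪y - x, e⟫| ≤ ε * r) {r' : ℝ} (hr' : 0 < r') (hb : ball y r' ⊆ ball x r) :
    FlFlat S y r' (2 * ε * r / r') e := by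
  have h1 : 2 * ε * r / r' * r' = 2 * ε * r := div_mul_cancel₀ _ hr'.ne'
  have h2 : ∀ w : E m, ⟪w - x, e⟫ = ⟪w - y, e⟫ + ⟪y - x, e⟫ := fun w => by
    rw [← inner_add_left]; congr 1; abel
  rw [abs_le] at hy
  refine ⟨h.unit, ?_, ?_⟩
  · filter_upwards [h.below] with w hw hwb hl
    rw [h1] at hl
    exact hw (hb hwb) (by rw [h2 w]; linarith [hy.2])
  · filter_upwards [h.above] with w hw hwb hl
    rw [h1] at hl
    exact hw (hb hwb) (by rw [h2 w]; linarith [hy.1])

/-- change of the direction. -/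
theorem FlFlat.tilt {S : Set (E m)} {x : E m} {r ε : ℝ} {e e' : E m} (h : FlFlat S x r ε e)
    (hr : 0 < r) (he' : ‖e'‖ = 1) : FlFlat S x r (ε + ‖e - e'‖) e' := by
  have h2 : ∀ w : E m, w ∈ ball x r → |⟪w - x, e⟫ - ⟪w - x, e'⟫| ≤ ‖e - e'‖ * r := fun w hw => by
    rw [← inner_sub_right]
    refine (abs_real_inner_le_norm _ _).trans ?_
    rw [mem_ball, dist_eq_norm] at hw
    rw [mul_comm]
    exact mul_le_mul_of_nonneg_left hw.le (norm_nonneg _)
  refine ⟨he', ?_, ?_⟩
  · filter_upwards [h.below] with w hw hwb hl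
    have := abs_le.mp (h2 w hwb)
    exact hw hwb (by nlinarith [this.2])
  · filter_upwards [h.above] with w hw hwb hl
    have := abs_le.mp (h2 w hwb)
    exact hw hwb (by nlinarith [this.1])

end Claimed.Agent.Gmt
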