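import Claimed.Agent.Lib.Gmt.FlGeo4

/-!
THIS FILE = PACKAGE L-GMT-FlGeo5 (part 5 of 6 of the former `FlGeo.lean`, which now only imports the parts; the text below is the plan of the whole former file).
# Lib/Gmt G4.6 (architect: helper190): elementary geometry of flatness (`FlFlat`), constancy, affine changes of variables.
PACKAGES L-GMT-FlGeoA (section 'affine changes of variables': `fl_blow_*`, `fl_pt_*`, `fl_dir_*`, `fl_exists_rot`, `FlFlat.blow*`) and L-GMT-FlGeoB (the rest).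
PURE measure theory / topology / linear algebra on `E m` (no perimeter, no BV).

`FlFlat S x r ε e`: a.e. point of `ball x r` below the slab `|⟪y-x,e⟫| ≤ ε r` is in `S`, a.e. point above is not.
`gmtBd S = {x | ∀ r>0, 0 < |S ∩ B_r(x)| ∧ 0 < |B_r(x) \ S|}`.

PLAN.
* `fl_blow_ae`: `y ↦ z + r • T.symm y` is a homeomorphism which maps null sets to null sets in both directions (`ContinuousLinearEquiv`, `Measure.addHaar_image_continuousLinearMap`/
  `MeasureTheory.Measure.addHaar_preimage_continuousLinearEquiv`, translations, `Measure.addHaar_smul`): quasi measure preserving.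
* affine maps: `gmtBlow T z r S = {y | z + r • T.symm y ∈ S}` and its API are helper184's (`FrB`, `FrD`: `gmtBlow_gmtBlow`, `gmtBd_gmtBlow`, `measurableSet_gmtBlow`, `gmtAff_inv`, ...): use them.
* `FlFlat.blow`: computation in the doc-string.
* `FlFlat.bd_slab`: if `⟪y-x,e⟫ > ε r`, a small ball around `y` lies in `ball x r ∩ {⟪·-x,e⟫ > ε r}`, where a.e. point is not in `S`: `|S ∩ B| = 0`, so `y ∉ gmtBd S`.  Same below.
* `fl_constancy`: `W₁ = {x ∈ W | ∃ r>0, |B_r(x) \ S| = 0}`, `W₀ = {x ∈ W | ∃ r>0, |S ∩ B_r(x)| = 0}` are open, cover `W` (no boundary point), are disjoint (a ball has positive measure);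
  `W` preconnected ⇒ `W = W₁` or `W = W₀` (`IsPreconnected.subset_left_of_subset_union`...); a set covered by balls in which `S` is null is a set in which `S` is null (Lindelöf: `TopologicalSpace.countable_cover_nhds`/`measure_null_of_locally_null`).
* `fl_flat_of_bd`: the caps `W⁻ = ball x r' ∩ {⟪y-x,e'⟫ < -η r'}`, `W⁺` are open convex (preconnected) and contain no boundary point: `fl_constancy`.  The point `y⁻ = x - (r'/2) e'` lies in `W⁻` (`η < 1/2`) and
  `⟪y⁻-x,e⟫ = -(r'/2)⟪e',e⟫ ≤ -r'/4 < -ε r` (`⟪e,e'⟫ = 1 - ‖e-e'‖²/2 ≥ 1/2`), so near `y⁻` a.e. point is in `S`: the alternative "a.e. point of `W⁻` is outside `S`" is impossible.  Same for `W⁺`.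
* `fl_flat_compare`: `w = (e'-e)/‖e'-e‖`, `y = x + (r'/2) w`: `⟪y-x,e'⟫ = r'‖e'-e‖/4`, `⟪y-x,e⟫ = -r'‖e'-e‖/4`.  If `‖e'-e‖ > 4 ε r/r'` and `> 4 ε'`, then near `y` a.e. point is in `S` and not in `S`.
-/

set_option autoImplicit false
open scoped ContDiff ENNReal RealInnerProductSpace
open MeasureTheory Metric Set

namespace Claimed.Agent.Gmt

variable {m n : ℕ}

/-- points near which a.e. point is in `S`. -/
def flIn (S : Set (E m)) : Set (E m) := {x | ∃ r > 0, volume (ball x r \ S) = 0}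

/-- points near which a.e. point is outside `S`. -/
def flOut (S : Set (E m)) : Set (E m) := {x | ∃ r > 0, volume (S ∩ ball x r) = 0}

theorem fl_isOpen_flIn (S : Set (E m)) : IsOpen (flIn S) := by
  rw [Metric.isOpen_iff]
  rintro x ⟨r, hr, h0⟩
  refine ⟨r / 2, by positivity, fun y hy => ⟨r / 2, by positivity, measure_mono_null ?_ h0⟩⟩
  refine diff_subset_diff_left (ball_subset_ball' ?_)
  have := mem_ball.1 hy
  linarith

theorem fl_isOpen_flOut (S : Set (E m)) : IsOpen (flOut S) := by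
  rw [Metric.isOpen_iff]
  rintro x ⟨r, hr, h0⟩
  refine ⟨r / 2, by positivity, fun y hy => ⟨r / 2, by positivity, measure_mono_null ?_ h0⟩⟩
  refine inter_subset_inter_right _ (ball_subset_ball' ?_)
  have := mem_ball.1 hy
  linarith

theorem fl_disjoint_flIn_flOut (S : Set (E m)) : Disjoint (flIn S) (flOut S) := by
  rw [Set.disjoint_left]
  rintro x ⟨r, hr, h0⟩ ⟨r', hr', h0'⟩
  have hpos : 0 < volume (ball x (min r r')) := Metric.measure_ball_pos _ _ (lt_min hr hr')
  have hsub : ball x (min r r') ⊆ (ball x r \ S) ∪ (S ∩ ball x r') := by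
    intro y hy
    by_cases hyS : y ∈ S
    · exact Or.inr ⟨hyS, ball_subset_ball (min_le_right _ _) hy⟩
    · exact Or.inl ⟨ball_subset_ball (min_le_left _ _) hy, hyS⟩
  have h1 : volume (ball x (min r r')) = 0 := measure_mono_null hsub (measure_union_null h0 h0')
  exact hpos.ne' h1

theorem fl_compl_gmtBd (S : Set (E m)) : (gmtBd S)ᶜ = flIn S ∪ flOut S := by
  ext x
  simp only [gmtBd, flIn, flOut, mem_compl_iff, mem_setOf_eq, mem_union, not_forall, not_and_or, not_lt,
    nonpos_iff_eq_zero]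
  constructor
  · rintro ⟨r, hr, h | h⟩
    · exact Or.inr ⟨r, hr, h⟩
    · exact Or.inl ⟨r, hr, h⟩
  · rintro (⟨r, hr, h⟩ | ⟨r, hr, h⟩)
    · exact ⟨r, hr, Or.inr h⟩
    · exact ⟨r, hr, Or.inl h⟩

theorem fl_mem_flIn {S O : Set (E m)} (hO : IsOpen O) {y : E m} (hy : y ∈ O)
    (h : ∀ᵐ w : E m, w ∈ O → w ∈ S) : y ∈ flIn S := by
  obtain ⟨r, hr, hsub⟩ := Metric.isOpen_iff.1 hO y hy
  refine ⟨r, hr, measure_mono_null ?_ (ae_iff.1 h)⟩
  intro w hw
  simp only [mem_setOf_eq, Classical.not_imp]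
  exact ⟨hsub hw.1, hw.2⟩

theorem fl_mem_flOut {S O : Set (E m)} (hO : IsOpen O) {y : E m} (hy : y ∈ O)
    (h : ∀ᵐ w : E m, w ∈ O → w ∉ S) : y ∈ flOut S := by
  obtain ⟨r, hr, hsub⟩ := Metric.isOpen_iff.1 hO y hy
  refine ⟨r, hr, measure_mono_null ?_ (ae_iff.1 h)⟩
  intro w hw
  simp only [mem_setOf_eq, Classical.not_imp, not_not]
  exact ⟨hsub hw.2, hw.1⟩

theorem fl_ae_of_subset_flIn {S W : Set (E m)} (h : W ⊆ flIn S) : ∀ᵐ y : E m, y ∈ W → y ∈ S := by
  rw [ae_iff]
  have e : {a | ¬(a ∈ W → a ∈ S)} = W \ S := by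
    ext a
    simp only [mem_setOf_eq, Classical.not_imp, mem_diff]
  rw [e]
  apply measure_null_of_locally_null
  intro x hx
  obtain ⟨r, hr, h0⟩ := h hx.1
  refine ⟨ball x r \ S, ?_, h0⟩
  rw [mem_nhdsWithin]
  exact ⟨ball x r, isOpen_ball, mem_ball_self hr, fun y hy => ⟨hy.1, hy.2.2⟩⟩

theorem fl_ae_of_subset_flOut {S W : Set (E m)} (h : W ⊆ flOut S) : ∀ᵐ y : E m, y ∈ W → y ∉ S := by
  rw [ae_iff]
  have e : {a | ¬(a ∈ W → a ∉ S)} = W ∩ S := by
    ext a
    simp only [mem_setOf_eq, Classical.not_imp, not_not, mem_inter_iff]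
  rw [e]
  apply measure_null_of_locally_null
  intro x hx
  obtain ⟨r, hr, h0⟩ := h hx.1
  refine ⟨S ∩ ball x r, ?_, h0⟩
  rw [mem_nhdsWithin]
  exact ⟨ball x r, isOpen_ball, mem_ball_self hr, fun y hy => ⟨hy.2.2, hy.1⟩⟩

/-- a nonempty open set cannot be a.e. inside and a.e. outside `S`. -/
theorem fl_not_in_out {S O : Set (E m)} (hO : IsOpen O) {y : E m} (hy : y ∈ O)
    (h1 : ∀ᵐ w : E m, w ∈ O → w ∈ S) (h2 : ∀ᵐ w : E m, w ∈ O → w ∉ S) : False :=
  Set.disjoint_left.1 (fl_disjoint_flIn_flOut S) (fl_mem_flIn hO hy h1) (fl_mem_flOut hO hy h2)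

/-- **constancy**: an open connected set without boundary points is (a.e.) inside or outside `S`. -/
theorem fl_constancy {S W : Set (E m)} (hW : IsOpen W) (hc : IsPreconnected W)
    (hb : Disjoint W (gmtBd S)) : (∀ᵐ y : E m, y ∈ W → y ∈ S) ∨ (∀ᵐ y : E m, y ∈ W → y ∉ S) := by
  have hcov : W ⊆ flIn S ∪ flOut S := by
    rw [← fl_compl_gmtBd]
    exact fun y hy hy' => Set.disjoint_left.1 hb hy hy'
  rcases hc.subset_or_subset (fl_isOpen_flIn S) (fl_isOpen_flOut S) (fl_disjoint_flIn_flOut S) hcov with h | h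
  · exact Or.inl (fl_ae_of_subset_flIn h)
  · exact Or.inr (fl_ae_of_subset_flOut h)

theorem fl_isOpen_capL (x e : E m) (r c : ℝ) : IsOpen (ball x r ∩ {y : E m | ⟪y - x, e⟫ < c}) := by
  refine isOpen_ball.inter (isOpen_lt ?_ continuous_const)
  fun_prop

theorem fl_isOpen_capU (x e : E m) (r c : ℝ) : IsOpen (ball x r ∩ {y : E m | c < ⟪y - x, e⟫}) := by
  refine isOpen_ball.inter (isOpen_lt continuous_const ?_)
  fun_prop

theorem fl_convex_capL (x e : E m) (r c : ℝ) : Convex ℝ (ball x r ∩ {y : E m | ⟪y - x, e⟫ < c}) := by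
  refine (convex_ball x r).inter ?_
  have e1 : {y : E m | ⟪y - x, e⟫ < c} = {y : E m | (innerSL ℝ e) y < c + ⟪x, e⟫} := by
    ext y
    simp only [mem_setOf_eq, inner_sub_left, innerSL_apply_apply, real_inner_comm e y]
    constructor <;> intro h <;> linarith
  rw [e1]
  exact convex_halfSpace_lt (innerSL ℝ e).isLinear _

theorem fl_convex_capU (x e : E m) (r c : ℝ) : Convex ℝ (ball x r ∩ {y : E m | c < ⟪y - x, e⟫}) := by
  refine (convex_ball x r).inter ?_
  have e1 : {y : E m | c < ⟪y - x, e⟫} = {y : E m | c + ⟪x, e⟫ < (innerSL ℝ e) y} := by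
    ext y
    simp only [mem_setOf_eq, inner_sub_left, innerSL_apply_apply, real_inner_comm e y]
    constructor <;> intro h <;> linarith
  rw [e1]
  exact convex_halfSpace_gt (innerSL ℝ e).isLinear _

/-- boundary in a slab + orientation from volumes ⇒ flat (`fl_constancy` on the two caps, which are open and convex). -/
theorem fl_flat_of_bd_vol {S : Set (E m)} {x : E m} {r η : ℝ} {e : E m} (he : ‖e‖ = 1) (hr : 0 < r)
    (hbd : ∀ y ∈ gmtBd S, y ∈ ball x r → |⟪y - x, e⟫| ≤ η * r)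
    (hlow : ¬ ∀ᵐ y : E m, y ∈ ball x r → ⟪y - x, e⟫ < -(η * r) → y ∉ S)
    (hup : ¬ ∀ᵐ y : E m, y ∈ ball x r → η * r < ⟪y - x, e⟫ → y ∈ S) : FlFlat S x r η e := by
  refine ⟨he, ?_, ?_⟩
  · have hd : Disjoint (ball x r ∩ {y : E m | ⟪y - x, e⟫ < -(η * r)}) (gmtBd S) := by
      rw [Set.disjoint_left]
      rintro y ⟨hy1, hy2⟩ hy3
      have h1 := (abs_le.1 (hbd y hy3 hy1)).1
      have h2 : ⟪y - x, e⟫ < -(η * r) := hy2
      linarith
    rcases fl_constancy (fl_isOpen_capL x e r _) (fl_convex_capL x e r _).isPreconnected hd with h | h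
    · filter_upwards [h] with y hy h1 h2
      exact hy ⟨h1, h2⟩
    · exfalso
      apply hlow
      filter_upwards [h] with y hy h1 h2
      exact hy ⟨h1, h2⟩
  · have hd : Disjoint (ball x r ∩ {y : E m | η * r < ⟪y - x, e⟫}) (gmtBd S) := by
      rw [Set.disjoint_left]
      rintro y ⟨hy1, hy2⟩ hy3
      have h1 := (abs_le.1 (hbd y hy3 hy1)).2
      have h2 : η * r < ⟪y - x, e⟫ := hy2
      linarith
    rcases fl_constancy (fl_isOpen_capU x e r _) (fl_convex_capU x e r _).isPreconnected hd with h | h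
    · exfalso
      apply hup
      filter_upwards [h] with y hy h1 h2
      exact hy ⟨h1, h2⟩
    · filter_upwards [h] with y hy h1 h2
      exact hy ⟨h1, h2⟩

/-- boundary in a slab + orientation from a coarser scale ⇒ flat. -/
theorem fl_flat_of_bd {S : Set (E m)} {x : E m} {r ε r' η : ℝ} {e e' : E m}
    (h : FlFlat S x r ε e) (he' : ‖e'‖ = 1) (hr' : 0 < r') (hrr : r' ≤ r) (hη0 : 0 ≤ η)
    (hη : η < 1 / 2) (hee : ‖e - e'‖ ≤ 1) (hε : 4 * (ε * r) < r')
    (hbd : ∀ y ∈ gmtBd S, y ∈ ball x r' → |⟪y - x, e'⟫| ≤ η * r') : FlFlat S x r' η e' := by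
  have hin : (1 : ℝ) / 2 ≤ ⟪e', e⟫ := by
    have h1 : ‖e - e'‖ ^ 2 = ‖e‖ ^ 2 - 2 * ⟪e, e'⟫ + ‖e'‖ ^ 2 := norm_sub_sq_real e e'
    rw [h.unit, he'] at h1
    have h2 : ‖e - e'‖ ^ 2 ≤ 1 := by
      have := norm_nonneg (e - e')
      nlinarith
    rw [real_inner_comm]
    linarith
  have hself : ⟪e', e'⟫ = 1 := by rw [real_inner_self_eq_norm_sq, he']; norm_num
  refine fl_flat_of_bd_vol he' hr' hbd ?_ ?_
  · intro hcon
    have hO : IsOpen ((ball x r' ∩ {y : E m | ⟪y - x, e'⟫ < -(η * r')}) ∩ {y : E m | ⟪y - x, e⟫ < -(ε * r)}) := by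
      refine (fl_isOpen_capL x e' r' _).inter (isOpen_lt ?_ continuous_const)
      fun_prop
    have hy : x - (r' / 2) • e' ∈
        (ball x r' ∩ {y : E m | ⟪y - x, e'⟫ < -(η * r')}) ∩ {y : E m | ⟪y - x, e⟫ < -(ε * r)} := by
      have e1 : x - (r' / 2) • e' - x = -((r' / 2) • e') := by abel
      refine ⟨⟨?_, ?_⟩, ?_⟩
      · rw [mem_ball, dist_eq_norm, e1, norm_neg, norm_smul, he', Real.norm_of_nonneg (by positivity)]
        linarith
      · show ⟪x - (r' / 2) • e' - x, e'⟫ < -(η * r')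
        rw [e1, inner_neg_left, inner_smul_left, hself]
        simp only [conj_trivial]
        nlinarith
      · show ⟪x - (r' / 2) • e' - x, e⟫ < -(ε * r)
        rw [e1, inner_neg_left, inner_smul_left]
        simp only [conj_trivial]
        nlinarith
    refine fl_not_in_out (S := S) hO hy ?_ ?_
    · filter_upwards [h.below] with y hy' hyO
      exact hy' (ball_subset_ball hrr hyO.1.1) hyO.2
    · filter_upwards [hcon] with y hy' hyO
      exact hy' hyO.1.1 hyO.1.2
  · intro hcon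
    have hO : IsOpen ((ball x r' ∩ {y : E m | η * r' < ⟪y - x, e'⟫}) ∩ {y : E m | ε * r < ⟪y - x, e⟫}) := by
      refine (fl_isOpen_capU x e' r' _).inter (isOpen_lt continuous_const ?_)
      fun_prop
    have hy : x + (r' / 2) • e' ∈
        (ball x r' ∩ {y : E m | η * r' < ⟪y - x, e'⟫}) ∩ {y : E m | ε * r < ⟪y - x, e⟫} := by
      have e1 : x + (r' / 2) • e' - x = (r' / 2) • e' := by abel
      refine ⟨⟨?_, ?_⟩, ?_⟩
      · rw [mem_ball, dist_eq_norm, e1, norm_smul, he', Real.norm_of_nonneg (by positivity)]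
        linarith
      · show η * r' < ⟪x + (r' / 2) • e' - x, e'⟫
        rw [e1, inner_smul_left, hself]
        simp only [conj_trivial]
        nlinarith
      · show ε * r < ⟪x + (r' / 2) • e' - x, e⟫
        rw [e1, inner_smul_left]
        simp only [conj_trivial]
        nlinarith
    refine fl_not_in_out (S := S) hO hy ?_ ?_
    · filter_upwards [hcon] with y hy' hyO
      exact hy' hyO.1.1 hyO.1.2
    · filter_upwards [h.above] with y hy' hyO
      exact hy' (ball_subset_ball hrr hyO.1.1) hyO.2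

end Claimed.Agent.Gmt
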