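import Claimed.Agent.Lib.Gmt.FlGeo5

/-!
THIS FILE = PACKAGE L-GMT-FlGeo6 (part 6 of 6 of the former `FlGeo.lean`, which now only imports the parts; the text below is the plan of the whole former file).
# Lib/Gmt G4.6 (architect: helper190): elementary geometry of flatness (`FlFlat`), constancy, affine changes of variables.
PACKAGES L-GMT-FlGeoA (section 'affine changes of variables': `fl_blow_*`, `fl_pt_*`, `fl_dir_*`, `fl_exists_rot`, `FlFlat.blow*`) and L-GMT-FlGeoB (the rest).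
PURE measure theory / topology / linear algebra on `E m` (no perimeter, no BV).

`FlFlat S x r ε e`: a.e. point of `ball x r` below the slab `|⟪y-x,e⟫| ≤ ε r` is in `S`, a.e. point above is not.
`gmtBd S = {x | ∀ r>0, 0 < |S ∩ B_r(x)| ∧ 0 < |B_r(x) \ S|}`.

PLAN.
* `fl_blow_ae`: `y ↦ z + r • T.symm y` is a homeomorphism which maps null sets to null sets in both directions (`ContinuousLinearEquiv`, `Measure.addHaar_image_continuousLinearMap`/
  `MeasureTheory.Measure.addHaar_preimage_continuousLinearEquiv`, translations, `Measure.addHaar_smul`): quasi measure preserving.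
* affine maps: `gmtBlow T z r S = {y | z + r • T.symm y ∈ S}` and its API are helper184's (`FrB`, `FrD`: `gmtBlow_gmtBlow`, `gmtBd_gmtBlow`, `measurableSet_gmtBlow`, `gmtAff_inv`, ...): use them.
* `FlFlat.blow`: computation in the doc-string.
* `FlFlat.bd_slab`: if `⟪y-x,e⟫ > ε r`, a small ball around `y` lies in `ball x r ∩ {⟪·-x,e⟫ > ε r}`, where a.e. point is not in `S`: `|S ∩ B| = 0`, so `y ∉ gmtBd S`.  Same below.
* `fl_constancy`: `W₁ = {x ∈ W | ∃ r>0, |B_r(x) \ S| = 0}`, `W₀ = {x ∈ W | ∃ r>0, |S ∩ B_r(x)| = 0}` are open, cover `W` (no boundary point), are disjoint (a ball has positive measure);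
  `W` preconnected ⇒ `W = W₁` or `W = W₀` (`IsPreconnected.subset_left_of_subset_union`...); a set covered by balls in which `S` is null is a set in which `S` is null (Lindelöf: `TopologicalSpace.countable_cover_nhds`/`measure_null_of_locally_null`).
* `fl_flat_of_bd`: the caps `W⁻ = ball x r' ∩ {⟪y-x,e'⟫ < -η r'}`, `W⁺` are open convex (preconnected) and contain no boundary point: `fl_constancy`.  The point `y⁻ = x - (r'/2) e'` lies in `W⁻` (`η < 1/2`) and
  `⟪y⁻-x,e⟫ = -(r'/2)⟪e',e⟫ ≤ -r'/4 < -ε r` (`⟪e,e'⟫ = 1 - ‖e-e'‖²/2 ≥ 1/2`), so near `y⁻` a.e. point is in `S`: the alternative "a.e. point of `W⁻` is outside `S`" is impossible.  Same for `W⁺`.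
* `fl_flat_compare`: `w = (e'-e)/‖e'-e‖`, `y = x + (r'/2) w`: `⟪y-x,e'⟫ = r'‖e'-e‖/4`, `⟪y-x,e⟫ = -r'‖e'-e‖/4`.  If `‖e'-e‖ > 4 ε r/r'` and `> 4 ε'`, then near `y` a.e. point is in `S` and not in `S`.
-/

set_option autoImplicit false
open scoped ContDiff ENNReal RealInnerProductSpace
open MeasureTheory Metric Set

namespace Claimed.Agent.Gmt

variable {m n : ℕ}

/-- two flatness directions at comparable scales are close. -/
theorem fl_flat_compare {S : Set (E m)} {x : E m} {r ε r' ε' : ℝ} {e e' : E m}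
    (h : FlFlat S x r ε e) (h' : FlFlat S x r' ε' e') (hr' : 0 < r') (hrr : r' ≤ r)
    (hε : 0 ≤ ε) (hε' : 0 ≤ ε') : ‖e - e'‖ ≤ 4 * max (ε * r / r') ε' := by
  by_contra hcon
  push Not at hcon
  set d := ‖e - e'‖ with hd
  have h1 : 4 * (ε * r / r') < d := lt_of_le_of_lt (by gcongr; exact le_max_left _ _) hcon
  have h2 : 4 * ε' < d := lt_of_le_of_lt (by gcongr; exact le_max_right _ _) hcon
  have hd0 : 0 < d := lt_of_le_of_lt (by positivity) h2
  have h1' : 4 * (ε * r) < d * r' := by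
    have : 4 * (ε * r / r') * r' < d * r' := by gcongr
    have e1 : 4 * (ε * r / r') * r' = 4 * (ε * r) := by field_simp
    linarith
  have hsq : d ^ 2 = 2 - 2 * ⟪e, e'⟫ := by
    have h3 : ‖e - e'‖ ^ 2 = ‖e‖ ^ 2 - 2 * ⟪e, e'⟫ + ‖e'‖ ^ 2 := norm_sub_sq_real e e'
    rw [h.unit, h'.unit] at h3
    rw [hd, h3]
    ring
  have hse : ⟪e, e⟫ = 1 := by rw [real_inner_self_eq_norm_sq, h.unit]; norm_num
  have hse' : ⟪e', e'⟫ = 1 := by rw [real_inner_self_eq_norm_sq, h'.unit]; norm_num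
  have hO : IsOpen ((ball x r' ∩ {y : E m | ε' * r' < ⟪y - x, e'⟫}) ∩ {y : E m | ⟪y - x, e⟫ < -(ε * r)}) := by
    refine (fl_isOpen_capU x e' r' _).inter (isOpen_lt ?_ continuous_const)
    fun_prop
  have hy : x + (r' / 2 / d) • (e' - e) ∈
      (ball x r' ∩ {y : E m | ε' * r' < ⟪y - x, e'⟫}) ∩ {y : E m | ⟪y - x, e⟫ < -(ε * r)} := by
    have e1 : x + (r' / 2 / d) • (e' - e) - x = (r' / 2 / d) • (e' - e) := by abel
    refine ⟨⟨?_, ?_⟩, ?_⟩
    · rw [mem_ball, dist_eq_norm, e1, norm_smul, norm_sub_rev, ← hd, Real.norm_of_nonneg (by positivity)]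
      have : r' / 2 / d * d = r' / 2 := by field_simp
      linarith
    · show ε' * r' < ⟪x + (r' / 2 / d) • (e' - e) - x, e'⟫
      rw [e1, inner_smul_left, inner_sub_left, hse']
      simp only [conj_trivial]
      have e2 : r' / 2 / d * (1 - ⟪e, e'⟫) = r' * d / 4 := by
        have : 1 - ⟪e, e'⟫ = d ^ 2 / 2 := by linarith
        rw [this]
        field_simp
        ring
      rw [e2]
      nlinarith
    · show ⟪x + (r' / 2 / d) • (e' - e) - x, e⟫ < -(ε * r)
      rw [e1, inner_smul_left, inner_sub_left, hse, real_inner_comm]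
      simp only [conj_trivial]
      have e2 : r' / 2 / d * (⟪e, e'⟫ - 1) = -(r' * d / 4) := by
        have : ⟪e, e'⟫ - 1 = -(d ^ 2 / 2) := by linarith
        rw [this]
        field_simp
        ring
      rw [e2]
      nlinarith
  refine fl_not_in_out (S := S) hO hy ?_ ?_
  · filter_upwards [h.below] with y hy' hyO
    exact hy' (ball_subset_ball hrr hyO.1.1) hyO.2
  · filter_upwards [h'.above] with y hy' hyO
    exact hy' hyO.1.1 hyO.1.2

/-- a flat set has a boundary point on every vertical segment through the slab: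
if `‖p‖² + (2 ε r)² < r²`, `⟪p,e⟫ = 0`, there is `t`, `|t| ≤ ε r`, with `x + p + t e ∈ gmtBd S`. -/
theorem FlFlat.exists_bd {S : Set (E m)} {x : E m} {r ε : ℝ} {e : E m} (h : FlFlat S x r ε e)
    (hr : 0 < r) (hε : 0 ≤ ε) {p : E m} (hp : ⟪p, e⟫ = 0) (hpr : ‖p‖ ^ 2 + (2 * ε * r) ^ 2 < r ^ 2) :
    ∃ t : ℝ, |t| ≤ ε * r ∧ x + p + t • e ∈ gmtBd S := by
  by_contra hcon
  push Not at hcon
  have hεr : 0 ≤ ε * r := by positivity
  have hse : ⟪e, e⟫ = 1 := by rw [real_inner_self_eq_norm_sq, h.unit]; norm_num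
  -- the half length `a` of the segment
  set q := r ^ 2 - ‖p‖ ^ 2 with hq
  have hq1 : (2 * ε * r) ^ 2 < q := by linarith
  have hq0 : 0 < q := lt_of_le_of_lt (by positivity) hq1
  set s := Real.sqrt q with hs
  have hs2 : s ^ 2 = q := Real.sq_sqrt hq0.le
  have hs0 : 0 < s := Real.sqrt_pos.2 hq0
  have hs1 : 2 * (ε * r) < s := by
    have : (2 * (ε * r)) ^ 2 < s ^ 2 := by rw [hs2]; calc _ = (2 * ε * r) ^ 2 := by ring
      _ < q := hq1
    exact lt_of_pow_lt_pow_left₀ 2 hs0.le this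
  set a := (ε * r + s) / 2 with ha
  have ha1 : ε * r < a := by rw [ha]; linarith
  have ha2 : a < s := by rw [ha]; linarith
  have ha0 : 0 < a := lt_of_le_of_lt hεr ha1
  -- points of the segment
  have hball : ∀ t : ℝ, |t| ≤ a → x + p + t • e ∈ ball x r := by
    intro t ht
    have e1 : x + p + t • e - x = p + t • e := by abel
    rw [mem_ball, dist_eq_norm, e1]
    have h1 : ‖p + t • e‖ ^ 2 = ‖p‖ ^ 2 + t ^ 2 := by
      rw [norm_add_sq_real, inner_smul_right, hp, norm_smul, h.unit, Real.norm_eq_abs, mul_one, sq_abs]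
      ring
    have h2 : t ^ 2 ≤ a ^ 2 := sq_le_sq' (by have := (abs_le.1 ht).1; linarith) (abs_le.1 ht).2
    have h3 : a ^ 2 < s ^ 2 := by gcongr
    have h4 : ‖p + t • e‖ ^ 2 < r ^ 2 := by rw [h1]; linarith
    exact lt_of_pow_lt_pow_left₀ 2 hr.le h4
  have hinn : ∀ t : ℝ, ⟪x + p + t • e - x, e⟫ = t := by
    intro t
    have e1 : x + p + t • e - x = p + t • e := by abel
    rw [e1, inner_add_left, hp, inner_smul_left, hse]
    simp
  have hnb : ∀ t : ℝ, |t| ≤ a → x + p + t • e ∉ gmtBd S := by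
    intro t ht
    by_cases h1 : |t| ≤ ε * r
    · exact hcon t h1
    · intro h2
      have h3 := h.bd_slab h2 (hball t ht)
      rw [hinn] at h3
      exact h1 h3
  have hcont : Continuous (fun t : ℝ => x + p + t • e) := by fun_prop
  have hcov : Icc (-a) a ⊆ ((fun t : ℝ => x + p + t • e) ⁻¹' flIn S) ∪ ((fun t : ℝ => x + p + t • e) ⁻¹' flOut S) := by
    intro t ht
    have h1 : x + p + t • e ∈ (gmtBd S)ᶜ := hnb t (abs_le.2 ht)
    rw [fl_compl_gmtBd] at h1
    exact h1
  have hlo : x + p + (-a) • e ∈ flIn S := by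
    refine fl_mem_flIn (fl_isOpen_capL x e r (-(ε * r))) ⟨hball _ (by rw [abs_neg, abs_of_pos ha0]), ?_⟩ ?_
    · show ⟪x + p + (-a) • e - x, e⟫ < -(ε * r)
      rw [hinn]
      linarith
    · filter_upwards [h.below] with y hy hyO
      exact hy hyO.1 hyO.2
  have hhi : x + p + a • e ∈ flOut S := by
    refine fl_mem_flOut (fl_isOpen_capU x e r (ε * r)) ⟨hball _ (by rw [abs_of_pos ha0]), ?_⟩ ?_
    · show ε * r < ⟪x + p + a • e - x, e⟫
      rw [hinn]
      exact ha1
    · filter_upwards [h.above] with y hy hyO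
      exact hy hyO.1 hyO.2
  have hdis := fl_disjoint_flIn_flOut S
  rcases isPreconnected_Icc.subset_or_subset ((fl_isOpen_flIn S).preimage hcont) ((fl_isOpen_flOut S).preimage hcont)
    (hdis.preimage _) hcov with h1 | h1
  · exact Set.disjoint_left.1 hdis (h1 ⟨by linarith, le_rfl⟩) hhi
  · exact Set.disjoint_left.1 hdis hlo (h1 ⟨le_rfl, by linarith⟩)

end Claimed.Agent.Gmt
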