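import Claimed.Agent.Lib.Gmt.FlGeo
import Claimed.Agent.Lib.Gmt.FlCoord

/-!
THIS FILE = PACKAGE L-GMT-FlGraph1 (part 1 of 5 of the former `FlGraph.lean`, which now only imports the parts; the text below is the plan of the whole former file).
# Lib/Gmt G4.10 (architect: helper190): decay of flatness at all boundary points ⇒ `C^{1,1/2}` graph.
PACKAGES L-GMT-FlGraphA (`fl_camp`, `fl_normal`, `fl_bd_taylor`), L-GMT-FlGraphB (`fl_graph_fun`, `fl_graph_sub`, `fl_graph`).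
PURE geometry/measure theory (input: `FlGeo`, `FlCoord`).  No perimeter, no minimality.

HYPOTHESIS `FlDecay S r r₁ M` (centre `0`, vertical direction `e = gmtEn n`), `r₁ = c r`, `0 < c ≤ 1`, `M ≤ M₀(n,c)` small.
* `fl_camp` (pure calculus).  `|u(ζ') - u(ζ) - ⟪P ζ, ζ'-ζ⟫| ≤ K ‖ζ'-ζ‖ √‖ζ'-ζ‖` for `ζ, ζ' ∈ ball 0 ρ` with `‖ζ-ζ'‖ < d`.  Then `HasFDerivAt u (inner (P ζ)) ζ` (little-o), and for `h = ‖ζ-ζ'‖ < d/2`... :
  for a unit vector `w` put `ζ'' = ζ' ± h w`, with the sign such that `ζ'' ∈ ball 0 ρ` [`‖ζ' + σ h w‖² = ‖ζ'‖² + 2σh⟪ζ',w⟫ + h²`: this may leave the ball; use instead `ζ'' = ζ' + h w'` where `w' = (w - ζ'/ρ)/2`-type inward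
  perturbations, or SIMPLER: state the Taylor hypothesis on `ball 0 (2ρ)`-pairs and conclude on `ball 0 ρ` with `h < ρ/2`.  This is what the statement below does: hypothesis on `ball 0 ρ'`, conclusion on `ball 0 ρ`, `ρ + d ≤ ρ'`].
  Three expansions (at `ζ`: points `ζ'`, `ζ''`; at `ζ'`: point `ζ''`): `|⟪P ζ - P ζ', h w⟫| ≤ K h√h (2√2 + 2)`, so `‖P ζ - P ζ'‖ ≤ 5 K √h` for `2h < d`.
* `fl_normal`.  Fix `z`.  `s_j = 2^{-j} r₁`, `e_j` from `dec`.  `fl_flat_compare`: `‖e_j - e_{j+1}‖ ≤ 8 M √(s_j/r)`; Cauchy (`cauchySeq_of_le_geometric` with ratio `1/√2`), limit `e_z`, `‖e_j - e_z‖ ≤ 28 M √(s_j/r)`, `‖e_z‖ = 1`, `‖e_z - e‖ ≤ M` (closed conditions).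
  For `s ∈ (s_{j+1}, s_j]`: `FlFlat.shrink` (factor `≤ 2`), `FlFlat.tilt`, `s_j ≤ 2s`: flatness `≤ (2√2 + 28√2) M √(s/r) ≤ 45 M √(s/r)`.
* `fl_bd_taylor`.  `z, z' ∈ gmtBd S ∩ ball 0 (r/2)`, `0 < ‖z'-z‖`, `s = 2‖z'-z‖ ≤ r₁`: `FlFlat.bd_slab` with `e_z`: `|⟪z'-z, e_z⟫| ≤ 45 M √(s/r) s`.
* `fl_graph_fun`.  For `ζ ∈ ball 0 (r/4)`: existence of `t`, `|t| ≤ M r`, `(ζ,t) ∈ gmtBd S`: `FlFlat.exists_bd` (`p = flInc n ζ`).  Uniqueness among ALL `|t| < r/4`: `bd_slab` gives `|t| ≤ M r`; two points `z = (ζ,t)`, `z' = (ζ,t')`: `‖z-z'‖ = |t-t'| ≤ 2Mr ≤ r₁/2`,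
  `⟪z'-z,e_z⟫ = (t'-t) ⟪e,e_z⟫`, `⟪e,e_z⟫ ≥ 1/2`, so `|t'-t|/2 ≤ 45 M √(4M) · 2|t'-t|`: `t = t'` for `M` small.  `u ζ :=` this `t` (choice; `0` off the ball).
  Lipschitz/Taylor: write `e_z = (a_z, b_z)` (`a_z = gmtHor e_z`, `b_z = gmtVer e_z ≥ 1/2`, `‖a_z‖ ≤ M`), `P ζ = -(1/b_z) a_z`, `‖P ζ‖ ≤ 2M`.  For `ζ,ζ'` with `‖ζ-ζ'‖ ≤ r₁/8`:
  `⟪z'-z,e_z⟫ = ⟪ζ'-ζ,a_z⟫ + (u ζ' - u ζ) b_z`.  First `|u ζ' - u ζ| ≤ ‖ζ'-ζ‖` [from `|u ζ'-u ζ| b_z ≤ M‖ζ'-ζ‖ + 45 M·√.. ·2(‖ζ'-ζ‖ + |u ζ'-u ζ|)`, valid when `s = 2‖z'-z‖ ≤ r₁`; to know this a priori use `|uζ' - uζ| ≤ 2Mr ≤ r₁/8`, so `‖z'-z‖ ≤ r₁/4`],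
  then `‖z'-z‖ ≤ 2‖ζ'-ζ‖`, `s ≤ 4‖ζ'-ζ‖` and `|u ζ' - u ζ - ⟪P ζ, ζ'-ζ⟫| ≤ 2·45 M √(4‖ζ'-ζ‖/r) 4‖ζ'-ζ‖`.
* `fl_graph_sub`.  `Cyl = {‖z‖ < ρ, |t| < ρ}`, `ρ = r/4`; `W⁺ = Cyl ∩ {t > u z}`, `W⁻ = Cyl ∩ {t < u z}` are open (`u` continuous on the ball), contain no boundary point, and are preconnected (each point is joined inside `W⁺` by a vertical segment to height `ρ/2 > M r`, and
  `{‖z‖<ρ} × {ρ/2}` is convex: `IsPreconnected` via `isPreconnected_of_forall_pair`).  `fl_constancy` + `flat` (the part `t > M r` of `W⁺` has positive measure and is outside `S`).  The graph is a null set (Fubini `fl_ae_join`: each vertical line meets it in one point).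
* `fl_graph`: assemble with `fl_camp`; for `‖ζ-ζ'‖ ≥ d/2`, `d = r₁/8`: `‖P ζ - P ζ'‖ ≤ 4M ≤ 4M √(16‖ζ-ζ'‖/(c r))`.
-/

set_option autoImplicit false
open scoped ContDiff ENNReal RealInnerProductSpace
open MeasureTheory Metric Set

namespace Claimed.Agent.Gmt

variable {n : ℕ}

/-- decay of flatness at all boundary points of `ball 0 (r/2)`, up to the scale `r₁`. -/
structure FlDecay (S : Set (E (n + 1))) (r r₁ M : ℝ) : Prop where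
  flat : FlFlat S 0 r M (gmtEn n)
  dec : ∀ z ∈ gmtBd S, z ∈ ball (0 : E (n + 1)) (r / 2) → ∀ s : ℝ, 0 < s → s ≤ r₁ →
    ∃ e' : E (n + 1), ‖e' - gmtEn n‖ ≤ M ∧ FlFlat S z s (M * Real.sqrt (s / r)) e'

/-- `S` is in the cylinder `{‖z‖ < ρ, |t| < ρ}` the subgraph of a `C^{1,1/2}` function with constant `K`. -/
structure FlGr (S : Set (E (n + 1))) (u : E n → ℝ) (ρ K : ℝ) : Prop where
  bound : ∀ ζ ∈ ball (0 : E n) ρ, |u ζ| ≤ K * ρ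
  diff : ∀ ζ ∈ ball (0 : E n) ρ, DifferentiableAt ℝ u ζ
  grad : ∀ ζ ∈ ball (0 : E n) ρ, ‖fderiv ℝ u ζ‖ ≤ K
  hol : ∀ ζ ∈ ball (0 : E n) ρ, ∀ ζ' ∈ ball (0 : E n) ρ,
    ‖fderiv ℝ u ζ - fderiv ℝ u ζ'‖ ≤ K * Real.sqrt (‖ζ - ζ'‖ / ρ)
  sub : ∀ᵐ y : E (n + 1), ‖gmtHor y‖ < ρ → |gmtVer y| < ρ → (y ∈ S ↔ gmtVer y < u (gmtHor y))
  bd : ∀ y : E (n + 1), ‖gmtHor y‖ < ρ → |gmtVer y| < ρ → (y ∈ gmtBd S ↔ gmtVer y = u (gmtHor y))

/-- **uniform first order Taylor expansions with remainder `K h^{3/2}` ⇒ `C^{1,1/2}`.** -/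
theorem fl_camp {u : E n → ℝ} {P : E n → E n} {ρ ρ' d K : ℝ} (hρ : 0 < ρ) (hd : 0 < d)
    (hρ' : ρ + d ≤ ρ') (hK : 0 ≤ K)
    (hT : ∀ ζ ∈ ball (0 : E n) ρ', ∀ ζ' ∈ ball (0 : E n) ρ', ‖ζ' - ζ‖ < d →
      |u ζ' - u ζ - ⟪P ζ, ζ' - ζ⟫| ≤ K * ‖ζ' - ζ‖ * Real.sqrt ‖ζ' - ζ‖) :
    (∀ ζ ∈ ball (0 : E n) ρ', HasFDerivAt u (innerSL ℝ (P ζ)) ζ) ∧
      ∀ ζ ∈ ball (0 : E n) ρ, ∀ ζ' ∈ ball (0 : E n) ρ, 2 * ‖ζ' - ζ‖ < d →
        ‖P ζ - P ζ'‖ ≤ 5 * K * Real.sqrt ‖ζ' - ζ‖ := by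
  constructor
  · intro ζ hζ
    rw [hasFDerivAt_iff_isLittleO, Asymptotics.isLittleO_iff]
    intro c hc
    have h1 : ∀ᶠ ζ' in nhds ζ, ζ' ∈ ball (0 : E n) ρ' := isOpen_ball.mem_nhds hζ
    have h2 : ∀ᶠ ζ' in nhds ζ, ζ' ∈ ball ζ (min d ((c / (K + 1)) ^ 2)) :=
      ball_mem_nhds _ (by positivity)
    filter_upwards [h1, h2] with ζ' a1 a2
    have a3 : ‖ζ' - ζ‖ < min d ((c / (K + 1)) ^ 2) := by simpa [dist_eq_norm] using a2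
    have a4 := hT ζ hζ ζ' a1 (lt_of_lt_of_le a3 (min_le_left _ _))
    have a5 : Real.sqrt ‖ζ' - ζ‖ ≤ c / (K + 1) := by
      rw [Real.sqrt_le_left (by positivity)]
      exact (lt_of_lt_of_le a3 (min_le_right _ _)).le
    rw [Real.norm_eq_abs, innerSL_apply_apply]
    refine a4.trans ?_
    have a6 : K * Real.sqrt ‖ζ' - ζ‖ ≤ c := by
      calc K * Real.sqrt ‖ζ' - ζ‖ ≤ K * (c / (K + 1)) := mul_le_mul_of_nonneg_left a5 hK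
        _ = c * (K / (K + 1)) := by ring
        _ ≤ c * 1 := by
          apply mul_le_mul_of_nonneg_left _ hc.le
          rw [div_le_one (by positivity)]; linarith
        _ = c := mul_one c
    calc K * ‖ζ' - ζ‖ * Real.sqrt ‖ζ' - ζ‖ = (K * Real.sqrt ‖ζ' - ζ‖) * ‖ζ' - ζ‖ := by ring
      _ ≤ c * ‖ζ' - ζ‖ := mul_le_mul_of_nonneg_right a6 (norm_nonneg _)
  · intro ζ hζ ζ' hζ' hlt
    set h := ‖ζ' - ζ‖ with hh
    have hh0 : 0 ≤ h := norm_nonneg _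
    set v := P ζ' - P ζ with hv
    rcases eq_or_ne v 0 with hv0 | hv0
    · have : P ζ - P ζ' = 0 := by rw [← neg_sub, ← hv, hv0, neg_zero]
      rw [this, norm_zero]; positivity
    have hvn : 0 < ‖v‖ := norm_pos_iff.2 hv0
    -- the third point
    set w : E n := ‖v‖⁻¹ • v with hw
    have hwn : ‖w‖ = 1 := by
      rw [hw, norm_smul, norm_inv, norm_norm, inv_mul_cancel₀ hvn.ne']
    set ζ'' : E n := ζ' + h • w with hζ''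
    have b1 : ‖ζ'' - ζ'‖ = h := by
      rw [hζ'', add_sub_cancel_left, norm_smul, hwn, mul_one, Real.norm_eq_abs, abs_of_nonneg hh0]
    have b2 : ‖ζ'' - ζ‖ ≤ 2 * h := by
      have : ζ'' - ζ = (ζ'' - ζ') + (ζ' - ζ) := by abel
      rw [this]
      refine (norm_add_le _ _).trans ?_
      rw [b1]; linarith
    have hζn : ‖ζ‖ < ρ := by simpa using hζ
    have hζ'n : ‖ζ'‖ < ρ := by simpa using hζ'
    have c1 : ζ ∈ ball (0 : E n) ρ' := by simp only [mem_ball, dist_zero_right]; linarith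
    have c2 : ζ' ∈ ball (0 : E n) ρ' := by simp only [mem_ball, dist_zero_right]; linarith
    have c3 : ζ'' ∈ ball (0 : E n) ρ' := by
      simp only [mem_ball, dist_zero_right]
      have : ‖ζ''‖ ≤ ‖ζ'‖ + ‖ζ'' - ζ'‖ := by
        have := norm_add_le ζ' (ζ'' - ζ')
        simpa using this
      rw [b1] at this
      linarith
    have t1 := hT ζ c1 ζ'' c3 (by linarith)
    have t2 := hT ζ c1 ζ' c2 (by linarith)
    have t3 := hT ζ' c2 ζ'' c3 (by rw [b1]; linarith)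
    rw [b1] at t3
    rw [← hh] at t2
    have s2 : Real.sqrt ‖ζ'' - ζ‖ ≤ 3 / 2 * Real.sqrt h := by
      have e1 : Real.sqrt ‖ζ'' - ζ‖ ≤ Real.sqrt (2 * h) := Real.sqrt_le_sqrt b2
      have e2 : Real.sqrt (2 * h) = Real.sqrt 2 * Real.sqrt h := Real.sqrt_mul (by norm_num) _
      have e3 : Real.sqrt 2 ≤ 3 / 2 := by
        rw [Real.sqrt_le_left (by norm_num)]; norm_num
      rw [e2] at e1
      exact e1.trans (mul_le_mul_of_nonneg_right e3 (Real.sqrt_nonneg _))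
    have t1' : |u ζ'' - u ζ - ⟪P ζ, ζ'' - ζ⟫| ≤ K * (2 * h) * (3 / 2 * Real.sqrt h) := by
      refine t1.trans ?_
      gcongr
    -- combination
    have key : ⟪v, h • w⟫ = (u ζ'' - u ζ - ⟪P ζ, ζ'' - ζ⟫) - (u ζ' - u ζ - ⟪P ζ, ζ' - ζ⟫) -
        (u ζ'' - u ζ' - ⟪P ζ', ζ'' - ζ'⟫) := by
      have e1 : ζ'' - ζ = (ζ' - ζ) + h • w := by rw [hζ'']; abel
      have e2 : ζ'' - ζ' = h • w := by rw [hζ'', add_sub_cancel_left]
      rw [e1, e2, hv, inner_sub_left, inner_add_right]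
      ring
    have key2 : ⟪v, h • w⟫ = h * ‖v‖ := by
      rw [hw, real_inner_smul_right, real_inner_smul_right, real_inner_self_eq_norm_sq]
      field_simp
    have key3 : h * ‖v‖ ≤ 5 * K * h * Real.sqrt h := by
      rw [← key2, key]
      have a1 := abs_le.1 t1'
      have a2 := abs_le.1 t2
      have a3 := abs_le.1 t3
      nlinarith [a1.1, a1.2, a2.1, a2.2, a3.1, a3.2]
    have hnorm : ‖P ζ - P ζ'‖ = ‖v‖ := by rw [hv, norm_sub_rev]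
    rw [hnorm]
    rcases hh0.eq_or_lt with h0 | hpos
    · -- `ζ = ζ'`
      exfalso
      have : ζ' = ζ := by
        have : ‖ζ' - ζ‖ = 0 := by rw [← hh, ← h0]
        exact sub_eq_zero.1 (norm_eq_zero.1 this)
      apply hv0
      rw [hv, this, sub_self]
    · have : h * ‖v‖ ≤ h * (5 * K * Real.sqrt h) := by linarith
      exact le_of_mul_le_mul_left this hpos

end Claimed.Agent.Gmt
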