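import Claimed.Agent.Lib.Gmt.FlGraph1

/-!
THIS FILE = PACKAGE L-GMT-FlGraph2 (part 2 of 5 of the former `FlGraph.lean`, which now only imports the parts; the text below is the plan of the whole former file).
# Lib/Gmt G4.10 (architect: helper190): decay of flatness at all boundary points ⇒ `C^{1,1/2}` graph.
PACKAGES L-GMT-FlGraphA (`fl_camp`, `fl_normal`, `fl_bd_taylor`), L-GMT-FlGraphB (`fl_graph_fun`, `fl_graph_sub`, `fl_graph`).
PURE geometry/measure theory (input: `FlGeo`, `FlCoord`).  No perimeter, no minimality.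

HYPOTHESIS `FlDecay S r r₁ M` (centre `0`, vertical direction `e = gmtEn n`), `r₁ = c r`, `0 < c ≤ 1`, `M ≤ M₀(n,c)` small.
* `fl_camp` (pure calculus).  `|u(ζ') - u(ζ) - ⟪P ζ, ζ'-ζ⟫| ≤ K ‖ζ'-ζ‖ √‖ζ'-ζ‖` for `ζ, ζ' ∈ ball 0 ρ` with `‖ζ-ζ'‖ < d`.  Then `HasFDerivAt u (inner (P ζ)) ζ` (little-o), and for `h = ‖ζ-ζ'‖ < d/2`... :
  for a unit vector `w` put `ζ'' = ζ' ± h w`, with the sign such that `ζ'' ∈ ball 0 ρ` [`‖ζ' + σ h w‖² = ‖ζ'‖² + 2σh⟪ζ',w⟫ + h²`: this may leave the ball; use instead `ζ'' = ζ' + h w'` where `w' = (w - ζ'/ρ)/2`-type inward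
  perturbations, or SIMPLER: state the Taylor hypothesis on `ball 0 (2ρ)`-pairs and conclude on `ball 0 ρ` with `h < ρ/2`.  This is what the statement below does: hypothesis on `ball 0 ρ'`, conclusion on `ball 0 ρ`, `ρ + d ≤ ρ'`].
  Three expansions (at `ζ`: points `ζ'`, `ζ''`; at `ζ'`: point `ζ''`): `|⟪P ζ - P ζ', h w⟫| ≤ K h√h (2√2 + 2)`, so `‖P ζ - P ζ'‖ ≤ 5 K √h` for `2h < d`.
* `fl_normal`.  Fix `z`.  `s_j = 2^{-j} r₁`, `e_j` from `dec`.  `fl_flat_compare`: `‖e_j - e_{j+1}‖ ≤ 8 M √(s_j/r)`; Cauchy (`cauchySeq_of_le_geometric` with ratio `1/√2`), limit `e_z`, `‖e_j - e_z‖ ≤ 28 M √(s_j/r)`, `‖e_z‖ = 1`, `‖e_z - e‖ ≤ M` (closed conditions).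
  For `s ∈ (s_{j+1}, s_j]`: `FlFlat.shrink` (factor `≤ 2`), `FlFlat.tilt`, `s_j ≤ 2s`: flatness `≤ (2√2 + 28√2) M √(s/r) ≤ 45 M √(s/r)`.
* `fl_bd_taylor`.  `z, z' ∈ gmtBd S ∩ ball 0 (r/2)`, `0 < ‖z'-z‖`, `s = 2‖z'-z‖ ≤ r₁`: `FlFlat.bd_slab` with `e_z`: `|⟪z'-z, e_z⟫| ≤ 45 M √(s/r) s`.
* `fl_graph_fun`.  For `ζ ∈ ball 0 (r/4)`: existence of `t`, `|t| ≤ M r`, `(ζ,t) ∈ gmtBd S`: `FlFlat.exists_bd` (`p = flInc n ζ`).  Uniqueness among ALL `|t| < r/4`: `bd_slab` gives `|t| ≤ M r`; two points `z = (ζ,t)`, `z' = (ζ,t')`: `‖z-z'‖ = |t-t'| ≤ 2Mr ≤ r₁/2`,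
  `⟪z'-z,e_z⟫ = (t'-t) ⟪e,e_z⟫`, `⟪e,e_z⟫ ≥ 1/2`, so `|t'-t|/2 ≤ 45 M √(4M) · 2|t'-t|`: `t = t'` for `M` small.  `u ζ :=` this `t` (choice; `0` off the ball).
  Lipschitz/Taylor: write `e_z = (a_z, b_z)` (`a_z = gmtHor e_z`, `b_z = gmtVer e_z ≥ 1/2`, `‖a_z‖ ≤ M`), `P ζ = -(1/b_z) a_z`, `‖P ζ‖ ≤ 2M`.  For `ζ,ζ'` with `‖ζ-ζ'‖ ≤ r₁/8`:
  `⟪z'-z,e_z⟫ = ⟪ζ'-ζ,a_z⟫ + (u ζ' - u ζ) b_z`.  First `|u ζ' - u ζ| ≤ ‖ζ'-ζ‖` [from `|u ζ'-u ζ| b_z ≤ M‖ζ'-ζ‖ + 45 M·√.. ·2(‖ζ'-ζ‖ + |u ζ'-u ζ|)`, valid when `s = 2‖z'-z‖ ≤ r₁`; to know this a priori use `|uζ' - uζ| ≤ 2Mr ≤ r₁/8`, so `‖z'-z‖ ≤ r₁/4`],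
  then `‖z'-z‖ ≤ 2‖ζ'-ζ‖`, `s ≤ 4‖ζ'-ζ‖` and `|u ζ' - u ζ - ⟪P ζ, ζ'-ζ⟫| ≤ 2·45 M √(4‖ζ'-ζ‖/r) 4‖ζ'-ζ‖`.
* `fl_graph_sub`.  `Cyl = {‖z‖ < ρ, |t| < ρ}`, `ρ = r/4`; `W⁺ = Cyl ∩ {t > u z}`, `W⁻ = Cyl ∩ {t < u z}` are open (`u` continuous on the ball), contain no boundary point, and are preconnected (each point is joined inside `W⁺` by a vertical segment to height `ρ/2 > M r`, and
  `{‖z‖<ρ} × {ρ/2}` is convex: `IsPreconnected` via `isPreconnected_of_forall_pair`).  `fl_constancy` + `flat` (the part `t > M r` of `W⁺` has positive measure and is outside `S`).  The graph is a null set (Fubini `fl_ae_join`: each vertical line meets it in one point).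
* `fl_graph`: assemble with `fl_camp`; for `‖ζ-ζ'‖ ≥ d/2`, `d = r₁/8`: `‖P ζ - P ζ'‖ ≤ 4M ≤ 4M √(16‖ζ-ζ'‖/(c r))`.
-/

set_option autoImplicit false
open scoped ContDiff ENNReal RealInnerProductSpace
open MeasureTheory Metric Set

namespace Claimed.Agent.Gmt

variable {n : ℕ}

/-- the limit normal. -/
theorem fl_normal {S : Set (E (n + 1))} {r r₁ M : ℝ} (h : FlDecay S r r₁ M) (hr : 0 < r)
    (hr₁ : 0 < r₁) (hM : 0 ≤ M) {z : E (n + 1)} (hz : z ∈ gmtBd S)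
    (hzr : z ∈ ball (0 : E (n + 1)) (r / 2)) :
    ∃ e' : E (n + 1), ‖e'‖ = 1 ∧ ‖e' - gmtEn n‖ ≤ M ∧ ∀ s : ℝ, 0 < s → s ≤ r₁ →
      FlFlat S z s (45 * M * Real.sqrt (s / r)) e' := by
  set sj : ℕ → ℝ := fun j => r₁ * (1 / 2) ^ j with hsj
  have hsj0 : ∀ j, 0 < sj j := fun j => by simp only [hsj]; positivity
  have hsj1 : ∀ j, sj j ≤ r₁ := fun j => by
    simp only [hsj]
    have : ((1 : ℝ) / 2) ^ j ≤ 1 := pow_le_one₀ (by norm_num) (by norm_num)
    nlinarith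
  have hsjs : ∀ j, sj (j + 1) = sj j / 2 := fun j => by simp only [hsj, pow_succ]; ring
  choose e he1 he2 using fun j => h.dec z hz hzr (sj j) (hsj0 j) (hsj1 j)
  set a : ℕ → ℝ := fun j => M * Real.sqrt (sj j / r) with ha
  have ha0 : ∀ j, 0 ≤ a j := fun j => by simp only [ha]; positivity
  have has : ∀ j, a (j + 1) ≤ 5 / 7 * a j := by
    intro j
    simp only [ha]
    have e1 : sj (j + 1) / r = (1 / 2) * (sj j / r) := by rw [hsjs]; ring
    rw [e1, Real.sqrt_mul (by norm_num)]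
    have e2 : Real.sqrt (1 / 2) ≤ 5 / 7 := by
      rw [Real.sqrt_le_left (by norm_num)]; norm_num
    have e3 := Real.sqrt_nonneg (sj j / r)
    have e4 := mul_le_mul_of_nonneg_right e2 e3
    have := mul_le_mul_of_nonneg_left e4 hM
    linarith
  have hask : ∀ j k, a (j + k) ≤ a j * (5 / 7) ^ k := by
    intro j k
    induction k with
    | zero => simp
    | succ k ih =>
      have := has (j + k)
      rw [pow_succ, ← add_assoc]
      nlinarith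
  have hdist : ∀ j, dist (e j) (e (j + 1)) ≤ 8 * a j := by
    intro j
    have := fl_flat_compare (he2 j) (he2 (j + 1)) (hsj0 (j + 1))
      (by rw [hsjs]; linarith [hsj0 j]) (ha0 j) (ha0 (j + 1))
    rw [dist_eq_norm]
    refine this.trans ?_
    have e1 : M * Real.sqrt (sj j / r) * sj j / sj (j + 1) = 2 * a j := by
      rw [hsjs]; simp only [ha]; have := hsj0 j; field_simp
    rw [e1]
    have e2 : M * Real.sqrt (sj (j + 1) / r) ≤ 2 * a j := by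
      have := has j; simp only [ha] at this ⊢; have := ha0 j; simp only [ha] at this; linarith
    rw [max_eq_left e2]; linarith
  have hgeo : ∀ j k, dist (e (j + k)) (e (j + k + 1)) ≤ 8 * a j * (5 / 7) ^ k := by
    intro j k
    refine (hdist (j + k)).trans ?_
    have := hask j k
    linarith
  have hcau : CauchySeq e := by
    refine cauchySeq_of_le_geometric (5 / 7) (8 * a 0) (by norm_num) (fun k => ?_)
    have := hgeo 0 k
    simpa using this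
  obtain ⟨ez, hez⟩ := cauchySeq_tendsto_of_complete hcau
  have htail : ∀ j, ‖e j - ez‖ ≤ 28 * a j := by
    intro j
    have h1 : Filter.Tendsto (fun k => e (j + k)) Filter.atTop (nhds ez) := by
      have := (Filter.tendsto_add_atTop_iff_nat j).2 hez
      simpa [add_comm] using this
    have := dist_le_of_le_geometric_of_tendsto₀ (5 / 7) (8 * a j) (by norm_num)
      (f := fun k => e (j + k)) (fun k => hgeo j k) h1
    rw [dist_eq_norm] at this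
    simp only [add_zero] at this
    refine this.trans (le_of_eq ?_)
    ring
  have hezn : ‖ez‖ = 1 := by
    have h1 := (continuous_norm.tendsto ez).comp hez
    have h2 : (norm ∘ e) = fun _ => (1 : ℝ) := by funext j; exact (he2 j).unit
    rw [h2] at h1
    exact tendsto_nhds_unique h1 tendsto_const_nhds
  have hezM : ‖ez - gmtEn n‖ ≤ M := by
    have h1 : Filter.Tendsto (fun j => ‖e j - gmtEn n‖) Filter.atTop (nhds ‖ez - gmtEn n‖) :=
      ((continuous_norm.comp (continuous_id.sub continuous_const)).tendsto ez).comp hez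
    exact le_of_tendsto' h1 he1
  refine ⟨ez, hezn, hezM, ?_⟩
  intro s hs hsr
  obtain ⟨j, hj1, hj2⟩ := exists_nat_pow_near_of_lt_one (x := s / r₁) (y := 1 / 2) (by positivity)
    ((div_le_one hr₁).2 hsr) (by norm_num) (by norm_num)
  have hs1 : s ≤ sj j := by
    rw [div_le_iff₀ hr₁] at hj2; simp only [hsj]; linarith
  have hs2 : sj j / 2 < s := by
    rw [lt_div_iff₀ hr₁] at hj1; rw [← hsjs]; simp only [hsj]; linarith
  have h1 := ((he2 j).shrink hs hs1).tilt hs hezn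
  refine h1.mono hs.le ?_
  have e1 : M * Real.sqrt (sj j / r) * sj j / s ≤ 2 * a j := by
    rw [div_le_iff₀ hs]
    have := ha0 j
    simp only [ha] at this ⊢
    nlinarith
  have e2 : a j ≤ 3 / 2 * (M * Real.sqrt (s / r)) := by
    simp only [ha]
    have f1 : sj j / r ≤ 2 * (s / r) := by
      rw [div_le_iff₀ hr]; field_simp; linarith
    have f2 : Real.sqrt (sj j / r) ≤ Real.sqrt 2 * Real.sqrt (s / r) := by
      rw [← Real.sqrt_mul (by norm_num)]; exact Real.sqrt_le_sqrt f1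
    have f3 : Real.sqrt 2 ≤ 3 / 2 := by
      rw [Real.sqrt_le_left (by norm_num)]; norm_num
    have f4 := mul_le_mul_of_nonneg_right f3 (Real.sqrt_nonneg (s / r))
    have := mul_le_mul_of_nonneg_left (f2.trans f4) hM
    linarith
  have e3 := htail j
  linarith

/-- the boundary is tangent to the plane `e_z^⊥` at `z`, with a rate. -/
theorem fl_bd_taylor {S : Set (E (n + 1))} {r r₁ M : ℝ} (h : FlDecay S r r₁ M) (hr : 0 < r)
    (hr₁ : 0 < r₁) (hM : 0 ≤ M) {z : E (n + 1)} (hz : z ∈ gmtBd S)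
    (hzr : z ∈ ball (0 : E (n + 1)) (r / 2)) :
    ∃ e' : E (n + 1), ‖e'‖ = 1 ∧ ‖e' - gmtEn n‖ ≤ M ∧ ∀ z' ∈ gmtBd S, 2 * ‖z' - z‖ < r₁ →
      |⟪z' - z, e'⟫| ≤ 128 * M * Real.sqrt (‖z' - z‖ / r) * ‖z' - z‖ := by
  obtain ⟨e', he', hee, hfl⟩ := fl_normal h hr hr₁ hM hz hzr
  refine ⟨e', he', hee, fun z' hz' hlt => ?_⟩
  set d := ‖z' - z‖ with hd
  rcases (norm_nonneg (z' - z)).eq_or_lt with h0 | hpos
  · have : z' - z = 0 := norm_eq_zero.1 h0.symm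
    rw [this, inner_zero_left, abs_zero]
    positivity
  have h1 := (hfl (2 * d) (by positivity) hlt.le).bd_slab hz'
    (by rw [mem_ball, dist_eq_norm]; linarith)
  refine h1.trans ?_
  have e1 : Real.sqrt (2 * d / r) ≤ 64 / 45 * Real.sqrt (d / r) := by
    rw [mul_div_assoc, Real.sqrt_mul (by norm_num)]
    have : Real.sqrt 2 ≤ 64 / 45 := by
      rw [Real.sqrt_le_left (by norm_num)]; norm_num
    exact mul_le_mul_of_nonneg_right this (Real.sqrt_nonneg _)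
  calc 45 * M * Real.sqrt (2 * d / r) * (2 * d) ≤ 45 * M * (64 / 45 * Real.sqrt (d / r)) * (2 * d) := by
        gcongr
    _ = 128 * M * Real.sqrt (d / r) * d := by ring

end Claimed.Agent.Gmt
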