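import Claimed.Agent.Lib.Gmt.FlGraph2

/-!
THIS FILE = PACKAGE L-GMT-FlGraph3 (part 3 of 5 of the former `FlGraph.lean`, which now only imports the parts; the text below is the plan of the whole former file).
# Lib/Gmt G4.10 (architect: helper190): decay of flatness at all boundary points ⇒ `C^{1,1/2}` graph.
PACKAGES L-GMT-FlGraphA (`fl_camp`, `fl_normal`, `fl_bd_taylor`), L-GMT-FlGraphB (`fl_graph_fun`, `fl_graph_sub`, `fl_graph`).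
PURE geometry/measure theory (input: `FlGeo`, `FlCoord`).  No perimeter, no minimality.

HYPOTHESIS `FlDecay S r r₁ M` (centre `0`, vertical direction `e = gmtEn n`), `r₁ = c r`, `0 < c ≤ 1`, `M ≤ M₀(n,c)` small.
* `fl_camp` (pure calculus).  `|u(ζ') - u(ζ) - ⟪P ζ, ζ'-ζ⟫| ≤ K ‖ζ'-ζ‖ √‖ζ'-ζ‖` for `ζ, ζ' ∈ ball 0 ρ` with `‖ζ-ζ'‖ < d`.  Then `HasFDerivAt u (inner (P ζ)) ζ` (little-o), and for `h = ‖ζ-ζ'‖ < d/2`... :
  for a unit vector `w` put `ζ'' = ζ' ± h w`, with the sign such that `ζ'' ∈ ball 0 ρ` [`‖ζ' + σ h w‖² = ‖ζ'‖² + 2σh⟪ζ',w⟫ + h²`: this may leave the ball; use instead `ζ'' = ζ' + h w'` where `w' = (w - ζ'/ρ)/2`-type inward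
  perturbations, or SIMPLER: state the Taylor hypothesis on `ball 0 (2ρ)`-pairs and conclude on `ball 0 ρ` with `h < ρ/2`.  This is what the statement below does: hypothesis on `ball 0 ρ'`, conclusion on `ball 0 ρ`, `ρ + d ≤ ρ'`].
  Three expansions (at `ζ`: points `ζ'`, `ζ''`; at `ζ'`: point `ζ''`): `|⟪P ζ - P ζ', h w⟫| ≤ K h√h (2√2 + 2)`, so `‖P ζ - P ζ'‖ ≤ 5 K √h` for `2h < d`.
* `fl_normal`.  Fix `z`.  `s_j = 2^{-j} r₁`, `e_j` from `dec`.  `fl_flat_compare`: `‖e_j - e_{j+1}‖ ≤ 8 M √(s_j/r)`; Cauchy (`cauchySeq_of_le_geometric` with ratio `1/√2`), limit `e_z`, `‖e_j - e_z‖ ≤ 28 M √(s_j/r)`, `‖e_z‖ = 1`, `‖e_z - e‖ ≤ M` (closed conditions).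
  For `s ∈ (s_{j+1}, s_j]`: `FlFlat.shrink` (factor `≤ 2`), `FlFlat.tilt`, `s_j ≤ 2s`: flatness `≤ (2√2 + 28√2) M √(s/r) ≤ 45 M √(s/r)`.
* `fl_bd_taylor`.  `z, z' ∈ gmtBd S ∩ ball 0 (r/2)`, `0 < ‖z'-z‖`, `s = 2‖z'-z‖ ≤ r₁`: `FlFlat.bd_slab` with `e_z`: `|⟪z'-z, e_z⟫| ≤ 45 M √(s/r) s`.
* `fl_graph_fun`.  For `ζ ∈ ball 0 (r/4)`: existence of `t`, `|t| ≤ M r`, `(ζ,t) ∈ gmtBd S`: `FlFlat.exists_bd` (`p = flInc n ζ`).  Uniqueness among ALL `|t| < r/4`: `bd_slab` gives `|t| ≤ M r`; two points `z = (ζ,t)`, `z' = (ζ,t')`: `‖z-z'‖ = |t-t'| ≤ 2Mr ≤ r₁/2`,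
  `⟪z'-z,e_z⟫ = (t'-t) ⟪e,e_z⟫`, `⟪e,e_z⟫ ≥ 1/2`, so `|t'-t|/2 ≤ 45 M √(4M) · 2|t'-t|`: `t = t'` for `M` small.  `u ζ :=` this `t` (choice; `0` off the ball).
  Lipschitz/Taylor: write `e_z = (a_z, b_z)` (`a_z = gmtHor e_z`, `b_z = gmtVer e_z ≥ 1/2`, `‖a_z‖ ≤ M`), `P ζ = -(1/b_z) a_z`, `‖P ζ‖ ≤ 2M`.  For `ζ,ζ'` with `‖ζ-ζ'‖ ≤ r₁/8`:
  `⟪z'-z,e_z⟫ = ⟪ζ'-ζ,a_z⟫ + (u ζ' - u ζ) b_z`.  First `|u ζ' - u ζ| ≤ ‖ζ'-ζ‖` [from `|u ζ'-u ζ| b_z ≤ M‖ζ'-ζ‖ + 45 M·√.. ·2(‖ζ'-ζ‖ + |u ζ'-u ζ|)`, valid when `s = 2‖z'-z‖ ≤ r₁`; to know this a priori use `|uζ' - uζ| ≤ 2Mr ≤ r₁/8`, so `‖z'-z‖ ≤ r₁/4`],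
  then `‖z'-z‖ ≤ 2‖ζ'-ζ‖`, `s ≤ 4‖ζ'-ζ‖` and `|u ζ' - u ζ - ⟪P ζ, ζ'-ζ⟫| ≤ 2·45 M √(4‖ζ'-ζ‖/r) 4‖ζ'-ζ‖`.
* `fl_graph_sub`.  `Cyl = {‖z‖ < ρ, |t| < ρ}`, `ρ = r/4`; `W⁺ = Cyl ∩ {t > u z}`, `W⁻ = Cyl ∩ {t < u z}` are open (`u` continuous on the ball), contain no boundary point, and are preconnected (each point is joined inside `W⁺` by a vertical segment to height `ρ/2 > M r`, and
  `{‖z‖<ρ} × {ρ/2}` is convex: `IsPreconnected` via `isPreconnected_of_forall_pair`).  `fl_constancy` + `flat` (the part `t > M r` of `W⁺` has positive measure and is outside `S`).  The graph is a null set (Fubini `fl_ae_join`: each vertical line meets it in one point).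
* `fl_graph`: assemble with `fl_camp`; for `‖ζ-ζ'‖ ≥ d/2`, `d = r₁/8`: `‖P ζ - P ζ'‖ ≤ 4M ≤ 4M √(16‖ζ-ζ'‖/(c r))`.
-/

set_option autoImplicit false
open scoped ContDiff ENNReal RealInnerProductSpace
open MeasureTheory Metric Set

namespace Claimed.Agent.Gmt

variable {n : ℕ}

theorem fl_hor_sub (y y' : E (n + 1)) : gmtHor (y - y') = gmtHor y - gmtHor y' := by
  simp [gmtHor]

theorem fl_ver_sub (y y' : E (n + 1)) : gmtVer (y - y') = gmtVer y - gmtVer y' := by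
  simp [gmtVer]

/-- the tangency estimate in coordinates. -/
theorem fl_gf_pair {S : Set (E (n + 1))} {r r₁ M : ℝ} (H : FlDecay S r r₁ M) (hr : 0 < r)
    (hr₁ : 0 < r₁) (hM : 0 ≤ M) (hM2 : M ≤ 1 / 2) {z : E (n + 1)} (hz : z ∈ gmtBd S)
    (hzr : z ∈ ball (0 : E (n + 1)) (r / 2)) :
    ∃ (a : E n) (b : ℝ), ‖a‖ ≤ M ∧ 1 / 2 ≤ b ∧ ∀ z' ∈ gmtBd S, 2 * ‖z' - z‖ < r₁ →
      |⟪gmtHor z' - gmtHor z, a⟫ + (gmtVer z' - gmtVer z) * b| ≤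
        128 * M * Real.sqrt (‖z' - z‖ / r) * ‖z' - z‖ := by
  obtain ⟨e', he', hee, hT⟩ := fl_bd_taylor H hr hr₁ hM hz hzr
  refine ⟨gmtHor e', gmtVer e', ?_, ?_, ?_⟩
  · have h1 : gmtHor e' = gmtHor (e' - gmtEn n) := by rw [fl_hor_sub, fl_hor_en, sub_zero]
    rw [h1]
    exact (fl_norm_hor_le _).trans hee
  · have h1 : gmtVer e' - 1 = gmtVer (e' - gmtEn n) := by rw [fl_ver_sub, fl_ver_en]
    have h2 := (fl_abs_ver_le (e' - gmtEn n)).trans hee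
    rw [← h1] at h2
    have := (abs_le.1 h2).1
    linarith
  · intro z' hz' hzz
    have := hT z' hz' hzz
    rwa [fl_inner, fl_hor_sub, fl_ver_sub] at this

theorem fl_norm_le_add (y : E (n + 1)) : ‖y‖ ≤ ‖gmtHor y‖ + |gmtVer y| := by
  have h := fl_norm_sq y
  have h1 := norm_nonneg (gmtHor y)
  have h2 := abs_nonneg (gmtVer y)
  have h3 : gmtVer y ^ 2 = |gmtVer y| ^ 2 := (sq_abs _).symm
  apply abs_le_of_sq_le_sq' _ (by positivity) |>.2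
  nlinarith

/-- the region `{‖z‖ < 3r/8, |t| < r/4}` lies in `ball 0 (r/2)`. -/
theorem fl_gf_region {y : E (n + 1)} {r : ℝ} (hr : 0 < r) (h1 : ‖gmtHor y‖ < 3 * r / 8)
    (h2 : |gmtVer y| < r / 4) : y ∈ ball (0 : E (n + 1)) (r / 2) := by
  have h := fl_norm_sq y
  have h3 : gmtVer y ^ 2 = |gmtVer y| ^ 2 := (sq_abs _).symm
  have h4 : ‖gmtHor y‖ ^ 2 ≤ (3 * r / 8) ^ 2 := pow_le_pow_left₀ (norm_nonneg _) h1.le 2
  have h5 : |gmtVer y| ^ 2 ≤ (r / 4) ^ 2 := pow_le_pow_left₀ (abs_nonneg _) h2.le 2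
  simp only [mem_ball, dist_zero_right]
  apply abs_lt_of_sq_lt_sq' _ (by positivity) |>.2
  nlinarith


/-- the boundary is a graph with first order Taylor expansions. -/
theorem fl_graph_fun (n : ℕ) (c : ℝ) (hc : 0 < c) (hc1 : c ≤ 1) : ∃ M₀ C : ℝ, 0 < M₀ ∧ 0 < C ∧
    ∀ (S : Set (E (n + 1))) (r M : ℝ), 0 < r → 0 < M → M ≤ M₀ → FlDecay S r (c * r) M →
      ∃ (u : E n → ℝ) (P : E n → E n),
        (∀ ζ ∈ ball (0 : E n) (3 * r / 8), |u ζ| ≤ M * r ∧ ‖P ζ‖ ≤ 2 * M) ∧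
        (∀ y : E (n + 1), ‖gmtHor y‖ < 3 * r / 8 → |gmtVer y| < r / 4 →
          (y ∈ gmtBd S ↔ gmtVer y = u (gmtHor y))) ∧
        ∀ ζ ∈ ball (0 : E n) (3 * r / 8), ∀ ζ' ∈ ball (0 : E n) (3 * r / 8), ‖ζ' - ζ‖ < c * r / 8 →
          |u ζ' - u ζ - ⟪P ζ, ζ' - ζ⟫| ≤ C * M / Real.sqrt r * ‖ζ' - ζ‖ * Real.sqrt ‖ζ' - ζ‖ := by
  refine ⟨min (1 / 1024) (c / 16), 1024, by positivity, by norm_num, ?_⟩
  intro S r M hr hM hMM₀ H
  have hM1 : M ≤ 1 / 1024 := hMM₀.trans (min_le_left _ _)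
  have hMc : M ≤ c / 16 := hMM₀.trans (min_le_right _ _)
  have hr₁ : 0 < c * r := by positivity
  have hMr : M * r < r / 4 := by nlinarith
  -- (A) boundary points in the region have small height
  have hA : ∀ y ∈ gmtBd S, ‖gmtHor y‖ < 3 * r / 8 → |gmtVer y| < r / 4 → |gmtVer y| ≤ M * r := by
    intro y hy h1 h2
    have h3 := fl_gf_region hr h1 h2
    have := H.flat.bd_slab hy (ball_subset_ball (by linarith) h3)
    rwa [sub_zero, ← fl_ver_eq_inner] at this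
  -- (B) existence
  have hB : ∀ ζ ∈ ball (0 : E n) (3 * r / 8), ∃ t : ℝ, |t| ≤ M * r ∧ gmtJoin ζ t ∈ gmtBd S := by
    intro ζ hζ
    have hζ' : ‖ζ‖ < 3 * r / 8 := by simpa using hζ
    have hp : ⟪flInc n ζ, gmtEn n⟫ = 0 := by rw [← fl_ver_eq_inner, fl_inc_apply, fl_ver_join]
    have hpr : ‖flInc n ζ‖ ^ 2 + (2 * M * r) ^ 2 < r ^ 2 := by
      rw [fl_norm_inc]
      have h4 : ‖ζ‖ ^ 2 ≤ (3 * r / 8) ^ 2 := pow_le_pow_left₀ (norm_nonneg _) hζ'.le 2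
      have h5 : (2 * M * r) ^ 2 ≤ (r / 2) ^ 2 := pow_le_pow_left₀ (by positivity) (by linarith) 2
      nlinarith
    obtain ⟨t, ht, hb⟩ := H.flat.exists_bd hr hM.le hp hpr
    refine ⟨t, ht, ?_⟩
    rw [fl_join_eq]
    simpa using hb
  choose! t ht hbd using hB
  have hreg : ∀ ζ ∈ ball (0 : E n) (3 * r / 8), gmtJoin ζ (t ζ) ∈ ball (0 : E (n + 1)) (r / 2) := by
    intro ζ hζ
    apply fl_gf_region hr
    · rw [fl_hor_join]; simpa using hζ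
    · rw [fl_ver_join]; exact lt_of_le_of_lt (ht ζ hζ) hMr
  have hP : ∀ ζ ∈ ball (0 : E n) (3 * r / 8), ∃ (a : E n) (b : ℝ), ‖a‖ ≤ M ∧ 1 / 2 ≤ b ∧
      ∀ z' ∈ gmtBd S, 2 * ‖z' - gmtJoin ζ (t ζ)‖ < c * r →
      |⟪gmtHor z' - ζ, a⟫ + (gmtVer z' - t ζ) * b| ≤
        128 * M * Real.sqrt (‖z' - gmtJoin ζ (t ζ)‖ / r) * ‖z' - gmtJoin ζ (t ζ)‖ := by
    intro ζ hζ
    obtain ⟨a, b, h1, h2, h3⟩ := fl_gf_pair H hr hr₁ hM.le (by linarith) (hbd ζ hζ) (hreg ζ hζ)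
    refine ⟨a, b, h1, h2, fun z' hz' hzz => ?_⟩
    have := h3 z' hz' hzz
    rwa [fl_hor_join, fl_ver_join] at this
  choose! a b ha hb hab using hP
  -- (D) the key estimate
  have hD : ∀ ζ ∈ ball (0 : E n) (3 * r / 8), ∀ z' ∈ gmtBd S, ‖gmtHor z'‖ < 3 * r / 8 →
      |gmtVer z'| < r / 4 → ‖gmtHor z' - ζ‖ < c * r / 8 →
      |gmtVer z' - t ζ| ≤ ‖gmtHor z' - ζ‖ ∧
      |⟪gmtHor z' - ζ, a ζ⟫ + (gmtVer z' - t ζ) * b ζ| ≤
        128 * M * Real.sqrt (2 * ‖gmtHor z' - ζ‖ / r) * (2 * ‖gmtHor z' - ζ‖) := by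
    intro ζ hζ z' hz' h1 h2 hd
    set d := ‖gmtHor z' - ζ‖ with hddef
    set τ := gmtVer z' - t ζ with hτdef
    have hd0 : 0 ≤ d := norm_nonneg _
    have hτ1 : |τ| ≤ 2 * (M * r) := by
      have e1 := hA z' hz' h1 h2
      have e2 := ht ζ hζ
      have e3 := abs_sub (gmtVer z') (t ζ)
      linarith
    have hτ2 : |τ| ≤ c * r / 8 := by nlinarith
    have hnorm : ‖z' - gmtJoin ζ (t ζ)‖ ≤ d + |τ| := by
      have := fl_norm_le_add (z' - gmtJoin ζ (t ζ))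
      rwa [fl_hor_sub, fl_ver_sub, fl_hor_join, fl_ver_join] at this
    set N := ‖z' - gmtJoin ζ (t ζ)‖ with hNdef
    have hN0 : 0 ≤ N := norm_nonneg _
    have hN1 : 2 * N < c * r := by linarith
    have hE := hab ζ hζ z' hz' hN1
    have hNr : N / r ≤ 1 := by
      rw [div_le_one hr]; nlinarith
    have hs1 : Real.sqrt (N / r) ≤ 1 := Real.sqrt_le_one.2 hNr |>.trans le_rfl
    have hE1 : |⟪gmtHor z' - ζ, a ζ⟫ + τ * b ζ| ≤ 128 * M * (d + |τ|) := by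
      refine hE.trans ?_
      calc 128 * M * Real.sqrt (N / r) * N ≤ 128 * M * 1 * (d + |τ|) := by gcongr
        _ = _ := by ring
    have hin : |⟪gmtHor z' - ζ, a ζ⟫| ≤ d * M := by
      refine (abs_real_inner_le_norm _ _).trans ?_
      exact mul_le_mul_of_nonneg_left (ha ζ hζ) hd0
    have hτb : |τ| * b ζ ≤ 128 * M * (d + |τ|) + d * M := by
      have e1 : |τ * b ζ| = |τ| * b ζ := by
        rw [abs_mul, abs_of_nonneg (show 0 ≤ b ζ by linarith [hb ζ hζ])]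
      have e2 : τ * b ζ = (⟪gmtHor z' - ζ, a ζ⟫ + τ * b ζ) - ⟪gmtHor z' - ζ, a ζ⟫ := by ring
      rw [← e1, e2]
      exact (abs_sub _ _).trans (by linarith)
    have hτd : |τ| ≤ d := by
      have e1 : |τ| * (1 / 2) ≤ |τ| * b ζ := mul_le_mul_of_nonneg_left (hb ζ hζ) (abs_nonneg _)
      have e2 : M * |τ| ≤ 1 / 1024 * |τ| := mul_le_mul_of_nonneg_right hM1 (abs_nonneg _)
      have e3 : M * d ≤ 1 / 1024 * d := mul_le_mul_of_nonneg_right hM1 hd0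
      nlinarith
    refine ⟨hτd, hE.trans ?_⟩
    have hN2 : N ≤ 2 * d := by linarith
    have : Real.sqrt (N / r) ≤ Real.sqrt (2 * d / r) :=
      Real.sqrt_le_sqrt (div_le_div_of_nonneg_right hN2 hr.le)
    gcongr
  refine ⟨t, fun ζ => -((b ζ)⁻¹ • a ζ), ?_, ?_, ?_⟩
  · intro ζ hζ
    refine ⟨ht ζ hζ, ?_⟩
    rw [norm_neg, norm_smul, Real.norm_eq_abs, abs_inv,
      abs_of_nonneg (show 0 ≤ b ζ by linarith [hb ζ hζ])]
    have h1 : (b ζ)⁻¹ ≤ 2 := by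
      rw [inv_le_comm₀ (by linarith [hb ζ hζ]) (by norm_num)]
      have := hb ζ hζ
      linarith
    exact mul_le_mul h1 (ha ζ hζ) (norm_nonneg _) (by norm_num)
  · intro y h1 h2
    have hζ : gmtHor y ∈ ball (0 : E n) (3 * r / 8) := by simpa using h1
    constructor
    · intro hy
      have := (hD (gmtHor y) hζ y hy h1 h2 (by rw [sub_self, norm_zero]; positivity)).1
      rw [sub_self, norm_zero] at this
      have h3 := abs_nonpos_iff.1 this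
      linarith
    · intro hy
      have := hbd (gmtHor y) hζ
      rwa [← hy, fl_join_hor_ver] at this
  · intro ζ hζ ζ' hζ' hd
    have h1 : ‖gmtHor (gmtJoin ζ' (t ζ'))‖ < 3 * r / 8 := by rw [fl_hor_join]; simpa using hζ'
    have h2 : |gmtVer (gmtJoin ζ' (t ζ'))| < r / 4 := by
      rw [fl_ver_join]; exact lt_of_le_of_lt (ht ζ' hζ') hMr
    have h3 := (hD ζ hζ _ (hbd ζ' hζ') h1 h2 (by rw [fl_hor_join]; exact hd)).2
    rw [fl_hor_join, fl_ver_join] at h3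
    set d := ‖ζ' - ζ‖ with hddef
    have hd0 : 0 ≤ d := norm_nonneg _
    have hb0 : 0 < b ζ := by linarith [hb ζ hζ]
    have e1 : t ζ' - t ζ - ⟪-((b ζ)⁻¹ • a ζ), ζ' - ζ⟫ =
        (b ζ)⁻¹ * (⟪ζ' - ζ, a ζ⟫ + (t ζ' - t ζ) * b ζ) := by
      rw [inner_neg_left, real_inner_smul_left, real_inner_comm (ζ' - ζ) (a ζ)]
      field_simp
      ring
    rw [e1, abs_mul, abs_inv, abs_of_pos hb0]
    have h4 : (b ζ)⁻¹ ≤ 2 := by
      rw [inv_le_comm₀ hb0 (by norm_num)]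
      have := hb ζ hζ
      linarith
    have h5 : Real.sqrt (2 * d / r) ≤ 2 * (Real.sqrt d / Real.sqrt r) := by
      rw [mul_div_assoc, Real.sqrt_mul (by norm_num), Real.sqrt_div hd0]
      have : Real.sqrt 2 ≤ 2 := by
        rw [Real.sqrt_le_left (by norm_num)]; norm_num
      exact mul_le_mul_of_nonneg_right this (by positivity)
    calc (b ζ)⁻¹ * |⟪ζ' - ζ, a ζ⟫ + (t ζ' - t ζ) * b ζ|
        ≤ 2 * (128 * M * (2 * (Real.sqrt d / Real.sqrt r)) * (2 * d)) := by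
          refine mul_le_mul h4 (h3.trans ?_) (abs_nonneg _) (by norm_num)
          gcongr
      _ = 1024 * M / Real.sqrt r * d * Real.sqrt d := by ring

end Claimed.Agent.Gmt
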