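import Claimed.Agent.Lib.Gmt.FlGraph3

/-!
THIS FILE = PACKAGE L-GMT-FlGraph4 (part 4 of 5 of the former `FlGraph.lean`, which now only imports the parts; the text below is the plan of the whole former file).
# Lib/Gmt G4.10 (architect: helper190): decay of flatness at all boundary points ⇒ `C^{1,1/2}` graph.
PACKAGES L-GMT-FlGraphA (`fl_camp`, `fl_normal`, `fl_bd_taylor`), L-GMT-FlGraphB (`fl_graph_fun`, `fl_graph_sub`, `fl_graph`).
PURE geometry/measure theory (input: `FlGeo`, `FlCoord`).  No perimeter, no minimality.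

HYPOTHESIS `FlDecay S r r₁ M` (centre `0`, vertical direction `e = gmtEn n`), `r₁ = c r`, `0 < c ≤ 1`, `M ≤ M₀(n,c)` small.
* `fl_camp` (pure calculus).  `|u(ζ') - u(ζ) - ⟪P ζ, ζ'-ζ⟫| ≤ K ‖ζ'-ζ‖ √‖ζ'-ζ‖` for `ζ, ζ' ∈ ball 0 ρ` with `‖ζ-ζ'‖ < d`.  Then `HasFDerivAt u (inner (P ζ)) ζ` (little-o), and for `h = ‖ζ-ζ'‖ < d/2`... :
  for a unit vector `w` put `ζ'' = ζ' ± h w`, with the sign such that `ζ'' ∈ ball 0 ρ` [`‖ζ' + σ h w‖² = ‖ζ'‖² + 2σh⟪ζ',w⟫ + h²`: this may leave the ball; use instead `ζ'' = ζ' + h w'` where `w' = (w - ζ'/ρ)/2`-type inward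
  perturbations, or SIMPLER: state the Taylor hypothesis on `ball 0 (2ρ)`-pairs and conclude on `ball 0 ρ` with `h < ρ/2`.  This is what the statement below does: hypothesis on `ball 0 ρ'`, conclusion on `ball 0 ρ`, `ρ + d ≤ ρ'`].
  Three expansions (at `ζ`: points `ζ'`, `ζ''`; at `ζ'`: point `ζ''`): `|⟪P ζ - P ζ', h w⟫| ≤ K h√h (2√2 + 2)`, so `‖P ζ - P ζ'‖ ≤ 5 K √h` for `2h < d`.
* `fl_normal`.  Fix `z`.  `s_j = 2^{-j} r₁`, `e_j` from `dec`.  `fl_flat_compare`: `‖e_j - e_{j+1}‖ ≤ 8 M √(s_j/r)`; Cauchy (`cauchySeq_of_le_geometric` with ratio `1/√2`), limit `e_z`, `‖e_j - e_z‖ ≤ 28 M √(s_j/r)`, `‖e_z‖ = 1`, `‖e_z - e‖ ≤ M` (closed conditions).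
  For `s ∈ (s_{j+1}, s_j]`: `FlFlat.shrink` (factor `≤ 2`), `FlFlat.tilt`, `s_j ≤ 2s`: flatness `≤ (2√2 + 28√2) M √(s/r) ≤ 45 M √(s/r)`.
* `fl_bd_taylor`.  `z, z' ∈ gmtBd S ∩ ball 0 (r/2)`, `0 < ‖z'-z‖`, `s = 2‖z'-z‖ ≤ r₁`: `FlFlat.bd_slab` with `e_z`: `|⟪z'-z, e_z⟫| ≤ 45 M √(s/r) s`.
* `fl_graph_fun`.  For `ζ ∈ ball 0 (r/4)`: existence of `t`, `|t| ≤ M r`, `(ζ,t) ∈ gmtBd S`: `FlFlat.exists_bd` (`p = flInc n ζ`).  Uniqueness among ALL `|t| < r/4`: `bd_slab` gives `|t| ≤ M r`; two points `z = (ζ,t)`, `z' = (ζ,t')`: `‖z-z'‖ = |t-t'| ≤ 2Mr ≤ r₁/2`,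
  `⟪z'-z,e_z⟫ = (t'-t) ⟪e,e_z⟫`, `⟪e,e_z⟫ ≥ 1/2`, so `|t'-t|/2 ≤ 45 M √(4M) · 2|t'-t|`: `t = t'` for `M` small.  `u ζ :=` this `t` (choice; `0` off the ball).
  Lipschitz/Taylor: write `e_z = (a_z, b_z)` (`a_z = gmtHor e_z`, `b_z = gmtVer e_z ≥ 1/2`, `‖a_z‖ ≤ M`), `P ζ = -(1/b_z) a_z`, `‖P ζ‖ ≤ 2M`.  For `ζ,ζ'` with `‖ζ-ζ'‖ ≤ r₁/8`:
  `⟪z'-z,e_z⟫ = ⟪ζ'-ζ,a_z⟫ + (u ζ' - u ζ) b_z`.  First `|u ζ' - u ζ| ≤ ‖ζ'-ζ‖` [from `|u ζ'-u ζ| b_z ≤ M‖ζ'-ζ‖ + 45 M·√.. ·2(‖ζ'-ζ‖ + |u ζ'-u ζ|)`, valid when `s = 2‖z'-z‖ ≤ r₁`; to know this a priori use `|uζ' - uζ| ≤ 2Mr ≤ r₁/8`, so `‖z'-z‖ ≤ r₁/4`],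
  then `‖z'-z‖ ≤ 2‖ζ'-ζ‖`, `s ≤ 4‖ζ'-ζ‖` and `|u ζ' - u ζ - ⟪P ζ, ζ'-ζ⟫| ≤ 2·45 M √(4‖ζ'-ζ‖/r) 4‖ζ'-ζ‖`.
* `fl_graph_sub`.  `Cyl = {‖z‖ < ρ, |t| < ρ}`, `ρ = r/4`; `W⁺ = Cyl ∩ {t > u z}`, `W⁻ = Cyl ∩ {t < u z}` are open (`u` continuous on the ball), contain no boundary point, and are preconnected (each point is joined inside `W⁺` by a vertical segment to height `ρ/2 > M r`, and
  `{‖z‖<ρ} × {ρ/2}` is convex: `IsPreconnected` via `isPreconnected_of_forall_pair`).  `fl_constancy` + `flat` (the part `t > M r` of `W⁺` has positive measure and is outside `S`).  The graph is a null set (Fubini `fl_ae_join`: each vertical line meets it in one point).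
* `fl_graph`: assemble with `fl_camp`; for `‖ζ-ζ'‖ ≥ d/2`, `d = r₁/8`: `‖P ζ - P ζ'‖ ≤ 4M ≤ 4M √(16‖ζ-ζ'‖/(c r))`.
-/

set_option autoImplicit false
open scoped ContDiff ENNReal RealInnerProductSpace
open MeasureTheory Metric Set

namespace Claimed.Agent.Gmt

variable {n : ℕ}

theorem fl_isOpen_horBall (ρ : ℝ) : IsOpen {y : E (n + 1) | ‖gmtHor y‖ < ρ} :=
  isOpen_lt fl_continuous_hor.norm continuous_const

theorem fl_continuousOn_graphFn {u : E n → ℝ} {ρ : ℝ} (hu : ContinuousOn u (ball 0 ρ)) :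
    ContinuousOn (fun y : E (n + 1) => gmtVer y - u (gmtHor y)) {y : E (n + 1) | ‖gmtHor y‖ < ρ} := by
  refine fl_continuous_ver.continuousOn.sub (hu.comp fl_continuous_hor.continuousOn ?_)
  intro y hy
  simpa using hy

/-- a graph is a null set. -/
theorem fl_graph_null {u : E n → ℝ} {ρ : ℝ} (hu : ContinuousOn u (ball 0 ρ)) :
    ∀ᵐ y : E (n + 1), ‖gmtHor y‖ < ρ → gmtVer y ≠ u (gmtHor y) := by
  set G : Set (E (n + 1)) := {y | ‖gmtHor y‖ < ρ ∧ gmtVer y = u (gmtHor y)} with hG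
  have hGm : MeasurableSet G := by
    have h1 : IsOpen ({y : E (n + 1) | ‖gmtHor y‖ < ρ} ∩
        (fun y : E (n + 1) => gmtVer y - u (gmtHor y)) ⁻¹' {0}ᶜ) :=
      (fl_continuousOn_graphFn hu).isOpen_inter_preimage (fl_isOpen_horBall ρ)
        isOpen_compl_singleton
    have h2 : G = {y : E (n + 1) | ‖gmtHor y‖ < ρ} \ ({y : E (n + 1) | ‖gmtHor y‖ < ρ} ∩
        (fun y : E (n + 1) => gmtVer y - u (gmtHor y)) ⁻¹' {0}ᶜ) := by
      ext y
      simp only [hG, mem_ofPred_eq, mem_sdiff, mem_inter_iff, mem_preimage, mem_compl_iff,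
        mem_singleton_iff, not_and, not_not, sub_eq_zero]
      constructor
      · rintro ⟨a, b⟩; exact ⟨a, fun _ => b⟩
      · rintro ⟨a, b⟩; exact ⟨a, b a⟩
    rw [h2]
    exact (fl_isOpen_horBall ρ).measurableSet.diff h1.measurableSet
  have hvol : volume G = 0 := by
    rw [← lintegral_indicator_one hGm, fl_lintegral_join (measurable_one.indicator hGm)]
    have : ∀ z : E n, ∫⁻ t : ℝ, G.indicator 1 (gmtJoin z t) = 0 := by
      intro z
      have h1 : (fun t : ℝ => G.indicator (1 : E (n + 1) → ℝ≥0∞) (gmtJoin z t)) ≤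
          ({u z} : Set ℝ).indicator 1 := by
        intro t
        show G.indicator (1 : E (n + 1) → ℝ≥0∞) (gmtJoin z t) ≤ ({u z} : Set ℝ).indicator 1 t
        by_cases ht : gmtJoin z t ∈ G
        · have : t = u z := by
            have := ht.2; rwa [fl_ver_join, fl_hor_join] at this
          rw [indicator_of_mem ht, indicator_of_mem (by rw [this]; rfl)]
          exact le_rfl
        · rw [indicator_of_notMem ht]; exact zero_le
      have h2 := lintegral_mono (μ := (volume : Measure ℝ)) h1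
      rw [lintegral_indicator_one (measurableSet_singleton _)] at h2
      simpa using h2
    simp [this]
  rw [ae_iff]
  rw [← nonpos_iff_eq_zero, ← hvol]
  apply measure_mono
  intro y hy
  simp only [mem_ofPred_eq, Classical.not_imp, not_not] at hy
  exact hy


/-- the part of the cylinder above (`σ = 1`) or below (`σ = -1`) the graph is preconnected. -/
theorem fl_gs_preconnected {u : E n → ℝ} {ρ b : ℝ} (hb : b < ρ)
    (hu : ContinuousOn u (ball 0 ρ)) (hub : ∀ ζ ∈ ball (0 : E n) ρ, |u ζ| ≤ b) :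
    IsPreconnected {y : E (n + 1) | ‖gmtHor y‖ < ρ ∧ |gmtVer y| < ρ ∧ u (gmtHor y) < gmtVer y} ∧
    IsPreconnected {y : E (n + 1) | ‖gmtHor y‖ < ρ ∧ |gmtVer y| < ρ ∧ gmtVer y < u (gmtHor y)} := by
  have hD : IsPreconnected (ball (0 : E n) ρ ×ˢ Ioo (0 : ℝ) 1) :=
    ((convex_ball _ _).isPreconnected).prod (convex_Ioo _ _).isPreconnected
  have hu1 : ContinuousOn (fun p : E n × ℝ => u p.1) (ball (0 : E n) ρ ×ˢ Ioo (0 : ℝ) 1) :=
    hu.comp continuous_fst.continuousOn (fun p hp => hp.1)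
  constructor
  · have hΦ : ContinuousOn (fun p : E n × ℝ => gmtJoin p.1 (u p.1 + p.2 * (ρ - u p.1)))
        (ball (0 : E n) ρ ×ˢ Ioo (0 : ℝ) 1) := by
      have h1 : ContinuousOn (fun p : E n × ℝ => ((p.1, u p.1 + p.2 * (ρ - u p.1)) : E n × ℝ))
          (ball (0 : E n) ρ ×ˢ Ioo (0 : ℝ) 1) :=
        continuous_fst.continuousOn.prodMk
          (hu1.add (continuous_snd.continuousOn.mul (continuousOn_const.sub hu1)))
      exact fl_continuous_join.comp_continuousOn h1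
    have := hD.image _ hΦ
    convert this using 1
    ext y
    simp only [mem_ofPred_eq, mem_image, mem_prod, mem_ball, dist_zero_right, mem_Ioo, Prod.exists]
    constructor
    · rintro ⟨h1, h2, h3⟩
      have h4 := (abs_lt.1 h2).2
      have h5 : 0 < ρ - u (gmtHor y) := by linarith
      refine ⟨gmtHor y, (gmtVer y - u (gmtHor y)) / (ρ - u (gmtHor y)), ⟨h1, by
        apply div_pos <;> linarith, by rw [div_lt_one h5]; linarith⟩, ?_⟩
      rw [div_mul_cancel₀ _ h5.ne', add_sub_cancel, fl_join_hor_ver]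
    · rintro ⟨ζ, σ, ⟨h1, h2, h3⟩, rfl⟩
      have h4 := abs_le.1 (hub ζ (by simpa using h1))
      have h5 : 0 < ρ - u ζ := by linarith [h4.2]
      rw [fl_hor_join, fl_ver_join]
      refine ⟨h1, abs_lt.2 ⟨by nlinarith [h4.1], by nlinarith⟩, by nlinarith⟩
  · have hΦ : ContinuousOn (fun p : E n × ℝ => gmtJoin p.1 (u p.1 - p.2 * (ρ + u p.1)))
        (ball (0 : E n) ρ ×ˢ Ioo (0 : ℝ) 1) := by
      have h1 : ContinuousOn (fun p : E n × ℝ => ((p.1, u p.1 - p.2 * (ρ + u p.1)) : E n × ℝ))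
          (ball (0 : E n) ρ ×ˢ Ioo (0 : ℝ) 1) :=
        continuous_fst.continuousOn.prodMk
          (hu1.sub (continuous_snd.continuousOn.mul (continuousOn_const.add hu1)))
      exact fl_continuous_join.comp_continuousOn h1
    have := hD.image _ hΦ
    convert this using 1
    ext y
    simp only [mem_ofPred_eq, mem_image, mem_prod, mem_ball, dist_zero_right, mem_Ioo, Prod.exists]
    constructor
    · rintro ⟨h1, h2, h3⟩
      have h4 := (abs_lt.1 h2).1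
      have h5 : 0 < ρ + u (gmtHor y) := by linarith
      refine ⟨gmtHor y, (u (gmtHor y) - gmtVer y) / (ρ + u (gmtHor y)), ⟨h1, by
        apply div_pos <;> linarith, by rw [div_lt_one h5]; linarith⟩, ?_⟩
      rw [div_mul_cancel₀ _ h5.ne', sub_sub_cancel, fl_join_hor_ver]
    · rintro ⟨ζ, σ, ⟨h1, h2, h3⟩, rfl⟩
      have h4 := abs_le.1 (hub ζ (by simpa using h1))
      have h5 : 0 < ρ + u ζ := by linarith [h4.1]
      rw [fl_hor_join, fl_ver_join]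
      refine ⟨h1, abs_lt.2 ⟨by nlinarith, by nlinarith [h4.2]⟩, by nlinarith⟩

/-- a set whose boundary in a cylinder is a continuous graph, lying below at the bottom, is the subgraph. -/
theorem fl_graph_sub {S : Set (E (n + 1))} {u : E n → ℝ} {ρ b : ℝ} (hρ : 0 < ρ) (hb : b < ρ)
    (hu : ContinuousOn u (ball 0 ρ)) (hub : ∀ ζ ∈ ball (0 : E n) ρ, |u ζ| ≤ b)
    (hbd : ∀ y : E (n + 1), ‖gmtHor y‖ < ρ → |gmtVer y| < ρ →
      (y ∈ gmtBd S ↔ gmtVer y = u (gmtHor y)))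
    (hlow : ∀ᵐ y : E (n + 1), ‖gmtHor y‖ < ρ → |gmtVer y| < ρ → gmtVer y < -b → y ∈ S)
    (hup : ∀ᵐ y : E (n + 1), ‖gmtHor y‖ < ρ → |gmtVer y| < ρ → b < gmtVer y → y ∉ S) :
    ∀ᵐ y : E (n + 1), ‖gmtHor y‖ < ρ → |gmtVer y| < ρ → (y ∈ S ↔ gmtVer y < u (gmtHor y)) := by
  have hb0 : 0 ≤ b := (abs_nonneg _).trans (hub 0 (mem_ball_self hρ))
  obtain ⟨hc1, hc2⟩ := fl_gs_preconnected hb hu hub
  have hF := fl_continuousOn_graphFn hu
  have hOv : IsOpen {y : E (n + 1) | |gmtVer y| < ρ} := isOpen_lt fl_continuous_ver.abs continuous_const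
  -- openness
  have ho1 : IsOpen {y : E (n + 1) | ‖gmtHor y‖ < ρ ∧ |gmtVer y| < ρ ∧ u (gmtHor y) < gmtVer y} := by
    have h1 := (hF.isOpen_inter_preimage (fl_isOpen_horBall ρ) (isOpen_Ioi (a := (0 : ℝ)))).inter hOv
    convert h1 using 1
    ext y
    simp only [mem_ofPred_eq, mem_inter_iff, mem_preimage, mem_Ioi, sub_pos]
    tauto
  have ho2 : IsOpen {y : E (n + 1) | ‖gmtHor y‖ < ρ ∧ |gmtVer y| < ρ ∧ gmtVer y < u (gmtHor y)} := by
    have h1 := (hF.isOpen_inter_preimage (fl_isOpen_horBall ρ) (isOpen_Iio (a := (0 : ℝ)))).inter hOv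
    convert h1 using 1
    ext y
    simp only [mem_ofPred_eq, mem_inter_iff, mem_preimage, mem_Iio, sub_neg]
    tauto
  -- no boundary points
  have hd1 : Disjoint {y : E (n + 1) | ‖gmtHor y‖ < ρ ∧ |gmtVer y| < ρ ∧ u (gmtHor y) < gmtVer y}
      (gmtBd S) := by
    rw [Set.disjoint_left]
    rintro y ⟨h1, h2, h3⟩ hy
    have := (hbd y h1 h2).1 hy
    linarith
  have hd2 : Disjoint {y : E (n + 1) | ‖gmtHor y‖ < ρ ∧ |gmtVer y| < ρ ∧ gmtVer y < u (gmtHor y)}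
      (gmtBd S) := by
    rw [Set.disjoint_left]
    rintro y ⟨h1, h2, h3⟩ hy
    have := (hbd y h1 h2).1 hy
    linarith
  -- the two test regions have positive measure
  have hV1 : 0 < volume {y : E (n + 1) | ‖gmtHor y‖ < ρ ∧ |gmtVer y| < ρ ∧ b < gmtVer y} := by
    have ho : IsOpen {y : E (n + 1) | ‖gmtHor y‖ < ρ ∧ |gmtVer y| < ρ ∧ b < gmtVer y} :=
      (fl_isOpen_horBall ρ).inter (hOv.inter (isOpen_lt continuous_const fl_continuous_ver))
    refine ho.measure_pos _ ⟨gmtJoin 0 ((b + ρ) / 2), ?_⟩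
    simp only [mem_ofPred_eq, fl_hor_join, fl_ver_join, norm_zero]
    exact ⟨hρ, abs_lt.2 ⟨by linarith, by linarith⟩, by linarith⟩
  have hV2 : 0 < volume {y : E (n + 1) | ‖gmtHor y‖ < ρ ∧ |gmtVer y| < ρ ∧ gmtVer y < -b} := by
    have ho : IsOpen {y : E (n + 1) | ‖gmtHor y‖ < ρ ∧ |gmtVer y| < ρ ∧ gmtVer y < -b} :=
      (fl_isOpen_horBall ρ).inter (hOv.inter (isOpen_lt fl_continuous_ver continuous_const))
    refine ho.measure_pos _ ⟨gmtJoin 0 (-((b + ρ) / 2)), ?_⟩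
    simp only [mem_ofPred_eq, fl_hor_join, fl_ver_join, norm_zero]
    exact ⟨hρ, abs_lt.2 ⟨by linarith, by linarith⟩, by linarith⟩
  -- above the graph
  have hA : ∀ᵐ y : E (n + 1), y ∈ {y : E (n + 1) | ‖gmtHor y‖ < ρ ∧ |gmtVer y| < ρ ∧
      u (gmtHor y) < gmtVer y} → y ∉ S := by
    rcases fl_constancy ho1 hc1 hd1 with h | h
    · exfalso
      have : ∀ᵐ y : E (n + 1), y ∉ {y : E (n + 1) | ‖gmtHor y‖ < ρ ∧ |gmtVer y| < ρ ∧ b < gmtVer y} := by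
        filter_upwards [h, hup] with y a1 a2 a3
        have a4 := (abs_le.1 (hub (gmtHor y) (by simpa using a3.1))).2
        exact a2 a3.1 a3.2.1 a3.2.2 (a1 ⟨a3.1, a3.2.1, by linarith [a3.2.2]⟩)
      have h0 : volume {y : E (n + 1) | ‖gmtHor y‖ < ρ ∧ |gmtVer y| < ρ ∧ b < gmtVer y} = 0 := by
        have := ae_iff.1 this
        simpa using this
      exact hV1.ne' h0
    · exact h
  have hB : ∀ᵐ y : E (n + 1), y ∈ {y : E (n + 1) | ‖gmtHor y‖ < ρ ∧ |gmtVer y| < ρ ∧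
      gmtVer y < u (gmtHor y)} → y ∈ S := by
    rcases fl_constancy ho2 hc2 hd2 with h | h
    · exact h
    · exfalso
      have : ∀ᵐ y : E (n + 1), y ∉ {y : E (n + 1) | ‖gmtHor y‖ < ρ ∧ |gmtVer y| < ρ ∧ gmtVer y < -b} := by
        filter_upwards [h, hlow] with y a1 a2 a3
        have a4 := (abs_le.1 (hub (gmtHor y) (by simpa using a3.1))).1
        exact a1 ⟨a3.1, a3.2.1, by linarith [a3.2.2]⟩ (a2 a3.1 a3.2.1 a3.2.2)
      have h0 : volume {y : E (n + 1) | ‖gmtHor y‖ < ρ ∧ |gmtVer y| < ρ ∧ gmtVer y < -b} = 0 := by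
        have := ae_iff.1 this
        simpa using this
      exact hV2.ne' h0
  filter_upwards [hA, hB, fl_graph_null hu] with y a1 a2 a3 h1 h2
  constructor
  · intro hy
    by_contra hcon
    rw [not_lt] at hcon
    rcases hcon.lt_or_eq with h | h
    · exact a1 ⟨h1, h2, h⟩ hy
    · exact a3 h1 h.symm
  · intro hy
    exact a2 ⟨h1, h2, hy⟩

end Claimed.Agent.Gmt
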