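import Claimed.Agent.Lib.Gmt.FlGraph4

/-!
THIS FILE = PACKAGE L-GMT-FlGraph5 (part 5 of 5 of the former `FlGraph.lean`, which now only imports the parts; the text below is the plan of the whole former file).
# Lib/Gmt G4.10 (architect: helper190): decay of flatness at all boundary points ⇒ `C^{1,1/2}` graph.
PACKAGES L-GMT-FlGraphA (`fl_camp`, `fl_normal`, `fl_bd_taylor`), L-GMT-FlGraphB (`fl_graph_fun`, `fl_graph_sub`, `fl_graph`).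
PURE geometry/measure theory (input: `FlGeo`, `FlCoord`).  No perimeter, no minimality.

HYPOTHESIS `FlDecay S r r₁ M` (centre `0`, vertical direction `e = gmtEn n`), `r₁ = c r`, `0 < c ≤ 1`, `M ≤ M₀(n,c)` small.
* `fl_camp` (pure calculus).  `|u(ζ') - u(ζ) - ⟪P ζ, ζ'-ζ⟫| ≤ K ‖ζ'-ζ‖ √‖ζ'-ζ‖` for `ζ, ζ' ∈ ball 0 ρ` with `‖ζ-ζ'‖ < d`.  Then `HasFDerivAt u (inner (P ζ)) ζ` (little-o), and for `h = ‖ζ-ζ'‖ < d/2`... :
  for a unit vector `w` put `ζ'' = ζ' ± h w`, with the sign such that `ζ'' ∈ ball 0 ρ` [`‖ζ' + σ h w‖² = ‖ζ'‖² + 2σh⟪ζ',w⟫ + h²`: this may leave the ball; use instead `ζ'' = ζ' + h w'` where `w' = (w - ζ'/ρ)/2`-type inward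
  perturbations, or SIMPLER: state the Taylor hypothesis on `ball 0 (2ρ)`-pairs and conclude on `ball 0 ρ` with `h < ρ/2`.  This is what the statement below does: hypothesis on `ball 0 ρ'`, conclusion on `ball 0 ρ`, `ρ + d ≤ ρ'`].
  Three expansions (at `ζ`: points `ζ'`, `ζ''`; at `ζ'`: point `ζ''`): `|⟪P ζ - P ζ', h w⟫| ≤ K h√h (2√2 + 2)`, so `‖P ζ - P ζ'‖ ≤ 5 K √h` for `2h < d`.
* `fl_normal`.  Fix `z`.  `s_j = 2^{-j} r₁`, `e_j` from `dec`.  `fl_flat_compare`: `‖e_j - e_{j+1}‖ ≤ 8 M √(s_j/r)`; Cauchy (`cauchySeq_of_le_geometric` with ratio `1/√2`), limit `e_z`, `‖e_j - e_z‖ ≤ 28 M √(s_j/r)`, `‖e_z‖ = 1`, `‖e_z - e‖ ≤ M` (closed conditions).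
  For `s ∈ (s_{j+1}, s_j]`: `FlFlat.shrink` (factor `≤ 2`), `FlFlat.tilt`, `s_j ≤ 2s`: flatness `≤ (2√2 + 28√2) M √(s/r) ≤ 45 M √(s/r)`.
* `fl_bd_taylor`.  `z, z' ∈ gmtBd S ∩ ball 0 (r/2)`, `0 < ‖z'-z‖`, `s = 2‖z'-z‖ ≤ r₁`: `FlFlat.bd_slab` with `e_z`: `|⟪z'-z, e_z⟫| ≤ 45 M √(s/r) s`.
* `fl_graph_fun`.  For `ζ ∈ ball 0 (r/4)`: existence of `t`, `|t| ≤ M r`, `(ζ,t) ∈ gmtBd S`: `FlFlat.exists_bd` (`p = flInc n ζ`).  Uniqueness among ALL `|t| < r/4`: `bd_slab` gives `|t| ≤ M r`; two points `z = (ζ,t)`, `z' = (ζ,t')`: `‖z-z'‖ = |t-t'| ≤ 2Mr ≤ r₁/2`,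
  `⟪z'-z,e_z⟫ = (t'-t) ⟪e,e_z⟫`, `⟪e,e_z⟫ ≥ 1/2`, so `|t'-t|/2 ≤ 45 M √(4M) · 2|t'-t|`: `t = t'` for `M` small.  `u ζ :=` this `t` (choice; `0` off the ball).
  Lipschitz/Taylor: write `e_z = (a_z, b_z)` (`a_z = gmtHor e_z`, `b_z = gmtVer e_z ≥ 1/2`, `‖a_z‖ ≤ M`), `P ζ = -(1/b_z) a_z`, `‖P ζ‖ ≤ 2M`.  For `ζ,ζ'` with `‖ζ-ζ'‖ ≤ r₁/8`:
  `⟪z'-z,e_z⟫ = ⟪ζ'-ζ,a_z⟫ + (u ζ' - u ζ) b_z`.  First `|u ζ' - u ζ| ≤ ‖ζ'-ζ‖` [from `|u ζ'-u ζ| b_z ≤ M‖ζ'-ζ‖ + 45 M·√.. ·2(‖ζ'-ζ‖ + |u ζ'-u ζ|)`, valid when `s = 2‖z'-z‖ ≤ r₁`; to know this a priori use `|uζ' - uζ| ≤ 2Mr ≤ r₁/8`, so `‖z'-z‖ ≤ r₁/4`],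
  then `‖z'-z‖ ≤ 2‖ζ'-ζ‖`, `s ≤ 4‖ζ'-ζ‖` and `|u ζ' - u ζ - ⟪P ζ, ζ'-ζ⟫| ≤ 2·45 M √(4‖ζ'-ζ‖/r) 4‖ζ'-ζ‖`.
* `fl_graph_sub`.  `Cyl = {‖z‖ < ρ, |t| < ρ}`, `ρ = r/4`; `W⁺ = Cyl ∩ {t > u z}`, `W⁻ = Cyl ∩ {t < u z}` are open (`u` continuous on the ball), contain no boundary point, and are preconnected (each point is joined inside `W⁺` by a vertical segment to height `ρ/2 > M r`, and
  `{‖z‖<ρ} × {ρ/2}` is convex: `IsPreconnected` via `isPreconnected_of_forall_pair`).  `fl_constancy` + `flat` (the part `t > M r` of `W⁺` has positive measure and is outside `S`).  The graph is a null set (Fubini `fl_ae_join`: each vertical line meets it in one point).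
* `fl_graph`: assemble with `fl_camp`; for `‖ζ-ζ'‖ ≥ d/2`, `d = r₁/8`: `‖P ζ - P ζ'‖ ≤ 4M ≤ 4M √(16‖ζ-ζ'‖/(c r))`.
-/

set_option autoImplicit false
open scoped ContDiff ENNReal RealInnerProductSpace
open MeasureTheory Metric Set

namespace Claimed.Agent.Gmt

variable {n : ℕ}

/-- **decay ⇒ `C^{1,1/2}` graph.** -/
theorem fl_graph (n : ℕ) (c : ℝ) (hc : 0 < c) (hc1 : c ≤ 1) : ∃ M₀ C : ℝ, 0 < M₀ ∧ 0 < C ∧
    ∀ (S : Set (E (n + 1))) (r M : ℝ), 0 < r → 0 < M → M ≤ M₀ → FlDecay S r (c * r) M →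
      ∃ u : E n → ℝ, FlGr S u (r / 4) (C * M) := by
  obtain ⟨M₀, C₁, hM₀, hC₁, hfun⟩ := fl_graph_fun n c hc hc1
  have hsc : 0 < Real.sqrt c := Real.sqrt_pos.2 hc
  refine ⟨min M₀ (1 / 8), 4 + 3 * C₁ + 8 / Real.sqrt c, by positivity, by positivity, ?_⟩
  intro S r M hr hM hMM₀ H
  obtain ⟨u, P, h1, h2, h3⟩ := hfun S r M hr hM (hMM₀.trans (min_le_left _ _)) H
  have hM8 : M ≤ 1 / 8 := hMM₀.trans (min_le_right _ _)
  have hsr : 0 < Real.sqrt r := Real.sqrt_pos.2 hr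
  have hsub : ball (0 : E n) (r / 4) ⊆ ball 0 (3 * r / 8) := ball_subset_ball (by linarith)
  obtain ⟨hder, hhol⟩ := fl_camp (u := u) (P := P) (ρ := r / 4) (ρ' := 3 * r / 8) (d := c * r / 8)
    (K := C₁ * M / Real.sqrt r) (by positivity) (by positivity) (by nlinarith) (by positivity) h3
  have hfd : ∀ ζ ∈ ball (0 : E n) (r / 4), fderiv ℝ u ζ = innerSL ℝ (P ζ) := fun ζ hζ =>
    (hder ζ (hsub hζ)).fderiv
  set C : ℝ := 4 + 3 * C₁ + 8 / Real.sqrt c with hCdef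
  have h8c : 0 < 8 / Real.sqrt c := by positivity
  refine ⟨u, ?_, fun ζ hζ => (hder ζ (hsub hζ)).differentiableAt, ?_, ?_, ?_, ?_⟩
  · intro ζ hζ
    refine (h1 ζ (hsub hζ)).1.trans ?_
    have : 4 * M ≤ C * M := mul_le_mul_of_nonneg_right (by rw [hCdef]; linarith) hM.le
    nlinarith
  · intro ζ hζ
    rw [hfd ζ hζ, innerSL_apply_norm]
    refine (h1 ζ (hsub hζ)).2.trans ?_
    exact mul_le_mul_of_nonneg_right (by rw [hCdef]; linarith) hM.le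
  · intro ζ hζ ζ' hζ'
    rw [hfd ζ hζ, hfd ζ' hζ', ← map_sub, innerSL_apply_norm]
    have hd0 : 0 ≤ ‖ζ - ζ'‖ := norm_nonneg _
    have hsq : Real.sqrt (‖ζ - ζ'‖ / (r / 4)) = 2 * (Real.sqrt ‖ζ - ζ'‖ / Real.sqrt r) := by
      have : ‖ζ - ζ'‖ / (r / 4) = 2 ^ 2 * (‖ζ - ζ'‖ / r) := by field_simp; norm_num
      rw [this, Real.sqrt_mul (by norm_num), Real.sqrt_sq (by norm_num), Real.sqrt_div hd0]
    rcases lt_or_ge (2 * ‖ζ' - ζ‖) (c * r / 8) with hlt | hge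
    · have := hhol ζ hζ ζ' hζ' hlt
      rw [norm_sub_rev ζ' ζ] at this
      refine this.trans ?_
      rw [hsq]
      have e1 : 5 * (C₁ * M / Real.sqrt r) * Real.sqrt ‖ζ - ζ'‖ =
          (5 / 2 * C₁) * M * (2 * (Real.sqrt ‖ζ - ζ'‖ / Real.sqrt r)) := by ring
      rw [e1]
      apply mul_le_mul_of_nonneg_right _ (by positivity)
      apply mul_le_mul_of_nonneg_right _ hM.le
      rw [hCdef]; linarith
    · have e1 : ‖P ζ - P ζ'‖ ≤ 4 * M := by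
        refine (norm_sub_le _ _).trans ?_
        have := (h1 ζ (hsub hζ)).2
        have := (h1 ζ' (hsub hζ')).2
        linarith
      rw [norm_sub_rev ζ' ζ] at hge
      have e2 : Real.sqrt c / 2 ≤ Real.sqrt (‖ζ - ζ'‖ / (r / 4)) := by
        apply Real.le_sqrt_of_sq_le
        rw [div_pow, Real.sq_sqrt hc.le, le_div_iff₀ (by positivity)]
        nlinarith
      calc ‖P ζ - P ζ'‖ ≤ 4 * M := e1
        _ = 8 / Real.sqrt c * M * (Real.sqrt c / 2) := by field_simp; norm_num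
        _ ≤ C * M * Real.sqrt (‖ζ - ζ'‖ / (r / 4)) := by
          apply mul_le_mul _ e2 (by positivity) (by positivity)
          apply mul_le_mul_of_nonneg_right _ hM.le
          rw [hCdef]; linarith
  · have hMr : M * r < r / 4 := by nlinarith
    refine fl_graph_sub (b := M * r) (by positivity) hMr ?_ (fun ζ hζ => (h1 ζ (hsub hζ)).1)
      (fun y a1 a2 => h2 y (by linarith) a2) ?_ ?_
    · exact fun ζ hζ => (hder ζ (hsub hζ)).continuousAt.continuousWithinAt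
    · filter_upwards [H.flat.below] with y hy a1 a2 a3
      apply hy
      · exact ball_subset_ball (by linarith) (fl_gf_region hr (by linarith) a2)
      · rwa [sub_zero, ← fl_ver_eq_inner]
    · filter_upwards [H.flat.above] with y hy a1 a2 a3
      apply hy
      · exact ball_subset_ball (by linarith) (fl_gf_region hr (by linarith) a2)
      · rwa [sub_zero, ← fl_ver_eq_inner]
  · exact fun y a1 a2 => h2 y (by linarith) a2

end Claimed.Agent.Gmt
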