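import Claimed.Agent.Lib.Gmt.FlBad

/-!
THIS FILE = PACKAGE L-GMT-FlHeight1 (part 1 of 2 of the former `FlHeight.lean`, which now only imports the parts; the text below is the plan of the whole former file).
# Lib/Gmt G4.4b (architect: helper190): `L²(μ)` height versus `L²(dz)` height (second half of F6).
PACKAGE L-GMT-FlHeight.   Input: `FlUnit`, `FlFlux`, `FlBad`.

`ℓ(z) = a + ⟪p,z⟫`, `L(y) = t - ℓ(z)`, `η = flEta`, `k_c(t) = η(t) (t - c)²`.
* `fl_sl_height` (1-D).  `A` with `FlSl A ε`, `h = flSlH A`, `b = flSlB A`.  `k_c' = 0` for `|t| ≥ 3/4`, `k_c'(t) = 2 (t - c)` for `|t| < 1/2`.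
  `∫_A k_c' = ∫_{A ∩ (-1,1)} k_c' = ∫_{(-1,h)} k_c' + ∫_P k_c' - ∫_Q k_c'`, `P = A ∩ (h,1)`, `Q = (-1,h) \ A`; `∫_{-1}^h k_c' = k_c(h) - k_c(-1) = (h-c)²` (FTC, `|h| ≤ ε ≤ 1/4`);
  a.e. `P ⊆ (h,ε]`, `Q ⊆ [-ε,h)` (`fl_sl_loc`), `|P| = |Q| = b`, so `∫_P k_c' - ∫_Q k_c' = 2 (∫_P t - ∫_Q t) - 2c (|P| - |Q|) = 2 (∫_P t - ∫_Q t) ∈ [2(hb - hb), 2 (εb + εb)] = [0, 4εb]`.
* `fl_height_id`.  Gauss-Green for `T = flVert a₁`, `a₁(y) = φ(z) η(t) (t - ℓ(z))²` (`C¹`, support in `|z| ≤ 1`, `|t| ≤ 3/4`: `fl_vert_test`); `div T = φ(z) k_{ℓ(z)}'(t)` (`fl_vert_div`); Fubini (`fl_integral_join`);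
  right side `∫ a₁ ν_t dμ`; `a₁ = 0` off `C_1`, `η = 1` `μ`-a.e. on `C_1` (`fl_ae_slab`).
* `fl_height`.  `φ = flCut ρ (2ρ)`, `0 ≤ φ ≤ 1`, `= 1` on `ball 0 ρ`, `= 0` off `ball 0 (2ρ)`, `2ρ ≤ 1/2`.
  `∫_{C_ρ} L² dμ ≤ ∫_{C_1} φ L² dμ = ∫_{C_1} φ L² ν_t dμ + ∫_{C_1} φ L² (1 - ν_t) dμ`; first term `= ∫ φ(z) ∫_{S_z} k'_{ℓ(z)} ≤ ∫ φ [(h-ℓ)² + 4 ε b] ≤ ∫_{ball 0 (2ρ)} (h-ℓ)² + 4 ε ∫_{ball 0 (1/2)} b`, `fl_bad`;
  second term: `μ`-a.e. on `C_1 ∩ {φ ≠ 0}`: `|L| ≤ |t| + |a| + |p||z| ≤ ε + |a| + ‖p‖`, and `fl_exc`.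
-/

set_option autoImplicit false
open scoped ContDiff ENNReal RealInnerProductSpace
open MeasureTheory Metric Set

namespace Claimed.Agent.Gmt

variable {n : ℕ}

/-- `k_c(t) = η(t) (t-c)²`. -/
noncomputable def flK (c t : ℝ) : ℝ := flEta t * (t - c) ^ 2

theorem fl_K_hasDeriv (c t : ℝ) :
    HasDerivAt (flK c) (deriv flEta t * (t - c) ^ 2 + flEta t * (2 * (t - c))) t := by
  have h1 : HasDerivAt flEta (deriv flEta t) t :=
    (fl_eta_props.1.differentiable (by simp) t).hasDerivAt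
  have h2 : HasDerivAt (fun s : ℝ => (s - c) ^ 2) (2 * (t - c)) t := by
    have := ((hasDerivAt_id t).sub_const c).fun_pow 2
    simpa using this
  exact h1.mul h2

theorem fl_K_eta_deriv_far {t : ℝ} (ht : 3 / 4 ≤ |t|) : deriv flEta t = 0 := by
  have h0 := fl_eta_props.2.2.2 t ht
  have : IsLocalMin flEta t :=
    Filter.Eventually.of_forall fun s => by rw [h0]; exact (fl_eta_props.2.1 s).1
  exact this.deriv_eq_zero

theorem fl_K_props (c : ℝ) : ContDiff ℝ ∞ (flK c) ∧ (∀ t, 3 / 4 ≤ |t| → flK c t = 0 ∧ deriv (flK c) t = 0) ∧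
    (∀ t, |t| < 1 / 2 → flK c t = (t - c) ^ 2 ∧ deriv (flK c) t = 2 * (t - c)) := by
  refine ⟨fl_eta_props.1.mul (by fun_prop), fun t ht => ⟨?_, ?_⟩, fun t ht => ⟨?_, ?_⟩⟩
  · show flEta t * (t - c) ^ 2 = 0
    rw [fl_eta_props.2.2.2 t ht, zero_mul]
  · rw [(fl_K_hasDeriv c t).deriv, fl_K_eta_deriv_far ht, fl_eta_props.2.2.2 t ht]; ring
  · show flEta t * (t - c) ^ 2 = (t - c) ^ 2
    rw [fl_eta_props.2.2.1 t ht.le, one_mul]
  · rw [(fl_K_hasDeriv c t).deriv, fl_eta_deriv ht, fl_eta_props.2.2.1 t ht.le]; ring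

theorem fl_slh_bd {P : Set ℝ} (hP : MeasurableSet P) (hfin : volume P ≠ ⊤) {k : ℝ → ℝ}
    (hk : Integrable k) {a b : ℝ} (hle : ∀ᵐ t : ℝ, t ∈ P → a ≤ k t ∧ k t ≤ b) :
    a * (volume P).toReal ≤ ∫ t in P, k t ∧ ∫ t in P, k t ≤ b * (volume P).toReal := by
  have h1 : ∀ᵐ t ∂(volume.restrict P), a ≤ k t ∧ k t ≤ b := (ae_restrict_iff' hP).2 hle
  have hc : ∀ x : ℝ, Integrable (fun _ : ℝ => x) (volume.restrict P) := fun x =>
    integrableOn_const hfin
  have hi : ∀ x : ℝ, ∫ _ in P, x = x * (volume P).toReal := fun x => by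
    rw [setIntegral_const, smul_eq_mul, mul_comm]; rfl
  constructor
  · rw [← hi a]
    exact integral_mono_ae (hc a) hk.integrableOn (h1.mono fun t ht => ht.1)
  · rw [← hi b]
    exact integral_mono_ae hk.integrableOn (hc b) (h1.mono fun t ht => ht.2)

theorem fl_sl_height {A : Set ℝ} {ε : ℝ} (h : FlSl A ε) (h0 : 0 < ε) (h1 : ε ≤ 1 / 4) (c : ℝ) :
    (flSlH A - c) ^ 2 ≤ ∫ t in A, deriv (flK c) t ∧
      ∫ t in A, deriv (flK c) t ≤ (flSlH A - c) ^ 2 + 4 * ε * flSlB A := by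
  have hHabs := fl_sl_H_abs h h0 h1
  have hBeq := fl_sl_B_eq h h0 h1
  have hloc := fl_sl_loc h h0 h1
  have hB0 := fl_sl_B_nonneg A
  have hBdef : (volume (A ∩ Ioo (flSlH A) 1)).toReal = flSlB A := rfl
  obtain ⟨hh, hhdef⟩ : ∃ x, x = flSlH A := ⟨_, rfl⟩
  obtain ⟨b, hbdef⟩ : ∃ x, x = flSlB A := ⟨_, rfl⟩
  rw [← hhdef] at hHabs hBeq hloc hBdef ⊢
  rw [← hbdef] at hBeq hB0 hBdef ⊢
  obtain ⟨k, hkdef⟩ : ∃ k, k = deriv (flK c) := ⟨_, rfl⟩
  rw [← hkdef]
  have hh1 := (abs_le.1 hHabs).1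
  have hh2 := (abs_le.1 hHabs).2
  have hkc : Continuous k := by rw [hkdef]; exact (fl_K_props c).1.continuous_deriv (by simp)
  have hk0 : ∀ t, 3 / 4 ≤ |t| → k t = 0 := fun t ht => by
    rw [hkdef]; exact ((fl_K_props c).2.1 t ht).2
  have hk1 : ∀ t, |t| < 1 / 2 → k t = 2 * (t - c) := fun t ht => by
    rw [hkdef]; exact ((fl_K_props c).2.2 t ht).2
  have hki : Integrable k := by
    refine hkc.integrable_of_hasCompactSupport
      (HasCompactSupport.intro (isCompact_Icc (a := (-1 : ℝ)) (b := 1)) fun t ht => hk0 t ?_)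
    by_contra hc
    rw [not_le, abs_lt] at hc
    exact ht ⟨by linarith [hc.1], by linarith [hc.2]⟩
  obtain ⟨P, hPdef⟩ : ∃ P, P = A ∩ Ioo hh 1 := ⟨_, rfl⟩
  obtain ⟨Q, hQdef⟩ : ∃ Q, Q = Ioo (-1 : ℝ) hh \ A := ⟨_, rfl⟩
  rw [← hPdef, ← hQdef] at hloc
  rw [← hPdef] at hBdef
  rw [← hQdef] at hBeq
  have hPm : MeasurableSet P := by rw [hPdef]; exact h.meas.inter measurableSet_Ioo
  have hQm : MeasurableSet Q := by rw [hQdef]; exact measurableSet_Ioo.diff h.meas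
  have hPf : volume P ≠ ⊤ := by
    rw [hPdef]
    exact (lt_of_le_of_lt (measure_mono inter_subset_right) measure_Ioo_lt_top).ne
  have hQf : volume Q ≠ ⊤ := by
    rw [hQdef]
    exact (lt_of_le_of_lt (measure_mono sdiff_subset) measure_Ioo_lt_top).ne
  have hdec : ∀ᵐ t : ℝ, A.indicator k t =
      (Ioo (-1 : ℝ) hh).indicator k t + P.indicator k t - Q.indicator k t := by
    have hne : ∀ᵐ t : ℝ, t ≠ hh := by
      have : volume ({hh} : Set ℝ) = 0 := Real.volume_singleton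
      filter_upwards [measure_eq_zero_iff_ae_notMem.1 this] with t ht
      simpa using ht
    filter_upwards [hne] with t ht
    by_cases hI : t ∈ Ioo (-1 : ℝ) 1
    · rcases lt_or_gt_of_ne ht with hlt | hgt
      · have m1 : t ∈ Ioo (-1 : ℝ) hh := ⟨hI.1, hlt⟩
        have m2 : t ∉ P := fun hp => by
          rw [hPdef] at hp
          exact absurd hp.2.1 (not_lt.2 hlt.le)
        by_cases hA : t ∈ A
        · have m3 : t ∉ Q := fun hq => by
            rw [hQdef] at hq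
            exact hq.2 hA
          rw [indicator_of_mem hA, indicator_of_mem m1, indicator_of_notMem m2,
            indicator_of_notMem m3]; ring
        · have m3 : t ∈ Q := by rw [hQdef]; exact ⟨m1, hA⟩
          rw [indicator_of_notMem hA, indicator_of_mem m1, indicator_of_notMem m2,
            indicator_of_mem m3]; ring
      · have m1 : t ∉ Ioo (-1 : ℝ) hh := fun hm => absurd hm.2 (not_lt.2 hgt.le)
        have m3 : t ∉ Q := fun hq => by
          rw [hQdef] at hq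
          exact m1 hq.1
        by_cases hA : t ∈ A
        · have m2 : t ∈ P := by rw [hPdef]; exact ⟨hA, hgt, hI.2⟩
          rw [indicator_of_mem hA, indicator_of_notMem m1, indicator_of_mem m2,
            indicator_of_notMem m3]; ring
        · have m2 : t ∉ P := fun hp => by
            rw [hPdef] at hp
            exact hA hp.1
          rw [indicator_of_notMem hA, indicator_of_notMem m1, indicator_of_notMem m2,
            indicator_of_notMem m3]; ring
    · have hk : k t = 0 := hk0 t (by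
        by_contra hc
        rw [not_le, abs_lt] at hc
        exact hI ⟨by linarith [hc.1], by linarith [hc.2]⟩)
      have e : ∀ s : Set ℝ, s.indicator k t = 0 := fun s => by
        by_cases hs : t ∈ s
        · rw [indicator_of_mem hs, hk]
        · rw [indicator_of_notMem hs]
      rw [e, e, e, e]; ring
  have hsplit : ∫ t in A, k t = (∫ t in Ioo (-1 : ℝ) hh, k t) + (∫ t in P, k t) - ∫ t in Q, k t := by
    have i1 : Integrable ((Ioo (-1 : ℝ) hh).indicator k) := hki.indicator measurableSet_Ioo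
    have i2 : Integrable (P.indicator k) := hki.indicator hPm
    have i3 : Integrable (Q.indicator k) := hki.indicator hQm
    have i12 : Integrable (fun t => (Ioo (-1 : ℝ) hh).indicator k t + P.indicator k t) := i1.add i2
    rw [← integral_indicator h.meas, integral_congr_ae hdec, integral_sub i12 i3,
      integral_add i1 i2,
      integral_indicator measurableSet_Ioo, integral_indicator hPm, integral_indicator hQm]
  have hF : ∫ t in Ioo (-1 : ℝ) hh, k t = (hh - c) ^ 2 := by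
    rw [← integral_Ioc_eq_integral_Ioo, ← intervalIntegral.integral_of_le (by linarith), hkdef,
      intervalIntegral.integral_deriv_eq_sub
        (fun t _ => ((fl_K_props c).1.differentiable (by simp)) t)
        ((hkdef ▸ hkc).intervalIntegrable _ _),
      ((fl_K_props c).2.2 hh (lt_of_le_of_lt hHabs (by linarith))).1,
      ((fl_K_props c).2.1 (-1) (by norm_num)).1]
    ring
  have hPb := fl_slh_bd hPm hPf hki (a := 2 * (hh - c)) (b := 2 * (ε - c)) (by
    filter_upwards [measure_eq_zero_iff_ae_notMem.1 hloc.1] with t ht htP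
    have hm : t ∈ Ioc hh ε := by
      by_contra hc
      exact ht ⟨htP, hc⟩
    rw [hk1 t (by rw [abs_lt]; constructor <;> linarith [hm.1, hm.2])]
    constructor <;> linarith [hm.1, hm.2])
  have hQb := fl_slh_bd hQm hQf hki (a := 2 * (-ε - c)) (b := 2 * (hh - c)) (by
    filter_upwards [measure_eq_zero_iff_ae_notMem.1 hloc.2] with t ht htQ
    have hm : t ∈ Ico (-ε) hh := by
      by_contra hc
      exact ht ⟨htQ, hc⟩
    rw [hk1 t (by rw [abs_lt]; constructor <;> linarith [hm.1, hm.2])]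
    constructor <;> linarith [hm.1, hm.2])
  rw [hBdef] at hPb
  rw [hBeq] at hQb
  rw [hsplit, hF]
  constructor
  · linarith [hPb.1, hQb.2]
  · linarith [hPb.2, hQb.1]

variable {ε κ δ c₀ C₀ : ℝ} {S : Set (E (n + 1))} {μ : Measure (E (n + 1))}
  {ν : E (n + 1) → E (n + 1)}

end Claimed.Agent.Gmt
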