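import Claimed.Agent.Lib.Gmt.FlHeight1

/-!
THIS FILE = PACKAGE L-GMT-FlHeight2 (part 2 of 2 of the former `FlHeight.lean`, which now only imports the parts; the text below is the plan of the whole former file).
# Lib/Gmt G4.4b (architect: helper190): `L²(μ)` height versus `L²(dz)` height (second half of F6).
PACKAGE L-GMT-FlHeight.   Input: `FlUnit`, `FlFlux`, `FlBad`.

`ℓ(z) = a + ⟪p,z⟫`, `L(y) = t - ℓ(z)`, `η = flEta`, `k_c(t) = η(t) (t - c)²`.
* `fl_sl_height` (1-D).  `A` with `FlSl A ε`, `h = flSlH A`, `b = flSlB A`.  `k_c' = 0` for `|t| ≥ 3/4`, `k_c'(t) = 2 (t - c)` for `|t| < 1/2`.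
  `∫_A k_c' = ∫_{A ∩ (-1,1)} k_c' = ∫_{(-1,h)} k_c' + ∫_P k_c' - ∫_Q k_c'`, `P = A ∩ (h,1)`, `Q = (-1,h) \ A`; `∫_{-1}^h k_c' = k_c(h) - k_c(-1) = (h-c)²` (FTC, `|h| ≤ ε ≤ 1/4`);
  a.e. `P ⊆ (h,ε]`, `Q ⊆ [-ε,h)` (`fl_sl_loc`), `|P| = |Q| = b`, so `∫_P k_c' - ∫_Q k_c' = 2 (∫_P t - ∫_Q t) - 2c (|P| - |Q|) = 2 (∫_P t - ∫_Q t) ∈ [2(hb - hb), 2 (εb + εb)] = [0, 4εb]`.
* `fl_height_id`.  Gauss-Green for `T = flVert a₁`, `a₁(y) = φ(z) η(t) (t - ℓ(z))²` (`C¹`, support in `|z| ≤ 1`, `|t| ≤ 3/4`: `fl_vert_test`); `div T = φ(z) k_{ℓ(z)}'(t)` (`fl_vert_div`); Fubini (`fl_integral_join`);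
  right side `∫ a₁ ν_t dμ`; `a₁ = 0` off `C_1`, `η = 1` `μ`-a.e. on `C_1` (`fl_ae_slab`).
* `fl_height`.  `φ = flCut ρ (2ρ)`, `0 ≤ φ ≤ 1`, `= 1` on `ball 0 ρ`, `= 0` off `ball 0 (2ρ)`, `2ρ ≤ 1/2`.
  `∫_{C_ρ} L² dμ ≤ ∫_{C_1} φ L² dμ = ∫_{C_1} φ L² ν_t dμ + ∫_{C_1} φ L² (1 - ν_t) dμ`; first term `= ∫ φ(z) ∫_{S_z} k'_{ℓ(z)} ≤ ∫ φ [(h-ℓ)² + 4 ε b] ≤ ∫_{ball 0 (2ρ)} (h-ℓ)² + 4 ε ∫_{ball 0 (1/2)} b`, `fl_bad`;
  second term: `μ`-a.e. on `C_1 ∩ {φ ≠ 0}`: `|L| ≤ |t| + |a| + |p||z| ≤ ε + |a| + ‖p‖`, and `fl_exc`.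
-/

set_option autoImplicit false
open scoped ContDiff ENNReal RealInnerProductSpace
open MeasureTheory Metric Set

namespace Claimed.Agent.Gmt

variable {n : ℕ}

variable {ε κ δ c₀ C₀ : ℝ} {S : Set (E (n + 1))} {μ : Measure (E (n + 1))}
  {ν : E (n + 1) → E (n + 1)}

theorem fl_hid_hor_add (y : E (n + 1)) (s : ℝ) : gmtHor (y + s • gmtEn n) = gmtHor y := by
  have : gmtHor (y + s • gmtEn n) = gmtHor y + s • gmtHor (gmtEn n) := by
    show gmtHorL n (y + s • gmtEn n) = gmtHorL n y + s • gmtHorL n (gmtEn n)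
    rw [map_add, map_smul]
  rw [this, fl_hor_en, smul_zero, add_zero]

theorem fl_hid_ver_add (y : E (n + 1)) (s : ℝ) : gmtVer (y + s • gmtEn n) = gmtVer y + s := by
  have : gmtVer (y + s • gmtEn n) = gmtVer y + s • gmtVer (gmtEn n) := by
    show gmtVerL n (y + s • gmtEn n) = gmtVerL n y + s • gmtVerL n (gmtEn n)
    rw [map_add, map_smul]
  rw [this, fl_ver_en, smul_eq_mul, mul_one]

/-- the scalar test function `φ(z) η(t) (t - ℓ(z))²`. -/
noncomputable def flHa (φ : E n → ℝ) (a : ℝ) (p : E n) (y : E (n + 1)) : ℝ :=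
  φ (gmtHor y) * flK (a + ⟪p, gmtHor y⟫) (gmtVer y)

theorem fl_Ha_contDiff {φ : E n → ℝ} (hφ : ContDiff ℝ 1 φ) (a : ℝ) (p : E n) :
    ContDiff ℝ 1 (flHa φ a p) := by
  have h1 : ContDiff ℝ 1 (fun y : E (n + 1) => φ (gmtHor y)) := hφ.comp (gmtHorL n).contDiff
  have h2 : ContDiff ℝ 1 (fun y : E (n + 1) => flEta (gmtVer y)) :=
    (fl_eta_props.1.of_le (by simp)).comp (gmtVerL n).contDiff
  have h3 : ContDiff ℝ 1 (fun y : E (n + 1) => gmtVer y - (a + ⟪p, gmtHor y⟫)) :=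
    (gmtVerL n).contDiff.sub (contDiff_const.add (contDiff_const.inner ℝ (gmtHorL n).contDiff))
  exact h1.mul (h2.mul (h3.pow 2))

theorem fl_Ha_tsupport {φ : E n → ℝ} (hs : tsupport φ ⊆ ball 0 1) (a : ℝ) (p : E n) :
    tsupport (flHa φ a p) ⊆ {y | ‖gmtHor y‖ ≤ 1 ∧ |gmtVer y| ≤ 1} := by
  have e : flHa φ a p =
      (flPr φ flEta) * (fun y => (gmtVer y - (a + ⟪p, gmtHor y⟫)) ^ 2) := by
    funext y
    simp only [flHa, flK, flPr, Pi.mul_apply]
    ring
  rw [e]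
  exact (tsupport_mul_subset_left).trans ((fl_pr_tsupport (hs.trans ball_subset_closedBall)
      (fun t ht => fl_eta_props.2.2.2 t ht)).trans fun y hy => ⟨hy.1, hy.2.trans (by norm_num)⟩)

theorem fl_Ha_fderiv {φ : E n → ℝ} (hφ : ContDiff ℝ 1 φ) (a : ℝ) (p : E n) (y : E (n + 1)) :
    fderiv ℝ (flHa φ a p) y (gmtEn n) =
      φ (gmtHor y) * deriv (flK (a + ⟪p, gmtHor y⟫)) (gmtVer y) := by
  have hd : HasFDerivAt (flHa φ a p) (fderiv ℝ (flHa φ a p) y) y :=
    ((fl_Ha_contDiff hφ a p).differentiable (by simp) y).hasFDerivAt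
  have hline : HasDerivAt (fun s : ℝ => y + s • gmtEn n) (gmtEn n) 0 := by
    simpa using ((hasDerivAt_id (0 : ℝ)).smul_const (gmtEn n)).const_add y
  have h1 : HasDerivAt (fun s : ℝ => flHa φ a p (y + s • gmtEn n))
      (fderiv ℝ (flHa φ a p) y (gmtEn n)) 0 := by
    have hd' : HasFDerivAt (flHa φ a p) (fderiv ℝ (flHa φ a p) y) (y + (0 : ℝ) • gmtEn n) := by
      simpa using hd
    exact hd'.comp_hasDerivAt 0 hline
  have h2 : HasDerivAt (fun s : ℝ => flHa φ a p (y + s • gmtEn n))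
      (φ (gmtHor y) * deriv (flK (a + ⟪p, gmtHor y⟫)) (gmtVer y)) 0 := by
    have e : (fun s : ℝ => flHa φ a p (y + s • gmtEn n)) =
        fun s => φ (gmtHor y) * flK (a + ⟪p, gmtHor y⟫) (gmtVer y + s) := by
      funext s
      simp only [flHa, fl_hid_hor_add, fl_hid_ver_add]
    rw [e]
    have hk : HasDerivAt (flK (a + ⟪p, gmtHor y⟫))
        (deriv (flK (a + ⟪p, gmtHor y⟫)) (gmtVer y)) (gmtVer y + 0) := by
      rw [add_zero]
      exact (((fl_K_props _).1.differentiable (by simp)) _).hasDerivAt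
    exact (hk.comp_const_add (gmtVer y) 0).const_mul _
  exact h1.unique h2

theorem fl_height_id (H : FlUnit n ε κ δ c₀ C₀ S μ ν) {φ : E n → ℝ} (hφ : ContDiff ℝ 1 φ)
    (hs : tsupport φ ⊆ ball 0 1) (a : ℝ) (p : E n) :
    ∫ y in flCyl 1, φ (gmtHor y) * (gmtVer y - a - ⟪p, gmtHor y⟫) ^ 2 * gmtVer (ν y) ∂μ =
      ∫ z, φ z * ∫ t in flSlice S z, deriv (flK (a + ⟪p, z⟫)) t := by
  have hε0 := H.hε
  have hε4 := H.hε'
  have ha := fl_Ha_contDiff hφ a p
  have had : Differentiable ℝ (flHa φ a p) := ha.differentiable (by simp)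
  have hsupp := fl_Ha_tsupport hs a p
  have hT : GmtTest (ball 0 4) (flVert (flHa φ a p)) := fl_vert_test ha hsupp
  have hgg := H.gg.gg _ hT
  have eR : ∫ y, ⟪flVert (flHa φ a p) y, ν y⟫ ∂μ =
      ∫ y in flCyl 1, φ (gmtHor y) * (gmtVer y - a - ⟪p, gmtHor y⟫) ^ 2 * gmtVer (ν y) ∂μ := by
    simp only [fl_vert_inner]
    rw [← setIntegral_eq_integral_of_forall_compl_eq_zero (s := flCyl 1)]
    · refine integral_congr_ae ?_
      filter_upwards [fl_ae_slab H] with y hy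
      show φ (gmtHor y) * (flEta (gmtVer y) * (gmtVer y - (a + ⟪p, gmtHor y⟫)) ^ 2)
        * gmtVer (ν y) = _
      rw [fl_eta_props.2.2.1 _ (hy.1.trans (by linarith))]
      ring
    · intro y hy
      show φ (gmtHor y) * (flEta (gmtVer y) * (gmtVer y - (a + ⟪p, gmtHor y⟫)) ^ 2)
        * gmtVer (ν y) = 0
      by_cases h1 : ‖gmtHor y‖ < 1
      · have h2 : ¬ |gmtVer y| < 1 := fun h2 => hy ⟨h1, h2⟩
        rw [fl_eta_props.2.2.2 _ (by linarith [not_lt.1 h2])]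
        ring
      · rw [flx_psi_zero hs h1]
        ring
  have hdiv : ∀ y, gmtDiv (flVert (flHa φ a p)) y =
      φ (gmtHor y) * deriv (flK (a + ⟪p, gmtHor y⟫)) (gmtVer y) := fun y => by
    rw [fl_vert_div (had y), fl_Ha_fderiv hφ]
  have hgi : Integrable fun y : E (n + 1) =>
      φ (gmtHor y) * deriv (flK (a + ⟪p, gmtHor y⟫)) (gmtVer y) := by
    have h1 : (fun y : E (n + 1) => φ (gmtHor y) * deriv (flK (a + ⟪p, gmtHor y⟫)) (gmtVer y))
        = fun y => fderiv ℝ (flHa φ a p) y (gmtEn n) := by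
      funext y
      rw [fl_Ha_fderiv hφ]
    rw [h1]
    exact ((ha.continuous_fderiv (by simp)).clm_apply continuous_const).integrable_of_hasCompactSupport
      ((flx_compact hsupp).fderiv_apply ℝ _)
  have eL : ∫ y in S, gmtDiv (flVert (flHa φ a p)) y =
      ∫ z, φ z * ∫ t in flSlice S z, deriv (flK (a + ⟪p, z⟫)) t := by
    simp only [hdiv]
    rw [← integral_indicator H.gg.mS, fl_integral_join (hgi.indicator H.gg.mS)]
    congr 1
    funext z
    rw [← integral_const_mul, ← integral_indicator (fl_slice_measurable H.gg.mS z)]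
    congr 1
    funext t
    by_cases ht : gmtJoin z t ∈ S
    · rw [indicator_of_mem ht, indicator_of_mem (show t ∈ flSlice S z from ht), fl_hor_join,
        fl_ver_join]
    · rw [indicator_of_notMem ht, indicator_of_notMem (show t ∉ flSlice S z from ht)]
  rw [← eR, ← hgg, eL]

/-- **F6.** -/
theorem fl_height (n : ℕ) : ∃ C : ℝ, 0 < C ∧ ∀ (ε κ δ c₀ C₀ : ℝ) (S : Set (E (n + 1)))
    (μ : Measure (E (n + 1))) (ν : E (n + 1) → E (n + 1)), FlUnit n ε κ δ c₀ C₀ S μ ν →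
      ∀ (a : ℝ) (p : E n) (ρ : ℝ), 0 < ρ → ρ ≤ 1 / 4 →
        ∫ y in flCyl ρ, (gmtVer y - a - ⟪p, gmtHor y⟫) ^ 2 ∂μ ≤
          (∫ z in ball (0 : E n) (2 * ρ), (flH S z - a - ⟪p, z⟫) ^ 2) + C * ε ^ 2 * Real.sqrt δ +
            (ε + |a| + ‖p‖) ^ 2 * δ := by
  obtain ⟨Cb, hCb0, hCb⟩ := fl_bad n
  refine ⟨4 * Cb, by positivity, fun ε κ δ c₀ C₀ S μ ν H a p ρ hρ0 hρ => ?_⟩
  have hε0 := H.hε
  have hε4 := H.hε'
  have hbad := hCb ε κ δ c₀ C₀ S μ ν H
  obtain ⟨hφc, hφ01, hφ1, hφ0, hφs, -⟩ :=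
    fl_cut_props (n := n) hρ0.le (show ρ < 2 * ρ by linarith)
  obtain ⟨φ, hφdef⟩ : ∃ φ : E n → ℝ, φ = flCut ρ (2 * ρ) := ⟨_, rfl⟩
  rw [← hφdef] at hφc hφ01 hφ1 hφ0 hφs
  have hs : tsupport φ ⊆ ball 0 1 := hφs.trans (closedBall_subset_ball (by linarith))
  have hid := fl_height_id H (hφc.of_le (by simp)) hs a p
  obtain ⟨L, hLdef⟩ : ∃ L : E (n + 1) → ℝ, L = fun y => gmtVer y - a - ⟪p, gmtHor y⟫ := ⟨_, rfl⟩
  have hLy : ∀ y, gmtVer y - a - ⟪p, gmtHor y⟫ = L y := fun y => by rw [hLdef]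
  simp only [hLy] at hid ⊢
  have hLc : Continuous L := by
    rw [hLdef]
    exact (fl_continuous_ver.sub continuous_const).sub (continuous_const.inner fl_continuous_hor)
  have hLabs : ∀ y, |L y| ≤ |gmtVer y| + |a| + ‖p‖ * ‖gmtHor y‖ := fun y => by
    rw [hLdef]
    have h1 := abs_real_inner_le_norm p (gmtHor y)
    have h2 := abs_sub (gmtVer y - a) ⟪p, gmtHor y⟫
    have h3 := abs_sub (gmtVer y) a
    linarith
  have hfin : μ (flCyl 1) < ⊤ := fl_mu_cyl_lt_top H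
  have hmC : MeasurableSet (flCyl 1 : Set (E (n + 1))) := (fl_isOpen_cyl 1).measurableSet
  obtain ⟨F, hFdef⟩ : ∃ F : E (n + 1) → ℝ, F = fun y => φ (gmtHor y) * L y ^ 2 := ⟨_, rfl⟩
  have hFy : ∀ y, φ (gmtHor y) * L y ^ 2 = F y := fun y => by rw [hFdef]
  simp only [hFy] at hid
  have hFc : Continuous F := by
    rw [hFdef]
    exact (hφc.continuous.comp fl_continuous_hor).mul (hLc.pow 2)
  have hF0 : ∀ y, 0 ≤ F y := fun y => by
    rw [hFdef]; exact mul_nonneg (hφ01 _).1 (sq_nonneg _)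
  have hFle : ∀ y, F y ≤ L y ^ 2 := fun y => by
    rw [hFdef]; exact mul_le_of_le_one_left (sq_nonneg _) (hφ01 _).2
  have hFb : ∀ y ∈ (flCyl 1 : Set (E (n + 1))), F y ≤ (1 + |a| + ‖p‖) ^ 2 := fun y hy => by
    refine (hFle y).trans ?_
    rw [← sq_abs]
    refine pow_le_pow_left₀ (abs_nonneg _) ((hLabs y).trans ?_) 2
    have := mul_le_mul_of_nonneg_left hy.1.le (norm_nonneg p)
    linarith [hy.2.le]
  have hvt : ∀ y, |gmtVer (ν y)| ≤ 1 := fun y => (fl_abs_ver_le _).trans (H.gg.le1 y)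
  have hmvt : Measurable fun y => gmtVer (ν y) := fl_continuous_ver.measurable.comp H.gg.mν
  have iF : IntegrableOn F (flCyl 1) μ :=
    Measure.integrableOn_of_bounded (M := (1 + |a| + ‖p‖) ^ 2) hfin.ne hFc.aestronglyMeasurable
      ((ae_restrict_iff' hmC).2 (Filter.Eventually.of_forall fun y hy => by
        rw [Real.norm_eq_abs, abs_of_nonneg (hF0 y)]; exact hFb y hy))
  have iFν : IntegrableOn (fun y => F y * gmtVer (ν y)) (flCyl 1) μ :=
    Measure.integrableOn_of_bounded (M := (1 + |a| + ‖p‖) ^ 2) hfin.ne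
      (hFc.measurable.mul hmvt).aestronglyMeasurable
      ((ae_restrict_iff' hmC).2 (Filter.Eventually.of_forall fun y hy => by
        rw [Real.norm_eq_abs, abs_mul, abs_of_nonneg (hF0 y)]
        calc F y * |gmtVer (ν y)| ≤ F y * 1 := mul_le_mul_of_nonneg_left (hvt y) (hF0 y)
          _ ≤ _ := by rw [mul_one]; exact hFb y hy))
  have iF1 : IntegrableOn (fun y => F y * (1 - gmtVer (ν y))) (flCyl 1) μ := by
    have : (fun y => F y * (1 - gmtVer (ν y))) = fun y => F y - F y * gmtVer (ν y) := by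
      funext y; ring
    rw [this]
    exact iF.sub iFν
  have i1ν : IntegrableOn (fun y => 1 - gmtVer (ν y)) (flCyl 1) μ :=
    Measure.integrableOn_of_bounded (M := 2) hfin.ne
      (measurable_const.sub hmvt).aestronglyMeasurable
      (Filter.Eventually.of_forall fun y => by
        rw [Real.norm_eq_abs]
        have := abs_sub (1 : ℝ) (gmtVer (ν y))
        rw [abs_one] at this
        linarith [hvt y])
  -- step 1
  have s1 : ∫ y in flCyl ρ, L y ^ 2 ∂μ ≤ ∫ y in flCyl 1, F y ∂μ := by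
    have e1 : ∫ y in flCyl ρ, L y ^ 2 ∂μ = ∫ y in flCyl ρ, F y ∂μ := by
      refine setIntegral_congr_fun (fl_isOpen_cyl ρ).measurableSet fun y hy => ?_
      show L y ^ 2 = F y
      rw [hFdef]
      show L y ^ 2 = φ (gmtHor y) * L y ^ 2
      rw [hφ1 _ hy.1.le, one_mul]
    rw [e1]
    exact setIntegral_mono_set iF (Filter.Eventually.of_forall hF0)
      (fl_cyl_mono (by linarith)).eventuallyLE
  -- step 2
  have s2 : ∫ y in flCyl 1, F y ∂μ =
      (∫ y in flCyl 1, F y * gmtVer (ν y) ∂μ) + ∫ y in flCyl 1, F y * (1 - gmtVer (ν y)) ∂μ := by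
    rw [← integral_add iFν iF1]
    congr 1
    funext y
    ring
  -- step 3
  obtain ⟨G, hGdef⟩ : ∃ G : E n → ℝ, G = fun z =>
      (ball (0 : E n) (2 * ρ)).indicator (fun z => (flH S z - a - ⟪p, z⟫) ^ 2) z +
        4 * ε * (ball (0 : E n) (1 / 2)).indicator (flB S) z := ⟨_, rfl⟩
  have hmH := fl_H_measurable H.gg.mS
  have hmB := fl_B_measurable H.gg.mS
  have iG1 : IntegrableOn (fun z => (flH S z - a - ⟪p, z⟫) ^ 2) (ball (0 : E n) (2 * ρ)) :=
    Measure.integrableOn_of_bounded (M := (1 + |a| + ‖p‖) ^ 2) measure_ball_lt_top.ne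
      (((hmH.sub measurable_const).sub
        (continuous_const.inner continuous_id).measurable).pow_const 2).aestronglyMeasurable
      ((ae_restrict_iff' measurableSet_ball).2 (Filter.Eventually.of_forall fun z hz => by
        rw [Real.norm_eq_abs, abs_pow]
        refine pow_le_pow_left₀ (abs_nonneg _) ?_ 2
        have hz' : ‖z‖ < 2 * ρ := by simpa using hz
        have h1 := abs_real_inner_le_norm p z
        have h2 := abs_sub (flH S z - a) ⟪p, z⟫
        have h3 := abs_sub (flH S z) a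
        have h4 := fl_H_bound_all S z
        have h5 := mul_le_mul_of_nonneg_left (show ‖z‖ ≤ 1 by linarith) (norm_nonneg p)
        linarith))
  have iG2 : IntegrableOn (flB S) (ball (0 : E n) (1 / 2)) :=
    Measure.integrableOn_of_bounded (M := 2) measure_ball_lt_top.ne hmB.aestronglyMeasurable
      (Filter.Eventually.of_forall fun z => by
        rw [Real.norm_eq_abs, abs_of_nonneg (fl_B_nonneg S z)]; exact fl_B_le_two S z)
  have iG1' := (integrable_indicator_iff measurableSet_ball).2 iG1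
  have iG2' := (integrable_indicator_iff measurableSet_ball).2 iG2
  have iG : Integrable G := by
    rw [hGdef]
    exact iG1'.add (iG2'.const_mul _)
  have eG : ∫ z, G z = (∫ z in ball (0 : E n) (2 * ρ), (flH S z - a - ⟪p, z⟫) ^ 2) +
      4 * ε * ∫ z in ball (0 : E n) (1 / 2), flB S z := by
    rw [hGdef, integral_add iG1' (iG2'.const_mul _), integral_const_mul,
      integral_indicator measurableSet_ball, integral_indicator measurableSet_ball]
  have hkey : ∀ᵐ z : E n, 0 ≤ φ z * ∫ t in flSlice S z, deriv (flK (a + ⟪p, z⟫)) t ∧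
      φ z * ∫ t in flSlice S z, deriv (flK (a + ⟪p, z⟫)) t ≤ G z := by
    filter_upwards [fl_slice_sl H] with z hz
    have hG0 : 0 ≤ G z := by
      rw [hGdef]
      exact add_nonneg (indicator_nonneg (fun _ _ => sq_nonneg _) _)
        (mul_nonneg (by positivity) (indicator_nonneg (fun z _ => fl_B_nonneg S z) _))
    by_cases h2 : ‖z‖ < 2 * ρ
    · have hsl := fl_sl_height (hz (by linarith)) hε0 hε4 (a + ⟪p, z⟫)
      rw [← fl_H_eq H.gg.mS, ← fl_B_eq H.gg.mS] at hsl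
      have hI0 : 0 ≤ ∫ t in flSlice S z, deriv (flK (a + ⟪p, z⟫)) t :=
        (sq_nonneg _).trans hsl.1
      refine ⟨mul_nonneg (hφ01 z).1 hI0, (mul_le_of_le_one_left hI0 (hφ01 z).2).trans ?_⟩
      rw [hGdef]
      show _ ≤ (ball (0 : E n) (2 * ρ)).indicator (fun z => (flH S z - a - ⟪p, z⟫) ^ 2) z +
        4 * ε * (ball (0 : E n) (1 / 2)).indicator (flB S) z
      rw [indicator_of_mem (by simpa using h2), indicator_of_mem (by
        simp only [mem_ball, dist_zero_right]; linarith)]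
      have : (flH S z - (a + ⟪p, z⟫)) ^ 2 = (flH S z - a - ⟪p, z⟫) ^ 2 := by ring
      rw [← this]
      exact hsl.2
    · rw [hφ0 z (not_lt.1 h2), zero_mul]
      exact ⟨le_refl _, hG0⟩
  have s3 : ∫ y in flCyl 1, F y * gmtVer (ν y) ∂μ ≤
      (∫ z in ball (0 : E n) (2 * ρ), (flH S z - a - ⟪p, z⟫) ^ 2) +
        4 * Cb * ε ^ 2 * Real.sqrt δ := by
    rw [hid]
    refine (integral_mono_of_nonneg (hkey.mono fun z hz => hz.1) iG
      (hkey.mono fun z hz => hz.2)).trans ?_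
    rw [eG]
    have := mul_le_mul_of_nonneg_left hbad (show 0 ≤ 4 * ε by positivity)
    nlinarith
  -- step 4
  have s4 : ∫ y in flCyl 1, F y * (1 - gmtVer (ν y)) ∂μ ≤ (ε + |a| + ‖p‖) ^ 2 * δ := by
    have h1 : ∫ y in flCyl 1, F y * (1 - gmtVer (ν y)) ∂μ ≤
        ∫ y in flCyl 1, (ε + |a| + ‖p‖) ^ 2 * (1 - gmtVer (ν y)) ∂μ := by
      refine integral_mono_ae iF1 (i1ν.const_mul _) ?_
      filter_upwards [fl_ae_slab H, ae_restrict_mem hmC] with y hy hyC
      refine mul_le_mul_of_nonneg_right ((hFle y).trans ?_) (by linarith [(abs_le.1 (hvt y)).2])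
      rw [← sq_abs]
      refine pow_le_pow_left₀ (abs_nonneg _) ((hLabs y).trans ?_) 2
      have := mul_le_mul_of_nonneg_left hyC.1.le (norm_nonneg p)
      linarith [hy.1]
    refine h1.trans ?_
    rw [integral_const_mul]
    exact mul_le_mul_of_nonneg_left (fl_exc H) (sq_nonneg _)
  linarith

end Claimed.Agent.Gmt
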