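import Claimed.Agent.Lib.Gmt.FlScale

/-!
# Lib/Gmt G4.9 (architect: helper190): iteration of the improvement of flatness; decay at all boundary points.
PACKAGE L-GMT-FlIter (glue: induction + geometric series + frames).   ALL PROVED (helper190).   Input: `fl_step_AM`, `FlGeo`.

* `fl_iter_AM`: induction on `j` with `r_j = τ^{2j} r`, `η_j = τ^j η`: `(κ+Λ) r_j = τ^{2j} (κ+Λ) r ≤ c₁ η_j²`, `η_j ≤ η₀`, `r_j ≤ R`;  `‖e_{j+1} - e_j‖ ≤ C₁ τ^j η`, `∑ τ^i ≤ 1/(1-τ) ≤ 2`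
  (strengthen the induction hypothesis to `‖e_j - e‖ ≤ C₁ η ∑_{i<j} τ^i`).
* `fl_decay_AM`: for `0 < s ≤ r` take `j` with `r_{j+1} < s ≤ r_j` (`exists_nat_pow_near_of_lt_one`); `FlFlat.shrink`: flatness `η_j r_j/s ≤ η_j/τ²`; `√(s/r) ≥ τ^{j+1}`, so `η_j ≤ η √(s/r)/τ`: `C = max (2 C₁) τ⁻³`.
* `fl_decay_K`: let `z ∈ gmtBd S ∩ ball x (r/2)`, `T` its frame (`FlAMK`), `S̃ = gmtBlow T z 1 S`.
  `FlFlat.bd_slab`, `FlFlat.recentre`: `FlFlat S z (r/2) (4η) e`;  `FlFlat.blow`: `FlFlat S̃ 0 (r/(2‖T⁻¹‖)) (4η‖T‖‖T⁻¹‖) (flDir T e)` (`fl_pt_self`);  `FlFlat.shrink` to `r̃ = r/(2D)`: flatness `≤ 4η‖T‖D ≤ η̃ := 4D²η`;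
  `0 ∈ gmtBd S̃` (`gmtBd_gmtBlow`);  `fl_decay_AM` (`r̃ ≤ R`, `(κ+Λ) r̃ ≤ (κ+Λ) r ≤ c₁ η² ≤ c₁ η̃²`, `η̃ ≤ η₀`): for `s̃ ≤ r̃`: `ẽ`, `‖ẽ - flDir T e‖ ≤ C η̃`, `FlFlat S̃ 0 s̃ (C η̃ √(s̃/r̃)) ẽ`.
  Back with `T.symm` (`fl_blow_symm`, `FlFlat.blow`; the centre `0` goes to `z`): `FlFlat S z (s̃/‖T‖) (C η̃ √(s̃/r̃) ‖T‖‖T⁻¹‖) (flDir T.symm ẽ)`.  Given `s ≤ r/(2D²)` take `s̃ = s‖T‖ ≤ r̃`.
  `√(s̃/r̃) ≤ √(2D² s/r)`.   Direction: `fl_dir_symm`, `fl_dir_lip`: `‖flDir T.symm ẽ - e‖ ≤ 2D² C η̃`.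
-/

set_option autoImplicit false
open scoped ContDiff ENNReal RealInnerProductSpace
open MeasureTheory Metric Set

namespace Claimed.Agent.Gmt

variable {m n : ℕ}

theorem fl_iter_AM (n : ℕ) (hn : 1 ≤ n) : ∃ τ η₀ c₁ C₁ : ℝ, 0 < τ ∧ τ ≤ 1 / 8 ∧ 0 < η₀ ∧ 0 < c₁ ∧
    0 < C₁ ∧ ∀ (κ Λ R r η : ℝ) (e : E (n + 1)) (S : Set (E (n + 1))), 0 ≤ κ → 0 ≤ Λ →
      FlAMR κ Λ R S → (0 : E (n + 1)) ∈ gmtBd S → 0 < r → r ≤ R → 0 < η → η ≤ η₀ →
      (κ + Λ) * r ≤ c₁ * η ^ 2 → FlFlat S 0 r η e → ∀ j : ℕ,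
        ∃ e' : E (n + 1), ‖e' - e‖ ≤ 2 * C₁ * η ∧ FlFlat S 0 (τ ^ (2 * j) * r) (τ ^ j * η) e' := by
  obtain ⟨τ, η₀, c₁, C₁, hτ, hτ8, hη₀, hc₁, hC₁, hstep⟩ := fl_step_AM n hn
  refine ⟨τ, η₀, c₁, C₁, hτ, hτ8, hη₀, hc₁, hC₁, ?_⟩
  intro κ Λ R r η e S hκ hΛ hAM h0 hr hrR hη hηη₀ hκΛ hfl j
  have key : ∀ j : ℕ, ∃ e' : E (n + 1), ‖e' - e‖ ≤ 2 * C₁ * η * (1 - τ ^ j) ∧
      FlFlat S 0 (τ ^ (2 * j) * r) (τ ^ j * η) e' := by
    intro j
    induction j with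
    | zero => exact ⟨e, by simp, by simpa using hfl⟩
    | succ j ih =>
      obtain ⟨e₁, he₁, hfl₁⟩ := ih
      have hτj : 0 < τ ^ j := by positivity
      have hτj1 : τ ^ j ≤ 1 := pow_le_one₀ hτ.le (by linarith)
      have hτ2j : 0 < τ ^ (2 * j) := by positivity
      have hτ2j1 : τ ^ (2 * j) ≤ 1 := pow_le_one₀ hτ.le (by linarith)
      have a1 : τ ^ (2 * j) * r ≤ R := by nlinarith
      have a2 : τ ^ j * η ≤ η₀ := by nlinarith
      have a3 : (κ + Λ) * (τ ^ (2 * j) * r) ≤ c₁ * (τ ^ j * η) ^ 2 := by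
        have e1 : (τ ^ j * η) ^ 2 = τ ^ (2 * j) * η ^ 2 := by
          rw [mul_pow, ← pow_mul, mul_comm j 2]
        rw [e1]
        have := mul_le_mul_of_nonneg_left hκΛ hτ2j.le
        linarith
      obtain ⟨e₂, he₂, hfl₂⟩ := hstep κ Λ R _ _ e₁ S hκ hΛ hAM h0 (by positivity) a1
        (by positivity) a2 a3 hfl₁
      refine ⟨e₂, ?_, ?_⟩
      · have b1 : e₂ - e = (e₂ - e₁) + (e₁ - e) := by abel
        rw [b1]
        refine (norm_add_le _ _).trans ?_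
        have b2 : τ ^ (j + 1) = τ ^ j * τ := pow_succ _ _
        rw [b2]
        have b3 : 0 ≤ C₁ * η * τ ^ j := by positivity
        nlinarith
      · have c1 : τ ^ 2 * (τ ^ (2 * j) * r) = τ ^ (2 * (j + 1)) * r := by
          rw [mul_add, mul_one, pow_add]; ring
        have c2 : τ * (τ ^ j * η) = τ ^ (j + 1) * η := by rw [pow_succ]; ring
        rwa [c1, c2] at hfl₂
  obtain ⟨e', he', hfl'⟩ := key j
  refine ⟨e', he'.trans ?_, hfl'⟩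
  have : 0 ≤ τ ^ j := by positivity
  have h2 : 0 ≤ 2 * C₁ * η := by positivity
  nlinarith

/-- **decay of flatness at the centre of the class.** -/
theorem fl_decay_AM (n : ℕ) (hn : 1 ≤ n) : ∃ η₀ c₁ C : ℝ, 0 < η₀ ∧ 0 < c₁ ∧ 0 < C ∧
    ∀ (κ Λ R r η : ℝ) (e : E (n + 1)) (S : Set (E (n + 1))), 0 ≤ κ → 0 ≤ Λ →
      FlAMR κ Λ R S → (0 : E (n + 1)) ∈ gmtBd S → 0 < r → r ≤ R → 0 < η → η ≤ η₀ →
      (κ + Λ) * r ≤ c₁ * η ^ 2 → FlFlat S 0 r η e → ∀ s : ℝ, 0 < s → s ≤ r →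
        ∃ e' : E (n + 1), ‖e' - e‖ ≤ C * η ∧ FlFlat S 0 s (C * η * Real.sqrt (s / r)) e' := by
  obtain ⟨τ, η₀, c₁, C₁, hτ, hτ8, hη₀, hc₁, hC₁, hit⟩ := fl_iter_AM n hn
  refine ⟨η₀, c₁, 2 * C₁ + (τ ^ 3)⁻¹, hη₀, hc₁, by positivity, ?_⟩
  intro κ Λ R r η e S hκ hΛ hAM h0 hr hrR hη hηη₀ hκΛ hfl s hs hsr
  have hτ3 : 0 < (τ ^ 3)⁻¹ := by positivity
  obtain ⟨j, hj1, hj2⟩ := exists_nat_pow_near_of_lt_one (x := s / r) (y := τ ^ 2) (by positivity)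
    ((div_le_one hr).2 hsr) (by positivity) (by nlinarith)
  rw [← pow_mul] at hj1 hj2
  obtain ⟨e', he', hfl'⟩ := hit κ Λ R r η e S hκ hΛ hAM h0 hr hrR hη hηη₀ hκΛ hfl j
  refine ⟨e', he'.trans ?_, ?_⟩
  · have : 0 ≤ (τ ^ 3)⁻¹ * η := by positivity
    nlinarith
  have hsrj : s ≤ τ ^ (2 * j) * r := by rwa [div_le_iff₀ hr] at hj2
  have hsrj' : τ ^ (2 * (j + 1)) * r < s := by rwa [lt_div_iff₀ hr] at hj1
  refine (hfl'.shrink hs hsrj).mono hs.le ?_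
  -- `τ^j η τ^{2j} r / s ≤ C η √(s/r)`
  have hτj : 0 < τ ^ j := by positivity
  have h1 : τ ^ (j + 1) ≤ Real.sqrt (s / r) := by
    apply Real.le_sqrt_of_sq_le
    rw [← pow_mul, mul_comm (j + 1) 2]
    exact hj1.le
  have h2 : τ ^ j * η * (τ ^ (2 * j) * r) / s ≤ τ ^ j * η * (τ ^ 2)⁻¹ := by
    rw [div_le_iff₀ hs]
    have e1 : τ ^ (2 * (j + 1)) = τ ^ (2 * j) * τ ^ 2 := by rw [mul_add, mul_one, pow_add]
    rw [e1] at hsrj'
    have e2 : τ ^ j * η * (τ ^ 2)⁻¹ * s = τ ^ j * η * ((τ ^ 2)⁻¹ * s) := by ring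
    rw [e2]
    apply mul_le_mul_of_nonneg_left _ (by positivity)
    rw [le_inv_mul_iff₀ (by positivity)]
    linarith
  refine h2.trans ?_
  have h3 : τ ^ j * η * (τ ^ 2)⁻¹ = (τ ^ 3)⁻¹ * η * τ ^ (j + 1) := by
    have : τ ^ (j + 1) = τ ^ j * τ := pow_succ _ _
    rw [this]; field_simp
  rw [h3]
  have h4 : (τ ^ 3)⁻¹ * η * τ ^ (j + 1) ≤ (τ ^ 3)⁻¹ * η * Real.sqrt (s / r) :=
    mul_le_mul_of_nonneg_left h1 (by positivity)
  refine h4.trans ?_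
  apply mul_le_mul_of_nonneg_right _ (Real.sqrt_nonneg _)
  apply mul_le_mul_of_nonneg_right _ hη.le
  linarith


/-- every point of `K` has a linear frame of distortion `≤ D` in which `S` belongs to the (rotation invariant)
centred class `AM(κ,Λ;0,R)`. -/
def FlAMK (κ Λ R D : ℝ) (K S : Set (E m)) : Prop :=
  ∀ z ∈ K, ∃ T : E m ≃L[ℝ] E m, ‖(T : E m →L[ℝ] E m)‖ ≤ D ∧ ‖(T.symm : E m →L[ℝ] E m)‖ ≤ D ∧
    FlAMR κ Λ R (gmtBlow T z 1 S)

theorem FlAMK.mono {κ Λ R D : ℝ} {K K' S : Set (E m)} (h : FlAMK κ Λ R D K S) (hK : K' ⊆ K) :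
    FlAMK κ Λ R D K' S := fun z hz => h z (hK hz)

/-- **decay of flatness at all boundary points near a flat point** (original coordinates). -/
theorem fl_decay_K (n : ℕ) (hn : 1 ≤ n) (D : ℝ) (hD : 1 ≤ D) : ∃ η₀ c₁ C : ℝ, 0 < η₀ ∧ 0 < c₁ ∧
    0 < C ∧ ∀ (κ Λ R r η : ℝ) (x e : E (n + 1)) (S : Set (E (n + 1))), 0 ≤ κ → 0 ≤ Λ →
      FlAMK κ Λ R D (ball x r) S → 0 < r → r ≤ R → 0 < η → η ≤ η₀ → (κ + Λ) * r ≤ c₁ * η ^ 2 →
      FlFlat S x r η e → ∀ z ∈ gmtBd S, z ∈ ball x (r / 2) → ∀ s : ℝ, 0 < s → s ≤ r / (2 * D ^ 2) →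
        ∃ e' : E (n + 1), ‖e' - e‖ ≤ C * η ∧ FlFlat S z s (C * η * Real.sqrt (s / r)) e' := by
  obtain ⟨η₀, c₁, C, hη₀, hc₁, hC, hdec⟩ := fl_decay_AM n hn
  have hD0 : 0 < D := by linarith
  refine ⟨η₀ / (4 * D ^ 2), c₁, 8 * C * D ^ 5, by positivity, hc₁, by positivity, ?_⟩
  intro κ Λ R r η x e S hκ hΛ hK hr hrR hη hηη₀ hκΛ hfl z hz hzr s hs hsr
  have hzr' : z ∈ ball x r := ball_subset_ball (by linarith) hzr
  obtain ⟨T, hTa, hTb, hAM⟩ := hK z hzr'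
  set a : ℝ := ‖(T : E (n + 1) →L[ℝ] E (n + 1))‖ with ha
  set b : ℝ := ‖(T.symm : E (n + 1) →L[ℝ] E (n + 1))‖ with hb
  have he : ‖e‖ = 1 := hfl.unit
  have he0 : e ≠ 0 := by intro h; rw [h, norm_zero] at he; exact zero_ne_one he
  have ha0 : 0 < a := by
    have := fl_dir_lower T he
    rcases (norm_nonneg (T : E (n + 1) →L[ℝ] E (n + 1))).lt_or_eq with h | h
    · exact h
    · rw [← h, mul_zero] at this; linarith
  have hb0 : 0 < b := by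
    have := fl_dir_lower T.symm he
    rcases (norm_nonneg (T.symm : E (n + 1) →L[ℝ] E (n + 1))).lt_or_eq with h | h
    · exact h
    · rw [← h, mul_zero] at this; linarith
  -- step 1: recentre
  have h1 : FlFlat S z (r / 2) (4 * η) e := by
    have hsub : ball z (r / 2) ⊆ ball x r := by
      intro y hy
      have h1 : dist y z < r / 2 := hy
      have h2 : dist z x < r / 2 := hzr
      have := dist_triangle y z x
      simp only [mem_ball]; linarith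
    have := hfl.recentre (hfl.bd_slab hz hzr') (by positivity : 0 < r / 2) hsub
    have e1 : 2 * η * r / (r / 2) = 4 * η := by field_simp; ring
    rwa [e1] at this
  -- step 2, 3: the frame
  have h2 := h1.blow (by positivity) (by positivity) T z one_pos
  rw [fl_pt_self, ← ha, ← hb, one_mul] at h2
  have hrD : r / (2 * D) ≤ r / 2 / b := by
    rw [div_div]
    exact div_le_div_of_nonneg_left hr.le (by positivity) (by linarith)
  have h3 : FlFlat (gmtBlow T z 1 S) 0 (r / (2 * D)) (4 * D ^ 2 * η) (flDir T e) := by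
    refine (h2.shrink (by positivity) hrD).mono (by positivity) ?_
    have e1 : 4 * η * a * b * (r / 2 / b) / (r / (2 * D)) = 4 * η * a * D := by field_simp
    rw [e1]
    have : a * D ≤ D * D := mul_le_mul_of_nonneg_right hTa hD0.le
    nlinarith
  have h0 : (0 : E (n + 1)) ∈ gmtBd (gmtBlow T z 1 S) := by
    rw [gmtBd_gmtBlow _ _ one_pos]
    show gmtAff T z 1 0 ∈ gmtBd S
    simpa [gmtAff] using hz
  have hD2 : 1 ≤ D ^ 2 := one_le_pow₀ hD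
  have hrr : r / (2 * D) ≤ r := by
    rw [div_le_iff₀ (by positivity)]; nlinarith
  have a2 : 4 * D ^ 2 * η ≤ η₀ := by
    have := mul_le_mul_of_nonneg_left hηη₀ (by positivity : 0 ≤ 4 * D ^ 2)
    rwa [mul_div_cancel₀ _ (by positivity)] at this
  have a3 : (κ + Λ) * (r / (2 * D)) ≤ c₁ * (4 * D ^ 2 * η) ^ 2 := by
    have e1 : (κ + Λ) * (r / (2 * D)) ≤ (κ + Λ) * r := mul_le_mul_of_nonneg_left hrr (by positivity)
    have e2 : η ^ 2 ≤ (4 * D ^ 2 * η) ^ 2 := by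
      apply pow_le_pow_left₀ hη.le
      nlinarith
    have e3 := mul_le_mul_of_nonneg_left e2 hc₁.le
    linarith
  have hsa : s * a ≤ r / (2 * D) := by
    have e1 : s * a ≤ r / (2 * D ^ 2) * D := mul_le_mul hsr hTa ha0.le (by positivity)
    have e2 : r / (2 * D ^ 2) * D = r / (2 * D) := by field_simp
    linarith
  obtain ⟨e₁, hee₁, hfl₁⟩ := hdec κ Λ R _ _ _ _ hκ hΛ hAM h0 (by positivity) (hrr.trans hrR)
    (by positivity) a2 a3 h3 (s * a) (by positivity) hsa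
  -- step 5: back
  have h5 := hfl₁.blow (by positivity) (by positivity) T.symm (flPt T z 1 0)
    (inv_pos.2 one_pos)
  rw [fl_blow_symm T z one_pos S] at h5
  have hpt : flPt T.symm (flPt T z 1 0) (1 : ℝ)⁻¹ 0 = z := by
    simp [flPt]
  rw [hpt, ContinuousLinearEquiv.symm_symm, ← ha, ← hb] at h5
  have hrad : s * a / ((1 : ℝ)⁻¹ * a) = s := by field_simp
  rw [hrad] at h5
  refine ⟨flDir T.symm e₁, ?_, h5.mono hs.le ?_⟩
  · have e1 := fl_dir_lip T.symm hfl₁.unit (fl_dir_norm T he0)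
    rw [fl_dir_symm T he, ContinuousLinearEquiv.symm_symm, ← ha, ← hb] at e1
    refine e1.trans ?_
    have e2 : 2 * b * a * ‖e₁ - flDir T e‖ ≤ 2 * D * D * (C * (4 * D ^ 2 * η)) := by
      have : 2 * b * a ≤ 2 * D * D := by
        have := mul_le_mul hTb hTa ha0.le hD0.le
        linarith
      exact mul_le_mul this hee₁ (norm_nonneg _) (by positivity)
    refine e2.trans ?_
    have e3 : 2 * D * D * (C * (4 * D ^ 2 * η)) = 8 * C * D ^ 4 * η := by ring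
    have e4 : D ^ 4 ≤ D ^ 5 := pow_le_pow_right₀ hD (by norm_num)
    rw [e3]
    apply mul_le_mul_of_nonneg_right _ hη.le
    exact mul_le_mul_of_nonneg_left e4 (by positivity)
  · -- the flatness
    have e1 : Real.sqrt (s * a / (r / (2 * D))) ≤ 2 * D * Real.sqrt (s / r) := by
      have : s * a / (r / (2 * D)) ≤ (2 * D) ^ 2 * (s / r) := by
        have e2 : s * a / (r / (2 * D)) = (2 * D * a) * (s / r) := by field_simp
        rw [e2]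
        apply mul_le_mul_of_nonneg_right _ (by positivity)
        nlinarith
      calc Real.sqrt (s * a / (r / (2 * D))) ≤ Real.sqrt ((2 * D) ^ 2 * (s / r)) :=
            Real.sqrt_le_sqrt this
        _ = 2 * D * Real.sqrt (s / r) := by
            rw [Real.sqrt_mul (by positivity), Real.sqrt_sq (by positivity)]
    have hsq := Real.sqrt_nonneg (s / r)
    calc C * (4 * D ^ 2 * η) * Real.sqrt (s * a / (r / (2 * D))) * b * a
        ≤ C * (4 * D ^ 2 * η) * (2 * D * Real.sqrt (s / r)) * D * D := by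
          gcongr
      _ = 8 * C * D ^ 5 * η * Real.sqrt (s / r) := by ring

end Claimed.Agent.Gmt
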