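import Claimed.Agent.Lib.Gmt.FlCacc

/-!
THIS FILE = PACKAGE L-GMT-FlKer1 (part 1 of 4 of the former `FlKer.lean`, which now only imports the parts; the text below is the plan of the whole former file).
# Lib/Gmt G4.3a (architect: helper190): the mollifier family `R_s` and its potential `Q_s`.
PACKAGE L-GMT-FlKer.   PURE ANALYSIS on `E n` (no GMT).

`R_s(x) = (Z s^n)⁻¹ ρ̂(|x|²/s²)`, `Q_s(x) = (Z s^n)⁻¹ p(|x|²/s²)`, `ρ̂ = flRh` (smooth, `≥ 0`, `= 0` on `[1,∞)`), `p = flPh`, `p' = ρ̂/2`, `p = 0` on `[1,∞)`.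
KEY IDENTITY (`fl_R_hasDerivAt`):   `∂_s R_s = - s Δ Q_s`.
Proof: `∇Q_s(x) = (Z s^n)⁻¹ p'(τ) 2x/s² = R_s(x) x / s²` (`τ = |x|²/s²`), so `Δ Q_s = (n R_s + x·∇R_s)/s²` (`gmtDiv_smul`-type product rule, `div x = n`),
`x·∇R_s(x) = (Z s^n)⁻¹ ρ̂'(τ) 2|x|²/s²`, and `∂_s R_s = -(n/s) R_s + (Z s^n)⁻¹ ρ̂'(τ) (-2|x|²/s³) = -(n R_s + x·∇R_s)/s`.
NORMS: `|∇Q_s| = R_s |x|/s² ≤ R_s / s` (support in `|x| ≤ s`), so `∫|∇Q_s| ≤ 1/s`; `|p| ≤ 1/2` on `[0,∞)`, so `∫ |Q_s| ≤ ω_n/(2Z)`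
(change of variables `x = s y`: `MeasureTheory.Measure.integral_comp_smul` / `integral_comp_inv_smul`).
-/

set_option autoImplicit false
open scoped ContDiff ENNReal RealInnerProductSpace Topology
open MeasureTheory Metric Set Filter

namespace Claimed.Agent.Gmt

variable {n : ℕ}

/-- profile of the mollifier. -/
noncomputable def flRh (τ : ℝ) : ℝ := Real.smoothTransition (1 - τ)

/-- profile of the potential: `p' = ρ̂/2`, `p = 0` on `[1,∞)`. -/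
noncomputable def flPh (τ : ℝ) : ℝ := -(1 / 2) * ∫ σ in τ..1, flRh σ

/-- normalising constant. -/
noncomputable def flZ (n : ℕ) : ℝ := ∫ y : E n, flRh (‖y‖ ^ 2)

/-- the mollifier at scale `s`. -/
noncomputable def flR (n : ℕ) (s : ℝ) (x : E n) : ℝ := (flZ n * s ^ n)⁻¹ * flRh (‖x‖ ^ 2 / s ^ 2)

/-- its potential. -/
noncomputable def flQ (n : ℕ) (s : ℝ) (x : E n) : ℝ := (flZ n * s ^ n)⁻¹ * flPh (‖x‖ ^ 2 / s ^ 2)

theorem fl_Rh_props : ContDiff ℝ ∞ flRh ∧ (∀ τ, 0 ≤ flRh τ ∧ flRh τ ≤ 1) ∧ (∀ τ, 1 ≤ τ → flRh τ = 0) ∧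
    (∀ τ, τ < 1 → 0 < flRh τ) :=
  ⟨Real.smoothTransition.contDiff.comp (contDiff_const.sub contDiff_id),
    fun τ => ⟨Real.smoothTransition.nonneg _, Real.smoothTransition.le_one _⟩,
    fun τ h => Real.smoothTransition.zero_of_nonpos (by linarith),
    fun τ h => Real.smoothTransition.pos_of_pos (by linarith)⟩

theorem flk_Ph_hasDerivAt (τ : ℝ) : HasDerivAt flPh (flRh τ / 2) τ := by
  have hc : Continuous flRh := fl_Rh_props.1.continuous
  have h1 : HasDerivAt (fun u => ∫ σ in u..1, flRh σ) (-flRh τ) τ :=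
    intervalIntegral.integral_hasDerivAt_left (hc.intervalIntegrable _ _)
      hc.stronglyMeasurable.stronglyMeasurableAtFilter hc.continuousAt
  exact (h1.const_mul (-(1 / 2) : ℝ)).congr_deriv (by ring)

theorem fl_Ph_props : ContDiff ℝ ∞ flPh ∧ (∀ τ, HasDerivAt flPh (flRh τ / 2) τ) ∧
    (∀ τ, 1 ≤ τ → flPh τ = 0) ∧ (∀ τ, 0 ≤ τ → |flPh τ| ≤ 1 / 2) := by
  have hz : ∀ τ, 1 ≤ τ → flPh τ = 0 := fun τ h => by
    unfold flPh
    rw [intervalIntegral.integral_symm, intervalIntegral.integral_congr (g := fun _ => (0 : ℝ))]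
    · simp
    · intro σ hσ
      rw [uIcc_of_le h] at hσ
      exact fl_Rh_props.2.2.1 σ hσ.1
  refine ⟨?_, flk_Ph_hasDerivAt, hz, fun τ h0 => ?_⟩
  · rw [contDiff_infty_iff_deriv]
    refine ⟨fun τ => (flk_Ph_hasDerivAt τ).differentiableAt, ?_⟩
    have : deriv flPh = fun τ => flRh τ / 2 := funext fun τ => (flk_Ph_hasDerivAt τ).deriv
    rw [this]
    exact fl_Rh_props.1.div_const _
  · rcases le_total 1 τ with h1 | h1
    · rw [hz τ h1]; norm_num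
    · unfold flPh
      have hc : Continuous flRh := fl_Rh_props.1.continuous
      have a0 : 0 ≤ ∫ σ in τ..1, flRh σ :=
        intervalIntegral.integral_nonneg h1 fun σ _ => (fl_Rh_props.2.1 σ).1
      have a1 : ∫ σ in τ..1, flRh σ ≤ ∫ σ in τ..1, (1 : ℝ) :=
        intervalIntegral.integral_mono_on h1 (hc.intervalIntegrable _ _)
          (continuous_const.intervalIntegrable _ _) fun σ _ => (fl_Rh_props.2.1 σ).2
      rw [intervalIntegral.integral_const, smul_eq_mul, mul_one] at a1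
      rw [abs_le]
      constructor <;> linarith

/-- radial functions with a smooth profile vanishing on `[1,∞)`. -/
theorem flk_prof {φ : ℝ → ℝ} (hφ : ContDiff ℝ ∞ φ) (h1 : ∀ τ, 1 ≤ τ → φ τ = 0) (c : ℝ) {s : ℝ}
    (hs : 0 < s) :
    ContDiff ℝ ∞ (fun x : E n => c * φ (‖x‖ ^ 2 / s ^ 2)) ∧
    (∀ x : E n, s ≤ ‖x‖ → c * φ (‖x‖ ^ 2 / s ^ 2) = 0) ∧
    tsupport (fun x : E n => c * φ (‖x‖ ^ 2 / s ^ 2)) ⊆ closedBall 0 s := by
  have hz : ∀ x : E n, s ≤ ‖x‖ → c * φ (‖x‖ ^ 2 / s ^ 2) = 0 := fun x hx => by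
    rw [h1 _ ?_, mul_zero]
    rw [le_div_iff₀ (by positivity), one_mul]
    exact pow_le_pow_left₀ hs.le hx 2
  refine ⟨contDiff_const.mul (hφ.comp ((contDiff_norm_sq ℝ).div_const _)), hz, ?_⟩
  refine closure_minimal (fun x hx => ?_) isClosed_closedBall
  by_contra hc
  apply hx
  refine hz x ?_
  rw [mem_closedBall, dist_zero_right, not_le] at hc
  exact hc.le

/-- scaling. -/
theorem flk_scale (φ : ℝ → ℝ) {s : ℝ} (hs : 0 < s) :
    ∫ x : E n, φ (‖x‖ ^ 2 / s ^ 2) = s ^ n * ∫ y : E n, φ (‖y‖ ^ 2) := by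
  have h1 := Measure.integral_comp_inv_smul (volume : Measure (E n)) (fun y : E n => φ (‖y‖ ^ 2)) s
  rw [finrank_euclideanSpace_fin, abs_of_pos (by positivity), smul_eq_mul] at h1
  rw [← h1]
  congr 1
  funext x
  rw [norm_smul, norm_inv, Real.norm_eq_abs, abs_of_pos hs]
  congr 1
  field_simp

theorem flk_compact {f : E n → ℝ} {s : ℝ} (h : tsupport f ⊆ closedBall 0 s) : HasCompactSupport f :=
  (isCompact_closedBall (0 : E n) s).of_isClosed_subset (isClosed_tsupport _) h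

theorem fl_Z_pos (n : ℕ) : 0 < flZ n := by
  obtain ⟨p1, -, p3⟩ := flk_prof (n := n) fl_Rh_props.1 fl_Rh_props.2.2.1 1 (s := 1) one_pos
  simp only [one_mul, one_pow, div_one] at p1 p3
  refine p1.continuous.integral_pos_of_hasCompactSupport_nonneg_nonzero (flk_compact p3)
    (fun y => (fl_Rh_props.2.1 _).1) (x := 0) ?_
  have := fl_Rh_props.2.2.2 0 one_pos
  simpa using this.ne'

theorem fl_R_props (n : ℕ) {s : ℝ} (hs : 0 < s) :
    ContDiff ℝ ∞ (flR n s) ∧ (∀ x, 0 ≤ flR n s x) ∧ (∀ x, flR n s (-x) = flR n s x) ∧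
    (∀ x, s ≤ ‖x‖ → flR n s x = 0) ∧ tsupport (flR n s) ⊆ closedBall 0 s ∧ Integrable (flR n s) ∧
    ∫ x, flR n s x = 1 := by
  obtain ⟨p1, p2, p3⟩ := flk_prof (n := n) fl_Rh_props.1 fl_Rh_props.2.2.1 (flZ n * s ^ n)⁻¹ hs
  have hZ := fl_Z_pos n
  refine ⟨p1, fun x => mul_nonneg (by positivity) (fl_Rh_props.2.1 _).1, fun x => ?_, p2, p3,
    p1.continuous.integrable_of_hasCompactSupport (flk_compact p3), ?_⟩
  · unfold flR; rw [norm_neg]
  · unfold flR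
    rw [integral_const_mul, flk_scale _ hs]
    show (flZ n * s ^ n)⁻¹ * (s ^ n * flZ n) = 1
    field_simp

theorem fl_Q_props (n : ℕ) {s : ℝ} (hs : 0 < s) :
    ContDiff ℝ ∞ (flQ n s) ∧ (∀ x, flQ n s (-x) = flQ n s x) ∧ (∀ x, s ≤ ‖x‖ → flQ n s x = 0) ∧
    tsupport (flQ n s) ⊆ closedBall 0 s := by
  obtain ⟨p1, p2, p3⟩ := flk_prof (n := n) fl_Ph_props.1 fl_Ph_props.2.2.1 (flZ n * s ^ n)⁻¹ hs
  refine ⟨p1, fun x => ?_, p2, p3⟩
  unfold flQ; rw [norm_neg]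

end Claimed.Agent.Gmt
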