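import Claimed.Agent.Lib.Gmt.FlKer1
import Claimed.Agent.Lib.Gmt.BvBasicA

/-!
THIS FILE = PACKAGE L-GMT-FlKer2 (part 2 of 4 of the former `FlKer.lean`, which now only imports the parts; the text below is the plan of the whole former file).
# Lib/Gmt G4.3a (architect: helper190): the mollifier family `R_s` and its potential `Q_s`.
PACKAGE L-GMT-FlKer.   PURE ANALYSIS on `E n` (no GMT).

`R_s(x) = (Z s^n)⁻¹ ρ̂(|x|²/s²)`, `Q_s(x) = (Z s^n)⁻¹ p(|x|²/s²)`, `ρ̂ = flRh` (smooth, `≥ 0`, `= 0` on `[1,∞)`), `p = flPh`, `p' = ρ̂/2`, `p = 0` on `[1,∞)`.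
KEY IDENTITY (`fl_R_hasDerivAt`):   `∂_s R_s = - s Δ Q_s`.
Proof: `∇Q_s(x) = (Z s^n)⁻¹ p'(τ) 2x/s² = R_s(x) x / s²` (`τ = |x|²/s²`), so `Δ Q_s = (n R_s + x·∇R_s)/s²` (`gmtDiv_smul`-type product rule, `div x = n`),
`x·∇R_s(x) = (Z s^n)⁻¹ ρ̂'(τ) 2|x|²/s²`, and `∂_s R_s = -(n/s) R_s + (Z s^n)⁻¹ ρ̂'(τ) (-2|x|²/s³) = -(n R_s + x·∇R_s)/s`.
NORMS: `|∇Q_s| = R_s |x|/s² ≤ R_s / s` (support in `|x| ≤ s`), so `∫|∇Q_s| ≤ 1/s`; `|p| ≤ 1/2` on `[0,∞)`, so `∫ |Q_s| ≤ ω_n/(2Z)`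
(change of variables `x = s y`: `MeasureTheory.Measure.integral_comp_smul` / `integral_comp_inv_smul`).
-/

set_option autoImplicit false
open scoped ContDiff ENNReal RealInnerProductSpace Topology
open MeasureTheory Metric Set Filter

namespace Claimed.Agent.Gmt

variable {n : ℕ}

/-- derivative of a radial function. -/
theorem flk_prof_hasFDerivAt {φ : ℝ → ℝ} {φ' : ℝ} (c s : ℝ) (x : E n)
    (hφ : HasDerivAt φ φ' (‖x‖ ^ 2 / s ^ 2)) :
    HasFDerivAt (fun x : E n => c * φ (‖x‖ ^ 2 / s ^ 2)) ((c * φ' * (2 / s ^ 2)) • innerSL ℝ x) x := by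
  have h1 : HasFDerivAt (fun x : E n => ‖x‖ ^ 2) (2 • innerSL ℝ x) x :=
    (hasStrictFDerivAt_norm_sq x).hasFDerivAt
  have h2 : HasFDerivAt (fun x : E n => ‖x‖ ^ 2 / s ^ 2) ((s ^ 2)⁻¹ • (2 • innerSL ℝ x)) x := by
    have := h1.const_mul (s ^ 2)⁻¹
    refine this.congr_of_eventuallyEq (Eventually.of_forall fun y => ?_)
    show ‖y‖ ^ 2 / s ^ 2 = (s ^ 2)⁻¹ * ‖y‖ ^ 2
    rw [div_eq_inv_mul]
  have h3 := (hφ.comp_hasFDerivAt x h2).const_mul c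
  refine h3.congr_fderiv ?_
  ext v
  simp only [_root_.smul_apply, smul_eq_mul, nsmul_eq_mul, Nat.cast_ofNat]
  ring

theorem flk_Q_hasFDerivAt (n : ℕ) (s : ℝ) (x : E n) :
    HasFDerivAt (flQ n s) ((flR n s x / s ^ 2) • innerSL ℝ x) x := by
  have h := flk_prof_hasFDerivAt (flZ n * s ^ n)⁻¹ s x (fl_Ph_props.2.1 (‖x‖ ^ 2 / s ^ 2))
  refine h.congr_fderiv ?_
  congr 1
  unfold flR
  ring

theorem fl_Q_gradient (n : ℕ) {s : ℝ} (hs : 0 < s) (x : E n) :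
    gradient (flQ n s) x = (flR n s x / s ^ 2) • x := by
  unfold gradient
  rw [(flk_Q_hasFDerivAt n s x).fderiv]
  have : (flR n s x / s ^ 2) • innerSL ℝ x
      = InnerProductSpace.toDual ℝ (E n) ((flR n s x / s ^ 2) • x) := by
    ext v
    simp
  rw [this, LinearIsometryEquiv.symm_apply_apply]

theorem flk_div_id (x : E n) : gmtDiv (fun y : E n => y) x = n := by
  unfold gmtDiv
  have : fderiv ℝ (fun y : E n => y) x = ContinuousLinearMap.id ℝ (E n) := fderiv_fun_id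
  rw [this]
  simp

theorem fl_Q_lap (n : ℕ) {s : ℝ} (hs : 0 < s) (x : E n) :
    flLap (flQ n s) x = (n * flR n s x + fderiv ℝ (flR n s) x x) / s ^ 2 := by
  unfold flLap
  have h1 : gradient (flQ n s) = fun y => ((s ^ 2)⁻¹ * flR n s y) • y := by
    funext y
    rw [fl_Q_gradient n hs, div_eq_inv_mul]
  have hd : DifferentiableAt ℝ (flR n s) x := ((fl_R_props n hs).1.differentiable (by simp)) x
  rw [h1, gmtDiv_smul (T := fun y => y) (hd.const_mul _) differentiableAt_fun_id, flk_div_id]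
  have h2 : fderiv ℝ (fun y => (s ^ 2)⁻¹ * flR n s y) x = (s ^ 2)⁻¹ • fderiv ℝ (flR n s) x :=
    (hd.hasFDerivAt.const_mul _).fderiv
  rw [h2]
  simp only [_root_.smul_apply, smul_eq_mul]
  field_simp

theorem flk_R_fderiv (n : ℕ) (s : ℝ) (x : E n) :
    fderiv ℝ (flR n s) x x
      = (flZ n * s ^ n)⁻¹ * deriv flRh (‖x‖ ^ 2 / s ^ 2) * (2 / s ^ 2) * ‖x‖ ^ 2 := by
  have hd : DifferentiableAt ℝ flRh (‖x‖ ^ 2 / s ^ 2) := (fl_Rh_props.1.differentiable (by simp)) _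
  have h := flk_prof_hasFDerivAt (flZ n * s ^ n)⁻¹ s x hd.hasDerivAt
  have h2 : fderiv ℝ (flR n s) x = _ := h.fderiv
  rw [h2]
  simp only [_root_.smul_apply, smul_eq_mul, innerSL_apply_apply,
    real_inner_self_eq_norm_sq]

/-- explicit formula for `Δ Q_s`. -/
theorem flk_Q_lap (n : ℕ) {s : ℝ} (hs : 0 < s) (x : E n) :
    flLap (flQ n s) x = (n * ((flZ n * s ^ n)⁻¹ * flRh (‖x‖ ^ 2 / s ^ 2))
      + (flZ n * s ^ n)⁻¹ * deriv flRh (‖x‖ ^ 2 / s ^ 2) * (2 / s ^ 2) * ‖x‖ ^ 2) / s ^ 2 := by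
  rw [fl_Q_lap n hs, flk_R_fderiv]
  rfl

/-- KEY IDENTITY `∂_s R_s = - s Δ Q_s`. -/
theorem fl_R_hasDerivAt (n : ℕ) {s : ℝ} (hs : 0 < s) (x : E n) :
    HasDerivAt (fun σ => flR n σ x) (-(s * flLap (flQ n s) x)) s := by
  have hZ := fl_Z_pos n
  have hd : DifferentiableAt ℝ flRh (‖x‖ ^ 2 / s ^ 2) := (fl_Rh_props.1.differentiable (by simp)) _
  have h1 : HasDerivAt (fun σ : ℝ => flZ n * σ ^ n) (flZ n * ((n : ℝ) * s ^ (n - 1))) s :=
    (hasDerivAt_pow n s).const_mul _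
  have h2 : HasDerivAt (fun σ : ℝ => (flZ n * σ ^ n)⁻¹)
      (-(flZ n * ((n : ℝ) * s ^ (n - 1))) / (flZ n * s ^ n) ^ 2) s := h1.inv (by positivity)
  have h3 : HasDerivAt (fun σ : ℝ => ‖x‖ ^ 2 / σ ^ 2)
      (-(‖x‖ ^ 2 * ((2 : ℕ) * s ^ (2 - 1))) / (s ^ 2) ^ 2) s := by
    have := (hasDerivAt_const s (‖x‖ ^ 2)).div (hasDerivAt_pow 2 s) (by positivity)
    refine this.congr_deriv ?_
    ring
  have h4 : HasDerivAt (fun σ : ℝ => flRh (‖x‖ ^ 2 / σ ^ 2))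
      (deriv flRh (‖x‖ ^ 2 / s ^ 2) * (-(‖x‖ ^ 2 * ((2 : ℕ) * s ^ (2 - 1))) / (s ^ 2) ^ 2)) s :=
    HasDerivAt.comp (h₂ := flRh) s hd.hasDerivAt h3
  have h5 : HasDerivAt (fun σ => flR n σ x) _ s := h2.mul h4
  refine h5.congr_deriv ?_
  rw [flk_Q_lap n hs]
  generalize flRh (‖x‖ ^ 2 / s ^ 2) = A
  generalize deriv flRh (‖x‖ ^ 2 / s ^ 2) = B
  rcases Nat.eq_zero_or_pos n with rfl | hn
  · simp
    field_simp
  · obtain ⟨k, rfl⟩ : ∃ k, n = k + 1 := ⟨n - 1, by omega⟩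
    simp only [Nat.add_sub_cancel]
    push_cast
    field_simp
    ring

theorem flk_c_continuousOn (n : ℕ) :
    ContinuousOn (fun p : ℝ × E n => (flZ n * p.1 ^ n)⁻¹) (Ioi (0 : ℝ) ×ˢ univ) := by
  refine ContinuousOn.inv₀ (by fun_prop) fun p hp => ?_
  have h1 : 0 < p.1 := hp.1
  have h2 := fl_Z_pos n
  positivity

theorem flk_sq_ne {p : ℝ × E n} (hp : p ∈ Ioi (0 : ℝ) ×ˢ (univ : Set (E n))) : p.1 ^ 2 ≠ 0 := by
  have h1 : 0 < p.1 := hp.1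
  positivity

theorem flk_tau_continuousOn (n : ℕ) :
    ContinuousOn (fun p : ℝ × E n => ‖p.2‖ ^ 2 / p.1 ^ 2) (Ioi (0 : ℝ) ×ˢ univ) :=
  ContinuousOn.div (by fun_prop) (by fun_prop) fun _ hp => flk_sq_ne hp

/-- joint continuity (for dominated convergence / differentiation under the integral). -/
theorem fl_R_continuousOn (n : ℕ) :
    ContinuousOn (fun p : ℝ × E n => flR n p.1 p.2) (Ioi (0 : ℝ) ×ˢ univ) :=
  (flk_c_continuousOn n).mul (fl_Rh_props.1.continuous.comp_continuousOn (flk_tau_continuousOn n))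

theorem fl_Q_lap_continuousOn (n : ℕ) :
    ContinuousOn (fun p : ℝ × E n => flLap (flQ n p.1) p.2) (Ioi (0 : ℝ) ×ˢ univ) := by
  have hd : Continuous (deriv flRh) := fl_Rh_props.1.continuous_deriv (by simp)
  have h : ContinuousOn (fun p : ℝ × E n =>
      (n * ((flZ n * p.1 ^ n)⁻¹ * flRh (‖p.2‖ ^ 2 / p.1 ^ 2))
        + (flZ n * p.1 ^ n)⁻¹ * deriv flRh (‖p.2‖ ^ 2 / p.1 ^ 2) * (2 / p.1 ^ 2) * ‖p.2‖ ^ 2)
          / p.1 ^ 2) (Ioi (0 : ℝ) ×ˢ univ) := by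
    refine ContinuousOn.div ?_ (by fun_prop) fun _ hp => flk_sq_ne hp
    refine ContinuousOn.add (continuousOn_const.mul (fl_R_continuousOn n)) ?_
    refine ContinuousOn.mul (ContinuousOn.mul ((flk_c_continuousOn n).mul
      (hd.comp_continuousOn (flk_tau_continuousOn n))) ?_) (by fun_prop)
    exact ContinuousOn.div continuousOn_const (by fun_prop) fun _ hp => flk_sq_ne hp
  exact h.congr fun p hp => flk_Q_lap n hp.1 p.2

theorem fl_Q_norm (n : ℕ) : ∃ C : ℝ, 0 < C ∧ ∀ s : ℝ, 0 < s → ∫ x, |flQ n s x| ≤ C := by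
  have hZ := fl_Z_pos n
  refine ⟨(flZ n)⁻¹ * (∫ y : E n, |flPh (‖y‖ ^ 2)|) + 1,
    add_pos_of_nonneg_of_pos (mul_nonneg (inv_nonneg.2 hZ.le)
      (integral_nonneg fun _ => abs_nonneg _)) one_pos, fun s hs => ?_⟩
  have : ∫ x, |flQ n s x| = (flZ n)⁻¹ * ∫ y : E n, |flPh (‖y‖ ^ 2)| := by
    unfold flQ
    simp only [abs_mul]
    rw [integral_const_mul, flk_scale (fun τ => |flPh τ|) hs, abs_of_pos (by positivity)]
    field_simp
  linarith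

theorem fl_Q_grad_norm (n : ℕ) {s : ℝ} (hs : 0 < s) : ∫ x, ‖fderiv ℝ (flQ n s) x‖ ≤ 1 / s := by
  obtain ⟨-, p2, -, p4, -, p6, p7⟩ := fl_R_props n hs
  have h1 : ∀ x, ‖fderiv ℝ (flQ n s) x‖ ≤ (1 / s) * flR n s x := fun x => by
    rw [(flk_Q_hasFDerivAt n s x).fderiv, norm_smul, innerSL_apply_norm, Real.norm_eq_abs,
      abs_of_nonneg (div_nonneg (p2 x) (by positivity))]
    by_cases hx : s ≤ ‖x‖
    · rw [p4 x hx]; simp
    · rw [not_le] at hx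
      calc flR n s x / s ^ 2 * ‖x‖ ≤ flR n s x / s ^ 2 * s :=
            mul_le_mul_of_nonneg_left hx.le (div_nonneg (p2 x) (by positivity))
        _ = 1 / s * flR n s x := by field_simp
  calc ∫ x, ‖fderiv ℝ (flQ n s) x‖ ≤ ∫ x, (1 / s) * flR n s x :=
        integral_mono_of_nonneg (Eventually.of_forall fun _ => norm_nonneg _) (p6.const_mul _)
          (Eventually.of_forall h1)
    _ = 1 / s := by rw [integral_const_mul, p7, mul_one]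

end Claimed.Agent.Gmt
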