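import Claimed.Agent.Lib.Gmt.FlKer2

/-!
THIS FILE = PACKAGE L-GMT-FlKer3 (part 3 of 4 of the former `FlKer.lean`, which now only imports the parts; the text below is the plan of the whole former file).
# Lib/Gmt G4.3a (architect: helper190): the mollifier family `R_s` and its potential `Q_s`.
PACKAGE L-GMT-FlKer.   PURE ANALYSIS on `E n` (no GMT).

`R_s(x) = (Z s^n)⁻¹ ρ̂(|x|²/s²)`, `Q_s(x) = (Z s^n)⁻¹ p(|x|²/s²)`, `ρ̂ = flRh` (smooth, `≥ 0`, `= 0` on `[1,∞)`), `p = flPh`, `p' = ρ̂/2`, `p = 0` on `[1,∞)`.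
KEY IDENTITY (`fl_R_hasDerivAt`):   `∂_s R_s = - s Δ Q_s`.
Proof: `∇Q_s(x) = (Z s^n)⁻¹ p'(τ) 2x/s² = R_s(x) x / s²` (`τ = |x|²/s²`), so `Δ Q_s = (n R_s + x·∇R_s)/s²` (`gmtDiv_smul`-type product rule, `div x = n`),
`x·∇R_s(x) = (Z s^n)⁻¹ ρ̂'(τ) 2|x|²/s²`, and `∂_s R_s = -(n/s) R_s + (Z s^n)⁻¹ ρ̂'(τ) (-2|x|²/s³) = -(n R_s + x·∇R_s)/s`.
NORMS: `|∇Q_s| = R_s |x|/s² ≤ R_s / s` (support in `|x| ≤ s`), so `∫|∇Q_s| ≤ 1/s`; `|p| ≤ 1/2` on `[0,∞)`, so `∫ |Q_s| ≤ ω_n/(2Z)`
(change of variables `x = s y`: `MeasureTheory.Measure.integral_comp_smul` / `integral_comp_inv_smul`).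
-/

set_option autoImplicit false
open scoped ContDiff ENNReal RealInnerProductSpace Topology
open MeasureTheory Metric Set Filter

namespace Claimed.Agent.Gmt

variable {n : ℕ}

/-- `(K * g)(z) = ∫ K(z-w) g(w) dw`. -/
noncomputable def flCv (K g : E n → ℝ) (z : E n) : ℝ := ∫ w, K (z - w) * g w

open scoped Convolution in
theorem flk_cv_eq (K g : E n → ℝ) :
    flCv K g = g ⋆[ContinuousLinearMap.mul ℝ ℝ, volume] K := by
  funext z
  unfold flCv convolution
  congr 1
  funext w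
  simp [mul_comm]

theorem flk_cv_integrable {K g : E n → ℝ} (hK : Continuous K) (hc : HasCompactSupport K)
    (hg : LocallyIntegrable g) (z : E n) : Integrable fun w => K (z - w) * g w := by
  have h := hc.convolutionExists_right (ContinuousLinearMap.mul ℝ ℝ) hg hK z
  unfold ConvolutionExistsAt at h
  refine h.congr (Eventually.of_forall fun w => ?_)
  simp [mul_comm]

theorem fl_cv_contDiff {K g : E n → ℝ} (hK : ContDiff ℝ ∞ K) (hc : HasCompactSupport K)
    (hg : LocallyIntegrable g) : ContDiff ℝ ∞ (flCv K g) := by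
  rw [flk_cv_eq]
  exact hc.contDiff_convolution_right _ hg hK

theorem fl_cv_fderiv {K g : E n → ℝ} (hK : ContDiff ℝ ∞ K) (hc : HasCompactSupport K)
    (hg : LocallyIntegrable g) (z v : E n) :
    fderiv ℝ (flCv K g) z v = flCv (fun x => fderiv ℝ K x v) g z := by
  rw [flk_cv_eq]
  have h := hc.hasFDerivAt_convolution_right (ContinuousLinearMap.mul ℝ ℝ) hg
    (hK.of_le (by simp)) z
  rw [h.fderiv]
  have hex := (hc.fderiv ℝ).convolutionExists_right
    ((ContinuousLinearMap.mul ℝ ℝ).precompR (E n)) hg (hK.continuous_fderiv (by simp)) z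
  unfold ConvolutionExistsAt at hex
  unfold convolution flCv
  rw [ContinuousLinearMap.integral_apply hex]
  congr 1
  funext w
  simp [mul_comm]

theorem flk_gradient_apply (F : E n → ℝ) (x : E n) (i : Fin n) :
    gradient F x i = fderiv ℝ F x (eb i) := by
  have h1 : ⟪gradient F x, eb i⟫ = fderiv ℝ F x (eb i) := by
    unfold gradient
    rw [InnerProductSpace.toDual_symm_apply]
  rw [← h1, EuclideanSpace.inner_single_right]
  simp

theorem flk_gradient_contDiff {F : E n → ℝ} (hF : ContDiff ℝ ∞ F) : ContDiff ℝ ∞ (gradient F) := by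
  unfold gradient
  exact (LinearIsometryEquiv.contDiff _).comp (hF.fderiv_right (m := ∞) (by simp))

theorem flk_lap_eq {F : E n → ℝ} (hF : ContDiff ℝ ∞ F) (z : E n) :
    flLap F z = ∑ i, fderiv ℝ (fun x => fderiv ℝ F x (eb i)) z (eb i) := by
  unfold flLap gmtDiv
  refine Finset.sum_congr rfl fun i _ => ?_
  have hd : DifferentiableAt ℝ (gradient F) z :=
    ((flk_gradient_contDiff hF).differentiable (by simp)) z
  have h1 : HasFDerivAt (fun x => gradient F x i)
      ((EuclideanSpace.proj i : E n →L[ℝ] ℝ).comp (fderiv ℝ (gradient F) z)) z :=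
    (EuclideanSpace.proj i : E n →L[ℝ] ℝ).hasFDerivAt.comp z hd.hasFDerivAt
  have h2 : (fun x => gradient F x i) = fun x => fderiv ℝ F x (eb i) :=
    funext fun x => flk_gradient_apply F x i
  rw [← h2, h1.fderiv]
  rfl

theorem flk_dir_contDiff {K : E n → ℝ} (hK : ContDiff ℝ ∞ K) (v : E n) :
    ContDiff ℝ ∞ fun x => fderiv ℝ K x v :=
  (hK.fderiv_right (m := ∞) (by simp)).clm_apply contDiff_const

theorem fl_cv_lap {K g : E n → ℝ} (hK : ContDiff ℝ ∞ K) (hc : HasCompactSupport K)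
    (hg : LocallyIntegrable g) (z : E n) : flLap (flCv K g) z = flCv (flLap K) g z := by
  rw [flk_lap_eq (fl_cv_contDiff hK hc hg)]
  have h1 : ∀ i : Fin n, fderiv ℝ (fun x => fderiv ℝ (flCv K g) x (eb i)) z (eb i)
      = flCv (fun x => fderiv ℝ (fun y => fderiv ℝ K y (eb i)) x (eb i)) g z := fun i => by
    have : (fun x => fderiv ℝ (flCv K g) x (eb i)) = flCv (fun x => fderiv ℝ K x (eb i)) g :=
      funext fun x => fl_cv_fderiv hK hc hg x (eb i)
    rw [this, fl_cv_fderiv (flk_dir_contDiff hK _) (hc.fderiv_apply ℝ _) hg]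
  simp only [h1]
  unfold flCv
  rw [← integral_finsetSum]
  · congr 1
    funext w
    rw [flk_lap_eq hK, Finset.sum_mul]
  · intro i _
    exact flk_cv_integrable (flk_dir_contDiff (flk_dir_contDiff hK _) _).continuous
      ((hc.fderiv_apply ℝ _).fderiv_apply ℝ _) hg z

theorem flk_int_shift (f : E n → ℝ) (z : E n) : ∫ w, f (z - w) = ∫ x, f x :=
  integral_sub_left_eq_self f volume z

theorem flk_M_nonneg {g : E n → ℝ} {M : ℝ} (hM : ∀ᵐ w, |g w| ≤ M) : 0 ≤ M := by
  obtain ⟨w, hw⟩ := hM.exists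
  exact (abs_nonneg _).trans hw

/-- general bound. -/
theorem flk_cv_le {K g b : E n → ℝ} (hb : Integrable b) (hKb : ∀ x, |K x| ≤ b x) {M : ℝ}
    (hM : ∀ᵐ w, |g w| ≤ M) (z : E n) : |flCv K g z| ≤ M * ∫ x, b x := by
  have hM0 := flk_M_nonneg hM
  have hbi : Integrable fun w => M * b (z - w) := (hb.comp_sub_left z).const_mul M
  have h := norm_integral_le_of_norm_le (f := fun w => K (z - w) * g w) hbi (by
    filter_upwards [hM] with w hw
    rw [Real.norm_eq_abs, abs_mul, mul_comm]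
    exact mul_le_mul hw (hKb _) (abs_nonneg _) hM0)
  rw [integral_const_mul, flk_int_shift b z, Real.norm_eq_abs] at h
  exact h

theorem fl_cv_abs_le {K g : E n → ℝ} (hK : Continuous K) (hc : HasCompactSupport K) {M : ℝ}
    (hM : ∀ᵐ w, |g w| ≤ M) (z : E n) : |flCv K g z| ≤ M * ∫ x, |K x| :=
  flk_cv_le (hK.integrable_of_hasCompactSupport hc).abs (fun _ => le_rfl) hM z

theorem fl_cv_fderiv_le {K g : E n → ℝ} (hK : ContDiff ℝ ∞ K) (hc : HasCompactSupport K)
    (hg : LocallyIntegrable g) {M : ℝ} (hM : ∀ᵐ w, |g w| ≤ M) (z : E n) :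
    ‖fderiv ℝ (flCv K g) z‖ ≤ M * ∫ x, ‖fderiv ℝ K x‖ := by
  have hM0 := flk_M_nonneg hM
  have hi : Integrable fun x => ‖fderiv ℝ K x‖ :=
    ((hK.continuous_fderiv (by simp)).integrable_of_hasCompactSupport (hc.fderiv ℝ)).norm
  refine ContinuousLinearMap.opNorm_le_bound _
    (mul_nonneg hM0 (integral_nonneg fun _ => norm_nonneg _)) fun v => ?_
  rw [fl_cv_fderiv hK hc hg, Real.norm_eq_abs]
  have h := flk_cv_le (K := fun x => fderiv ℝ K x v) (hi.mul_const ‖v‖)
    (fun x => (fderiv ℝ K x).le_opNorm v) hM z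
  rw [integral_mul_const] at h
  linarith

theorem flk_fderiv2_apply {F : E n → ℝ} (hF : ContDiff ℝ ∞ F) (z u v : E n) :
    fderiv ℝ (fun x => fderiv ℝ F x u) z v = fderiv ℝ (fderiv ℝ F) z v u := by
  have hd : DifferentiableAt ℝ (fderiv ℝ F) z :=
    ((hF.fderiv_right (m := ∞) (by simp)).differentiable (by simp)) z
  have h := hd.hasFDerivAt.clm_apply (hasFDerivAt_const u z)
  rw [h.fderiv]
  simp

theorem fl_cv_fderiv2_le {K g : E n → ℝ} (hK : ContDiff ℝ ∞ K) (hc : HasCompactSupport K)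
    (hg : LocallyIntegrable g) {M : ℝ} (hM : ∀ᵐ w, |g w| ≤ M) (z : E n) :
    ‖fderiv ℝ (fderiv ℝ (flCv K g)) z‖ ≤ M * ∫ x, ‖fderiv ℝ (fderiv ℝ K) x‖ := by
  have hM0 := flk_M_nonneg hM
  have hK1 : ContDiff ℝ ∞ (fderiv ℝ K) := hK.fderiv_right (m := ∞) (by simp)
  have hi : Integrable fun x => ‖fderiv ℝ (fderiv ℝ K) x‖ :=
    ((hK1.continuous_fderiv (by simp)).integrable_of_hasCompactSupport
      ((hc.fderiv ℝ).fderiv ℝ)).norm
  have hB : 0 ≤ M * ∫ x, ‖fderiv ℝ (fderiv ℝ K) x‖ :=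
    mul_nonneg hM0 (integral_nonneg fun x => norm_nonneg (fderiv ℝ (fderiv ℝ K) x))
  refine ContinuousLinearMap.opNorm_le_bound _ hB fun v => ?_
  refine ContinuousLinearMap.opNorm_le_bound _ (mul_nonneg hB (norm_nonneg _)) fun u => ?_
  rw [← flk_fderiv2_apply (fl_cv_contDiff hK hc hg)]
  have h1 : (fun x => fderiv ℝ (flCv K g) x u) = flCv (fun x => fderiv ℝ K x u) g :=
    funext fun x => fl_cv_fderiv hK hc hg x u
  rw [h1, fl_cv_fderiv (flk_dir_contDiff hK _) (hc.fderiv_apply ℝ _) hg, Real.norm_eq_abs]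
  have h := flk_cv_le (K := fun x => fderiv ℝ (fun y => fderiv ℝ K y u) x v)
    ((hi.mul_const ‖v‖).mul_const ‖u‖) (fun x => by
      rw [flk_fderiv2_apply hK]
      exact ((fderiv ℝ (fderiv ℝ K) x v).le_opNorm u).trans
        (mul_le_mul_of_nonneg_right ((fderiv ℝ (fderiv ℝ K) x).le_opNorm v) (norm_nonneg _))) hM z
  rw [integral_mul_const, integral_mul_const] at h
  linarith

theorem fl_cv_tsupport {K g : E n → ℝ} {s ρ : ℝ} (hK : ∀ x, s ≤ ‖x‖ → K x = 0)
    (hg : ∀ w, ρ ≤ ‖w‖ → g w = 0) : tsupport (flCv K g) ⊆ closedBall 0 (ρ + s) := by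
  refine closure_minimal (fun z hz => ?_) isClosed_closedBall
  by_contra hc
  apply hz
  rw [mem_closedBall, dist_zero_right, not_le] at hc
  unfold flCv
  have : ∀ w, K (z - w) * g w = 0 := fun w => by
    by_cases hw : ρ ≤ ‖w‖
    · rw [hg w hw, mul_zero]
    · rw [not_le] at hw
      rw [hK _ ?_, zero_mul]
      have := norm_sub_norm_le z w
      linarith
  simp [this]

end Claimed.Agent.Gmt
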