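import Claimed.Agent.Lib.Gmt.FlKer3

/-!
THIS FILE = PACKAGE L-GMT-FlKer4 (part 4 of 4 of the former `FlKer.lean`, which now only imports the parts; the text below is the plan of the whole former file).
# Lib/Gmt G4.3a (architect: helper190): the mollifier family `R_s` and its potential `Q_s`.
PACKAGE L-GMT-FlKer.   PURE ANALYSIS on `E n` (no GMT).

`R_s(x) = (Z s^n)⁻¹ ρ̂(|x|²/s²)`, `Q_s(x) = (Z s^n)⁻¹ p(|x|²/s²)`, `ρ̂ = flRh` (smooth, `≥ 0`, `= 0` on `[1,∞)`), `p = flPh`, `p' = ρ̂/2`, `p = 0` on `[1,∞)`.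
KEY IDENTITY (`fl_R_hasDerivAt`):   `∂_s R_s = - s Δ Q_s`.
Proof: `∇Q_s(x) = (Z s^n)⁻¹ p'(τ) 2x/s² = R_s(x) x / s²` (`τ = |x|²/s²`), so `Δ Q_s = (n R_s + x·∇R_s)/s²` (`gmtDiv_smul`-type product rule, `div x = n`),
`x·∇R_s(x) = (Z s^n)⁻¹ ρ̂'(τ) 2|x|²/s²`, and `∂_s R_s = -(n/s) R_s + (Z s^n)⁻¹ ρ̂'(τ) (-2|x|²/s³) = -(n R_s + x·∇R_s)/s`.
NORMS: `|∇Q_s| = R_s |x|/s² ≤ R_s / s` (support in `|x| ≤ s`), so `∫|∇Q_s| ≤ 1/s`; `|p| ≤ 1/2` on `[0,∞)`, so `∫ |Q_s| ≤ ω_n/(2Z)`
(change of variables `x = s y`: `MeasureTheory.Measure.integral_comp_smul` / `integral_comp_inv_smul`).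
-/

set_option autoImplicit false
open scoped ContDiff ENNReal RealInnerProductSpace Topology
open MeasureTheory Metric Set Filter

namespace Claimed.Agent.Gmt

variable {n : ℕ}

theorem flk_cv_symm {K h g : E n → ℝ} (hK : Continuous K) (hc : HasCompactSupport K)
    (he : ∀ x, K (-x) = K x) (hh : Integrable h) (hg : Integrable g) :
    ∫ z, h z * flCv K g z = ∫ z, flCv K h z * g z := by
  obtain ⟨C, hC⟩ := hc.exists_bound_of_continuous hK
  have hint : Integrable (Function.uncurry fun z w => h z * (K (z - w) * g w))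
      (volume.prod volume) := by
    have h1 : Integrable (fun p : E n × E n => h p.1 * g p.2) (volume.prod volume) :=
      hh.mul_prod hg
    have h2 := h1.bdd_mul (f := fun p : E n × E n => K (p.1 - p.2)) (c := C)
      (hK.comp (continuous_fst.sub continuous_snd)).aestronglyMeasurable
      (Eventually.of_forall fun p => hC _)
    refine h2.congr (Eventually.of_forall fun p => ?_)
    simp only [Function.uncurry]
    ring
  unfold flCv
  calc ∫ z, h z * ∫ w, K (z - w) * g w = ∫ z, ∫ w, h z * (K (z - w) * g w) := by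
        congr 1; funext z; rw [integral_const_mul]
    _ = ∫ w, ∫ z, h z * (K (z - w) * g w) := integral_integral_swap hint
    _ = ∫ w, (∫ z, K (w - z) * h z) * g w := by
        congr 1; funext w
        rw [← integral_mul_const]
        congr 1; funext z
        rw [← he (w - z), neg_sub]; ring

/-- symmetry for even kernels. -/
theorem fl_cv_symm {K h g : E n → ℝ} (hK : Continuous K) (hc : HasCompactSupport K)
    (he : ∀ x, K (-x) = K x) (hh : Integrable h) (hg : Integrable g) {M M' : ℝ}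
    (hM : ∀ᵐ w, |h w| ≤ M) (hM' : ∀ᵐ w, |g w| ≤ M') :
    ∫ z, h z * flCv K g z = ∫ z, flCv K h z * g z := flk_cv_symm hK hc he hh hg

theorem flk_cv_unif {φ : E n → ℝ} (hφ : Continuous φ) (hc : HasCompactSupport φ) {η : ℝ}
    (hη : 0 < η) :
    ∃ δ > 0, ∀ a, 0 < a → a < δ → ∀ z, |flCv (flR n a) φ z - φ z| ≤ η := by
  have hu := hc.uniformContinuous_of_continuous hφ
  obtain ⟨δ, hδ, hd⟩ := Metric.uniformContinuous_iff.1 hu η hη
  refine ⟨δ, hδ, fun a ha0 ha z => ?_⟩
  obtain ⟨p1, p2, p3, p4, p5, p6, p7⟩ := fl_R_props n ha0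
  have i1 : Integrable fun w => flR n a (z - w) := p6.comp_sub_left z
  have e1 : ∫ w, flR n a (z - w) = 1 := by rw [flk_int_shift, p7]
  have i2 : Integrable fun w => flR n a (z - w) * φ w :=
    flk_cv_integrable p1.continuous (flk_compact p5) hφ.locallyIntegrable z
  have e2 : flCv (flR n a) φ z - φ z = ∫ w, flR n a (z - w) * (φ w - φ z) := by
    unfold flCv
    have : ∫ w, flR n a (z - w) * (φ w - φ z)
        = (∫ w, flR n a (z - w) * φ w) - ∫ w, flR n a (z - w) * φ z := by
      rw [← integral_sub i2 (i1.mul_const _)]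
      congr 1; funext w; ring
    rw [this, integral_mul_const, e1, one_mul]
  rw [e2]
  have h := norm_integral_le_of_norm_le (f := fun w => flR n a (z - w) * (φ w - φ z))
    (i1.mul_const η) (Eventually.of_forall fun w => ?_)
  · rw [integral_mul_const, e1, one_mul, Real.norm_eq_abs] at h
    exact h
  · rw [Real.norm_eq_abs, abs_mul, abs_of_nonneg (p2 _)]
    by_cases hw : a ≤ ‖z - w‖
    · rw [p4 _ hw]; simp
    · refine mul_le_mul_of_nonneg_left ?_ (p2 _)
      have h1 : dist w z < δ := by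
        rw [dist_comm, dist_eq_norm]; linarith [not_le.1 hw]
      have h2 := hd h1
      rw [Real.dist_eq] at h2
      exact h2.le

theorem flk_frac {M ε : ℝ} (hM : 0 ≤ M) (hε : 0 < ε) : M * (ε / (4 * (M + 1))) ≤ ε / 4 := by
  rw [mul_div_assoc', div_le_div_iff₀ (by positivity) (by norm_num)]
  nlinarith

/-- approximate identity, tested against a bounded function. -/
theorem fl_cv_tendsto {h g : E n → ℝ} (hh : Integrable h) (hg : Integrable g) {M M' : ℝ}
    (hM : ∀ᵐ w, |h w| ≤ M) (hM' : ∀ᵐ w, |g w| ≤ M') :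
    Tendsto (fun a => ∫ z, h z * flCv (flR n a) g z) (𝓝[>] 0) (𝓝 (∫ z, h z * g z)) := by
  have hM0 := flk_M_nonneg hM
  rw [Metric.tendsto_nhds]
  intro ε hε
  set N := ∫ z, |h z| with hN
  have hN0 : 0 ≤ N := integral_nonneg fun _ => abs_nonneg _
  obtain ⟨φ, hφc, hφe, hφ, hφi⟩ :=
    hg.exists_hasCompactSupport_integral_sub_le (ε := ε / (4 * (M + 1))) (by positivity)
  obtain ⟨δ, hδ, hd⟩ := flk_cv_unif hφ hφc (η := ε / (4 * (N + 1))) (by positivity)
  obtain ⟨Cφ, hCφ⟩ := hφc.exists_bound_of_continuous hφ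
  filter_upwards [Ioo_mem_nhdsGT hδ] with a ha
  obtain ⟨p1, p2, p3, p4, p5, p6, p7⟩ := fl_R_props n ha.1
  have hRc := flk_compact p5
  have e1 : ∫ x, |flR n a x| = 1 := by
    simp only [abs_of_nonneg (p2 _)]; exact p7
  have s1 : ∫ z, h z * flCv (flR n a) g z = ∫ z, flCv (flR n a) h z * g z :=
    flk_cv_symm p1.continuous hRc p3 hh hg
  have s2 : ∫ z, h z * flCv (flR n a) φ z = ∫ z, flCv (flR n a) h z * φ z :=
    flk_cv_symm p1.continuous hRc p3 hh hφi
  have hG : ∀ z, ‖flCv (flR n a) h z‖ ≤ M := fun z => by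
    have := fl_cv_abs_le p1.continuous hRc hM z
    rwa [e1, mul_one] at this
  have hGm : AEStronglyMeasurable (flCv (flR n a) h) volume :=
    (fl_cv_contDiff p1 hRc hh.locallyIntegrable).continuous.aestronglyMeasurable
  have iGg : Integrable fun z => flCv (flR n a) h z * g z :=
    hg.bdd_mul hGm (Eventually.of_forall hG)
  have iGφ : Integrable fun z => flCv (flR n a) h z * φ z :=
    hφi.bdd_mul hGm (Eventually.of_forall hG)
  have b1 : |(∫ z, flCv (flR n a) h z * g z) - ∫ z, flCv (flR n a) h z * φ z|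
      ≤ M * (ε / (4 * (M + 1))) := by
    rw [← integral_sub iGg iGφ]
    have := norm_integral_le_of_norm_le
      (f := fun z => flCv (flR n a) h z * g z - flCv (flR n a) h z * φ z)
      (g := fun z => M * ‖g z - φ z‖) ((hg.sub hφi).norm.const_mul M)
      (Eventually.of_forall fun z => by
        rw [← mul_sub, norm_mul]
        exact mul_le_mul_of_nonneg_right (hG z) (norm_nonneg _))
    rw [integral_const_mul] at this
    exact this.trans (mul_le_mul_of_nonneg_left hφe hM0)
  have ihφ : Integrable fun z => h z * φ z :=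
    hh.mul_bdd hφ.aestronglyMeasurable (Eventually.of_forall hCφ)
  have ihg : Integrable fun z => h z * g z :=
    hg.bdd_mul hh.aestronglyMeasurable (hM.mono fun z hz => by rwa [Real.norm_eq_abs])
  have ihc : Integrable fun z => h z * flCv (flR n a) φ z :=
    hh.mul_bdd (c := Cφ * 1)
      (fl_cv_contDiff p1 hRc hφ.locallyIntegrable).continuous.aestronglyMeasurable
      (Eventually.of_forall fun z => by
        have := fl_cv_abs_le (g := φ) p1.continuous hRc (M := Cφ) (Eventually.of_forall hCφ) z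
        rwa [e1] at this)
  have b2 : |(∫ z, h z * flCv (flR n a) φ z) - ∫ z, h z * φ z| ≤ N * (ε / (4 * (N + 1))) := by
    rw [← integral_sub ihc ihφ]
    have := norm_integral_le_of_norm_le
      (f := fun z => h z * flCv (flR n a) φ z - h z * φ z)
      (g := fun z => |h z| * (ε / (4 * (N + 1)))) (hh.abs.mul_const _)
      (Eventually.of_forall fun z => by
        rw [← mul_sub, norm_mul, Real.norm_eq_abs, Real.norm_eq_abs]
        exact mul_le_mul_of_nonneg_left (hd a ha.1 ha.2 z) (abs_nonneg _))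
    rw [integral_mul_const] at this
    exact this
  have b3 : |(∫ z, h z * φ z) - ∫ z, h z * g z| ≤ M * (ε / (4 * (M + 1))) := by
    rw [← integral_sub ihφ ihg]
    have := norm_integral_le_of_norm_le
      (f := fun z => h z * φ z - h z * g z)
      (g := fun z => M * ‖g z - φ z‖) ((hg.sub hφi).norm.const_mul M)
      (hM.mono fun z hz => by
        rw [← mul_sub, norm_mul, Real.norm_eq_abs, norm_sub_rev]
        exact mul_le_mul_of_nonneg_right hz (norm_nonneg _))
    rw [integral_const_mul] at this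
    exact this.trans (mul_le_mul_of_nonneg_left hφe hM0)
  have f1 := flk_frac hM0 hε
  have f2 := flk_frac hN0 hε
  rw [Real.dist_eq, s1]
  rw [s2] at b2
  have := abs_le.1 b1
  have := abs_le.1 b2
  have := abs_le.1 b3
  rw [abs_lt]
  constructor <;> linarith

end Claimed.Agent.Gmt
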