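import Claimed.Agent.Lib.Gmt.FlDefs

/-!
THIS FILE = PACKAGE L-GMT-FlMean1 (part 1 of 5 of the former `FlMean.lean`, which now only imports the parts; the text below is the plan of the whole former file).
# Lib/Gmt G4.5 (architect: helper190): mean value inequality for squares of affine functions (F7).
PACKAGES L-GMT-FlMeanA (profiles + field: `fl_Chi_props` ... `fl_MZ_norm`), L-GMT-FlMeanB (`fl_mean_layer`, `fl_mean_pre`, `fl_mean`).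
Input: only `FlFV` (first variation bound), `‖ν‖ ≤ 1`, an upper density bound at the centre.  No GMT.

SETTING.  `E (k+1)`, `k ≥ 1`; `f = L²`, `L(y) = a + ⟪q,y⟫`, `‖q‖ ≤ 2`; `w = y - y0`, `τ = ‖w‖²`; `0 < 2s ≤ R ≤ 1`; `0 ≤ β`.
`χ = flChi` (`1` on `(-∞,1/4]`, `0` on `[1,∞)`), `γ̃(τ) = flGa = (s²+τ)^{-β} χ(τ/R²)`, `g(τ) = flGb = -½ ∫_τ^{R²} γ̃` (so `g' = γ̃/2`, `g ≤ 0`, `g = 0` on `[R²,∞)`),
`γ(y) = γ̃(τ)`, `Γ(y) = g(τ)` (so `∇Γ = γ w`),     `Z = flMZ = γ f w - Γ ∇f = γ L² w - 2 Γ L q`.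
POINTWISE COMPUTATION (`div_S = flTdiv`, any `ν` with `|ν| ≤ 1`; write `⟨u,v⟩_T = u·v - (u·ν)(v·ν)`, a positive semidefinite form):
 `div_S (γ f w) = (k + 1 - |ν|²) γ f + 2 γ̃'(τ) f ⟨w,w⟩_T + γ ⟨∇f, w⟩_T`,      `div_S (Γ ∇f) = γ ⟨w, ∇f⟩_T + 2 Γ ⟨q,q⟩_T`,
 so `div_S Z = (k+1-|ν|²) γ f + 2 γ̃' f ⟨w,w⟩_T - 2 Γ ⟨q,q⟩_T ≥ k γ f + 2 γ̃' f ⟨w,w⟩_T`.
 `γ̃' = -β (s²+τ)^{-β-1} χ + (s²+τ)^{-β} χ'(τ/R²)/R²`, `0 ≤ ⟨w,w⟩_T ≤ τ`; the first part gives `≥ -2βτ (s²+τ)^{-β-1} χ f`, and `k (s²+τ) - 2βτ = (k-2β)(s²+τ) + 2β s²`;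
 the second part is `≠ 0` only for `R²/4 ≤ τ < R²`, where `(s²+τ)^{-β} ≤ (R²/4)^{-β}` and `τ/R² ≤ 1`.      This is `fl_MZ_tdiv`.
NORMS (`fl_MZ_norm`): `‖D(γ f w)‖ ≤ 2τ|γ̃'| f + γ |∇f| |w| + γ f`, `2τ|γ̃'| ≤ 2βγ + 2 Cχ (R²/4)^{-β} 1_{B_R}`, `|∇f||w| ≤ 4|L||w| ≤ 2f + 2τ`; `‖γ f w‖ ≤ γ f` (`|w| ≤ R ≤ 1` on the support);
 `‖D(Γ∇f)‖ ≤ γ|w| 4|L| + 8|Γ| ≤ 2γf + 2γτ + 8|Γ|`; `‖Γ∇f‖ ≤ 4|Γ||L| ≤ 2|Γ| + 2|Γ|f`, `2|Γ| ≤ (s²+τ)^{-β} R² 1_{B_R} ≤ γ + (R²/4)^{-β} 1_{B_R}`.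
LAYER CAKE (`fl_mean_layer`): for `0 < τ < R²`: `γ̃ τ ≤ τ^{1-β} ≤ R^{2-2β} + |β-1| ∫_τ^{R²} σ^{-β} dσ`, `|g(τ)| ≤ ½ ∫_τ^{R²} σ^{-β} dσ`; Tonelli:
 `∫_{B_R} ∫_{τ(y)}^{R²} σ^{-β} dσ dμ(y) = ∫_0^{R²} σ^{-β} μ(B_{√σ}) dσ ≤ C₀ ∫_0^{R²} σ^{k/2-β} dσ = C₀ R^{2+k-2β}/(1+k/2-β) ≤ C₀ R^{2+k-2β}` (`integral_rpow`).
ASSEMBLY (`fl_mean_pre`): `FlFV` for `Z`: `∫ div_S Z ≤ κ ∫ (‖DZ‖ + ‖Z‖)`; with `k - 2β = (7+k) κ ≥ (7+2β) κ` the terms `∫ γ f` cancel: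
 `2β s² ∫ χ f (s²+τ)^{-β-1} ≤ (2Cχ + κ(2Cχ+1)) (R²/4)^{-β} ∫_{B_R} f + κ (13+2k) C₀ R^{2+k-2β}`; on `B_s`: `χ = 1`, `(s²+τ)^{-β-1} ≥ (2s²)^{-β-1}`.
`fl_mean`: `κ₀ = 1/(2(7+k))`, so `1/4 ≤ β ≤ k/2`; multiply by `s^{2β-k}`; `(R/s)^{k-2β} = exp((7+k) κ log(R/s)) ≤ e^{7+k}`.
All integrands are bounded, measurable and vanish off `closedBall y0 R`, which has finite measure: integrable.
-/

set_option autoImplicit false
open scoped ContDiff ENNReal RealInnerProductSpace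
open MeasureTheory Metric Set

namespace Claimed.Agent.Gmt

variable {k : ℕ}

/-- cut-off profile: `1` on `(-∞,1/4]`, `0` on `[1,∞)`. -/
noncomputable def flChi (x : ℝ) : ℝ := Real.smoothTransition ((1 - x) * (4 / 3))

/-- `γ̃(τ) = (s²+τ)^{-β} χ(τ/R²)`. -/
noncomputable def flGa (s R β τ : ℝ) : ℝ := (s ^ 2 + τ) ^ (-β) * flChi (τ / R ^ 2)

/-- `g(τ) = -½ ∫_τ^{R²} γ̃`. -/
noncomputable def flGb (s R β τ : ℝ) : ℝ := -(1 / 2) * ∫ σ in τ..R ^ 2, flGa s R β σ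

/-- the test field `Z = γ L² (y - y0) - 2 Γ L q`. -/
noncomputable def flMZ (s R β : ℝ) (y0 : E (k + 1)) (a : ℝ) (q : E (k + 1)) (y : E (k + 1)) :
    E (k + 1) :=
  (flGa s R β (‖y - y0‖ ^ 2) * (a + ⟪q, y⟫) ^ 2) • (y - y0) -
    (flGb s R β (‖y - y0‖ ^ 2) * (2 * (a + ⟪q, y⟫))) • q

theorem fl_Chi_props : ContDiff ℝ ∞ flChi ∧ (∀ x, 0 ≤ flChi x ∧ flChi x ≤ 1) ∧
    (∀ x, x ≤ 1 / 4 → flChi x = 1) ∧ (∀ x, 1 ≤ x → flChi x = 0) ∧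
    (∀ x, x < 1 / 4 ∨ 1 ≤ x → deriv flChi x = 0) ∧ ∃ C : ℝ, 0 ≤ C ∧ ∀ x, |deriv flChi x| ≤ C := by
  have hsm : ContDiff ℝ ∞ flChi := by
    unfold flChi
    exact Real.smoothTransition.contDiff.comp (by fun_prop)
  have h01 : ∀ x, 0 ≤ flChi x ∧ flChi x ≤ 1 := fun x =>
    ⟨Real.smoothTransition.nonneg _, Real.smoothTransition.le_one _⟩
  have h1 : ∀ x, x ≤ 1 / 4 → flChi x = 1 := fun x hx =>
    Real.smoothTransition.one_of_one_le (by linarith)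
  have h0 : ∀ x, 1 ≤ x → flChi x = 0 := fun x hx =>
    Real.smoothTransition.zero_of_nonpos (by nlinarith)
  have hd : ∀ x, x ≤ 1 / 4 ∨ 1 ≤ x → deriv flChi x = 0 := by
    rintro x (hx | hx)
    · refine IsLocalMax.deriv_eq_zero (Filter.Eventually.of_forall fun y => ?_)
      rw [h1 x hx]
      exact (h01 y).2
    · refine IsLocalMin.deriv_eq_zero (Filter.Eventually.of_forall fun y => ?_)
      rw [h0 x hx]
      exact (h01 y).1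
  refine ⟨hsm, h01, h1, h0, fun x hx => hd x (hx.imp le_of_lt id), ?_⟩
  have hc : Continuous (deriv flChi) := hsm.continuous_deriv (by simp)
  obtain ⟨C, hC⟩ := (isCompact_Icc (a := (1 / 4 : ℝ)) (b := 1)).exists_bound_of_continuousOn hc.continuousOn
  refine ⟨max C 0, le_max_right _ _, fun x => ?_⟩
  by_cases hx : x ∈ Icc (1 / 4 : ℝ) 1
  · exact (hC x hx).trans (le_max_left _ _)
  · rw [mem_Icc, not_and_or, not_le, not_le] at hx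
    rw [hd x (hx.imp le_of_lt le_of_lt), abs_zero]
    exact le_max_right _ _

theorem fl_Ga_props {s R β : ℝ} (hs : 0 < s) (hR : 0 < R) (hβ : 0 ≤ β) :
    ContDiffOn ℝ ∞ (flGa s R β) (Ioi (-s ^ 2)) ∧
    (∀ τ, 0 ≤ τ → 0 ≤ flGa s R β τ ∧ flGa s R β τ ≤ (s ^ 2 + τ) ^ (-β)) ∧
    (∀ τ, R ^ 2 ≤ τ → flGa s R β τ = 0) ∧
    (∀ τ, τ ≤ R ^ 2 / 4 → flGa s R β τ = (s ^ 2 + τ) ^ (-β)) ∧
    ∀ τ, -s ^ 2 < τ → HasDerivAt (flGa s R β)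
      (-β * (s ^ 2 + τ) ^ (-β - 1) * flChi (τ / R ^ 2) +
        (s ^ 2 + τ) ^ (-β) * (deriv flChi (τ / R ^ 2) / R ^ 2)) τ := by
  obtain ⟨hsm, h01, h1, h0, -, -⟩ := fl_Chi_props
  have hR2 : 0 < R ^ 2 := by positivity
  have hpos : ∀ τ, -s ^ 2 < τ → 0 < s ^ 2 + τ := fun τ h => by linarith
  refine ⟨?_, fun τ hτ => ?_, fun τ hτ => ?_, fun τ hτ => ?_, fun τ hτ => ?_⟩
  · unfold flGa
    refine ContDiffOn.mul ?_ ?_
    · exact ContDiffOn.rpow_const_of_ne (by fun_prop) fun τ hτ => (hpos τ hτ).ne'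
    · exact (hsm.comp (by fun_prop)).contDiffOn
  · have hp : 0 ≤ (s ^ 2 + τ) ^ (-β) := Real.rpow_nonneg (by positivity) _
    unfold flGa
    exact ⟨mul_nonneg hp (h01 _).1, mul_le_of_le_one_right hp (h01 _).2⟩
  · unfold flGa
    rw [h0 _ ((one_le_div hR2).2 hτ), mul_zero]
  · unfold flGa
    rw [h1 _ (by rw [div_le_iff₀ hR2]; linarith), mul_one]
  · have d1 : HasDerivAt (fun τ : ℝ => (s ^ 2 + τ) ^ (-β)) (1 * (-β) * (s ^ 2 + τ) ^ (-β - 1)) τ :=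
      ((hasDerivAt_id τ).const_add (s ^ 2)).rpow_const (Or.inl (hpos τ hτ).ne')
    have dchi : HasDerivAt flChi (deriv flChi (τ / R ^ 2)) (τ / R ^ 2) :=
      (hsm.differentiable (by simp)).differentiableAt.hasDerivAt
    have d2 : HasDerivAt (fun τ : ℝ => flChi (τ / R ^ 2)) (deriv flChi (τ / R ^ 2) * (1 / R ^ 2)) τ :=
      HasDerivAt.comp (h₂ := flChi) (h := fun τ : ℝ => τ / R ^ 2) τ dchi
        ((hasDerivAt_id τ).div_const (R ^ 2))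
    have d3 := d1.mul d2
    have h3 : 1 * (-β) * (s ^ 2 + τ) ^ (-β - 1) * flChi (τ / R ^ 2) +
        (s ^ 2 + τ) ^ (-β) * (deriv flChi (τ / R ^ 2) * (1 / R ^ 2)) =
        -β * (s ^ 2 + τ) ^ (-β - 1) * flChi (τ / R ^ 2) +
        (s ^ 2 + τ) ^ (-β) * (deriv flChi (τ / R ^ 2) / R ^ 2) := by ring
    rw [h3] at d3
    exact d3

theorem fl_Ga_continuousOn {s R β : ℝ} (hs : 0 < s) (hR : 0 < R) (hβ : 0 ≤ β) :
    ContinuousOn (flGa s R β) (Ioi (-s ^ 2)) := (fl_Ga_props hs hR hβ).1.continuousOn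

theorem fl_Ga_intervalIntegrable {s R β : ℝ} (hs : 0 < s) (hR : 0 < R) (hβ : 0 ≤ β) {a b : ℝ}
    (ha : -s ^ 2 < a) (hb : -s ^ 2 < b) : IntervalIntegrable (flGa s R β) volume a b := by
  refine ((fl_Ga_continuousOn hs hR hβ).mono fun x hx => ?_).intervalIntegrable
  exact lt_of_lt_of_le (lt_min ha hb) hx.1

theorem fl_Gb_props {s R β : ℝ} (hs : 0 < s) (hR : 0 < R) (hβ : 0 ≤ β) :
    ContDiffOn ℝ ∞ (flGb s R β) (Ioi (-s ^ 2)) ∧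
    (∀ τ, -s ^ 2 < τ → HasDerivAt (flGb s R β) (flGa s R β τ / 2) τ) ∧
    (∀ τ, 0 ≤ τ → flGb s R β τ ≤ 0) ∧ (∀ τ, R ^ 2 ≤ τ → flGb s R β τ = 0) ∧
    (∀ τ, 0 ≤ τ → |flGb s R β τ| ≤ (s ^ 2 + τ) ^ (-β) * R ^ 2 / 2) ∧
    ∀ τ, 0 < τ → τ ≤ R ^ 2 → |flGb s R β τ| ≤ 1 / 2 * ∫ σ in τ..R ^ 2, σ ^ (-β) := by
  obtain ⟨hGs, hG01, hG0, -, -⟩ := fl_Ga_props hs hR hβ
  have hR2 : 0 < R ^ 2 := by positivity
  have hs2 : 0 < s ^ 2 := by positivity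
  have hRs : -s ^ 2 < R ^ 2 := by linarith
  have hder : ∀ τ, -s ^ 2 < τ → HasDerivAt (flGb s R β) (flGa s R β τ / 2) τ := by
    intro τ hτ
    have h1 := intervalIntegral.integral_hasDerivAt_left (fl_Ga_intervalIntegrable hs hR hβ hτ hRs)
      ((fl_Ga_continuousOn hs hR hβ).stronglyMeasurableAtFilter isOpen_Ioi τ hτ)
      ((fl_Ga_continuousOn hs hR hβ).continuousAt (isOpen_Ioi.mem_nhds hτ))
    have h2 := h1.const_mul (-(1 / 2 : ℝ))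
    have h3 : -(1 / 2 : ℝ) * -flGa s R β τ = flGa s R β τ / 2 := by ring
    rw [h3] at h2
    exact h2
  have hzero : ∀ τ, R ^ 2 ≤ τ → flGb s R β τ = 0 := by
    intro τ hτ
    unfold flGb
    have : ∫ σ in τ..R ^ 2, flGa s R β σ = ∫ σ in τ..R ^ 2, (0 : ℝ) := by
      refine intervalIntegral.integral_congr fun σ hσ => ?_
      rw [uIcc_of_ge hτ] at hσ
      exact hG0 σ hσ.1
    rw [this, intervalIntegral.integral_zero, mul_zero]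
  have hnn : ∀ τ, 0 ≤ τ → τ ≤ R ^ 2 → 0 ≤ ∫ σ in τ..R ^ 2, flGa s R β σ := fun τ h0 h1 =>
    intervalIntegral.integral_nonneg h1 fun σ hσ => (hG01 σ (h0.trans hσ.1)).1
  have habs : ∀ τ, 0 ≤ τ → τ ≤ R ^ 2 → |flGb s R β τ| = 1 / 2 * ∫ σ in τ..R ^ 2, flGa s R β σ := by
    intro τ h0 h1
    unfold flGb
    rw [abs_mul, abs_neg, abs_of_pos (by norm_num : (0 : ℝ) < 1 / 2), abs_of_nonneg (hnn τ h0 h1)]
  refine ⟨?_, hder, fun τ hτ => ?_, hzero, fun τ hτ => ?_, fun τ hτ hτR => ?_⟩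
  · rw [contDiffOn_infty_iff_deriv_of_isOpen isOpen_Ioi]
    refine ⟨fun τ hτ => (hder τ hτ).differentiableAt.differentiableWithinAt, ?_⟩
    refine (hGs.div_const 2).congr fun τ hτ => ?_
    exact (hder τ hτ).deriv
  · rcases le_total τ (R ^ 2) with h | h
    · unfold flGb
      have := hnn τ hτ h
      linarith
    · exact (hzero τ h).le
  · have hp : 0 ≤ (s ^ 2 + τ) ^ (-β) := Real.rpow_nonneg (by positivity) _
    rcases le_total τ (R ^ 2) with h | h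
    · rw [habs τ hτ h]
      have h1 : ∫ σ in τ..R ^ 2, flGa s R β σ ≤ ∫ _ in τ..R ^ 2, (s ^ 2 + τ) ^ (-β) := by
        refine intervalIntegral.integral_mono_on h
          (fl_Ga_intervalIntegrable hs hR hβ (by linarith) hRs) intervalIntegrable_const fun σ hσ => ?_
        refine (hG01 σ (hτ.trans hσ.1)).2.trans ?_
        exact Real.rpow_le_rpow_of_nonpos (by positivity) (by linarith [hσ.1]) (by linarith)
      rw [intervalIntegral.integral_const, smul_eq_mul] at h1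
      have h2 : (R ^ 2 - τ) * (s ^ 2 + τ) ^ (-β) ≤ R ^ 2 * (s ^ 2 + τ) ^ (-β) :=
        mul_le_mul_of_nonneg_right (by linarith) hp
      linarith
    · rw [hzero τ h, abs_zero]
      positivity
  · rw [habs τ hτ.le hτR]
    refine mul_le_mul_of_nonneg_left ?_ (by norm_num)
    refine intervalIntegral.integral_mono_on hτR
      (fl_Ga_intervalIntegrable hs hR hβ (by linarith) hRs) ?_ fun σ hσ => ?_
    · refine intervalIntegral.intervalIntegrable_rpow (Or.inr ?_)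
      rw [uIcc_of_le hτR]
      exact fun h => absurd h.1 (not_le.2 hτ)
    · have hσ0 : 0 < σ := lt_of_lt_of_le hτ hσ.1
      refine (hG01 σ hσ0.le).2.trans ?_
      exact Real.rpow_le_rpow_of_nonpos hσ0 (by linarith) (by linarith)

end Claimed.Agent.Gmt
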