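import Claimed.Agent.Lib.Gmt.FlMean1

/-!
THIS FILE = PACKAGE L-GMT-FlMean2 (part 2 of 5 of the former `FlMean.lean`, which now only imports the parts; the text below is the plan of the whole former file).
# Lib/Gmt G4.5 (architect: helper190): mean value inequality for squares of affine functions (F7).
PACKAGES L-GMT-FlMeanA (profiles + field: `fl_Chi_props` ... `fl_MZ_norm`), L-GMT-FlMeanB (`fl_mean_layer`, `fl_mean_pre`, `fl_mean`).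
Input: only `FlFV` (first variation bound), `‖ν‖ ≤ 1`, an upper density bound at the centre.  No GMT.

SETTING.  `E (k+1)`, `k ≥ 1`; `f = L²`, `L(y) = a + ⟪q,y⟫`, `‖q‖ ≤ 2`; `w = y - y0`, `τ = ‖w‖²`; `0 < 2s ≤ R ≤ 1`; `0 ≤ β`.
`χ = flChi` (`1` on `(-∞,1/4]`, `0` on `[1,∞)`), `γ̃(τ) = flGa = (s²+τ)^{-β} χ(τ/R²)`, `g(τ) = flGb = -½ ∫_τ^{R²} γ̃` (so `g' = γ̃/2`, `g ≤ 0`, `g = 0` on `[R²,∞)`),
`γ(y) = γ̃(τ)`, `Γ(y) = g(τ)` (so `∇Γ = γ w`),     `Z = flMZ = γ f w - Γ ∇f = γ L² w - 2 Γ L q`.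
POINTWISE COMPUTATION (`div_S = flTdiv`, any `ν` with `|ν| ≤ 1`; write `⟨u,v⟩_T = u·v - (u·ν)(v·ν)`, a positive semidefinite form):
 `div_S (γ f w) = (k + 1 - |ν|²) γ f + 2 γ̃'(τ) f ⟨w,w⟩_T + γ ⟨∇f, w⟩_T`,      `div_S (Γ ∇f) = γ ⟨w, ∇f⟩_T + 2 Γ ⟨q,q⟩_T`,
 so `div_S Z = (k+1-|ν|²) γ f + 2 γ̃' f ⟨w,w⟩_T - 2 Γ ⟨q,q⟩_T ≥ k γ f + 2 γ̃' f ⟨w,w⟩_T`.
 `γ̃' = -β (s²+τ)^{-β-1} χ + (s²+τ)^{-β} χ'(τ/R²)/R²`, `0 ≤ ⟨w,w⟩_T ≤ τ`; the first part gives `≥ -2βτ (s²+τ)^{-β-1} χ f`, and `k (s²+τ) - 2βτ = (k-2β)(s²+τ) + 2β s²`;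
 the second part is `≠ 0` only for `R²/4 ≤ τ < R²`, where `(s²+τ)^{-β} ≤ (R²/4)^{-β}` and `τ/R² ≤ 1`.      This is `fl_MZ_tdiv`.
NORMS (`fl_MZ_norm`): `‖D(γ f w)‖ ≤ 2τ|γ̃'| f + γ |∇f| |w| + γ f`, `2τ|γ̃'| ≤ 2βγ + 2 Cχ (R²/4)^{-β} 1_{B_R}`, `|∇f||w| ≤ 4|L||w| ≤ 2f + 2τ`; `‖γ f w‖ ≤ γ f` (`|w| ≤ R ≤ 1` on the support);
 `‖D(Γ∇f)‖ ≤ γ|w| 4|L| + 8|Γ| ≤ 2γf + 2γτ + 8|Γ|`; `‖Γ∇f‖ ≤ 4|Γ||L| ≤ 2|Γ| + 2|Γ|f`, `2|Γ| ≤ (s²+τ)^{-β} R² 1_{B_R} ≤ γ + (R²/4)^{-β} 1_{B_R}`.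
LAYER CAKE (`fl_mean_layer`): for `0 < τ < R²`: `γ̃ τ ≤ τ^{1-β} ≤ R^{2-2β} + |β-1| ∫_τ^{R²} σ^{-β} dσ`, `|g(τ)| ≤ ½ ∫_τ^{R²} σ^{-β} dσ`; Tonelli:
 `∫_{B_R} ∫_{τ(y)}^{R²} σ^{-β} dσ dμ(y) = ∫_0^{R²} σ^{-β} μ(B_{√σ}) dσ ≤ C₀ ∫_0^{R²} σ^{k/2-β} dσ = C₀ R^{2+k-2β}/(1+k/2-β) ≤ C₀ R^{2+k-2β}` (`integral_rpow`).
ASSEMBLY (`fl_mean_pre`): `FlFV` for `Z`: `∫ div_S Z ≤ κ ∫ (‖DZ‖ + ‖Z‖)`; with `k - 2β = (7+k) κ ≥ (7+2β) κ` the terms `∫ γ f` cancel: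
 `2β s² ∫ χ f (s²+τ)^{-β-1} ≤ (2Cχ + κ(2Cχ+1)) (R²/4)^{-β} ∫_{B_R} f + κ (13+2k) C₀ R^{2+k-2β}`; on `B_s`: `χ = 1`, `(s²+τ)^{-β-1} ≥ (2s²)^{-β-1}`.
`fl_mean`: `κ₀ = 1/(2(7+k))`, so `1/4 ≤ β ≤ k/2`; multiply by `s^{2β-k}`; `(R/s)^{k-2β} = exp((7+k) κ log(R/s)) ≤ e^{7+k}`.
All integrands are bounded, measurable and vanish off `closedBall y0 R`, which has finite measure: integrable.
-/

set_option autoImplicit false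
open scoped ContDiff ENNReal RealInnerProductSpace
open MeasureTheory Metric Set

namespace Claimed.Agent.Gmt

variable {k : ℕ}

theorem fln_tau_mem {s : ℝ} (hs : 0 < s) (y y0 : E (k + 1)) : ‖y - y0‖ ^ 2 ∈ Ioi (-s ^ 2) := by
  have : 0 ≤ ‖y - y0‖ ^ 2 := by positivity
  have : 0 < s ^ 2 := by positivity
  show -s ^ 2 < ‖y - y0‖ ^ 2
  linarith

theorem fln_hasFDerivAt {s R β : ℝ} (hs : 0 < s) (hR : 0 < R) (hβ : 0 ≤ β) (y0 : E (k + 1)) (a : ℝ)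
    (q y : E (k + 1)) :
    HasFDerivAt (flMZ s R β y0 a q)
      ((flGa s R β (‖y - y0‖ ^ 2) * (a + ⟪q, y⟫) ^ 2) • ContinuousLinearMap.id ℝ (E (k + 1)) +
        (flGa s R β (‖y - y0‖ ^ 2) • ((2 • (a + ⟪q, y⟫) ^ (2 - 1)) • innerSL ℝ q) +
          (a + ⟪q, y⟫) ^ 2 • (deriv (flGa s R β) (‖y - y0‖ ^ 2) • (2 • innerSL ℝ (y - y0)))).smulRight
            (y - y0) -
        (flGb s R β (‖y - y0‖ ^ 2) • ((2 : ℝ) • innerSL ℝ q) +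
          (2 * (a + ⟪q, y⟫)) • ((flGa s R β (‖y - y0‖ ^ 2) / 2) • (2 • innerSL ℝ (y - y0)))).smulRight q)
      y := by
  have hm := fln_tau_mem hs y y0
  have hw : HasFDerivAt (fun y : E (k + 1) => y - y0) (ContinuousLinearMap.id ℝ (E (k + 1))) y :=
    (hasFDerivAt_id y).sub_const y0
  have hτ : HasFDerivAt (fun y : E (k + 1) => ‖y - y0‖ ^ 2) (2 • innerSL ℝ (y - y0)) y := by
    have := hw.norm_sq
    simpa using this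
  have hL : HasFDerivAt (fun y : E (k + 1) => a + ⟪q, y⟫) (innerSL ℝ q) y :=
    ((innerSL ℝ q).hasFDerivAt).const_add a
  have hGa' : HasDerivAt (flGa s R β) (deriv (flGa s R β) (‖y - y0‖ ^ 2)) (‖y - y0‖ ^ 2) :=
    ((fl_Ga_props hs hR hβ).2.2.2.2 _ hm).differentiableAt.hasDerivAt
  have hGa := hGa'.comp_hasFDerivAt y hτ
  have hGb := ((fl_Gb_props hs hR hβ).2.1 _ hm).comp_hasFDerivAt y hτ
  have h1 := (hGa.mul (hL.pow 2)).smul hw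
  have h2 := (hGb.mul (hL.const_mul 2)).smul_const q
  exact h1.sub h2

/-- the derivative of the test field. -/
theorem fl_MZ_fderiv {s R β : ℝ} (hs : 0 < s) (hR : 0 < R) (hβ : 0 ≤ β) (y0 : E (k + 1)) (a : ℝ)
    (q y v : E (k + 1)) :
    fderiv ℝ (flMZ s R β y0 a q) y v =
      (deriv (flGa s R β) (‖y - y0‖ ^ 2) * (2 * ⟪y - y0, v⟫) * (a + ⟪q, y⟫) ^ 2) • (y - y0) +
      (flGa s R β (‖y - y0‖ ^ 2) * (2 * (a + ⟪q, y⟫) * ⟪q, v⟫)) • (y - y0) +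
      (flGa s R β (‖y - y0‖ ^ 2) * (a + ⟪q, y⟫) ^ 2) • v -
      (flGa s R β (‖y - y0‖ ^ 2) * ⟪y - y0, v⟫ * (2 * (a + ⟪q, y⟫))) • q -
      (flGb s R β (‖y - y0‖ ^ 2) * (2 * ⟪q, v⟫)) • q := by
  rw [(fln_hasFDerivAt hs hR hβ y0 a q y).fderiv]
  simp only [ContinuousLinearMap.sub_apply, ContinuousLinearMap.add_apply, _root_.smul_apply,
    ContinuousLinearMap.smulRight_apply, ContinuousLinearMap.id_apply, innerSL_apply_apply,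
    smul_eq_mul, nsmul_eq_mul, Nat.cast_ofNat, Nat.add_one_sub_one, pow_one]
  module

theorem fln_off {s R β : ℝ} (hs : 0 < s) (hR : 0 < R) (hβ : 0 ≤ β) {τ : ℝ} (hτ : R ^ 2 ≤ τ) :
    flGa s R β τ = 0 ∧ flGb s R β τ = 0 ∧ deriv (flGa s R β) τ = 0 := by
  have h0 : -s ^ 2 < τ := by
    have : 0 < s ^ 2 := by positivity
    have : 0 < R ^ 2 := by positivity
    linarith
  have h1 : 1 ≤ τ / R ^ 2 := by rwa [le_div_iff₀ (by positivity), one_mul]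
  refine ⟨(fl_Ga_props hs hR hβ).2.2.1 τ hτ, (fl_Gb_props hs hR hβ).2.2.2.1 τ hτ, ?_⟩
  rw [((fl_Ga_props hs hR hβ).2.2.2.2 τ h0).deriv, fl_Chi_props.2.2.2.1 _ h1,
    fl_Chi_props.2.2.2.2.1 _ (Or.inr h1)]
  simp

theorem fl_MZ_off {s R β : ℝ} (y0 : E (k + 1)) (a : ℝ) (q : E (k + 1)) {y : E (k + 1)}
    (hs : 0 < s) (hR : 0 < R) (hβ : 0 ≤ β) (hy : R ≤ ‖y - y0‖) :
    flMZ s R β y0 a q y = 0 ∧ fderiv ℝ (flMZ s R β y0 a q) y = 0 := by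
  obtain ⟨h1, h2, h3⟩ := fln_off hs hR hβ (pow_le_pow_left₀ hR.le hy 2)
  constructor
  · unfold flMZ
    rw [h1, h2]
    simp
  · ext1 v
    rw [fl_MZ_fderiv hs hR hβ, h1, h2, h3]
    simp

theorem fl_MZ_test {s R β : ℝ} (hs : 0 < s) (hR : 0 < R) (hβ : 0 ≤ β) (y0 : E (k + 1)) (a : ℝ)
    (q : E (k + 1)) {U : Set (E (k + 1))} (hU : closedBall y0 R ⊆ U) :
    GmtTestS U (flMZ s R β y0 a q) := by
  have hτ : ContDiff ℝ ∞ fun y : E (k + 1) => ‖y - y0‖ ^ 2 :=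
    (contDiff_id.sub contDiff_const).norm_sq ℝ
  have hGa : ContDiff ℝ ∞ fun y : E (k + 1) => flGa s R β (‖y - y0‖ ^ 2) :=
    (fl_Ga_props hs hR hβ).1.comp_contDiff hτ fun y => fln_tau_mem hs y y0
  have hGb : ContDiff ℝ ∞ fun y : E (k + 1) => flGb s R β (‖y - y0‖ ^ 2) :=
    (fl_Gb_props hs hR hβ).1.comp_contDiff hτ fun y => fln_tau_mem hs y y0
  have hL : ContDiff ℝ ∞ fun y : E (k + 1) => a + ⟪q, y⟫ :=
    contDiff_const.add (contDiff_const.inner ℝ contDiff_id)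
  have hoff : ∀ y, y ∉ closedBall y0 R → flMZ s R β y0 a q y = 0 := fun y hy => by
    rw [mem_closedBall, dist_eq_norm, not_le] at hy
    exact (fl_MZ_off y0 a q hs hR hβ hy.le).1
  refine ⟨?_, HasCompactSupport.intro (isCompact_closedBall y0 R) hoff, ?_⟩
  · exact ((hGa.mul (hL.pow 2)).smul (contDiff_id.sub contDiff_const)).sub
      ((hGb.mul (contDiff_const.mul hL)).smul contDiff_const)
  · refine (closure_minimal (fun y hy => ?_) isClosed_closedBall).trans hU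
    by_contra hc
    exact hy (hoff y hc)

theorem fln_norm_sq (w : E (k + 1)) : ‖w‖ ^ 2 = ∑ i, w i ^ 2 := by
  rw [EuclideanSpace.norm_sq_eq]
  simp

theorem fln_inner_eb (w : E (k + 1)) (i : Fin (k + 1)) : ⟪w, eb i⟫ = w i := by
  rw [EuclideanSpace.inner_single_right]
  simp

/-- exact formula for the tangential divergence. -/
theorem fl_MZ_tdiv_eq {s R β : ℝ} (hs : 0 < s) (hR : 0 < R) (hβ : 0 ≤ β) (y0 : E (k + 1)) (a : ℝ)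
    (q : E (k + 1)) (ν : E (k + 1) → E (k + 1)) (y : E (k + 1)) :
    flTdiv (flMZ s R β y0 a q) ν y =
      ((k : ℝ) + 1 - ‖ν y‖ ^ 2) * (flGa s R β (‖y - y0‖ ^ 2) * (a + ⟪q, y⟫) ^ 2) +
      2 * deriv (flGa s R β) (‖y - y0‖ ^ 2) * (a + ⟪q, y⟫) ^ 2 *
        (‖y - y0‖ ^ 2 - ⟪y - y0, ν y⟫ ^ 2) -
      2 * flGb s R β (‖y - y0‖ ^ 2) * (‖q‖ ^ 2 - ⟪q, ν y⟫ ^ 2) := by
  unfold flTdiv
  have e1 : gmtDiv (flMZ s R β y0 a q) y =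
      ((k : ℝ) + 1) * (flGa s R β (‖y - y0‖ ^ 2) * (a + ⟪q, y⟫) ^ 2) +
      2 * deriv (flGa s R β) (‖y - y0‖ ^ 2) * (a + ⟪q, y⟫) ^ 2 * ‖y - y0‖ ^ 2 -
      2 * flGb s R β (‖y - y0‖ ^ 2) * ‖q‖ ^ 2 := by
    unfold gmtDiv
    calc ∑ i, fderiv ℝ (flMZ s R β y0 a q) y (eb i) i
        = ∑ i : Fin (k + 1), (flGa s R β (‖y - y0‖ ^ 2) * (a + ⟪q, y⟫) ^ 2 +
          (2 * deriv (flGa s R β) (‖y - y0‖ ^ 2) * (a + ⟪q, y⟫) ^ 2) * (y - y0) i ^ 2 -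
          (2 * flGb s R β (‖y - y0‖ ^ 2)) * q i ^ 2) := by
          refine Finset.sum_congr rfl fun i _ => ?_
          rw [fl_MZ_fderiv hs hR hβ, fln_inner_eb, fln_inner_eb]
          simp only [PiLp.sub_apply, PiLp.add_apply, PiLp.smul_apply, smul_eq_mul]
          have : (eb i : E (k + 1)) i = 1 := by simp
          rw [this]
          ring
      _ = _ := by
          rw [Finset.sum_sub_distrib, Finset.sum_add_distrib, Finset.sum_const, ← Finset.mul_sum,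
            ← Finset.mul_sum, ← fln_norm_sq, ← fln_norm_sq]
          simp
  rw [e1, fl_MZ_fderiv hs hR hβ]
  generalize y - y0 = w
  simp only [inner_add_right, inner_sub_right, inner_smul_right, real_inner_self_eq_norm_sq]
  rw [real_inner_comm w (ν y), real_inner_comm q (ν y)]
  ring

end Claimed.Agent.Gmt
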