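import Claimed.Agent.Lib.Gmt.FlMean2

/-!
THIS FILE = PACKAGE L-GMT-FlMean3 (part 3 of 5 of the former `FlMean.lean`, which now only imports the parts; the text below is the plan of the whole former file).
# Lib/Gmt G4.5 (architect: helper190): mean value inequality for squares of affine functions (F7).
PACKAGES L-GMT-FlMeanA (profiles + field: `fl_Chi_props` ... `fl_MZ_norm`), L-GMT-FlMeanB (`fl_mean_layer`, `fl_mean_pre`, `fl_mean`).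
Input: only `FlFV` (first variation bound), `‖ν‖ ≤ 1`, an upper density bound at the centre.  No GMT.

SETTING.  `E (k+1)`, `k ≥ 1`; `f = L²`, `L(y) = a + ⟪q,y⟫`, `‖q‖ ≤ 2`; `w = y - y0`, `τ = ‖w‖²`; `0 < 2s ≤ R ≤ 1`; `0 ≤ β`.
`χ = flChi` (`1` on `(-∞,1/4]`, `0` on `[1,∞)`), `γ̃(τ) = flGa = (s²+τ)^{-β} χ(τ/R²)`, `g(τ) = flGb = -½ ∫_τ^{R²} γ̃` (so `g' = γ̃/2`, `g ≤ 0`, `g = 0` on `[R²,∞)`),
`γ(y) = γ̃(τ)`, `Γ(y) = g(τ)` (so `∇Γ = γ w`),     `Z = flMZ = γ f w - Γ ∇f = γ L² w - 2 Γ L q`.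
POINTWISE COMPUTATION (`div_S = flTdiv`, any `ν` with `|ν| ≤ 1`; write `⟨u,v⟩_T = u·v - (u·ν)(v·ν)`, a positive semidefinite form):
 `div_S (γ f w) = (k + 1 - |ν|²) γ f + 2 γ̃'(τ) f ⟨w,w⟩_T + γ ⟨∇f, w⟩_T`,      `div_S (Γ ∇f) = γ ⟨w, ∇f⟩_T + 2 Γ ⟨q,q⟩_T`,
 so `div_S Z = (k+1-|ν|²) γ f + 2 γ̃' f ⟨w,w⟩_T - 2 Γ ⟨q,q⟩_T ≥ k γ f + 2 γ̃' f ⟨w,w⟩_T`.
 `γ̃' = -β (s²+τ)^{-β-1} χ + (s²+τ)^{-β} χ'(τ/R²)/R²`, `0 ≤ ⟨w,w⟩_T ≤ τ`; the first part gives `≥ -2βτ (s²+τ)^{-β-1} χ f`, and `k (s²+τ) - 2βτ = (k-2β)(s²+τ) + 2β s²`;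
 the second part is `≠ 0` only for `R²/4 ≤ τ < R²`, where `(s²+τ)^{-β} ≤ (R²/4)^{-β}` and `τ/R² ≤ 1`.      This is `fl_MZ_tdiv`.
NORMS (`fl_MZ_norm`): `‖D(γ f w)‖ ≤ 2τ|γ̃'| f + γ |∇f| |w| + γ f`, `2τ|γ̃'| ≤ 2βγ + 2 Cχ (R²/4)^{-β} 1_{B_R}`, `|∇f||w| ≤ 4|L||w| ≤ 2f + 2τ`; `‖γ f w‖ ≤ γ f` (`|w| ≤ R ≤ 1` on the support);
 `‖D(Γ∇f)‖ ≤ γ|w| 4|L| + 8|Γ| ≤ 2γf + 2γτ + 8|Γ|`; `‖Γ∇f‖ ≤ 4|Γ||L| ≤ 2|Γ| + 2|Γ|f`, `2|Γ| ≤ (s²+τ)^{-β} R² 1_{B_R} ≤ γ + (R²/4)^{-β} 1_{B_R}`.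
LAYER CAKE (`fl_mean_layer`): for `0 < τ < R²`: `γ̃ τ ≤ τ^{1-β} ≤ R^{2-2β} + |β-1| ∫_τ^{R²} σ^{-β} dσ`, `|g(τ)| ≤ ½ ∫_τ^{R²} σ^{-β} dσ`; Tonelli:
 `∫_{B_R} ∫_{τ(y)}^{R²} σ^{-β} dσ dμ(y) = ∫_0^{R²} σ^{-β} μ(B_{√σ}) dσ ≤ C₀ ∫_0^{R²} σ^{k/2-β} dσ = C₀ R^{2+k-2β}/(1+k/2-β) ≤ C₀ R^{2+k-2β}` (`integral_rpow`).
ASSEMBLY (`fl_mean_pre`): `FlFV` for `Z`: `∫ div_S Z ≤ κ ∫ (‖DZ‖ + ‖Z‖)`; with `k - 2β = (7+k) κ ≥ (7+2β) κ` the terms `∫ γ f` cancel: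
 `2β s² ∫ χ f (s²+τ)^{-β-1} ≤ (2Cχ + κ(2Cχ+1)) (R²/4)^{-β} ∫_{B_R} f + κ (13+2k) C₀ R^{2+k-2β}`; on `B_s`: `χ = 1`, `(s²+τ)^{-β-1} ≥ (2s²)^{-β-1}`.
`fl_mean`: `κ₀ = 1/(2(7+k))`, so `1/4 ≤ β ≤ k/2`; multiply by `s^{2β-k}`; `(R/s)^{k-2β} = exp((7+k) κ log(R/s)) ≤ e^{7+k}`.
All integrands are bounded, measurable and vanish off `closedBall y0 R`, which has finite measure: integrable.
-/

set_option autoImplicit false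
open scoped ContDiff ENNReal RealInnerProductSpace
open MeasureTheory Metric Set

namespace Claimed.Agent.Gmt

variable {k : ℕ}

/-- the cut-off part of `γ̃'` is controlled. -/
theorem fln_e {s R β τ Cχ : ℝ} (hs : 0 < s) (hR : 0 < R) (hβ : 0 ≤ β) (h0 : 0 ≤ τ)
    (h1 : τ ≤ R ^ 2) (hC : ∀ x, |deriv flChi x| ≤ Cχ) :
    |(s ^ 2 + τ) ^ (-β) * (deriv flChi (τ / R ^ 2) / R ^ 2)| * τ ≤ Cχ * (R ^ 2 / 4) ^ (-β) := by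
  have hC0 : 0 ≤ Cχ := (abs_nonneg _).trans (hC 0)
  have hR2 : 0 < R ^ 2 := by positivity
  have hM : 0 ≤ (R ^ 2 / 4) ^ (-β) := Real.rpow_nonneg (by positivity) _
  by_cases hc : τ / R ^ 2 < 1 / 4
  · rw [fl_Chi_props.2.2.2.2.1 _ (Or.inl hc)]
    simp only [zero_div, mul_zero, abs_zero, zero_mul]
    positivity
  · rw [not_lt, le_div_iff₀ hR2] at hc
    have hX : R ^ 2 / 4 ≤ s ^ 2 + τ := by nlinarith [sq_nonneg s]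
    have hP : (s ^ 2 + τ) ^ (-β) ≤ (R ^ 2 / 4) ^ (-β) :=
      Real.rpow_le_rpow_of_nonpos (by positivity) hX (by linarith)
    have hP0 : 0 ≤ (s ^ 2 + τ) ^ (-β) := Real.rpow_nonneg (by positivity) _
    have ht : τ / R ^ 2 ≤ 1 := by rwa [div_le_one hR2]
    have ht0 : 0 ≤ τ / R ^ 2 := by positivity
    rw [abs_mul, abs_div, abs_of_nonneg hP0, abs_of_pos hR2]
    calc (s ^ 2 + τ) ^ (-β) * (|deriv flChi (τ / R ^ 2)| / R ^ 2) * τ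
        = (s ^ 2 + τ) ^ (-β) * |deriv flChi (τ / R ^ 2)| * (τ / R ^ 2) := by ring
      _ ≤ (R ^ 2 / 4) ^ (-β) * Cχ * 1 := by
          gcongr
          exact hC _
      _ = Cχ * (R ^ 2 / 4) ^ (-β) := by ring

theorem fln_rpow {X β : ℝ} (hX : 0 < X) : X ^ (-β) = X ^ (-β - 1) * X := by
  rw [← Real.rpow_add_one hX.ne']
  congr 1
  ring

theorem fln_cs (w ν : E (k + 1)) (hν : ‖ν‖ ≤ 1) : 0 ≤ ‖w‖ ^ 2 - ⟪w, ν⟫ ^ 2 := by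
  have h1 := abs_real_inner_le_norm w ν
  have h2 : |⟪w, ν⟫| ≤ ‖w‖ := h1.trans (by nlinarith [norm_nonneg w, norm_nonneg ν])
  have h3 : ⟪w, ν⟫ ^ 2 ≤ ‖w‖ ^ 2 := by
    rw [← sq_abs]
    exact pow_le_pow_left₀ (abs_nonneg _) h2 2
  linarith

/-- lower bound of the tangential divergence. -/
theorem fl_MZ_tdiv {s R β : ℝ} (hs : 0 < s) (hR : 0 < R) (hβ : 0 ≤ β) (y0 : E (k + 1)) (a : ℝ)
    (q : E (k + 1)) (ν : E (k + 1) → E (k + 1)) (y : E (k + 1)) (hν : ‖ν y‖ ≤ 1) {Cχ : ℝ}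
    (hC : ∀ x, |deriv flChi x| ≤ Cχ) :
    flChi (‖y - y0‖ ^ 2 / R ^ 2) * (a + ⟪q, y⟫) ^ 2 * (s ^ 2 + ‖y - y0‖ ^ 2) ^ (-β - 1) *
        (((k : ℝ) - 2 * β) * (s ^ 2 + ‖y - y0‖ ^ 2) + 2 * β * s ^ 2) -
      2 * Cχ * (R ^ 2 / 4) ^ (-β) * (ball y0 R).indicator (fun y => (a + ⟪q, y⟫) ^ 2) y ≤
    flTdiv (flMZ s R β y0 a q) ν y := by
  have hR2 : 0 < R ^ 2 := by positivity
  by_cases hy : R ≤ ‖y - y0‖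
  · have h1 : 1 ≤ ‖y - y0‖ ^ 2 / R ^ 2 := by
      rw [le_div_iff₀ hR2, one_mul]; exact pow_le_pow_left₀ hR.le hy 2
    have h2 : y ∉ ball y0 R := by rw [mem_ball, dist_eq_norm, not_lt]; exact hy
    obtain ⟨g1, g2, g3⟩ := fln_off hs hR hβ (pow_le_pow_left₀ hR.le hy 2)
    rw [fl_MZ_tdiv_eq hs hR hβ, g1, g2, g3, fl_Chi_props.2.2.2.1 _ h1, indicator_of_notMem h2]
    simp
  · rw [not_le] at hy
    have h2 : y ∈ ball y0 R := by rw [mem_ball, dist_eq_norm]; exact hy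
    have hm := fln_tau_mem hs y y0
    have hτR : ‖y - y0‖ ^ 2 ≤ R ^ 2 := pow_le_pow_left₀ (norm_nonneg _) hy.le 2
    have hT0 := fln_cs (y - y0) (ν y) hν
    have hQ0 := fln_cs q (ν y) hν
    have hGb := (fl_Gb_props hs hR hβ).2.2.1 (‖y - y0‖ ^ 2) (by positivity)
    have he := fln_e hs hR hβ (τ := ‖y - y0‖ ^ 2) (by positivity) hτR hC
    have hχ := fl_Chi_props.2.1 (‖y - y0‖ ^ 2 / R ^ 2)
    rw [fl_MZ_tdiv_eq hs hR hβ, indicator_of_mem h2,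
      ((fl_Ga_props hs hR hβ).2.2.2.2 _ hm).deriv]
    unfold flGa
    have hX : 0 < s ^ 2 + ‖y - y0‖ ^ 2 := by positivity
    rw [fln_rpow (β := β) hX] at he ⊢
    have hP1 : 0 ≤ (s ^ 2 + ‖y - y0‖ ^ 2) ^ (-β - 1) := Real.rpow_nonneg hX.le _
    have hN : ‖ν y‖ ^ 2 ≤ 1 := pow_le_one₀ (norm_nonneg _) hν
    have hTτ : ‖y - y0‖ ^ 2 - ⟪y - y0, ν y⟫ ^ 2 ≤ ‖y - y0‖ ^ 2 := by nlinarith [sq_nonneg ⟪y - y0, ν y⟫]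
    have hτ0 : 0 ≤ ‖y - y0‖ ^ 2 := by positivity
    have hf : 0 ≤ (a + ⟪q, y⟫) ^ 2 := sq_nonneg _
    generalize (s ^ 2 + ‖y - y0‖ ^ 2) ^ (-β - 1) = P1 at *
    generalize ‖y - y0‖ ^ 2 - ⟪y - y0, ν y⟫ ^ 2 = T at *
    generalize ‖q‖ ^ 2 - ⟪q, ν y⟫ ^ 2 = Qq at *
    generalize flGb s R β (‖y - y0‖ ^ 2) = Gb at *
    generalize deriv flChi (‖y - y0‖ ^ 2 / R ^ 2) / R ^ 2 = e at *
    generalize flChi (‖y - y0‖ ^ 2 / R ^ 2) = χ at *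
    generalize (R ^ 2 / 4) ^ (-β) = M at *
    generalize (a + ⟪q, y⟫) ^ 2 = f at *
    generalize ‖ν y‖ ^ 2 = N at *
    generalize ‖y - y0‖ ^ 2 = τ at *
    -- pure real arithmetic
    have t1 : 0 ≤ (1 - N) * (P1 * (s ^ 2 + τ) * χ * f) :=
      mul_nonneg (by linarith) (by have := hχ.1; positivity)
    have t2 : 0 ≤ (β * P1 * χ * f) * (τ - T) :=
      mul_nonneg (by have := hχ.1; positivity) (by linarith)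
    have t4 : 0 ≤ -Gb * Qq := mul_nonneg (by linarith) hQ0
    have t3 : -(Cχ * M) * f ≤ (P1 * (s ^ 2 + τ) * e) * T * f := by
      refine mul_le_mul_of_nonneg_right ?_ hf
      have a1 : |P1 * (s ^ 2 + τ) * e| * T ≤ |P1 * (s ^ 2 + τ) * e| * τ :=
        mul_le_mul_of_nonneg_left hTτ (abs_nonneg _)
      have a2 : -(|P1 * (s ^ 2 + τ) * e| * T) ≤ (P1 * (s ^ 2 + τ) * e) * T := by
        have := neg_abs_le (P1 * (s ^ 2 + τ) * e)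
        nlinarith
      linarith
    nlinarith

theorem fln_vec (A G Gb L : ℝ) (w q v : E (k + 1)) (hq : ‖q‖ ≤ 2) (hG : 0 ≤ G) :
    ‖(A * (2 * ⟪w, v⟫) * L ^ 2) • w + (G * (2 * L * ⟪q, v⟫)) • w + (G * L ^ 2) • v -
      (G * ⟪w, v⟫ * (2 * L)) • q - (Gb * (2 * ⟪q, v⟫)) • q‖ ≤
    (2 * ‖w‖ ^ 2 * |A| * L ^ 2 + 4 * G * (L ^ 2 + ‖w‖ ^ 2) + G * L ^ 2 + 8 * |Gb|) * ‖v‖ := by
  have hwv : |⟪w, v⟫| ≤ ‖w‖ * ‖v‖ := abs_real_inner_le_norm w v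
  have hqv : |⟪q, v⟫| ≤ 2 * ‖v‖ :=
    (abs_real_inner_le_norm q v).trans (mul_le_mul_of_nonneg_right hq (norm_nonneg v))
  have hLw : 2 * |L| * ‖w‖ ≤ L ^ 2 + ‖w‖ ^ 2 := by
    nlinarith [sq_nonneg (|L| - ‖w‖), sq_abs L]
  have hv := norm_nonneg v
  have hw := norm_nonneg w
  have hq0 := norm_nonneg q
  have t1 : ‖(A * (2 * ⟪w, v⟫) * L ^ 2) • w‖ ≤ (2 * ‖w‖ ^ 2 * |A| * L ^ 2) * ‖v‖ := by
    rw [norm_smul, Real.norm_eq_abs, abs_mul, abs_mul, abs_mul, abs_two, abs_of_nonneg (sq_nonneg L)]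
    calc |A| * (2 * |⟪w, v⟫|) * L ^ 2 * ‖w‖ ≤ |A| * (2 * (‖w‖ * ‖v‖)) * L ^ 2 * ‖w‖ := by gcongr
      _ = _ := by ring
  have t2 : ‖(G * (2 * L * ⟪q, v⟫)) • w‖ ≤ (2 * G * (L ^ 2 + ‖w‖ ^ 2)) * ‖v‖ := by
    rw [norm_smul, Real.norm_eq_abs, abs_mul, abs_mul, abs_mul, abs_two, abs_of_nonneg hG]
    calc G * (2 * |L| * |⟪q, v⟫|) * ‖w‖ ≤ G * (2 * |L| * (2 * ‖v‖)) * ‖w‖ := by gcongr
      _ = 2 * G * (2 * |L| * ‖w‖) * ‖v‖ := by ring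
      _ ≤ 2 * G * (L ^ 2 + ‖w‖ ^ 2) * ‖v‖ := by gcongr
  have t3 : ‖(G * L ^ 2) • v‖ = (G * L ^ 2) * ‖v‖ := by
    rw [norm_smul, Real.norm_eq_abs, abs_of_nonneg (by positivity)]
  have t4 : ‖(G * ⟪w, v⟫ * (2 * L)) • q‖ ≤ (2 * G * (L ^ 2 + ‖w‖ ^ 2)) * ‖v‖ := by
    rw [norm_smul, Real.norm_eq_abs, abs_mul, abs_mul, abs_mul, abs_two, abs_of_nonneg hG]
    calc G * |⟪w, v⟫| * (2 * |L|) * ‖q‖ ≤ G * (‖w‖ * ‖v‖) * (2 * |L|) * 2 := by gcongr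
      _ = 2 * G * (2 * |L| * ‖w‖) * ‖v‖ := by ring
      _ ≤ 2 * G * (L ^ 2 + ‖w‖ ^ 2) * ‖v‖ := by gcongr
  have t5 : ‖(Gb * (2 * ⟪q, v⟫)) • q‖ ≤ (8 * |Gb|) * ‖v‖ := by
    rw [norm_smul, Real.norm_eq_abs, abs_mul, abs_mul, abs_two]
    calc |Gb| * (2 * |⟪q, v⟫|) * ‖q‖ ≤ |Gb| * (2 * (2 * ‖v‖)) * 2 := by gcongr
      _ = _ := by ring
  have tri := (norm_sub_le ((A * (2 * ⟪w, v⟫) * L ^ 2) • w + (G * (2 * L * ⟪q, v⟫)) • w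
      + (G * L ^ 2) • v - (G * ⟪w, v⟫ * (2 * L)) • q) ((Gb * (2 * ⟪q, v⟫)) • q))
  have tri2 := (norm_sub_le ((A * (2 * ⟪w, v⟫) * L ^ 2) • w + (G * (2 * L * ⟪q, v⟫)) • w
      + (G * L ^ 2) • v) ((G * ⟪w, v⟫ * (2 * L)) • q))
  have tri3 := (norm_add_le ((A * (2 * ⟪w, v⟫) * L ^ 2) • w + (G * (2 * L * ⟪q, v⟫)) • w)
      ((G * L ^ 2) • v))
  have tri4 := (norm_add_le ((A * (2 * ⟪w, v⟫) * L ^ 2) • w) ((G * (2 * L * ⟪q, v⟫)) • w))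
  nlinarith

theorem fln_vecZ (G Gb L : ℝ) (w q : E (k + 1)) (hq : ‖q‖ ≤ 2) (hG : 0 ≤ G)
    (hGw : G * ‖w‖ ≤ G) :
    ‖(G * L ^ 2) • w - (Gb * (2 * L)) • q‖ ≤ G * L ^ 2 + 2 * |Gb| + 2 * |Gb| * L ^ 2 := by
  have hL : 2 * |L| ≤ 1 + L ^ 2 := by nlinarith [sq_nonneg (|L| - 1), sq_abs L]
  have t1 : ‖(G * L ^ 2) • w‖ ≤ G * L ^ 2 := by
    rw [norm_smul, Real.norm_eq_abs, abs_of_nonneg (by positivity)]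
    nlinarith [sq_nonneg L]
  have t2 : ‖(Gb * (2 * L)) • q‖ ≤ 2 * |Gb| + 2 * |Gb| * L ^ 2 := by
    rw [norm_smul, Real.norm_eq_abs, abs_mul, abs_mul, abs_two]
    calc |Gb| * (2 * |L|) * ‖q‖ ≤ |Gb| * (1 + L ^ 2) * 2 := by gcongr
      _ = _ := by ring
  exact (norm_sub_le _ _).trans (by linarith)

/-- upper bound of the norms. -/
theorem fl_MZ_norm {s R β : ℝ} (hs : 0 < s) (hR : 0 < R) (hR1 : R ≤ 1) (hβ : 0 ≤ β)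
    (y0 : E (k + 1)) (a : ℝ) (q : E (k + 1)) (hq : ‖q‖ ≤ 2) (y : E (k + 1)) {Cχ : ℝ}
    (hC : ∀ x, |deriv flChi x| ≤ Cχ) :
    ‖fderiv ℝ (flMZ s R β y0 a q) y‖ + ‖flMZ s R β y0 a q y‖ ≤
      (7 + 2 * β) * (flGa s R β (‖y - y0‖ ^ 2) * (a + ⟪q, y⟫) ^ 2) +
      (2 * Cχ + 1) * (R ^ 2 / 4) ^ (-β) * (ball y0 R).indicator (fun y => (a + ⟪q, y⟫) ^ 2) y +
      (4 * (flGa s R β (‖y - y0‖ ^ 2) * ‖y - y0‖ ^ 2) + 10 * |flGb s R β (‖y - y0‖ ^ 2)|) := by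
  have hR2 : 0 < R ^ 2 := by positivity
  by_cases hy : R ≤ ‖y - y0‖
  · have h2 : y ∉ ball y0 R := by rw [mem_ball, dist_eq_norm, not_lt]; exact hy
    obtain ⟨g1, g2, g3⟩ := fln_off hs hR hβ (pow_le_pow_left₀ hR.le hy 2)
    obtain ⟨z1, z2⟩ := fl_MZ_off y0 a q hs hR hβ hy
    rw [z1, z2, g1, g2, indicator_of_notMem h2]
    simp
  · rw [not_le] at hy
    have h2 : y ∈ ball y0 R := by rw [mem_ball, dist_eq_norm]; exact hy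
    have hm := fln_tau_mem hs y y0
    have hτ0 : 0 ≤ ‖y - y0‖ ^ 2 := by positivity
    have hτR : ‖y - y0‖ ^ 2 ≤ R ^ 2 := pow_le_pow_left₀ (norm_nonneg _) hy.le 2
    have hX : 0 < s ^ 2 + ‖y - y0‖ ^ 2 := by positivity
    have hM : 0 ≤ (R ^ 2 / 4) ^ (-β) := Real.rpow_nonneg (by positivity) _
    have hC0 : 0 ≤ Cχ := (abs_nonneg _).trans (hC 0)
    have hG := ((fl_Ga_props hs hR hβ).2.1 _ hτ0).1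
    have hGw : flGa s R β (‖y - y0‖ ^ 2) * ‖y - y0‖ ≤ flGa s R β (‖y - y0‖ ^ 2) := by
      have : ‖y - y0‖ ≤ 1 := hy.le.trans hR1
      nlinarith
    -- (b)
    have hb : 2 * ‖y - y0‖ ^ 2 * |deriv (flGa s R β) (‖y - y0‖ ^ 2)|
        ≤ 2 * β * flGa s R β (‖y - y0‖ ^ 2) + 2 * Cχ * (R ^ 2 / 4) ^ (-β) := by
      have he := fln_e hs hR hβ hτ0 hτR hC
      have hχ := fl_Chi_props.2.1 (‖y - y0‖ ^ 2 / R ^ 2)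
      have hP1 : 0 ≤ (s ^ 2 + ‖y - y0‖ ^ 2) ^ (-β - 1) := Real.rpow_nonneg hX.le _
      rw [((fl_Ga_props hs hR hβ).2.2.2.2 _ hm).deriv]
      have e1 : flGa s R β (‖y - y0‖ ^ 2) = (s ^ 2 + ‖y - y0‖ ^ 2) ^ (-β - 1)
          * (s ^ 2 + ‖y - y0‖ ^ 2) * flChi (‖y - y0‖ ^ 2 / R ^ 2) := by
        unfold flGa; rw [fln_rpow (β := β) hX]
      rw [e1]
      have a1 := abs_add_le (-β * (s ^ 2 + ‖y - y0‖ ^ 2) ^ (-β - 1) * flChi (‖y - y0‖ ^ 2 / R ^ 2))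
        ((s ^ 2 + ‖y - y0‖ ^ 2) ^ (-β) * (deriv flChi (‖y - y0‖ ^ 2 / R ^ 2) / R ^ 2))
      have a2 : |-β * (s ^ 2 + ‖y - y0‖ ^ 2) ^ (-β - 1) * flChi (‖y - y0‖ ^ 2 / R ^ 2)|
          = β * (s ^ 2 + ‖y - y0‖ ^ 2) ^ (-β - 1) * flChi (‖y - y0‖ ^ 2 / R ^ 2) := by
        rw [abs_mul, abs_mul, abs_neg, abs_of_nonneg hβ, abs_of_nonneg hP1, abs_of_nonneg hχ.1]
      rw [a2] at a1
      have a3 : 0 ≤ β * (s ^ 2 + ‖y - y0‖ ^ 2) ^ (-β - 1) * flChi (‖y - y0‖ ^ 2 / R ^ 2) * s ^ 2 := by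
        have := hχ.1; positivity
      nlinarith
    -- (c)
    have hc : 2 * |flGb s R β (‖y - y0‖ ^ 2)|
        ≤ flGa s R β (‖y - y0‖ ^ 2) + (R ^ 2 / 4) ^ (-β) := by
      have c1 := (fl_Gb_props hs hR hβ).2.2.2.2.1 _ hτ0
      have hP0 : 0 ≤ (s ^ 2 + ‖y - y0‖ ^ 2) ^ (-β) := Real.rpow_nonneg hX.le _
      have hR21 : R ^ 2 ≤ 1 := pow_le_one₀ hR.le hR1
      have c2 : 2 * |flGb s R β (‖y - y0‖ ^ 2)| ≤ (s ^ 2 + ‖y - y0‖ ^ 2) ^ (-β) := by nlinarith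
      refine c2.trans ?_
      by_cases h4 : ‖y - y0‖ ^ 2 ≤ R ^ 2 / 4
      · rw [(fl_Ga_props hs hR hβ).2.2.2.1 _ h4]
        linarith
      · have hX4 : R ^ 2 / 4 ≤ s ^ 2 + ‖y - y0‖ ^ 2 := by nlinarith [sq_nonneg s]
        have := Real.rpow_le_rpow_of_nonpos (z := -β) (by positivity) hX4 (by linarith)
        linarith
    have hZ := fln_vecZ (flGa s R β (‖y - y0‖ ^ 2)) (flGb s R β (‖y - y0‖ ^ 2)) (a + ⟪q, y⟫)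
      (y - y0) q hq hG hGw
    have hD : ‖fderiv ℝ (flMZ s R β y0 a q) y‖ ≤
        2 * ‖y - y0‖ ^ 2 * |deriv (flGa s R β) (‖y - y0‖ ^ 2)| * (a + ⟪q, y⟫) ^ 2
          + 4 * flGa s R β (‖y - y0‖ ^ 2) * ((a + ⟪q, y⟫) ^ 2 + ‖y - y0‖ ^ 2)
          + flGa s R β (‖y - y0‖ ^ 2) * (a + ⟪q, y⟫) ^ 2 + 8 * |flGb s R β (‖y - y0‖ ^ 2)| := by
      refine ContinuousLinearMap.opNorm_le_bound _ (by positivity) fun v => ?_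
      rw [fl_MZ_fderiv hs hR hβ]
      exact fln_vec _ _ _ _ _ _ _ hq hG
    have hZ' : ‖flMZ s R β y0 a q y‖ ≤ _ := hZ
    rw [indicator_of_mem h2]
    have hf : 0 ≤ (a + ⟪q, y⟫) ^ 2 := sq_nonneg _
    generalize (a + ⟪q, y⟫) ^ 2 = f at *
    generalize |flGb s R β (‖y - y0‖ ^ 2)| = aGb at *
    generalize |deriv (flGa s R β) (‖y - y0‖ ^ 2)| = aA at *
    generalize flGa s R β (‖y - y0‖ ^ 2) = G at *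
    generalize (R ^ 2 / 4) ^ (-β) = M at *
    generalize ‖y - y0‖ ^ 2 = τ at *
    have b1 := mul_le_mul_of_nonneg_right hb hf
    have c1 := mul_le_mul_of_nonneg_right hc hf
    nlinarith

end Claimed.Agent.Gmt
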