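import Claimed.Agent.Lib.Gmt.FlMean3

/-!
THIS FILE = PACKAGE L-GMT-FlMean4 (part 4 of 5 of the former `FlMean.lean`, which now only imports the parts; the text below is the plan of the whole former file).
# Lib/Gmt G4.5 (architect: helper190): mean value inequality for squares of affine functions (F7).
PACKAGES L-GMT-FlMeanA (profiles + field: `fl_Chi_props` ... `fl_MZ_norm`), L-GMT-FlMeanB (`fl_mean_layer`, `fl_mean_pre`, `fl_mean`).
Input: only `FlFV` (first variation bound), `‖ν‖ ≤ 1`, an upper density bound at the centre.  No GMT.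

SETTING.  `E (k+1)`, `k ≥ 1`; `f = L²`, `L(y) = a + ⟪q,y⟫`, `‖q‖ ≤ 2`; `w = y - y0`, `τ = ‖w‖²`; `0 < 2s ≤ R ≤ 1`; `0 ≤ β`.
`χ = flChi` (`1` on `(-∞,1/4]`, `0` on `[1,∞)`), `γ̃(τ) = flGa = (s²+τ)^{-β} χ(τ/R²)`, `g(τ) = flGb = -½ ∫_τ^{R²} γ̃` (so `g' = γ̃/2`, `g ≤ 0`, `g = 0` on `[R²,∞)`),
`γ(y) = γ̃(τ)`, `Γ(y) = g(τ)` (so `∇Γ = γ w`),     `Z = flMZ = γ f w - Γ ∇f = γ L² w - 2 Γ L q`.
POINTWISE COMPUTATION (`div_S = flTdiv`, any `ν` with `|ν| ≤ 1`; write `⟨u,v⟩_T = u·v - (u·ν)(v·ν)`, a positive semidefinite form):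
 `div_S (γ f w) = (k + 1 - |ν|²) γ f + 2 γ̃'(τ) f ⟨w,w⟩_T + γ ⟨∇f, w⟩_T`,      `div_S (Γ ∇f) = γ ⟨w, ∇f⟩_T + 2 Γ ⟨q,q⟩_T`,
 so `div_S Z = (k+1-|ν|²) γ f + 2 γ̃' f ⟨w,w⟩_T - 2 Γ ⟨q,q⟩_T ≥ k γ f + 2 γ̃' f ⟨w,w⟩_T`.
 `γ̃' = -β (s²+τ)^{-β-1} χ + (s²+τ)^{-β} χ'(τ/R²)/R²`, `0 ≤ ⟨w,w⟩_T ≤ τ`; the first part gives `≥ -2βτ (s²+τ)^{-β-1} χ f`, and `k (s²+τ) - 2βτ = (k-2β)(s²+τ) + 2β s²`;
 the second part is `≠ 0` only for `R²/4 ≤ τ < R²`, where `(s²+τ)^{-β} ≤ (R²/4)^{-β}` and `τ/R² ≤ 1`.      This is `fl_MZ_tdiv`.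
NORMS (`fl_MZ_norm`): `‖D(γ f w)‖ ≤ 2τ|γ̃'| f + γ |∇f| |w| + γ f`, `2τ|γ̃'| ≤ 2βγ + 2 Cχ (R²/4)^{-β} 1_{B_R}`, `|∇f||w| ≤ 4|L||w| ≤ 2f + 2τ`; `‖γ f w‖ ≤ γ f` (`|w| ≤ R ≤ 1` on the support);
 `‖D(Γ∇f)‖ ≤ γ|w| 4|L| + 8|Γ| ≤ 2γf + 2γτ + 8|Γ|`; `‖Γ∇f‖ ≤ 4|Γ||L| ≤ 2|Γ| + 2|Γ|f`, `2|Γ| ≤ (s²+τ)^{-β} R² 1_{B_R} ≤ γ + (R²/4)^{-β} 1_{B_R}`.
LAYER CAKE (`fl_mean_layer`): for `0 < τ < R²`: `γ̃ τ ≤ τ^{1-β} ≤ R^{2-2β} + |β-1| ∫_τ^{R²} σ^{-β} dσ`, `|g(τ)| ≤ ½ ∫_τ^{R²} σ^{-β} dσ`; Tonelli: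
 `∫_{B_R} ∫_{τ(y)}^{R²} σ^{-β} dσ dμ(y) = ∫_0^{R²} σ^{-β} μ(B_{√σ}) dσ ≤ C₀ ∫_0^{R²} σ^{k/2-β} dσ = C₀ R^{2+k-2β}/(1+k/2-β) ≤ C₀ R^{2+k-2β}` (`integral_rpow`).
ASSEMBLY (`fl_mean_pre`): `FlFV` for `Z`: `∫ div_S Z ≤ κ ∫ (‖DZ‖ + ‖Z‖)`; with `k - 2β = (7+k) κ ≥ (7+2β) κ` the terms `∫ γ f` cancel:
 `2β s² ∫ χ f (s²+τ)^{-β-1} ≤ (2Cχ + κ(2Cχ+1)) (R²/4)^{-β} ∫_{B_R} f + κ (13+2k) C₀ R^{2+k-2β}`; on `B_s`: `χ = 1`, `(s²+τ)^{-β-1} ≥ (2s²)^{-β-1}`.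
`fl_mean`: `κ₀ = 1/(2(7+k))`, so `1/4 ≤ β ≤ k/2`; multiply by `s^{2β-k}`; `(R/s)^{k-2β} = exp((7+k) κ log(R/s)) ≤ e^{7+k}`.
All integrands are bounded, measurable and vanish off `closedBall y0 R`, which has finite measure: integrable.
-/

set_option autoImplicit false
open scoped ContDiff ENNReal RealInnerProductSpace
open MeasureTheory Metric Set

namespace Claimed.Agent.Gmt

variable {k : ℕ}

/-- Tonelli / layer cake, `lintegral` form (no junk value at the centre). -/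
theorem fl_layer_aux (μ : Measure (E (k + 1))) (y0 : E (k + 1)) {R β C₀ : ℝ} (hR : 0 < R)
    (hβ : 2 * β ≤ k) (hC₀ : 0 ≤ C₀)
    (hup : ∀ ρ, 0 < ρ → ρ ≤ R → μ (ball y0 ρ) ≤ ENNReal.ofReal (C₀ * ρ ^ k)) :
    ∫⁻ y in ball y0 R, (∫⁻ σ in Ioc (‖y - y0‖ ^ 2) (R ^ 2), ENNReal.ofReal (σ ^ (-β))) ∂μ ≤
      ENNReal.ofReal (C₀ * R ^ ((2 : ℝ) + k - 2 * β)) := by
  have : IsFiniteMeasure (μ.restrict (ball y0 R)) := ⟨by
    rw [Measure.restrict_apply_univ]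
    exact (hup R hR le_rfl).trans_lt ENNReal.ofReal_lt_top⟩
  have hR2 : 0 < R ^ 2 := by positivity
  set S : Set (E (k + 1) × ℝ) := {p | ‖p.1 - y0‖ ^ 2 < p.2 ∧ p.2 ≤ R ^ 2} with hS
  have hSm : MeasurableSet S := by
    have ha : MeasurableSet {p : E (k + 1) × ℝ | ‖p.1 - y0‖ ^ 2 < p.2} :=
      measurableSet_lt (by fun_prop) (by fun_prop)
    have hb : MeasurableSet {p : E (k + 1) × ℝ | p.2 ≤ R ^ 2} :=
      measurableSet_le (by fun_prop) (by fun_prop)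
    exact ha.inter hb
  have h1 : ∀ y : E (k + 1), ∫⁻ σ in Ioc (‖y - y0‖ ^ 2) (R ^ 2), ENNReal.ofReal (σ ^ (-β)) =
      ∫⁻ σ, S.indicator (fun p => ENNReal.ofReal (p.2 ^ (-β))) (y, σ) := by
    intro y
    rw [← lintegral_indicator measurableSet_Ioc]
    refine lintegral_congr fun σ => ?_
    by_cases hσ : σ ∈ Ioc (‖y - y0‖ ^ 2) (R ^ 2)
    · rw [indicator_of_mem hσ, indicator_of_mem (show (y, σ) ∈ S from hσ)]
    · rw [indicator_of_notMem hσ, indicator_of_notMem (show (y, σ) ∉ S from hσ)]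
  simp_rw [h1]
  rw [lintegral_lintegral_swap
    (f := fun (y : E (k + 1)) (σ : ℝ) => S.indicator (fun p => ENNReal.ofReal (p.2 ^ (-β))) (y, σ))
    (((by fun_prop : Measurable fun p : E (k + 1) × ℝ => ENNReal.ofReal (p.2 ^ (-β))).indicator
      hSm).aemeasurable)]
  have he : (0 : ℝ) ≤ (k : ℝ) / 2 - β := by linarith
  have h2 : ∀ σ : ℝ, ∫⁻ y in ball y0 R, S.indicator (fun p => ENNReal.ofReal (p.2 ^ (-β))) (y, σ) ∂μ ≤
      (Ioc 0 (R ^ 2)).indicator (fun σ => ENNReal.ofReal (C₀ * σ ^ ((k : ℝ) / 2 - β))) σ := by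
    intro σ
    by_cases hσ : σ ∈ Ioc 0 (R ^ 2)
    · rw [indicator_of_mem hσ]
      have hsq : 0 < Real.sqrt σ := Real.sqrt_pos.2 hσ.1
      have hsqR : Real.sqrt σ ≤ R := by
        rw [Real.sqrt_le_left hR.le]
        exact hσ.2
      have h3 : ∀ y : E (k + 1), S.indicator (fun p => ENNReal.ofReal (p.2 ^ (-β))) (y, σ) ≤
          (ball y0 (Real.sqrt σ)).indicator (fun _ => ENNReal.ofReal (σ ^ (-β))) y := by
        intro y
        by_cases hy : (y, σ) ∈ S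
        · have hy' : y ∈ ball y0 (Real.sqrt σ) := by
            rw [mem_ball, dist_eq_norm]
            exact Real.lt_sqrt_of_sq_lt hy.1
          rw [indicator_of_mem hy, indicator_of_mem hy']
        · rw [indicator_of_notMem hy]
          exact zero_le
      calc ∫⁻ y in ball y0 R, S.indicator (fun p => ENNReal.ofReal (p.2 ^ (-β))) (y, σ) ∂μ
          ≤ ∫⁻ y, S.indicator (fun p => ENNReal.ofReal (p.2 ^ (-β))) (y, σ) ∂μ :=
            lintegral_mono' Measure.restrict_le_self le_rfl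
        _ ≤ ∫⁻ y, (ball y0 (Real.sqrt σ)).indicator (fun _ => ENNReal.ofReal (σ ^ (-β))) y ∂μ :=
            lintegral_mono h3
        _ = ENNReal.ofReal (σ ^ (-β)) * μ (ball y0 (Real.sqrt σ)) := by
            rw [lintegral_indicator measurableSet_ball, setLIntegral_const]
        _ ≤ ENNReal.ofReal (σ ^ (-β)) * ENNReal.ofReal (C₀ * Real.sqrt σ ^ k) :=
            mul_le_mul_right (hup _ hsq hsqR) _
        _ = ENNReal.ofReal (C₀ * σ ^ ((k : ℝ) / 2 - β)) := by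
            rw [← ENNReal.ofReal_mul (Real.rpow_nonneg hσ.1.le _)]
            congr 1
            rw [Real.sqrt_eq_rpow, ← Real.rpow_natCast (σ ^ (1 / 2 : ℝ)) k, ← Real.rpow_mul hσ.1.le,
              mul_left_comm, ← Real.rpow_add hσ.1]
            congr 2
            ring
    · rw [indicator_of_notMem hσ]
      refine le_of_eq ?_
      rw [← lintegral_zero (μ := μ.restrict (ball y0 R))]
      refine lintegral_congr fun y => ?_
      refine indicator_of_notMem (fun hy => hσ ⟨?_, hy.2⟩) _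
      exact lt_of_le_of_lt (by positivity) hy.1
  refine (lintegral_mono h2).trans ?_
  rw [lintegral_indicator measurableSet_Ioc]
  have hint : IntervalIntegrable (fun σ : ℝ => C₀ * σ ^ ((k : ℝ) / 2 - β)) volume 0 (R ^ 2) :=
    (intervalIntegral.intervalIntegrable_rpow' (by linarith)).const_mul _
  rw [← ofReal_integral_eq_lintegral_ofReal ((intervalIntegrable_iff_integrableOn_Ioc_of_le hR2.le).1 hint)
    ((ae_restrict_mem measurableSet_Ioc).mono fun σ hσ =>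
      mul_nonneg hC₀ (Real.rpow_nonneg hσ.1.le _))]
  refine ENNReal.ofReal_le_ofReal ?_
  rw [← intervalIntegral.integral_of_le hR2.le, intervalIntegral.integral_const_mul,
    integral_rpow (Or.inl (by linarith))]
  refine mul_le_mul_of_nonneg_left ?_ hC₀
  rw [Real.zero_rpow (by linarith), sub_zero, ← Real.rpow_natCast R 2, ← Real.rpow_mul hR.le]
  have h5 : ((2 : ℕ) : ℝ) * ((k : ℝ) / 2 - β + 1) = (2 : ℝ) + k - 2 * β := by push_cast; ring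
  rw [h5]
  exact div_le_self (Real.rpow_nonneg hR.le _) (by linarith)

theorem fl_layer_pt {τ R β : ℝ} (hτ : 0 ≤ τ) :
    ENNReal.ofReal (∫ σ in τ..R ^ 2, σ ^ (-β)) ≤
      ∫⁻ σ in Ioc τ (R ^ 2), ENNReal.ofReal (σ ^ (-β)) := by
  by_cases hy : τ ≤ R ^ 2
  · rw [intervalIntegral.integral_of_le hy]
    rw [integral_eq_lintegral_of_nonneg_ae]
    · exact ENNReal.ofReal_toReal_le
    · refine (ae_restrict_mem measurableSet_Ioc).mono fun σ hσ => ?_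
      exact Real.rpow_nonneg (hτ.trans hσ.1.le) _
    · exact (by fun_prop : Measurable fun σ : ℝ => σ ^ (-β)).aestronglyMeasurable
  · rw [ENNReal.ofReal_of_nonpos]
    · exact zero_le
    · rw [intervalIntegral.integral_symm, neg_nonpos]
      refine intervalIntegral.integral_nonneg (not_le.1 hy).le fun σ hσ => ?_
      exact Real.rpow_nonneg ((by positivity : (0 : ℝ) ≤ R ^ 2).trans hσ.1) _

theorem fl_Gb_pt {s R β τ : ℝ} (hs : 0 < s) (hR : 0 < R) (hβ : 0 ≤ β) (hτ : 0 ≤ τ)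
    (hτR : τ ≤ R ^ 2) :
    ENNReal.ofReal |flGb s R β τ| ≤
      ENNReal.ofReal (1 / 2) * ∫⁻ σ in Ioc τ (R ^ 2), ENNReal.ofReal (σ ^ (-β)) := by
  obtain ⟨-, hG01, -, -, -⟩ := fl_Ga_props hs hR hβ
  have hs2 : 0 < s ^ 2 := by positivity
  have hR2 : 0 < R ^ 2 := by positivity
  have hnn : 0 ≤ ∫ σ in τ..R ^ 2, flGa s R β σ :=
    intervalIntegral.integral_nonneg hτR fun σ hσ => (hG01 σ (hτ.trans hσ.1)).1
  have habs : |flGb s R β τ| = 1 / 2 * ∫ σ in τ..R ^ 2, flGa s R β σ := by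
    unfold flGb
    rw [abs_mul, abs_neg, abs_of_pos (by norm_num : (0 : ℝ) < 1 / 2), abs_of_nonneg hnn]
  rw [habs, ENNReal.ofReal_mul (by norm_num)]
  refine mul_le_mul_right ?_ _
  rw [intervalIntegral.integral_of_le hτR, integral_eq_lintegral_of_nonneg_ae]
  · refine ENNReal.ofReal_toReal_le.trans ?_
    refine setLIntegral_mono' measurableSet_Ioc fun σ hσ => ENNReal.ofReal_le_ofReal ?_
    have hσ0 : 0 < σ := lt_of_le_of_lt hτ hσ.1
    refine (hG01 σ hσ0.le).2.trans ?_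
    exact Real.rpow_le_rpow_of_nonpos hσ0 (by linarith) (by linarith)
  · refine (ae_restrict_mem measurableSet_Ioc).mono fun σ hσ => ?_
    exact (hG01 σ (hτ.trans hσ.1.le)).1
  · exact (fl_Ga_intervalIntegrable hs hR hβ (a := τ) (b := R ^ 2) (by linarith)
      (by linarith)).1.aestronglyMeasurable

theorem fl_Ga_pt {s R β τ : ℝ} (hs : 0 < s) (hR : 0 < R) (hβ : 0 ≤ β) (hτ : 0 ≤ τ)
    (hτR : τ ≤ R ^ 2) :
    ENNReal.ofReal (flGa s R β τ * τ) ≤ ENNReal.ofReal (R ^ (2 - 2 * β)) +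
      ENNReal.ofReal |β - 1| * ∫⁻ σ in Ioc τ (R ^ 2), ENNReal.ofReal (σ ^ (-β)) := by
  obtain ⟨-, hG01, -, -, -⟩ := fl_Ga_props hs hR hβ
  have hs2 : 0 < s ^ 2 := by positivity
  rcases hτ.eq_or_lt with rfl | hτ0
  · rw [mul_zero, ENNReal.ofReal_zero]
    exact zero_le
  have h1 : flGa s R β τ * τ ≤ τ ^ (1 - β) := by
    have h2 : flGa s R β τ ≤ τ ^ (-β) := (hG01 τ hτ).2.trans
      (Real.rpow_le_rpow_of_nonpos hτ0 (by linarith) (by linarith))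
    calc flGa s R β τ * τ ≤ τ ^ (-β) * τ := mul_le_mul_of_nonneg_right h2 hτ
      _ = τ ^ (1 - β) := by
        rw [← Real.rpow_add_one hτ0.ne']
        congr 1
        ring
  have hRp : (R ^ 2) ^ (1 - β) = R ^ (2 - 2 * β) := by
    rw [← Real.rpow_natCast R 2, ← Real.rpow_mul hR.le]
    congr 1
    push_cast
    ring
  have hI0 : 0 ≤ ∫ σ in τ..R ^ 2, σ ^ (-β) :=
    intervalIntegral.integral_nonneg hτR fun σ hσ => Real.rpow_nonneg (hτ.trans hσ.1) _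
  have h3 : τ ^ (1 - β) ≤ R ^ (2 - 2 * β) + |β - 1| * ∫ σ in τ..R ^ 2, σ ^ (-β) := by
    rcases le_or_gt β 1 with hb | hb
    · have h4 : τ ^ (1 - β) ≤ (R ^ 2) ^ (1 - β) := Real.rpow_le_rpow hτ hτR (by linarith)
      rw [hRp] at h4
      have := mul_nonneg (abs_nonneg (β - 1)) hI0
      linarith
    · rw [integral_rpow (Or.inr ⟨by linarith, by
        rw [uIcc_of_le hτR]
        exact fun h => absurd h.1 (not_le.2 hτ0)⟩), abs_of_pos (by linarith)]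
      have h5 : -β + 1 = 1 - β := by ring
      rw [h5, hRp]
      have h6 : (1 - β) ≠ 0 := by linarith
      refine le_of_eq ?_
      field_simp
      ring
  calc ENNReal.ofReal (flGa s R β τ * τ)
      ≤ ENNReal.ofReal (R ^ (2 - 2 * β) + |β - 1| * ∫ σ in τ..R ^ 2, σ ^ (-β)) :=
        ENNReal.ofReal_le_ofReal (h1.trans h3)
    _ = ENNReal.ofReal (R ^ (2 - 2 * β)) +
        ENNReal.ofReal |β - 1| * ENNReal.ofReal (∫ σ in τ..R ^ 2, σ ^ (-β)) := by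
        rw [ENNReal.ofReal_add (Real.rpow_nonneg hR.le _) (mul_nonneg (abs_nonneg _) hI0),
          ENNReal.ofReal_mul (abs_nonneg _)]
    _ ≤ _ := by
        gcongr
        exact fl_layer_pt hτ

/-- Tonelli / layer cake. -/
theorem fl_layer (μ : Measure (E (k + 1))) (y0 : E (k + 1)) {R β C₀ : ℝ} (hR : 0 < R)
    (hβ0 : 0 ≤ β) (hβ : 2 * β ≤ k) (hC₀ : 0 ≤ C₀)
    (hup : ∀ ρ, 0 < ρ → ρ ≤ R → μ (ball y0 ρ) ≤ ENNReal.ofReal (C₀ * ρ ^ k)) :
    ∫⁻ y in ball y0 R, ENNReal.ofReal (∫ σ in (‖y - y0‖ ^ 2)..R ^ 2, σ ^ (-β)) ∂μ ≤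
      ENNReal.ofReal (C₀ * R ^ ((2 : ℝ) + k - 2 * β)) := by
  exact le_trans (lintegral_mono fun y => fl_layer_pt (by positivity))
    (fl_layer_aux μ y0 hR hβ hC₀ hup)

theorem fl_mean_layer (μ : Measure (E (k + 1))) (y0 : E (k + 1)) {s R β C₀ : ℝ} (hs : 0 < s)
    (hR : 0 < R) (hβ0 : 0 ≤ β) (hβ : 2 * β ≤ k) (hC₀ : 0 ≤ C₀)
    (hup : ∀ ρ, 0 < ρ → ρ ≤ R → μ (ball y0 ρ) ≤ ENNReal.ofReal (C₀ * ρ ^ k)) :
    ∫ y, (4 * (flGa s R β (‖y - y0‖ ^ 2) * ‖y - y0‖ ^ 2) + 10 * |flGb s R β (‖y - y0‖ ^ 2)|) ∂μ ≤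
      (13 + 2 * k) * C₀ * R ^ ((2 : ℝ) + k - 2 * β) := by
  obtain ⟨-, hG01, hG0, -, -⟩ := fl_Ga_props hs hR hβ0
  obtain ⟨-, -, -, hb0, -, -⟩ := fl_Gb_props hs hR hβ0
  have hR2 : 0 < R ^ 2 := by positivity
  set F : E (k + 1) → ℝ := fun y => 4 * (flGa s R β (‖y - y0‖ ^ 2) * ‖y - y0‖ ^ 2) +
    10 * |flGb s R β (‖y - y0‖ ^ 2)| with hF
  have hF0 : ∀ y, 0 ≤ F y := fun y => by
    have := (hG01 (‖y - y0‖ ^ 2) (by positivity)).1
    positivity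
  have hRHS : 0 ≤ (13 + 2 * k) * C₀ * R ^ ((2 : ℝ) + k - 2 * β) := by positivity
  by_cases hint : Integrable F μ
  swap
  · rw [integral_undef hint]
    exact hRHS
  rw [integral_eq_lintegral_of_nonneg_ae (Filter.Eventually.of_forall hF0) hint.aestronglyMeasurable]
  refine ENNReal.toReal_le_of_le_ofReal hRHS ?_
  set J : E (k + 1) → ℝ≥0∞ := fun y =>
    ∫⁻ σ in Ioc (‖y - y0‖ ^ 2) (R ^ 2), ENNReal.ofReal (σ ^ (-β)) with hJ
  have hpt : ∀ y, ENNReal.ofReal (F y) ≤ (ball y0 R).indicator (fun y =>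
      ENNReal.ofReal (4 * R ^ (2 - 2 * β)) + ENNReal.ofReal (4 * |β - 1| + 5) * J y) y := by
    intro y
    by_cases hy : y ∈ ball y0 R
    · rw [indicator_of_mem hy]
      rw [mem_ball, dist_eq_norm] at hy
      have hτ0 : (0 : ℝ) ≤ ‖y - y0‖ ^ 2 := by positivity
      have hτR : ‖y - y0‖ ^ 2 ≤ R ^ 2 := by gcongr
      have ha := fl_Ga_pt hs hR hβ0 hτ0 hτR
      have hb := fl_Gb_pt hs hR hβ0 hτ0 hτR
      have hga := (hG01 _ hτ0).1
      calc ENNReal.ofReal (F y)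
          = ENNReal.ofReal 4 * ENNReal.ofReal (flGa s R β (‖y - y0‖ ^ 2) * ‖y - y0‖ ^ 2) +
            ENNReal.ofReal 10 * ENNReal.ofReal |flGb s R β (‖y - y0‖ ^ 2)| := by
            rw [hF, ENNReal.ofReal_add (by positivity) (by positivity),
              ENNReal.ofReal_mul (by norm_num : (0 : ℝ) ≤ 4),
              ENNReal.ofReal_mul (by norm_num : (0 : ℝ) ≤ 10)]
        _ ≤ ENNReal.ofReal 4 * (ENNReal.ofReal (R ^ (2 - 2 * β)) + ENNReal.ofReal |β - 1| * J y) +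
            ENNReal.ofReal 10 * (ENNReal.ofReal (1 / 2) * J y) := by
            gcongr
        _ = ENNReal.ofReal (4 * R ^ (2 - 2 * β)) + ENNReal.ofReal (4 * |β - 1| + 5) * J y := by
            rw [ENNReal.ofReal_mul (by norm_num : (0 : ℝ) ≤ 4),
              ENNReal.ofReal_add (by positivity) (by norm_num),
              ENNReal.ofReal_mul (by norm_num : (0 : ℝ) ≤ 4),
              show (5 : ℝ) = 10 * (1 / 2) by norm_num,
              ENNReal.ofReal_mul (by norm_num : (0 : ℝ) ≤ 10)]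
            ring
    · rw [indicator_of_notMem hy]
      rw [mem_ball, dist_eq_norm, not_lt] at hy
      have hτR : R ^ 2 ≤ ‖y - y0‖ ^ 2 := by gcongr
      rw [hF]
      simp only [hG0 _ hτR, hb0 _ hτR]
      simp
  have hpow : R ^ (2 - 2 * β) * R ^ k = R ^ ((2 : ℝ) + k - 2 * β) := by
    rw [← Real.rpow_natCast R k, ← Real.rpow_add hR]
    congr 1
    ring
  have hab : |β - 1| ≤ 1 + (k : ℝ) / 2 := by
    rw [abs_le]
    constructor <;> linarith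
  have hP : 0 ≤ R ^ ((2 : ℝ) + k - 2 * β) := Real.rpow_nonneg hR.le _
  calc ∫⁻ y, ENNReal.ofReal (F y) ∂μ
      ≤ ∫⁻ y, (ball y0 R).indicator (fun y =>
          ENNReal.ofReal (4 * R ^ (2 - 2 * β)) + ENNReal.ofReal (4 * |β - 1| + 5) * J y) y ∂μ :=
        lintegral_mono hpt
    _ = ENNReal.ofReal (4 * R ^ (2 - 2 * β)) * μ (ball y0 R) +
          ENNReal.ofReal (4 * |β - 1| + 5) * ∫⁻ y in ball y0 R, J y ∂μ := by
        rw [lintegral_indicator measurableSet_ball, lintegral_add_left measurable_const,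
          setLIntegral_const, lintegral_const_mul' _ _ ENNReal.ofReal_ne_top]
    _ ≤ ENNReal.ofReal (4 * R ^ (2 - 2 * β)) * ENNReal.ofReal (C₀ * R ^ k) +
          ENNReal.ofReal (4 * |β - 1| + 5) * ENNReal.ofReal (C₀ * R ^ ((2 : ℝ) + k - 2 * β)) := by
        gcongr
        · exact hup R hR le_rfl
        · exact fl_layer_aux μ y0 hR hβ hC₀ hup
    _ = ENNReal.ofReal ((9 + 4 * |β - 1|) * (C₀ * R ^ ((2 : ℝ) + k - 2 * β))) := by
        rw [← ENNReal.ofReal_mul (by positivity), ← ENNReal.ofReal_mul (by positivity),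
          ← ENNReal.ofReal_add (by positivity) (by positivity)]
        congr 1
        rw [← hpow]
        ring
    _ ≤ ENNReal.ofReal ((13 + 2 * k) * C₀ * R ^ ((2 : ℝ) + k - 2 * β)) := by
        refine ENNReal.ofReal_le_ofReal ?_
        rw [mul_assoc]
        refine mul_le_mul_of_nonneg_right (by linarith) (by positivity)

end Claimed.Agent.Gmt
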