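import Claimed.Agent.Lib.Gmt.FlMean4

/-!
THIS FILE = PACKAGE L-GMT-FlMean5 (part 5 of 5 of the former `FlMean.lean`, which now only imports the parts; the text below is the plan of the whole former file).
# Lib/Gmt G4.5 (architect: helper190): mean value inequality for squares of affine functions (F7).
PACKAGES L-GMT-FlMeanA (profiles + field: `fl_Chi_props` ... `fl_MZ_norm`), L-GMT-FlMeanB (`fl_mean_layer`, `fl_mean_pre`, `fl_mean`).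
Input: only `FlFV` (first variation bound), `‖ν‖ ≤ 1`, an upper density bound at the centre.  No GMT.

SETTING.  `E (k+1)`, `k ≥ 1`; `f = L²`, `L(y) = a + ⟪q,y⟫`, `‖q‖ ≤ 2`; `w = y - y0`, `τ = ‖w‖²`; `0 < 2s ≤ R ≤ 1`; `0 ≤ β`.
`χ = flChi` (`1` on `(-∞,1/4]`, `0` on `[1,∞)`), `γ̃(τ) = flGa = (s²+τ)^{-β} χ(τ/R²)`, `g(τ) = flGb = -½ ∫_τ^{R²} γ̃` (so `g' = γ̃/2`, `g ≤ 0`, `g = 0` on `[R²,∞)`),
`γ(y) = γ̃(τ)`, `Γ(y) = g(τ)` (so `∇Γ = γ w`),     `Z = flMZ = γ f w - Γ ∇f = γ L² w - 2 Γ L q`.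
POINTWISE COMPUTATION (`div_S = flTdiv`, any `ν` with `|ν| ≤ 1`; write `⟨u,v⟩_T = u·v - (u·ν)(v·ν)`, a positive semidefinite form):
 `div_S (γ f w) = (k + 1 - |ν|²) γ f + 2 γ̃'(τ) f ⟨w,w⟩_T + γ ⟨∇f, w⟩_T`,      `div_S (Γ ∇f) = γ ⟨w, ∇f⟩_T + 2 Γ ⟨q,q⟩_T`,
 so `div_S Z = (k+1-|ν|²) γ f + 2 γ̃' f ⟨w,w⟩_T - 2 Γ ⟨q,q⟩_T ≥ k γ f + 2 γ̃' f ⟨w,w⟩_T`.
 `γ̃' = -β (s²+τ)^{-β-1} χ + (s²+τ)^{-β} χ'(τ/R²)/R²`, `0 ≤ ⟨w,w⟩_T ≤ τ`; the first part gives `≥ -2βτ (s²+τ)^{-β-1} χ f`, and `k (s²+τ) - 2βτ = (k-2β)(s²+τ) + 2β s²`;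
 the second part is `≠ 0` only for `R²/4 ≤ τ < R²`, where `(s²+τ)^{-β} ≤ (R²/4)^{-β}` and `τ/R² ≤ 1`.      This is `fl_MZ_tdiv`.
NORMS (`fl_MZ_norm`): `‖D(γ f w)‖ ≤ 2τ|γ̃'| f + γ |∇f| |w| + γ f`, `2τ|γ̃'| ≤ 2βγ + 2 Cχ (R²/4)^{-β} 1_{B_R}`, `|∇f||w| ≤ 4|L||w| ≤ 2f + 2τ`; `‖γ f w‖ ≤ γ f` (`|w| ≤ R ≤ 1` on the support);
 `‖D(Γ∇f)‖ ≤ γ|w| 4|L| + 8|Γ| ≤ 2γf + 2γτ + 8|Γ|`; `‖Γ∇f‖ ≤ 4|Γ||L| ≤ 2|Γ| + 2|Γ|f`, `2|Γ| ≤ (s²+τ)^{-β} R² 1_{B_R} ≤ γ + (R²/4)^{-β} 1_{B_R}`.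
LAYER CAKE (`fl_mean_layer`): for `0 < τ < R²`: `γ̃ τ ≤ τ^{1-β} ≤ R^{2-2β} + |β-1| ∫_τ^{R²} σ^{-β} dσ`, `|g(τ)| ≤ ½ ∫_τ^{R²} σ^{-β} dσ`; Tonelli:
 `∫_{B_R} ∫_{τ(y)}^{R²} σ^{-β} dσ dμ(y) = ∫_0^{R²} σ^{-β} μ(B_{√σ}) dσ ≤ C₀ ∫_0^{R²} σ^{k/2-β} dσ = C₀ R^{2+k-2β}/(1+k/2-β) ≤ C₀ R^{2+k-2β}` (`integral_rpow`).
ASSEMBLY (`fl_mean_pre`): `FlFV` for `Z`: `∫ div_S Z ≤ κ ∫ (‖DZ‖ + ‖Z‖)`; with `k - 2β = (7+k) κ ≥ (7+2β) κ` the terms `∫ γ f` cancel: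
 `2β s² ∫ χ f (s²+τ)^{-β-1} ≤ (2Cχ + κ(2Cχ+1)) (R²/4)^{-β} ∫_{B_R} f + κ (13+2k) C₀ R^{2+k-2β}`; on `B_s`: `χ = 1`, `(s²+τ)^{-β-1} ≥ (2s²)^{-β-1}`.
`fl_mean`: `κ₀ = 1/(2(7+k))`, so `1/4 ≤ β ≤ k/2`; multiply by `s^{2β-k}`; `(R/s)^{k-2β} = exp((7+k) κ log(R/s)) ≤ e^{7+k}`.
All integrands are bounded, measurable and vanish off `closedBall y0 R`, which has finite measure: integrable.
-/

set_option autoImplicit false
open scoped ContDiff ENNReal RealInnerProductSpace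
open MeasureTheory Metric Set

namespace Claimed.Agent.Gmt

variable {k : ℕ}

/-- a continuous function vanishing off a closed ball of finite measure is integrable. -/
theorem fln_integrable {μ : Measure (E (k + 1))} {y0 : E (k + 1)} {R : ℝ}
    (hfin : μ (closedBall y0 R) ≠ ⊤) {g : E (k + 1) → ℝ} (hg : Continuous g)
    (hoff : ∀ y, y ∉ closedBall y0 R → g y = 0) : Integrable g μ := by
  obtain ⟨C, hC⟩ := (isCompact_closedBall y0 R).exists_bound_of_continuousOn hg.continuousOn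
  have h1 : IntegrableOn g (closedBall y0 R) μ :=
    Measure.integrableOn_of_bounded (M := C) hfin hg.aestronglyMeasurable
      ((ae_restrict_iff' measurableSet_closedBall).2 (Filter.Eventually.of_forall hC))
  refine (integrableOn_iff_integrable_of_support_subset fun y hy => ?_).1 h1
  by_contra hc
  exact hy (hoff y hc)

theorem fln_integrable_ind {μ : Measure (E (k + 1))} {y0 : E (k + 1)} {R ρ : ℝ}
    (hfin : μ (closedBall y0 R) ≠ ⊤) (hρ : ρ ≤ R) {g : E (k + 1) → ℝ} (hg : Continuous g) :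
    Integrable ((ball y0 ρ).indicator g) μ := by
  obtain ⟨C, hC⟩ := (isCompact_closedBall y0 R).exists_bound_of_continuousOn hg.continuousOn
  have hsub : ball y0 ρ ⊆ closedBall y0 R := (ball_subset_ball hρ).trans ball_subset_closedBall
  rw [integrable_indicator_iff measurableSet_ball]
  exact Measure.integrableOn_of_bounded (M := C) (measure_ne_top_of_subset hsub hfin)
    hg.aestronglyMeasurable
    ((ae_restrict_iff' measurableSet_ball).2 (Filter.Eventually.of_forall fun y hy => hC y (hsub hy)))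

theorem fln_not_mem {y y0 : E (k + 1)} {R : ℝ} (hy : y ∉ closedBall y0 R) : R ≤ ‖y - y0‖ := by
  rw [mem_closedBall, dist_eq_norm, not_le] at hy
  exact hy.le

/-- the pointwise inequality. -/
theorem fln_pointwise {ν : E (k + 1) → E (k + 1)} {κ s R β a Cχ : ℝ} {y0 q : E (k + 1)}
    (hν1 : ∀ x, ‖ν x‖ ≤ 1) (hκ : 0 ≤ κ) (hs : 0 < s) (hsR : 2 * s ≤ R) (hR1 : R ≤ 1)
    (hq : ‖q‖ ≤ 2) (hβ0 : 0 ≤ β) (hβ : (k : ℝ) - 2 * β = (7 + k) * κ)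
    (hC : ∀ x, |deriv flChi x| ≤ Cχ) (y : E (k + 1)) :
    2 * β * s ^ 2 * (2 * s ^ 2) ^ (-β - 1) * (ball y0 s).indicator (fun y => (a + ⟪q, y⟫) ^ 2) y -
      (2 * Cχ + κ * (2 * Cχ + 1)) * (R ^ 2 / 4) ^ (-β) *
        (ball y0 R).indicator (fun y => (a + ⟪q, y⟫) ^ 2) y -
      κ * (4 * (flGa s R β (‖y - y0‖ ^ 2) * ‖y - y0‖ ^ 2) + 10 * |flGb s R β (‖y - y0‖ ^ 2)|) ≤
    flTdiv (flMZ s R β y0 a q) ν y -
      κ * (‖fderiv ℝ (flMZ s R β y0 a q) y‖ + ‖flMZ s R β y0 a q y‖) := by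
  have hR : 0 < R := by linarith
  have A1 := fl_MZ_tdiv hs hR hβ0 y0 a q ν y (hν1 y) hC
  have A2 := mul_le_mul_of_nonneg_left (fl_MZ_norm hs hR hR1 hβ0 y0 a q hq y hC) hκ
  have hX : 0 < s ^ 2 + ‖y - y0‖ ^ 2 := by positivity
  have hP1 : 0 ≤ (s ^ 2 + ‖y - y0‖ ^ 2) ^ (-β - 1) := Real.rpow_nonneg hX.le _
  have hχ := fl_Chi_props.2.1 (‖y - y0‖ ^ 2 / R ^ 2)
  have hf : 0 ≤ (a + ⟪q, y⟫) ^ 2 := sq_nonneg _
  have e1 : flGa s R β (‖y - y0‖ ^ 2) = (s ^ 2 + ‖y - y0‖ ^ 2) ^ (-β - 1)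
      * (s ^ 2 + ‖y - y0‖ ^ 2) * flChi (‖y - y0‖ ^ 2 / R ^ 2) := by
    unfold flGa; rw [fln_rpow (β := β) hX]
  have key : 2 * β * s ^ 2 * (2 * s ^ 2) ^ (-β - 1)
      * (ball y0 s).indicator (fun y => (a + ⟪q, y⟫) ^ 2) y
      ≤ 2 * β * s ^ 2 * (flChi (‖y - y0‖ ^ 2 / R ^ 2) * (a + ⟪q, y⟫) ^ 2
        * (s ^ 2 + ‖y - y0‖ ^ 2) ^ (-β - 1)) := by
    by_cases hy : y ∈ ball y0 s
    · rw [indicator_of_mem hy]
      rw [mem_ball, dist_eq_norm] at hy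
      have h1 : ‖y - y0‖ ^ 2 ≤ s ^ 2 := pow_le_pow_left₀ (norm_nonneg _) hy.le 2
      have h2 : ‖y - y0‖ ^ 2 / R ^ 2 ≤ 1 / 4 := by
        rw [div_le_iff₀ (by positivity)]
        nlinarith
      have h3 : (2 * s ^ 2) ^ (-β - 1) ≤ (s ^ 2 + ‖y - y0‖ ^ 2) ^ (-β - 1) :=
        Real.rpow_le_rpow_of_nonpos hX (by linarith) (by linarith)
      rw [fl_Chi_props.2.2.1 _ h2, one_mul, mul_assoc, mul_comm ((a + ⟪q, y⟫) ^ 2)]
      exact mul_le_mul_of_nonneg_left (mul_le_mul_of_nonneg_right h3 hf) (by positivity)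
    · rw [indicator_of_notMem hy, mul_zero]
      have := hχ.1
      positivity
  generalize (4 * (flGa s R β (‖y - y0‖ ^ 2) * ‖y - y0‖ ^ 2)
    + 10 * |flGb s R β (‖y - y0‖ ^ 2)|) = Lc at *
  rw [e1] at A2
  have hk2 : 0 ≤ κ * ((k : ℝ) - 2 * β) := mul_nonneg hκ (by rw [hβ]; positivity)
  have hpos : 0 ≤ κ * ((k : ℝ) - 2 * β) * ((s ^ 2 + ‖y - y0‖ ^ 2) ^ (-β - 1)
      * (s ^ 2 + ‖y - y0‖ ^ 2) * flChi (‖y - y0‖ ^ 2 / R ^ 2) * (a + ⟪q, y⟫) ^ 2) :=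
    mul_nonneg hk2 (by have := hχ.1; positivity)
  generalize (ball y0 s).indicator (fun y => (a + ⟪q, y⟫) ^ 2) y = Is at *
  generalize (ball y0 R).indicator (fun y => (a + ⟪q, y⟫) ^ 2) y = IR at *
  generalize ‖fderiv ℝ (flMZ s R β y0 a q) y‖ + ‖flMZ s R β y0 a q y‖ = N at *
  generalize flTdiv (flMZ s R β y0 a q) ν y = D at *
  generalize (s ^ 2 + ‖y - y0‖ ^ 2) ^ (-β - 1) = P1 at *
  generalize flChi (‖y - y0‖ ^ 2 / R ^ 2) = χ at *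
  generalize (a + ⟪q, y⟫) ^ 2 = f at *
  generalize (R ^ 2 / 4) ^ (-β) = M at *
  generalize (2 * s ^ 2) ^ (-β - 1) = u at *
  generalize ‖y - y0‖ ^ 2 = τ at *
  have h7 : ((k : ℝ) - 2 * β) * (P1 * (s ^ 2 + τ) * χ * f)
      = (7 + k) * κ * (P1 * (s ^ 2 + τ) * χ * f) := by rw [hβ]
  linarith

theorem fln_div_continuous {Z : E (k + 1) → E (k + 1)} (hD : Continuous (fderiv ℝ Z)) :
    Continuous (gmtDiv Z) := by
  unfold gmtDiv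
  refine continuous_finsetSum _ fun i _ => ?_
  exact (EuclideanSpace.proj (𝕜 := ℝ) i).continuous.comp (hD.clm_apply continuous_const)

theorem fln_Lc_continuous {s R β : ℝ} (hs : 0 < s) (hR : 0 < R) (hβ : 0 ≤ β) (y0 : E (k + 1)) :
    Continuous fun y : E (k + 1) => 4 * (flGa s R β (‖y - y0‖ ^ 2) * ‖y - y0‖ ^ 2)
      + 10 * |flGb s R β (‖y - y0‖ ^ 2)| := by
  have hτ : ContDiff ℝ ∞ fun y : E (k + 1) => ‖y - y0‖ ^ 2 :=
    (contDiff_id.sub contDiff_const).norm_sq ℝ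
  have hGa : ContDiff ℝ ∞ fun y : E (k + 1) => flGa s R β (‖y - y0‖ ^ 2) :=
    (fl_Ga_props hs hR hβ).1.comp_contDiff hτ fun y => fln_tau_mem hs y y0
  have hGb : ContDiff ℝ ∞ fun y : E (k + 1) => flGb s R β (‖y - y0‖ ^ 2) :=
    (fl_Gb_props hs hR hβ).1.comp_contDiff hτ fun y => fln_tau_mem hs y y0
  exact (continuous_const.mul (hGa.continuous.mul hτ.continuous)).add
    (continuous_const.mul hGb.continuous.abs)

/-- the inequality before normalisation (`k - 2β = (7+k) κ`). -/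
theorem fl_mean_pre {U : Set (E (k + 1))} {μ : Measure (E (k + 1))} {ν : E (k + 1) → E (k + 1)}
    {κ C₀ s R β a Cχ : ℝ} {y0 q : E (k + 1)} (hν : Measurable ν) (hν1 : ∀ x, ‖ν x‖ ≤ 1)
    (hfin : μ (closedBall y0 R) ≠ ⊤) (hfv : FlFV κ U μ ν) (hκ : 0 ≤ κ)
    (hU : closedBall y0 R ⊆ U) (hC₀ : 0 ≤ C₀)
    (hup : ∀ ρ, 0 < ρ → ρ ≤ R → μ (ball y0 ρ) ≤ ENNReal.ofReal (C₀ * ρ ^ k))
    (hs : 0 < s) (hsR : 2 * s ≤ R) (hR1 : R ≤ 1) (hq : ‖q‖ ≤ 2) (hβ0 : 0 ≤ β)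
    (hβ : (k : ℝ) - 2 * β = (7 + k) * κ) (hC : ∀ x, |deriv flChi x| ≤ Cχ) :
    2 * β * s ^ 2 * (2 * s ^ 2) ^ (-β - 1) * ∫ y in ball y0 s, (a + ⟪q, y⟫) ^ 2 ∂μ ≤
      (2 * Cχ + κ * (2 * Cχ + 1)) * (R ^ 2 / 4) ^ (-β) * ∫ y in ball y0 R, (a + ⟪q, y⟫) ^ 2 ∂μ +
        κ * ((13 + 2 * k) * C₀ * R ^ ((2 : ℝ) + k - 2 * β)) := by
  have hR : 0 < R := by linarith
  have hT := fl_MZ_test hs hR hβ0 y0 a q hU
  have hFV := hfv _ hT
  have hZc : Continuous (flMZ s R β y0 a q) := hT.smooth.continuous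
  have hDc : Continuous (fderiv ℝ (flMZ s R β y0 a q)) := hT.smooth.continuous_fderiv (by simp)
  have hfc : Continuous fun y : E (k + 1) => (a + ⟪q, y⟫) ^ 2 := by fun_prop
  have i2 : Integrable (fun y => ‖fderiv ℝ (flMZ s R β y0 a q) y‖ + ‖flMZ s R β y0 a q y‖) μ :=
    fln_integrable hfin (hDc.norm.add hZc.norm) fun y hy => by
      obtain ⟨z1, z2⟩ := fl_MZ_off y0 a q hs hR hβ0 (fln_not_mem hy)
      rw [z1, z2]; simp
  have hdivc := fln_div_continuous hDc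
  have i1 : Integrable (fun y => flTdiv (flMZ s R β y0 a q) ν y) μ := by
    have hdom : Integrable (fun y => |gmtDiv (flMZ s R β y0 a q) y|
        + ‖fderiv ℝ (flMZ s R β y0 a q) y‖) μ :=
      fln_integrable hfin (hdivc.abs.add hDc.norm) fun y hy => by
        obtain ⟨z1, z2⟩ := fl_MZ_off y0 a q hs hR hβ0 (fln_not_mem hy)
        unfold gmtDiv
        rw [z2]; simp
    refine hdom.mono' ?_ (Filter.Eventually.of_forall fun y => ?_)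
    · unfold flTdiv
      exact (hdivc.measurable.sub (hν.inner (ContinuousLinearMap.measurable_apply₂.comp
        (hDc.measurable.prodMk hν)))).aestronglyMeasurable
    · unfold flTdiv
      rw [Real.norm_eq_abs]
      refine (abs_sub _ _).trans (add_le_add le_rfl ?_)
      have h1 := abs_real_inner_le_norm (ν y) (fderiv ℝ (flMZ s R β y0 a q) y (ν y))
      have h2 := (fderiv ℝ (flMZ s R β y0 a q) y).le_opNorm (ν y)
      have h3 := hν1 y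
      have h4 := norm_nonneg (ν y)
      have h5 := norm_nonneg (fderiv ℝ (flMZ s R β y0 a q) y)
      have h6 := norm_nonneg (fderiv ℝ (flMZ s R β y0 a q) y (ν y))
      nlinarith
  have i3 : Integrable ((ball y0 s).indicator fun y => (a + ⟪q, y⟫) ^ 2) μ :=
    fln_integrable_ind hfin (by linarith) hfc
  have i4 : Integrable ((ball y0 R).indicator fun y => (a + ⟪q, y⟫) ^ 2) μ :=
    fln_integrable_ind hfin le_rfl hfc
  have i5 : Integrable (fun y => 4 * (flGa s R β (‖y - y0‖ ^ 2) * ‖y - y0‖ ^ 2)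
      + 10 * |flGb s R β (‖y - y0‖ ^ 2)|) μ :=
    fln_integrable hfin (fln_Lc_continuous hs hR hβ0 y0) fun y hy => by
      obtain ⟨g1, g2, -⟩ := fln_off hs hR hβ0 (pow_le_pow_left₀ hR.le (fln_not_mem hy) 2)
      rw [g1, g2]; simp
  have hint := integral_mono (μ := μ)
    (((i3.const_mul (2 * β * s ^ 2 * (2 * s ^ 2) ^ (-β - 1))).sub
      (i4.const_mul ((2 * Cχ + κ * (2 * Cχ + 1)) * (R ^ 2 / 4) ^ (-β)))).sub (i5.const_mul κ))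
    (i1.sub (i2.const_mul κ))
    (fun y => fln_pointwise (a := a) (y0 := y0) hν1 hκ hs hsR hR1 hq hβ0 hβ hC y)
  rw [integral_sub' ((i3.const_mul _).sub (i4.const_mul _)) (i5.const_mul κ),
    integral_sub' (i3.const_mul _) (i4.const_mul _), integral_sub' i1 (i2.const_mul κ),
    integral_const_mul, integral_const_mul, integral_const_mul, integral_const_mul,
    integral_indicator measurableSet_ball, integral_indicator measurableSet_ball] at hint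
  have h2β : 2 * β ≤ k := by
    have : 0 ≤ (7 + (k : ℝ)) * κ := by positivity
    linarith
  have hlay := mul_le_mul_of_nonneg_left (fl_mean_layer μ y0 hs hR hβ0 h2β hC₀ hup) hκ
  have hFV' := (le_abs_self _).trans hFV
  linarith

theorem fln_log4 : Real.log 4 = 2 * Real.log 2 := by
  rw [show (4 : ℝ) = 2 ^ 2 by norm_num, Real.log_pow]; norm_num

theorem fln_log8 : Real.log 8 = 3 * Real.log 2 := by
  rw [show (8 : ℝ) = 2 ^ 3 by norm_num, Real.log_pow]; norm_num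

theorem fln_I1 {s R β : ℝ} (k : ℕ) (hs : 0 < s) (hR : 0 < R) :
    (R ^ 2 / 4) ^ (-β) * R ^ k =
      (8 : ℝ) ^ β * (R / s) ^ ((k : ℝ) - 2 * β) * (2 * s ^ 2) ^ (-β) * s ^ k := by
  rw [← Real.rpow_natCast R k, ← Real.rpow_natCast s k]
  rw [Real.rpow_def_of_pos (by positivity : 0 < R ^ 2 / 4), Real.rpow_def_of_pos hR,
    Real.rpow_def_of_pos (by norm_num : (0 : ℝ) < 8),
    Real.rpow_def_of_pos (by positivity : 0 < R / s),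
    Real.rpow_def_of_pos (by positivity : 0 < 2 * s ^ 2), Real.rpow_def_of_pos hs]
  rw [← Real.exp_add, ← Real.exp_add, ← Real.exp_add, ← Real.exp_add]
  congr 1
  rw [Real.log_div (by positivity) (by norm_num), Real.log_pow, Real.log_div hR.ne' hs.ne',
    Real.log_mul (by norm_num) (by positivity), Real.log_pow, fln_log4, fln_log8]
  push_cast
  ring

theorem fln_I2 {s R β : ℝ} (k : ℕ) (hs : 0 < s) (hR : 0 < R) :
    R ^ ((2 : ℝ) + k - 2 * β) =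
      (2 : ℝ) ^ β * (R / s) ^ ((k : ℝ) - 2 * β) * (2 * s ^ 2) ^ (-β) * s ^ k * R ^ 2 := by
  rw [← Real.rpow_natCast s k, ← Real.rpow_natCast R 2]
  rw [Real.rpow_def_of_pos hR, Real.rpow_def_of_pos hR,
    Real.rpow_def_of_pos (by norm_num : (0 : ℝ) < 2),
    Real.rpow_def_of_pos (by positivity : 0 < R / s),
    Real.rpow_def_of_pos (by positivity : 0 < 2 * s ^ 2), Real.rpow_def_of_pos hs]
  rw [← Real.exp_add, ← Real.exp_add, ← Real.exp_add, ← Real.exp_add]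
  congr 1
  rw [Real.log_div hR.ne' hs.ne', Real.log_mul (by norm_num) (by positivity), Real.log_pow]
  push_cast
  ring

theorem fln_core {β Ee X p8 p2 P c c1 K a' b' d' : ℝ} (hβ : 1 / 4 ≤ β) (hE0 : 0 ≤ Ee) (hE : Ee ≤ X)
    (h80 : 0 ≤ p8) (h8 : p8 ≤ P) (h20 : 0 ≤ p2) (h2 : p2 ≤ P) (hc0 : 0 ≤ c) (hc : c ≤ c1)
    (hK : 0 ≤ K) (ha : 0 ≤ a') (hb : 0 ≤ b') (hd : 0 ≤ d')
    (h : β * a' ≤ Ee * (c * p8 * b' + K * p2 * d')) :
    a' ≤ 4 * X * P * (c1 + K) * (b' + d') := by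
  have hX : 0 ≤ X := hE0.trans hE
  have hP : 0 ≤ P := h80.trans h8
  have hc1 : 0 ≤ c1 := hc0.trans hc
  calc a' ≤ 4 * (β * a') := by nlinarith
    _ ≤ 4 * (Ee * (c * p8 * b' + K * p2 * d')) := by gcongr
    _ ≤ 4 * (X * (c1 * P * b' + K * P * d')) := by gcongr
    _ ≤ 4 * X * P * (c1 + K) * (b' + d') := by
        have q1 : 0 ≤ 4 * X * P * K * b' := by positivity
        have q2 : 0 ≤ 4 * X * P * c1 * d' := by positivity
        nlinarith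

theorem fln_cancel {k : ℕ} {s R β κ C₀ c A B : ℝ} (hs : 0 < s) (hR : 0 < R)
    (hpre : 2 * β * s ^ 2 * (2 * s ^ 2) ^ (-β - 1) * A ≤ c * (R ^ 2 / 4) ^ (-β) * B +
        κ * ((13 + 2 * k) * C₀ * R ^ ((2 : ℝ) + k - 2 * β))) :
    β * ((s ^ k)⁻¹ * A) ≤ (R / s) ^ ((k : ℝ) - 2 * β) * (c * (8 : ℝ) ^ β * ((R ^ k)⁻¹ * B)
      + (13 + 2 * k) * (2 : ℝ) ^ β * (κ * C₀ * R ^ 2)) := by
  have hu : 0 < (2 * s ^ 2) ^ (-β) := Real.rpow_pos_of_pos (by positivity) _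
  have e0 : 2 * β * s ^ 2 * (2 * s ^ 2) ^ (-β - 1) = β * (2 * s ^ 2) ^ (-β) := by
    rw [fln_rpow (β := β) (by positivity : 0 < 2 * s ^ 2)]; ring
  have I1 := fln_I1 (β := β) k hs hR
  have I2 := fln_I2 (β := β) k hs hR
  have hsk : 0 < s ^ k := by positivity
  have hRk : 0 < R ^ k := by positivity
  have hM : (R ^ 2 / 4) ^ (-β)
      = (8 : ℝ) ^ β * (R / s) ^ ((k : ℝ) - 2 * β) * (2 * s ^ 2) ^ (-β) * s ^ k * (R ^ k)⁻¹ := by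
    rw [← I1]; field_simp
  rw [e0, I2, hM] at hpre
  have h1 : ((2 * s ^ 2) ^ (-β) * s ^ k) * (β * ((s ^ k)⁻¹ * A)) ≤ ((2 * s ^ 2) ^ (-β) * s ^ k) *
      ((R / s) ^ ((k : ℝ) - 2 * β) * (c * (8 : ℝ) ^ β * ((R ^ k)⁻¹ * B)
      + (13 + 2 * k) * (2 : ℝ) ^ β * (κ * C₀ * R ^ 2))) := by
    have e1 : ((2 * s ^ 2) ^ (-β) * s ^ k) * (β * ((s ^ k)⁻¹ * A)) = β * (2 * s ^ 2) ^ (-β) * A := by
      field_simp
    rw [e1]
    refine hpre.trans (le_of_eq ?_)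
    ring
  exact le_of_mul_le_mul_left h1 (by positivity)

/-- **F7: mean value inequality.** -/
theorem fl_mean (k : ℕ) (hk : 1 ≤ k) : ∃ C κ₀ : ℝ, 0 < C ∧ 0 < κ₀ ∧
    ∀ (U : Set (E (k + 1))) (μ : Measure (E (k + 1))) (ν : E (k + 1) → E (k + 1))
      (κ C₀ s R a : ℝ) (y0 q : E (k + 1)), Measurable ν → (∀ x, ‖ν x‖ ≤ 1) →
      μ (closedBall y0 R) ≠ ⊤ → FlFV κ U μ ν → 0 ≤ κ → κ ≤ κ₀ → closedBall y0 R ⊆ U → 0 ≤ C₀ →
      (∀ ρ, 0 < ρ → ρ ≤ R → μ (ball y0 ρ) ≤ ENNReal.ofReal (C₀ * ρ ^ k)) →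
      0 < s → 2 * s ≤ R → R ≤ 1 → ‖q‖ ≤ 2 → κ * Real.log (R / s) ≤ 1 →
        (s ^ k)⁻¹ * ∫ y in ball y0 s, (a + ⟪q, y⟫) ^ 2 ∂μ ≤
          C * ((R ^ k)⁻¹ * ∫ y in ball y0 R, (a + ⟪q, y⟫) ^ 2 ∂μ + κ * C₀ * R ^ 2) := by
  obtain ⟨-, -, -, -, -, Cχ, hCχ0, hCχ⟩ := fl_Chi_props
  refine ⟨4 * Real.exp (7 + k) * 8 ^ k * ((4 * Cχ + 1) + (13 + 2 * k)), 1 / (2 * (7 + k)),
    by positivity, by positivity, ?_⟩
  intro U μ ν κ C₀ s R a y0 q hν hν1 hfin hfv hκ hκ0 hU hC₀ hup hs hsR hR1 hq hlog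
  have hR : 0 < R := by linarith
  obtain ⟨β, hβdef⟩ : ∃ β : ℝ, β = ((k : ℝ) - (7 + k) * κ) / 2 := ⟨_, rfl⟩
  have hβ : (k : ℝ) - 2 * β = (7 + k) * κ := by rw [hβdef]; ring
  have hθ : (7 + (k : ℝ)) * κ ≤ 1 / 2 := by
    calc (7 + (k : ℝ)) * κ ≤ (7 + k) * (1 / (2 * (7 + k))) :=
          mul_le_mul_of_nonneg_left hκ0 (by positivity)
      _ = 1 / 2 := by field_simp
  have hθ0 : 0 ≤ (7 + (k : ℝ)) * κ := by positivity
  have hk1 : (1 : ℝ) ≤ k := by exact_mod_cast hk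
  have hβ14 : 1 / 4 ≤ β := by linarith
  have hβk : β ≤ k := by linarith
  have hβ0 : 0 ≤ β := by linarith
  have hκ1 : κ ≤ 1 := by nlinarith
  have hpre := fl_mean_pre (a := a) hν hν1 hfin hfv hκ hU hC₀ hup hs hsR hR1 hq hβ0 hβ hCχ
  have hA : 0 ≤ ∫ y in ball y0 s, (a + ⟪q, y⟫) ^ 2 ∂μ := integral_nonneg fun _ => sq_nonneg _
  have hB : 0 ≤ ∫ y in ball y0 R, (a + ⟪q, y⟫) ^ 2 ∂μ := integral_nonneg fun _ => sq_nonneg _
  have hE : (R / s) ^ ((k : ℝ) - 2 * β) ≤ Real.exp (7 + k) := by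
    rw [Real.rpow_def_of_pos (by positivity), hβ]
    apply Real.exp_le_exp.2
    have : 0 ≤ 7 + (k : ℝ) := by positivity
    nlinarith
  have h8 : (8 : ℝ) ^ β ≤ 8 ^ k := by
    rw [← Real.rpow_natCast]
    exact Real.rpow_le_rpow_of_exponent_le (by norm_num) hβk
  have h2 : (2 : ℝ) ^ β ≤ 8 ^ k := (Real.rpow_le_rpow (by norm_num) (by norm_num) hβ0).trans h8
  exact fln_core hβ14 (Real.rpow_nonneg (by positivity) _) hE (Real.rpow_nonneg (by norm_num) _) h8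
    (Real.rpow_nonneg (by norm_num) _) h2 (by positivity) (by nlinarith) (by positivity)
    (by positivity) (by positivity) (by positivity) (fln_cancel hs hR hpre)

end Claimed.Agent.Gmt
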