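import Claimed.Agent.Lib.Gmt.FlKer

/-!
THIS FILE = PACKAGE L-GMT-FlMoll1 (part 1 of 2 of the former `FlMoll.lean`, which now only imports the parts; the text below is the plan of the whole former file).
# Lib/Gmt G4.3b (architect: helper190): an almost harmonic bounded function is `L²`-close to an affine function (F5).
PACKAGE L-GMT-FlMoll.   PURE ANALYSIS on `E n`.   Replaces: harmonic approximation lemma, Weyl lemma, Dirichlet problem, compactness.

Let `|h| ≤ ε` a.e., `h = 0` off `ball 0 1`, `FlAH h om`.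
* `fl_moll_deriv`: `Φ(s) = ∫ h (R_s * g)`, `g` bounded, `= 0` off `ball 0 (1/2)`, `0 < s ≤ 1/8`.  Differentiate under the (double) integral
  (`hasDerivAt_integral_of_dominated_loc_of_deriv_le`; integrand `h(z) g(w) R_s(z-w)` on the bounded set `|z| ≤ 1, |w| ≤ 1/2`, `fl_R_hasDerivAt`, bound of
  `s ΔQ_s` on compact `s`-intervals by `fl_Q_lap_continuousOn`):  `Φ'(s) = - s ∫ h (ΔQ_s * g) = - s ∫ h Δ(Q_s * g)` (`fl_cv_lap`).
* `fl_moll_deriv_le`: `ψ = Q_s * g` is smooth, supported in `closedBall 0 (1/2 + 1/8) ⊆ ball 0 (3/4)`, `|ψ| ≤ M C_Q`, `|∇ψ| ≤ M / s`; `FlAH` gives `|∫ h Δψ| ≤ om M max(C_Q, 1/s) ≤ om M (C_Q + 1)/s`,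
  so `|Φ'(s)| ≤ (C_Q+1) om M`.
* `fl_moll_diff`: mean value inequality on `[a,b]` (`Convex.norm_image_sub_le_of_norm_hasDerivWithin_le` / `image_norm_le_of_norm_deriv_right_le_deriv_boundary`).
* `fl_moll_L1`: let `a ↓ 0` (`fl_cv_tendsto`), `b = 1/8`, symmetry (`fl_cv_symm`): `|∫ (h - G) g| ≤ C om M`, `G = R_{1/8} * h`.
* `fl_moll`: `g = (h - G) 1_{ball 0 ρ}`, `|g| ≤ 2ε`: `∫_{ball 0 ρ} (h-G)² ≤ 2 C ε om`.  `|G| ≤ ε`, `|DG| ≤ C₁ ε`, `|D²G| ≤ C₂ ε` (`fl_cv_abs_le`, `fl_cv_fderiv_le`, `fl_cv_fderiv2_le` with the fixed kernel `R_{1/8}`),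
  Taylor: `|G(z) - G(0) - DG(0) z| ≤ C₂ ε |z|²/2` (mean value inequality for `z ↦ G z - DG(0) z` on the segment), `a = G 0`, `p = gradient G 0`,
  `(h - ℓ)² ≤ 2 (h-G)² + 2 (G-ℓ)²`, `∫_{ball 0 ρ} (G-ℓ)² ≤ ω_n ρ^n (C₂ ε ρ²/2)²`.
  For a general `h` (not zero off the ball) replace `h` by `(ball 0 1).indicator h`: `FlAH` and the conclusion do not see the difference.
-/

set_option autoImplicit false
open scoped ContDiff ENNReal RealInnerProductSpace Topology
open MeasureTheory Metric Set Filter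

namespace Claimed.Agent.Gmt

variable {n : ℕ}

/-- bounded measurable function vanishing off a ball. -/
structure FlBdd (g : E n → ℝ) (M ρ : ℝ) : Prop where
  meas : Measurable g
  le : ∀ᵐ w, |g w| ≤ M
  off : ∀ w, ρ ≤ ‖w‖ → g w = 0

theorem FlBdd.integrable {g : E n → ℝ} {M ρ : ℝ} (h : FlBdd g M ρ) : Integrable g := by
  have h1 : IntegrableOn g (closedBall 0 ρ) :=
    Measure.integrableOn_of_bounded (M := M) (isCompact_closedBall _ _).measure_lt_top.ne
      h.meas.aestronglyMeasurable (ae_restrict_of_ae (h.le.mono fun w hw => by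
        rwa [Real.norm_eq_abs]))
  refine (integrableOn_iff_integrable_of_support_subset fun w hw => ?_).1 h1
  by_contra hc
  apply hw
  rw [mem_closedBall, dist_zero_right, not_le] at hc
  exact h.off w hc.le

theorem flm_prod_integrable {K h g : E n → ℝ} (hK : Continuous K) {C : ℝ} (hC : ∀ x, |K x| ≤ C)
    (hh : Integrable h) (hg : Integrable g) :
    Integrable (fun p : E n × E n => h p.1 * (K (p.1 - p.2) * g p.2)) (volume.prod volume) := by
  have h1 : Integrable (fun p : E n × E n => h p.1 * g p.2) (volume.prod volume) :=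
    hh.mul_prod hg
  have h2 := h1.bdd_mul (f := fun p : E n × E n => K (p.1 - p.2)) (c := C)
    (hK.comp (continuous_fst.sub continuous_snd)).aestronglyMeasurable
    (Eventually.of_forall fun p => hC _)
  refine h2.congr (Eventually.of_forall fun p => ?_)
  ring

theorem flm_prod_eq {K h g : E n → ℝ} (hK : Continuous K) {C : ℝ} (hC : ∀ x, |K x| ≤ C)
    (hh : Integrable h) (hg : Integrable g) :
    ∫ p : E n × E n, h p.1 * (K (p.1 - p.2) * g p.2) ∂(volume.prod volume)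
      = ∫ z, h z * flCv K g z := by
  rw [integral_prod _ (flm_prod_integrable hK hC hh hg)]
  congr 1
  funext z
  exact integral_const_mul (h z) fun w => K (z - w) * g w

theorem flm_Rh_deriv {τ : ℝ} (h : 1 < τ) : deriv flRh τ = 0 := by
  have h1 : flRh =ᶠ[𝓝 τ] fun _ => 0 := by
    filter_upwards [Ioi_mem_nhds h] with σ hσ
    exact fl_Rh_props.2.2.1 σ (le_of_lt hσ)
  rw [h1.deriv_eq]
  simp

theorem flm_Q_lap_off {s : ℝ} (hs : 0 < s) {x : E n} (hx : s < ‖x‖) : flLap (flQ n s) x = 0 := by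
  have h1 : 1 < ‖x‖ ^ 2 / s ^ 2 := by
    rw [lt_div_iff₀ (by positivity), one_mul]
    exact pow_lt_pow_left₀ hx hs.le (by norm_num)
  rw [flk_Q_lap n hs, fl_Rh_props.2.2.1 _ h1.le, flm_Rh_deriv h1]
  simp

/-- uniform bound of `σ Δ Q_σ` for `σ` in a compact interval. -/
theorem flm_Q_lap_bound (n : ℕ) {s : ℝ} (hs : 0 < s) :
    ∃ B : ℝ, ∀ σ ∈ Icc (s / 2) (2 * s), ∀ x : E n, |σ * flLap (flQ n σ) x| ≤ B := by
  have hK : IsCompact (Icc (s / 2) (2 * s) ×ˢ closedBall (0 : E n) (2 * s)) :=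
    isCompact_Icc.prod (isCompact_closedBall _ _)
  have hsub : Icc (s / 2) (2 * s) ×ˢ closedBall (0 : E n) (2 * s) ⊆ Ioi (0 : ℝ) ×ˢ univ :=
    fun p hp => ⟨lt_of_lt_of_le (by positivity) hp.1.1, mem_univ _⟩
  have hc : ContinuousOn (fun p : ℝ × E n => p.1 * flLap (flQ n p.1) p.2)
      (Icc (s / 2) (2 * s) ×ˢ closedBall (0 : E n) (2 * s)) :=
    (continuous_fst.continuousOn).mul ((fl_Q_lap_continuousOn n).mono hsub)
  obtain ⟨B, hB⟩ := hK.exists_bound_of_continuousOn hc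
  refine ⟨max B 0, fun σ hσ x => ?_⟩
  by_cases hx : ‖x‖ ≤ 2 * s
  · exact (hB (σ, x) ⟨hσ, by simpa using hx⟩).trans (le_max_left _ _)
  · rw [flm_Q_lap_off (lt_of_lt_of_le (by positivity) hσ.1)
      (lt_of_le_of_lt hσ.2 (not_le.1 hx))]
    simp

theorem flm_Q_lap_continuous (n : ℕ) {s : ℝ} (hs : 0 < s) : Continuous (flLap (flQ n s)) := by
  have h := (fl_Q_lap_continuousOn n).comp_continuous (f := fun x : E n => (s, x))
    (by fun_prop) (fun x => ⟨hs, mem_univ _⟩)
  exact h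

theorem fl_moll_deriv {h g : E n → ℝ} {ε M : ℝ} (hh : FlBdd h ε 1) (hg : FlBdd g M (1 / 2)) {s : ℝ}
    (hs : 0 < s) :
    HasDerivAt (fun σ => ∫ z, h z * flCv (flR n σ) g z)
      (-(s * ∫ z, h z * flLap (flCv (flQ n s) g) z)) s := by
  obtain ⟨B, hB⟩ := flm_Q_lap_bound n hs
  have hhi := hh.integrable
  have hgi := hg.integrable
  have hRb : ∀ σ, 0 < σ → ∃ C, ∀ x, |flR n σ x| ≤ C := fun σ hσ =>
    (flk_compact (fl_R_props n hσ).2.2.2.2.1).exists_bound_of_continuous
      (fl_R_props n hσ).1.continuous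
  have hmem : Ioo (s / 2) (2 * s) ∈ 𝓝 s := Ioo_mem_nhds (by linarith) (by linarith)
  have hpos : ∀ σ ∈ Ioo (s / 2) (2 * s), 0 < σ := fun σ hσ => lt_trans (by positivity) hσ.1
  have hK' : Continuous fun x : E n => -(s * flLap (flQ n s) x) :=
    (continuous_const.mul (flm_Q_lap_continuous n hs)).neg
  have hK'b : ∀ x : E n, |-(s * flLap (flQ n s) x)| ≤ B := fun x => by
    rw [abs_neg]; exact hB s ⟨by linarith, by linarith⟩ x
  have key := hasDerivAt_integral_of_dominated_loc_of_deriv_le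
    (μ := (volume : Measure (E n)).prod (volume : Measure (E n)))
    (F := fun σ (p : E n × E n) => h p.1 * (flR n σ (p.1 - p.2) * g p.2))
    (F' := fun σ (p : E n × E n) => h p.1 * (-(σ * flLap (flQ n σ) (p.1 - p.2)) * g p.2))
    (x₀ := s) (s := Ioo (s / 2) (2 * s))
    (bound := fun p : E n × E n => |h p.1| * (B * |g p.2|)) hmem
    (by
      filter_upwards [hmem] with σ hσ
      obtain ⟨C, hC⟩ := hRb σ (hpos σ hσ)
      exact (flm_prod_integrable (fl_R_props n (hpos σ hσ)).1.continuous hC hhi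
        hgi).aestronglyMeasurable)
    (by
      obtain ⟨C, hC⟩ := hRb s hs
      exact flm_prod_integrable (fl_R_props n hs).1.continuous hC hhi hgi)
    (flm_prod_integrable hK' hK'b hhi hgi).aestronglyMeasurable
    (Eventually.of_forall fun p σ hσ => by
      rw [norm_mul, norm_mul, Real.norm_eq_abs, Real.norm_eq_abs, Real.norm_eq_abs, abs_neg]
      exact mul_le_mul_of_nonneg_left (mul_le_mul_of_nonneg_right
        (hB σ ⟨hσ.1.le, hσ.2.le⟩ _) (abs_nonneg _)) (abs_nonneg _))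
    (hhi.abs.mul_prod (hgi.abs.const_mul B))
    (Eventually.of_forall fun p σ hσ =>
      ((fl_R_hasDerivAt n (hpos σ hσ) (p.1 - p.2)).mul_const (g p.2)).const_mul (h p.1))
  have h1 := key.2
  rw [flm_prod_eq hK' hK'b hhi hgi] at h1
  have e1 : ∫ z, h z * flCv (fun x => -(s * flLap (flQ n s) x)) g z
      = -(s * ∫ z, h z * flLap (flCv (flQ n s) g) z) := by
    rw [← integral_const_mul, ← integral_neg]
    congr 1
    funext z
    rw [fl_cv_lap (fl_Q_props n hs).1 (flk_compact (fl_Q_props n hs).2.2.2) hgi.locallyIntegrable]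
    unfold flCv
    have : ∀ w, -(s * flLap (flQ n s) (z - w)) * g w = -s * (flLap (flQ n s) (z - w) * g w) :=
      fun w => by ring
    simp only [this]
    rw [integral_const_mul]
    ring
  rw [e1] at h1
  refine h1.congr_of_eventuallyEq ?_
  filter_upwards [hmem] with σ hσ
  obtain ⟨C, hC⟩ := hRb σ (hpos σ hσ)
  exact (flm_prod_eq (fl_R_props n (hpos σ hσ)).1.continuous hC hhi hgi).symm

theorem fl_moll_deriv_le (n : ℕ) : ∃ C : ℝ, 0 < C ∧ ∀ (h g : E n → ℝ) (ε M om s : ℝ), FlBdd h ε 1 →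
    FlBdd g M (1 / 2) → 0 ≤ M → 0 ≤ om → FlAH h om → 0 < s → s ≤ 1 / 8 →
      |s * ∫ z, h z * flLap (flCv (flQ n s) g) z| ≤ C * om * M := by
  obtain ⟨CQ, hCQ, hQ⟩ := fl_Q_norm n
  refine ⟨CQ + 1, by positivity, fun h g ε M om s hh hg hM hom hAH hs hs8 => ?_⟩
  obtain ⟨q1, q2, q3, q4⟩ := fl_Q_props n hs
  have hgl := hg.integrable.locallyIntegrable
  have hqc := flk_compact q4
  have h1 := hAH (flCv (flQ n s) g) (fl_cv_contDiff q1 hqc hgl)
    ((fl_cv_tsupport q3 hg.off).trans (closedBall_subset_ball (by linarith)))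
    (M * (CQ + 1 / s))
    (fun z => (fl_cv_abs_le q1.continuous hqc hg.le z).trans (by
      have : 0 < 1 / s := by positivity
      exact mul_le_mul_of_nonneg_left (by linarith [hQ s hs]) hM))
    (fun z => (fl_cv_fderiv_le q1 hqc hgl hg.le z).trans (by
      exact mul_le_mul_of_nonneg_left (by linarith [fl_Q_grad_norm n hs]) hM))
  rw [abs_mul, abs_of_pos hs]
  calc s * |∫ z, h z * flLap (flCv (flQ n s) g) z| ≤ s * (om * (M * (CQ + 1 / s))) :=
        mul_le_mul_of_nonneg_left h1 hs.le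
    _ = om * M * (s * CQ + 1) := by field_simp
    _ ≤ om * M * (CQ + 1) := by
        refine mul_le_mul_of_nonneg_left ?_ (mul_nonneg hom hM)
        nlinarith
    _ = (CQ + 1) * om * M := by ring

end Claimed.Agent.Gmt
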