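import Claimed.Agent.Lib.Gmt.FlMoll1

/-!
THIS FILE = PACKAGE L-GMT-FlMoll2 (part 2 of 2 of the former `FlMoll.lean`, which now only imports the parts; the text below is the plan of the whole former file).
# Lib/Gmt G4.3b (architect: helper190): an almost harmonic bounded function is `L²`-close to an affine function (F5).
PACKAGE L-GMT-FlMoll.   PURE ANALYSIS on `E n`.   Replaces: harmonic approximation lemma, Weyl lemma, Dirichlet problem, compactness.

Let `|h| ≤ ε` a.e., `h = 0` off `ball 0 1`, `FlAH h om`.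
* `fl_moll_deriv`: `Φ(s) = ∫ h (R_s * g)`, `g` bounded, `= 0` off `ball 0 (1/2)`, `0 < s ≤ 1/8`.  Differentiate under the (double) integral
  (`hasDerivAt_integral_of_dominated_loc_of_deriv_le`; integrand `h(z) g(w) R_s(z-w)` on the bounded set `|z| ≤ 1, |w| ≤ 1/2`, `fl_R_hasDerivAt`, bound of
  `s ΔQ_s` on compact `s`-intervals by `fl_Q_lap_continuousOn`):  `Φ'(s) = - s ∫ h (ΔQ_s * g) = - s ∫ h Δ(Q_s * g)` (`fl_cv_lap`).
* `fl_moll_deriv_le`: `ψ = Q_s * g` is smooth, supported in `closedBall 0 (1/2 + 1/8) ⊆ ball 0 (3/4)`, `|ψ| ≤ M C_Q`, `|∇ψ| ≤ M / s`; `FlAH` gives `|∫ h Δψ| ≤ om M max(C_Q, 1/s) ≤ om M (C_Q + 1)/s`,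
  so `|Φ'(s)| ≤ (C_Q+1) om M`.
* `fl_moll_diff`: mean value inequality on `[a,b]` (`Convex.norm_image_sub_le_of_norm_hasDerivWithin_le` / `image_norm_le_of_norm_deriv_right_le_deriv_boundary`).
* `fl_moll_L1`: let `a ↓ 0` (`fl_cv_tendsto`), `b = 1/8`, symmetry (`fl_cv_symm`): `|∫ (h - G) g| ≤ C om M`, `G = R_{1/8} * h`.
* `fl_moll`: `g = (h - G) 1_{ball 0 ρ}`, `|g| ≤ 2ε`: `∫_{ball 0 ρ} (h-G)² ≤ 2 C ε om`.  `|G| ≤ ε`, `|DG| ≤ C₁ ε`, `|D²G| ≤ C₂ ε` (`fl_cv_abs_le`, `fl_cv_fderiv_le`, `fl_cv_fderiv2_le` with the fixed kernel `R_{1/8}`),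
  Taylor: `|G(z) - G(0) - DG(0) z| ≤ C₂ ε |z|²/2` (mean value inequality for `z ↦ G z - DG(0) z` on the segment), `a = G 0`, `p = gradient G 0`,
  `(h - ℓ)² ≤ 2 (h-G)² + 2 (G-ℓ)²`, `∫_{ball 0 ρ} (G-ℓ)² ≤ ω_n ρ^n (C₂ ε ρ²/2)²`.
  For a general `h` (not zero off the ball) replace `h` by `(ball 0 1).indicator h`: `FlAH` and the conclusion do not see the difference.
-/

set_option autoImplicit false
open scoped ContDiff ENNReal RealInnerProductSpace Topology
open MeasureTheory Metric Set Filter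

namespace Claimed.Agent.Gmt

variable {n : ℕ}

theorem fl_moll_diff (n : ℕ) : ∃ C : ℝ, 0 < C ∧ ∀ (h g : E n → ℝ) (ε M om a b : ℝ), FlBdd h ε 1 →
    FlBdd g M (1 / 2) → 0 ≤ M → 0 ≤ om → FlAH h om → 0 < a → a ≤ b → b ≤ 1 / 8 →
      |(∫ z, h z * flCv (flR n b) g z) - ∫ z, h z * flCv (flR n a) g z| ≤ C * om * M * (b - a) := by
  obtain ⟨C, hC, H⟩ := fl_moll_deriv_le n
  refine ⟨C, hC, fun h g ε M om a b hh hg hM hom hAH ha hab hb => ?_⟩
  have := Convex.norm_image_sub_le_of_norm_hasDerivWithin_le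
    (f := fun σ => ∫ z, h z * flCv (flR n σ) g z)
    (f' := fun s => -(s * ∫ z, h z * flLap (flCv (flQ n s) g) z)) (s := Icc a b) (C := C * om * M)
    (x := a) (y := b)
    (fun s hs => (fl_moll_deriv hh hg (lt_of_lt_of_le ha hs.1)).hasDerivWithinAt)
    (fun s hs => by
      rw [norm_neg, Real.norm_eq_abs]
      exact H h g ε M om s hh hg hM hom hAH (lt_of_lt_of_le ha hs.1) (hs.2.trans hb))
    (convex_Icc a b) (left_mem_Icc.2 hab) (right_mem_Icc.2 hab)
  rwa [Real.norm_eq_abs, Real.norm_eq_abs, abs_of_nonneg (sub_nonneg.2 hab)] at this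

theorem fl_moll_L1 (n : ℕ) : ∃ C : ℝ, 0 < C ∧ ∀ (h g : E n → ℝ) (ε M om : ℝ), FlBdd h ε 1 →
    FlBdd g M (1 / 2) → 0 ≤ M → 0 ≤ om → FlAH h om →
      |∫ z, (h z - flCv (flR n (1 / 8)) h z) * g z| ≤ C * om * M := by
  obtain ⟨C, hC, H⟩ := fl_moll_diff n
  refine ⟨C, hC, fun h g ε M om hh hg hM hom hAH => ?_⟩
  have hhi := hh.integrable
  have hgi := hg.integrable
  obtain ⟨p1, p2, p3, p4, p5, p6, p7⟩ := fl_R_props n (s := 1 / 8) (by norm_num)
  have hRc := flk_compact p5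
  have ht := fl_cv_tendsto (n := n) hhi hgi hh.le hg.le
  have hlim : Tendsto (fun a => |(∫ z, h z * flCv (flR n (1 / 8)) g z)
      - ∫ z, h z * flCv (flR n a) g z|) (𝓝[>] 0)
      (𝓝 |(∫ z, h z * flCv (flR n (1 / 8)) g z) - ∫ z, h z * g z|) :=
    (tendsto_const_nhds.sub ht).abs
  have hle : |(∫ z, h z * flCv (flR n (1 / 8)) g z) - ∫ z, h z * g z| ≤ C * om * M := by
    refine le_of_tendsto hlim ?_
    filter_upwards [Ioo_mem_nhdsGT (show (0 : ℝ) < 1 / 8 by norm_num)] with a ha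
    refine (H h g ε M om a (1 / 8) hh hg hM hom hAH ha.1 ha.2.le le_rfl).trans ?_
    have h0 : 0 ≤ C * om * M := by positivity
    nlinarith [ha.1]
  have e1 : ∫ x, |flR n (1 / 8) x| = 1 := by
    simp only [abs_of_nonneg (p2 _)]; exact p7
  have ihg : Integrable fun z => h z * g z :=
    hgi.bdd_mul hhi.aestronglyMeasurable (hh.le.mono fun z hz => by rwa [Real.norm_eq_abs])
  have iGg : Integrable fun z => flCv (flR n (1 / 8)) h z * g z :=
    hgi.bdd_mul (c := ε * 1)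
      (fl_cv_contDiff p1 hRc hhi.locallyIntegrable).continuous.aestronglyMeasurable
      (Eventually.of_forall fun z => by
        have := fl_cv_abs_le p1.continuous hRc hh.le z
        rwa [e1] at this)
  have e2 : ∫ z, (h z - flCv (flR n (1 / 8)) h z) * g z
      = (∫ z, h z * g z) - ∫ z, h z * flCv (flR n (1 / 8)) g z := by
    rw [flk_cv_symm p1.continuous hRc p3 hhi hgi, ← integral_sub ihg iGg]
    congr 1; funext z; ring
  rw [e2, abs_sub_comm]
  exact hle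

theorem flm_norm_gradient (F : E n → ℝ) (x : E n) : ‖gradient F x‖ = ‖fderiv ℝ F x‖ := by
  unfold gradient
  rw [LinearIsometryEquiv.norm_map]

theorem flm_inner_gradient (F : E n → ℝ) (x v : E n) : ⟪gradient F x, v⟫ = fderiv ℝ F x v := by
  unfold gradient
  rw [InnerProductSpace.toDual_symm_apply]

/-- second order Taylor estimate. -/
theorem flm_taylor {G : E n → ℝ} (hG : ContDiff ℝ ∞ G) {B : ℝ}
    (hB : ∀ x, ‖fderiv ℝ (fderiv ℝ G) x‖ ≤ B) (z : E n) :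
    |G z - G 0 - fderiv ℝ G 0 z| ≤ B * ‖z‖ ^ 2 := by
  have hG1 : ContDiff ℝ ∞ (fderiv ℝ G) := hG.fderiv_right (m := ∞) (by simp)
  have hd : Differentiable ℝ G := hG.differentiable (by simp)
  have hd1 : Differentiable ℝ (fderiv ℝ G) := hG1.differentiable (by simp)
  have h1 : ∀ x, ‖fderiv ℝ G x - fderiv ℝ G 0‖ ≤ B * ‖x‖ := fun x => by
    have := Convex.norm_image_sub_le_of_norm_fderiv_le (f := fderiv ℝ G) (s := univ) (C := B)
      (x := 0) (y := x) (fun y _ => hd1 y) (fun y _ => hB y) convex_univ (mem_univ _) (mem_univ _)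
    rwa [sub_zero] at this
  have hB0 : 0 ≤ B := (norm_nonneg (fderiv ℝ (fderiv ℝ G) 0)).trans (hB 0)
  have h2 := Convex.norm_image_sub_le_of_norm_hasFDerivWithin_le
    (f := fun x => G x - fderiv ℝ G 0 x) (f' := fun x => fderiv ℝ G x - fderiv ℝ G 0)
    (s := closedBall (0 : E n) ‖z‖) (C := B * ‖z‖) (x := 0) (y := z)
    (fun x _ => ((hd x).hasFDerivAt.sub (fderiv ℝ G 0).hasFDerivAt).hasFDerivWithinAt)
    (fun x hx => (h1 x).trans (mul_le_mul_of_nonneg_left (by simpa using hx) hB0))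
    (convex_closedBall _ _) (by simp) (by simp)
  rw [Real.norm_eq_abs, sub_zero, map_zero, sub_zero] at h2
  calc |G z - G 0 - fderiv ℝ G 0 z| = |G z - fderiv ℝ G 0 z - G 0| := by congr 1; ring
    _ ≤ B * ‖z‖ * ‖z‖ := h2
    _ = B * ‖z‖ ^ 2 := by ring

/-- bounds for `G = R_{1/8} * h`. -/
theorem fl_moll_G (n : ℕ) : ∃ C : ℝ, 0 < C ∧ ∀ (h : E n → ℝ) (ε : ℝ), FlBdd h ε 1 → 0 ≤ ε →
    ContDiff ℝ ∞ (flCv (flR n (1 / 8)) h) ∧ (∀ z, |flCv (flR n (1 / 8)) h z| ≤ ε) ∧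
    ‖gradient (flCv (flR n (1 / 8)) h) 0‖ ≤ C * ε ∧
    ∀ z, |flCv (flR n (1 / 8)) h z - flCv (flR n (1 / 8)) h 0 -
      ⟪gradient (flCv (flR n (1 / 8)) h) 0, z⟫| ≤ C * ε * ‖z‖ ^ 2 := by
  obtain ⟨p1, p2, p3, p4, p5, p6, p7⟩ := fl_R_props n (s := 1 / 8) (by norm_num)
  have hRc := flk_compact p5
  have e1 : ∫ x, |flR n (1 / 8) x| = 1 := by
    simp only [abs_of_nonneg (p2 _)]; exact p7
  set C1 := ∫ x, ‖fderiv ℝ (flR n (1 / 8)) x‖ with hC1
  set C2 := ∫ x, ‖fderiv ℝ (fderiv ℝ (flR n (1 / 8))) x‖ with hC2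
  have hC10 : 0 ≤ C1 := integral_nonneg fun x => norm_nonneg (fderiv ℝ (flR n (1 / 8)) x)
  have hC20 : 0 ≤ C2 :=
    integral_nonneg fun x => norm_nonneg (fderiv ℝ (fderiv ℝ (flR n (1 / 8))) x)
  refine ⟨C1 + C2 + 1, by positivity, fun h ε hh hε => ?_⟩
  have hl := hh.integrable.locallyIntegrable
  have hG := fl_cv_contDiff p1 hRc hl
  refine ⟨hG, fun z => ?_, ?_, fun z => ?_⟩
  · have := fl_cv_abs_le p1.continuous hRc hh.le z
    rwa [e1, mul_one] at this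
  · rw [flm_norm_gradient]
    refine (fl_cv_fderiv_le p1 hRc hl hh.le 0).trans ?_
    rw [mul_comm]
    exact mul_le_mul_of_nonneg_right (by linarith) hε
  · rw [flm_inner_gradient]
    refine (flm_taylor hG (B := ε * C2) (fun x => fl_cv_fderiv2_le p1 hRc hl hh.le x) z).trans ?_
    refine mul_le_mul_of_nonneg_right ?_ (by positivity)
    rw [mul_comm]
    exact mul_le_mul_of_nonneg_right (by linarith) hε

theorem flm_lap_off {ψ : E n → ℝ} {z : E n} (hz : z ∉ tsupport ψ) : flLap ψ z = 0 := by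
  unfold flLap
  refine fl_div_off fun h => hz ?_
  refine closure_minimal (fun x hx => ?_) (isClosed_tsupport ψ) h
  by_contra hc
  apply hx
  unfold gradient
  rw [fderiv_of_notMem_tsupport ℝ hc, map_zero]

theorem flm_AH_indicator {h : E n → ℝ} {om : ℝ} (hAH : FlAH h om) :
    FlAH ((ball (0 : E n) 1).indicator h) om := by
  intro ψ hψ hs M h1 h2
  have := hAH ψ hψ hs M h1 h2
  have e : ∀ z, (ball (0 : E n) 1).indicator h z * flLap ψ z = h z * flLap ψ z := fun z => by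
    by_cases hz : z ∈ ball (0 : E n) 1
    · rw [indicator_of_mem hz]
    · rw [flm_lap_off fun hc => hz (ball_subset_ball (by norm_num) (hs hc))]
      simp
  simp only [e]
  exact this

theorem flm_vol_ball (n : ℕ) {ρ : ℝ} (hρ : 0 < ρ) :
    (volume (ball (0 : E n) ρ)).toReal = ρ ^ n * gmtOm n := by
  rw [Measure.addHaar_ball_of_pos _ _ hρ, finrank_euclideanSpace_fin, ENNReal.toReal_mul,
    ENNReal.toReal_ofReal (by positivity)]
  rfl

theorem flm_sq_le (x y B : ℝ) (hy : |y| ≤ B) : (x + y) ^ 2 ≤ 2 * x ^ 2 + 2 * B ^ 2 := by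
  have h1 : y ^ 2 ≤ B ^ 2 := sq_le_sq' (by linarith [(abs_le.1 hy).1]) (abs_le.1 hy).2
  nlinarith [sq_nonneg (x - y)]

/-- **F5.** -/
theorem fl_moll (n : ℕ) : ∃ C : ℝ, 0 < C ∧ ∀ (h : E n → ℝ) (ε om : ℝ), Measurable h → 0 ≤ ε → 0 ≤ om →
    (∀ᵐ z, ‖z‖ < 1 → |h z| ≤ ε) → FlAH h om →
      ∃ (a : ℝ) (p : E n), |a| ≤ ε ∧ ‖p‖ ≤ C * ε ∧ ∀ ρ : ℝ, 0 < ρ → ρ ≤ 1 / 2 →
        ∫ z in ball 0 ρ, (h z - a - ⟪p, z⟫) ^ 2 ≤ C * (ε * om + ε ^ 2 * ρ ^ (n + 4)) := by
  obtain ⟨C1, hC1, H1⟩ := fl_moll_L1 n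
  obtain ⟨CG, hCG, HG⟩ := fl_moll_G n
  have hom0 : 0 ≤ gmtOm n := ENNReal.toReal_nonneg
  refine ⟨4 * C1 + 2 * CG ^ 2 * gmtOm n + CG + 1, by positivity,
    fun h ε om hm hε hom hle hAH => ?_⟩
  set h1 : E n → ℝ := (ball (0 : E n) 1).indicator h with hh1
  have hb : FlBdd h1 ε 1 := by
    refine ⟨hm.indicator measurableSet_ball, ?_, fun w hw => ?_⟩
    · filter_upwards [hle] with z hz
      by_cases hz1 : z ∈ ball (0 : E n) 1
      · rw [hh1, indicator_of_mem hz1]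
        exact hz (by simpa using hz1)
      · rw [hh1, indicator_of_notMem hz1, abs_zero]
        exact hε
    · exact indicator_of_notMem (by simpa using hw) _
  have hAH1 : FlAH h1 om := flm_AH_indicator hAH
  obtain ⟨g1, g2, g3, g4⟩ := HG h1 ε hb hε
  set G := flCv (flR n (1 / 8)) h1 with hG
  refine ⟨G 0, gradient G 0, g2 0, g3.trans (mul_le_mul_of_nonneg_right (by nlinarith) hε),
    fun ρ hρ hρ2 => ?_⟩
  set g : E n → ℝ := (ball (0 : E n) ρ).indicator (fun z => h1 z - G z) with hg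
  have hdm : Measurable fun z => h1 z - G z := hb.meas.sub g1.continuous.measurable
  have hd2 : ∀ᵐ z, |h1 z - G z| ≤ 2 * ε := by
    filter_upwards [hb.le] with z hz
    have := abs_sub (h1 z) (G z)
    linarith [g2 z]
  have hgb : FlBdd g (2 * ε) (1 / 2) := by
    refine ⟨hdm.indicator measurableSet_ball, ?_, fun w hw => ?_⟩
    · filter_upwards [hd2] with z hz
      by_cases hz1 : z ∈ ball (0 : E n) ρ
      · rw [hg, indicator_of_mem hz1]; exact hz
      · rw [hg, indicator_of_notMem hz1, abs_zero]; positivity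
    · exact indicator_of_notMem (by simp; linarith) _
  have k1 := H1 h1 g ε (2 * ε) om hb hgb (by positivity) hom hAH1
  have e1 : ∫ z, (h1 z - G z) * g z = ∫ z in ball (0 : E n) ρ, (h1 z - G z) ^ 2 := by
    rw [← integral_indicator measurableSet_ball]
    congr 1
    funext z
    by_cases hz1 : z ∈ ball (0 : E n) ρ
    · rw [hg, indicator_of_mem hz1, indicator_of_mem hz1]; ring
    · rw [hg, indicator_of_notMem hz1, indicator_of_notMem hz1, mul_zero]
  rw [e1] at k1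
  have k2 := (le_abs_self _).trans k1
  have hfin : volume (ball (0 : E n) ρ) ≠ ⊤ := measure_ball_lt_top.ne
  have i1 : IntegrableOn (fun z => (h1 z - G z) ^ 2) (ball (0 : E n) ρ) :=
    Measure.integrableOn_of_bounded (M := (2 * ε) ^ 2) hfin (hdm.pow_const 2).aestronglyMeasurable
      (ae_restrict_of_ae (hd2.mono fun z hz => by
        rw [Real.norm_eq_abs, abs_pow]
        exact pow_le_pow_left₀ (abs_nonneg _) hz 2))
  have i2 : IntegrableOn (fun z => 2 * (h1 z - G z) ^ 2 + 2 * (CG * ε * ρ ^ 2) ^ 2)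
      (ball (0 : E n) ρ) := (i1.const_mul 2).add (integrableOn_const hfin)
  have k3 : ∫ z in ball (0 : E n) ρ, (h z - G 0 - ⟪gradient G 0, z⟫) ^ 2
      ≤ ∫ z in ball (0 : E n) ρ, (2 * (h1 z - G z) ^ 2 + 2 * (CG * ε * ρ ^ 2) ^ 2) := by
    refine integral_mono_of_nonneg (Eventually.of_forall fun z => sq_nonneg _) i2 ?_
    refine (ae_restrict_iff' measurableSet_ball).2 (Eventually.of_forall fun z hz => ?_)
    have hz' : ‖z‖ < ρ := by simpa using hz
    have hz1 : z ∈ ball (0 : E n) 1 := ball_subset_ball (by linarith) hz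
    have e2 : h z = h1 z := by rw [hh1, indicator_of_mem hz1]
    have e3 : h z - G 0 - ⟪gradient G 0, z⟫
        = (h1 z - G z) + (G z - G 0 - ⟪gradient G 0, z⟫) := by rw [e2]; ring
    show (h z - G 0 - ⟪gradient G 0, z⟫) ^ 2 ≤ _
    rw [e3]
    refine flm_sq_le _ _ _ ((g4 z).trans ?_)
    exact mul_le_mul_of_nonneg_left (pow_le_pow_left₀ (norm_nonneg _) hz'.le 2) (by positivity)
  refine k3.trans ?_
  rw [integral_add (i1.const_mul 2) (integrableOn_const hfin), integral_const_mul,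
    setIntegral_const, smul_eq_mul, measureReal_def, flm_vol_ball n hρ]
  have t1 : 0 ≤ ε * om := by positivity
  have t2 : 0 ≤ ε ^ 2 * ρ ^ (n + 4) := by positivity
  have t3 : ρ ^ n * gmtOm n * (2 * (CG * ε * ρ ^ 2) ^ 2)
      = 2 * CG ^ 2 * gmtOm n * (ε ^ 2 * ρ ^ (n + 4)) := by ring
  rw [t3]
  have t4 : 0 ≤ 2 * CG ^ 2 * gmtOm n := by positivity
  nlinarith

end Claimed.Agent.Gmt
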