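import Claimed.Agent.Lib.Gmt.QmCompactB

/-!
# Lib/Gmt [QmCompact = part 3/3 of the former QmCompact] G3b: compactness and closure of quasi-minimisers; convergence of boundaries and of perimeters.
(architect: helper75)                              Maggi Ch. 21 (Thm 21.14), on exhausting domains `U i → U'`.

`GmtExh U U'`: every compact subset of the open set `U'` is eventually contained in `U i`.

PLAN OF PROOFS
* `gmtQM_bddPer`, `gmtQM_compact`: `GmtQM.per_ball_le` + finite covers + `gmtP_compactness` (drop finitely many indices on each compact set; diagonal over an exhaustion of `U'`).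
* `gmtQM_limsup_le` (key).  Let `K ⊆ U'` compact, `O ⊇ K` open, `O ⋐ U'`; take `f` smooth, `f = 0` on `K`, `f = 1` off a compact subset of `O`.  Pass to a subsequence realising the `limsup`.
  `gmtPer_glue_seq` (with `S₁ i = S'`, `S₂ i = S i`, levels in `(0,1)`) gives a further subsequence and a level `t` with interface costs `κ_i → 0`.  For `t < t' < 1` apply the quasi-minimality of `S i` in `W = {f < t'}` to the competitor `gmtGlue f t S' (S i)`: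
  `μ_i(W) ≤ (1+δ_i)[μ'({f<t}) + μ_i(W ∩ {t<f}) + κ_i] + Λ_i |(S i △ S') ∩ {f<t}|`; subtract `μ_i(W ∩ {t<f})` (finite), let `t' ↓ t`: `μ_i({f ≤ t}) ≤ (1+δ_i)(μ'(O) + κ_i) + o(1)`.
  Finally `μ'(O) ↓ μ'(K)` (outer regularity).
* `gmtQM_closure`: same gluing with a competitor `S''` of `S'` inside; see the computation in helper75's notes reproduced here:
  `μ'({f<t}) ≤ liminf μ_i({f<t}) ≤ (1+δ) P(S'';{f<t}) + Λ|S'△S''|`, and `P(S';W) = μ'({f<t}) + μ'(W ∩ {t<f})` for a level `t` not charged by `μ'` (`gmtPer_level_null`),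
  `P(S'';W) ≥ P(S'';{f<t}) + P(S''; W ∩ {t<f})`, `S'' = S'` on `{t<f}`.
* `gmtQM_bd_lim`: uniform volume density estimates `gmtQM_volume` pass to the limit (`GmtConv.tendsto_volume`).
* `gmt_bd_approx`: no minimality: if `ball x r` misses `gmtBd (S i)` for infinitely many `i`, then `S i ∩ ball x r` is null or full (constancy), hence so is the limit.
-/

set_option autoImplicit false
open scoped ContDiff ENNReal RealInnerProductSpace Topology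
open MeasureTheory Metric Set Filter

namespace Claimed.Agent.Gmt

variable {m : ℕ}

/-- blow-ups / limits of the centred class with vanishing constants are exact minimisers. -/
theorem gmtAM_limit_min {κ Λ R : ℕ → ℝ} {x₀ : E m} {S : ℕ → Set (E m)}
    (hS : ∀ i, GmtAM (κ i) (Λ i) x₀ (R i) (S i)) (hκ0 : ∀ i, 0 ≤ κ i) (hΛ0 : ∀ i, 0 ≤ Λ i)
    {R' : ℝ} (hR : ∀ i, R' ≤ R i) (hκ : Tendsto κ atTop (𝓝 0)) (hΛ : Tendsto Λ atTop (𝓝 0))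
    {S' : Set (E m)} (hS' : MeasurableSet S') (hc : GmtConv (ball x₀ R') S S') :
    GmtMin (ball x₀ R') S' ∧ GmtWk (ball x₀ R') (fun i => gmtMu (S i)) (gmtMu S') := by
  have hQ : ∀ i, GmtQM (κ i * |R'|) (Λ i) (ball x₀ R') (S i) := fun i =>
    ((hS i).toQM (hR i)).mono (mul_le_mul_of_nonneg_left (le_abs_self R') (hκ0 i)) le_rfl
      subset_rfl
  have hE : GmtExh (fun _ : ℕ => ball x₀ R') (ball x₀ R') :=
    ⟨isOpen_ball, fun _ => isOpen_ball, fun K _ hK => Eventually.of_forall fun _ => hK⟩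
  have hδ0 : ∀ i, 0 ≤ κ i * |R'| := fun i => mul_nonneg (hκ0 i) (abs_nonneg _)
  have hδ : Tendsto (fun i => κ i * |R'|) atTop (𝓝 0) := by
    simpa using hκ.mul_const |R'|
  obtain ⟨Λ₀, hΛ₀⟩ := hΛ.bddAbove_range
  exact ⟨gmtMin_iff_QM.2 (gmtQM_closure hE hQ hδ0 hδ hΛ0 hΛ hS' hc),
    gmtQM_wk hE hQ hδ0 hδ (fun i => ⟨hΛ0 i, hΛ₀ ⟨i, rfl⟩⟩) hS' hc⟩

theorem gmtqc_dil_ball (x₀ : E m) {ρ : ℝ} (hρ : 0 < ρ) (r : ℝ) :
    gmtDil x₀ ρ (ball x₀ (ρ * r)) = ball 0 r := by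
  have := gmtDil_ball x₀ 0 hρ r
  rwa [smul_zero, add_zero] at this

theorem gmtqc_testS_dil {U : Set (E m)} {x : E m} {ρ : ℝ} (hρ : 0 < ρ) {T : E m → E m}
    (hT : GmtTestS (gmtDil x ρ U) T) : GmtTestS U (fun z => T (ρ⁻¹ • (z - x))) := by
  have h1 := gmt_test_dil hρ hT.test
  exact ⟨hT.smooth.comp (by fun_prop), h1.cpt, h1.sub⟩

theorem gmtqc_fderiv_dil {T : E m → E m} (hT : Differentiable ℝ T) (x : E m) (ρ : ℝ) (z : E m) :
    fderiv ℝ (fun z => T (ρ⁻¹ • (z - x))) z = ρ⁻¹ • fderiv ℝ T (ρ⁻¹ • (z - x)) := by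
  have h1 : HasFDerivAt (fun z : E m => ρ⁻¹ • (z - x)) (ρ⁻¹ • ContinuousLinearMap.id ℝ (E m)) z :=
    ((hasFDerivAt_id z).sub_const x).const_smul ρ⁻¹
  have h2 := ((hT (ρ⁻¹ • (z - x))).hasFDerivAt.comp z h1).fderiv
  have h3 : fderiv ℝ (fun z => T (ρ⁻¹ • (z - x))) z =
      (fderiv ℝ T (ρ⁻¹ • (z - x))).comp (ρ⁻¹ • ContinuousLinearMap.id ℝ (E m)) := h2
  rw [h3]
  ext v
  simp

/-- scaling of the first variation inequality. -/
theorem gmtqc_fv_dil {κ Λ R : ℝ} {x₀ : E m} {S : Set (E m)} (h : GmtAM κ Λ x₀ R S) {ρ : ℝ}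
    (hρ : 0 < ρ) {r : ℝ} (hr : r ≤ R / ρ) {X : E m → E m} (hX : GmtTestS (ball 0 r) X) :
    |∫ x, (gmtDiv X x - ⟪gmtNu (gmtDil x₀ ρ S) x, fderiv ℝ X x (gmtNu (gmtDil x₀ ρ S) x)⟫)
        ∂(gmtMu (gmtDil x₀ ρ S))| ≤
      ∫ x, (κ * ρ * r * ‖fderiv ℝ X x‖ + (κ * ρ + Λ * ρ) * ‖X x‖) ∂(gmtMu (gmtDil x₀ ρ S)) := by
  have hSm := h.lf.1
  have hr' : ρ * r ≤ R := by
    rw [le_div_iff₀ hρ] at hr
    linarith
  have hX' : GmtTestS (gmtDil x₀ ρ (ball x₀ (ρ * r))) X := by rwa [gmtqc_dil_ball x₀ hρ]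
  have hY := gmtqc_testS_dil hρ hX'
  have hfv := h.fv (ρ * r) hr' _ hY
  have hXd : Differentiable ℝ X := hX.smooth.differentiable (by simp)
  have e : ∀ y : E m, ρ⁻¹ • (x₀ + ρ • y - x₀) = y := fun y => by
    rw [add_sub_cancel_left, smul_smul, inv_mul_cancel₀ hρ.ne', one_smul]
  have c1 := integral_gmtMu_gmtDil hSm x₀ hρ (fun z => gmtDiv (fun z => X (ρ⁻¹ • (z - x₀))) z -
    ⟪gmtNu S z, fderiv ℝ (fun z => X (ρ⁻¹ • (z - x₀))) z (gmtNu S z)⟫)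
  have c2 := integral_gmtMu_gmtDil hSm x₀ hρ (fun z =>
    κ * (ρ * r) * ‖fderiv ℝ (fun z => X (ρ⁻¹ • (z - x₀))) z‖ + (κ + Λ) * ‖X (ρ⁻¹ • (z - x₀))‖)
  set A₁ := ∫ z, (gmtDiv (fun z => X (ρ⁻¹ • (z - x₀))) z -
    ⟪gmtNu S z, fderiv ℝ (fun z => X (ρ⁻¹ • (z - x₀))) z (gmtNu S z)⟫) ∂(gmtMu S) with hA₁
  set A₂ := ∫ z, (κ * (ρ * r) * ‖fderiv ℝ (fun z => X (ρ⁻¹ • (z - x₀))) z‖ +
    (κ + Λ) * ‖X (ρ⁻¹ • (z - x₀))‖) ∂(gmtMu S) with hA₂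
  have i1 : ∫ y, (gmtDiv (fun z => X (ρ⁻¹ • (z - x₀))) (x₀ + ρ • y) -
      ⟪gmtNu S (x₀ + ρ • y), fderiv ℝ (fun z => X (ρ⁻¹ • (z - x₀))) (x₀ + ρ • y)
        (gmtNu S (x₀ + ρ • y))⟫) ∂(gmtMu (gmtDil x₀ ρ S)) =
      ρ⁻¹ * ∫ y, (gmtDiv X y - ⟪gmtNu S (x₀ + ρ • y), fderiv ℝ X y (gmtNu S (x₀ + ρ • y))⟫)
        ∂(gmtMu (gmtDil x₀ ρ S)) := by
    rw [← integral_const_mul]
    refine integral_congr_ae (Eventually.of_forall fun y => ?_)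
    simp only [gmtDiv_dil hXd, gmtqc_fderiv_dil hXd, e, _root_.smul_apply, inner_smul_right]
    ring
  have i2 : ∫ y, (κ * (ρ * r) * ‖fderiv ℝ (fun z => X (ρ⁻¹ • (z - x₀))) (x₀ + ρ • y)‖ +
      (κ + Λ) * ‖X (ρ⁻¹ • (x₀ + ρ • y - x₀))‖) ∂(gmtMu (gmtDil x₀ ρ S)) =
      ρ⁻¹ * ∫ y, (κ * ρ * r * ‖fderiv ℝ X y‖ + (κ * ρ + Λ * ρ) * ‖X y‖)
        ∂(gmtMu (gmtDil x₀ ρ S)) := by
    rw [← integral_const_mul]
    refine integral_congr_ae (Eventually.of_forall fun y => ?_)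
    simp only [gmtqc_fderiv_dil hXd, e, norm_smul, norm_inv, Real.norm_eq_abs, abs_of_pos hρ]
    field_simp
  rw [i1] at c1
  rw [i2] at c2
  -- replace the normal
  have hν := gmtNu_gmtDil isOpen_ball h.lf x₀ hρ
  have hball : gmtDil x₀ ρ (ball x₀ R) = ball 0 (R / ρ) := by
    have := gmtqc_dil_ball x₀ hρ (R / ρ)
    rwa [mul_div_cancel₀ _ hρ.ne'] at this
  rw [hball, Filter.EventuallyEq, ae_restrict_iff' isOpen_ball.measurableSet] at hν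
  have i3 : ∫ x, (gmtDiv X x - ⟪gmtNu (gmtDil x₀ ρ S) x,
      fderiv ℝ X x (gmtNu (gmtDil x₀ ρ S) x)⟫) ∂(gmtMu (gmtDil x₀ ρ S)) =
      ∫ y, (gmtDiv X y - ⟪gmtNu S (x₀ + ρ • y), fderiv ℝ X y (gmtNu S (x₀ + ρ • y))⟫)
        ∂(gmtMu (gmtDil x₀ ρ S)) := by
    refine integral_congr_ae ?_
    filter_upwards [hν] with y hy
    by_cases hyB : y ∈ ball (0 : E m) (R / ρ)
    · rw [hy hyB]
    · have hyt : y ∉ tsupport X := fun hh => hyB (ball_subset_ball hr (hX.sub hh))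
      rw [fderiv_of_notMem_tsupport ℝ hyt]
      simp
  rw [i3]
  set J₁ := ∫ y, (gmtDiv X y - ⟪gmtNu S (x₀ + ρ • y), fderiv ℝ X y (gmtNu S (x₀ + ρ • y))⟫)
        ∂(gmtMu (gmtDil x₀ ρ S)) with hJ₁
  set J₂ := ∫ y, (κ * ρ * r * ‖fderiv ℝ X y‖ + (κ * ρ + Λ * ρ) * ‖X y‖)
        ∂(gmtMu (gmtDil x₀ ρ S)) with hJ₂
  have hc : 0 < ρ⁻¹ * (ρ ^ m * ρ⁻¹) := by positivity
  have a1 : A₁ = ρ⁻¹ * (ρ ^ m * ρ⁻¹) * J₁ := by
    calc A₁ = ρ⁻¹ * (ρ * A₁) := by field_simp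
      _ = ρ⁻¹ * (ρ ^ m * (ρ⁻¹ * J₁)) := by rw [c1]
      _ = _ := by ring
  have a2 : A₂ = ρ⁻¹ * (ρ ^ m * ρ⁻¹) * J₂ := by
    calc A₂ = ρ⁻¹ * (ρ * A₂) := by field_simp
      _ = ρ⁻¹ * (ρ ^ m * (ρ⁻¹ * J₂)) := by rw [c2]
      _ = _ := by ring
  rw [a1, a2, abs_mul, abs_of_pos hc] at hfv
  exact le_of_mul_le_mul_left hfv hc

/-- dilations of the centred class. -/
theorem GmtAM.gmtDil {κ Λ R : ℝ} {x₀ : E m} {S : Set (E m)} (h : GmtAM κ Λ x₀ R S) {ρ : ℝ}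
    (hρ : 0 < ρ) : GmtAM (κ * ρ) (Λ * ρ) 0 (R / ρ) (gmtDil x₀ ρ S) := by
  refine ⟨?_, ?_, fun r hr X hX => gmtqc_fv_dil h hρ hr hX⟩
  · have h1 := h.lf.gmtDil x₀ hρ
    have h2 := gmtqc_dil_ball x₀ hρ (R / ρ)
    rw [mul_div_cancel₀ _ hρ.ne'] at h2
    rwa [h2] at h1
  · intro r hr W S' hW hS' hd
    have hr' : ρ * r ≤ R := by
      rw [le_div_iff₀ hρ] at hr
      linarith
    have hq := (h.toQM hr').gmtDil x₀ hρ
    rw [gmtqc_dil_ball x₀ hρ] at hq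
    have h3 := hq.qm W S' hW hS' hd
    rwa [show κ * (ρ * r) = κ * ρ * r by ring] at h3

/-- blow-up sequences at the centre: compactness, limit = global minimiser. -/
theorem gmtAM_blowup {κ Λ R : ℝ} (hκ : 0 ≤ κ) (hΛ : 0 ≤ Λ) (hR : 0 < R) {x₀ : E m}
    {S : Set (E m)} (h : GmtAM κ Λ x₀ R S) {ρ : ℕ → ℝ} (hρ : ∀ i, 0 < ρ i)
    (hρ0 : Tendsto ρ atTop (𝓝 0)) :
    ∃ (φ : ℕ → ℕ) (S' : Set (E m)), StrictMono φ ∧ MeasurableSet S' ∧ GmtMin univ S' ∧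
      GmtConv univ (fun i => gmtDil x₀ (ρ (φ i)) S) S' ∧
      GmtWk univ (fun i => gmtMu (gmtDil x₀ (ρ (φ i)) S)) (gmtMu S') := by
  set r : ℕ → ℝ := fun i => min (R / ρ i) (R / Real.sqrt (ρ i)) with hr
  have hsq : ∀ i, 0 < Real.sqrt (ρ i) := fun i => Real.sqrt_pos.2 (hρ i)
  have hQ : ∀ i, GmtQM (κ * ρ i * r i) (Λ * ρ i) (ball 0 (r i)) (gmtDil x₀ (ρ i) S) := fun i =>
    (h.gmtDil (hρ i)).toQM (min_le_left _ _)
  have hr0 : ∀ i, 0 < r i := fun i => lt_min (div_pos hR (hρ i)) (div_pos hR (hsq i))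
  have hδ0 : ∀ i, 0 ≤ κ * ρ i * r i := fun i =>
    mul_nonneg (mul_nonneg hκ (hρ i).le) (hr0 i).le
  have hsq0 : Tendsto (fun i => Real.sqrt (ρ i)) atTop (𝓝 0) := by
    have := (Real.continuous_sqrt.tendsto 0).comp hρ0
    simpa [Function.comp_def] using this
  have hδ : Tendsto (fun i => κ * ρ i * r i) atTop (𝓝 0) := by
    have hup : Tendsto (fun i => κ * R * Real.sqrt (ρ i)) atTop (𝓝 0) := by
      simpa using hsq0.const_mul (κ * R)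
    refine tendsto_of_tendsto_of_tendsto_of_le_of_le tendsto_const_nhds hup hδ0 fun i => ?_
    calc κ * ρ i * r i ≤ κ * ρ i * (R / Real.sqrt (ρ i)) :=
          mul_le_mul_of_nonneg_left (min_le_right _ _) (mul_nonneg hκ (hρ i).le)
      _ = κ * R * (ρ i / Real.sqrt (ρ i)) := by ring
      _ = κ * R * Real.sqrt (ρ i) := by rw [Real.div_sqrt]
  have hΛ0 : ∀ i, 0 ≤ Λ * ρ i := fun i => mul_nonneg hΛ (hρ i).le
  have hΛl : Tendsto (fun i => Λ * ρ i) atTop (𝓝 0) := by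
    simpa using hρ0.const_mul Λ
  have hinf1 : Tendsto (fun i => R / ρ i) atTop atTop := by
    have h1 : Tendsto ρ atTop (𝓝[>] 0) :=
      tendsto_nhdsWithin_iff.2 ⟨hρ0, Eventually.of_forall hρ⟩
    simpa only [div_eq_mul_inv, Function.comp_def] using
      (tendsto_inv_nhdsGT_zero.comp h1).const_mul_atTop hR
  have hinf2 : Tendsto (fun i => R / Real.sqrt (ρ i)) atTop atTop := by
    have h1 : Tendsto (fun i => Real.sqrt (ρ i)) atTop (𝓝[>] 0) :=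
      tendsto_nhdsWithin_iff.2 ⟨hsq0, Eventually.of_forall hsq⟩
    simpa only [div_eq_mul_inv, Function.comp_def] using
      (tendsto_inv_nhdsGT_zero.comp h1).const_mul_atTop hR
  have hE : GmtExh (fun i => ball (0 : E m) (r i)) univ := by
    refine ⟨isOpen_univ, fun _ => isOpen_ball, fun K hK _ => ?_⟩
    obtain ⟨M, hM⟩ := hK.isBounded.subset_ball 0
    filter_upwards [hinf1.eventually_ge_atTop M, hinf2.eventually_ge_atTop M] with i h1 h2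
    exact hM.trans (ball_subset_ball (le_min h1 h2))
  obtain ⟨δ₀, hδ₀⟩ := hδ.bddAbove_range
  obtain ⟨Λ₀, hΛ₀⟩ := hΛl.bddAbove_range
  obtain ⟨φ, S', hφ, hS', -, hc⟩ := gmtQM_compact hE hQ (fun i => ⟨hδ0 i, hδ₀ ⟨i, rfl⟩⟩)
    (fun i => ⟨hΛ0 i, hΛ₀ ⟨i, rfl⟩⟩)
  refine ⟨φ, S', hφ, hS', ?_, hc, ?_⟩
  · exact gmtMin_iff_QM.2 (gmtQM_closure (hE.comp hφ) (fun i => hQ (φ i)) (fun i => hδ0 _)
      (hδ.comp hφ.tendsto_atTop) (fun i => hΛ0 _) (hΛl.comp hφ.tendsto_atTop) hS' hc)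
  · exact gmtQM_wk (hE.comp hφ) (fun i => hQ (φ i)) (fun i => hδ0 _)
      (hδ.comp hφ.tendsto_atTop) (fun i => ⟨hΛ0 _, hΛ₀ ⟨_, rfl⟩⟩) hS' hc

end Claimed.Agent.Gmt
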