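import Claimed.Agent.Lib.Gmt.QmFlatC

/-!
# Lib/Gmt [QmFlat = part 4/4 of the former QmFlat] G3c: flat competitors in cylinders; the density estimates for the class `GmtAM`.
(architect: helper75; consumers: G4 = helper190's list (a)-(d), G6)

`gmtCylH x ρ h e = {‖pr_e (y-x)‖ < ρ, |⟪y-x,e⟫| < h}` (`gmtCyl x r e = gmtCylH x r r e`).

PLAN OF PROOFS
* `volume_gmtCylH`, `volume_slab_annulus`: by a linear isometry `L` with `L e = gmtEn n` (`m = n+1`; extend `e` to an orthonormal basis: `exists_orthonormalBasis_extension_of_card_eq`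
  or `Orthonormal.exists_orthonormalBasis_extension`), then `E (n+1) ≃ᵐ E n × ℝ` via `gmtHor`, `gmtVer` is measure preserving
  (`EuclideanSpace.volume_preserving_measurableEquiv` + `MeasureTheory.volume_preserving_piFinSuccAbove`/`Fin.snoc` version), product of a ball and an interval.
* `gmtP_half_cylH`: `gmtMu_gmtHalf_slab` with `g ↑ χ_{cylinder}` / or directly: `≥` with `T = φ(pr y) ψ(t) e`, `≤` by Fubini + FTC in the direction `e`.
* `gmt_slab_cases`: the two sets `{y ∈ C : ±⟪y-x,e⟫ > ε}` are open, convex (hence preconnected) and do not meet `gmtBd S`: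
  `gmtP_eq_zero_of_disjoint` + `gmtP_eq_zero_const`.
* `GmtQM.flat_le`.  `f y = ‖pr_e (y-x)‖` (continuous, `C¹` on `{0 < f}`, `|∇f| ≤ 1`), `H = gmtHalf x e`, `C = gmtCyl x r e`, `H' = (H ∩ C) ∪ (S \ C)`.
  For `ε < r' < r`, `0 < s < s' < r`, `W = gmtCylH x s' r' e`, `S' = gmtGlue f s H' S`:  `S △ S' ⊆ {f ≤ s, |t| ≤ ε}` up to a null set (`GmtQM.qm_ae`).
  `gmtPer_glue_level` (levels in `(0, s')`): for a.e. `s`:  `P(S';W) ≤ P(H; W ∩ {f<s}) + P(S; W ∩ {s<f}) + I'(s)`, where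
  `I(s) = ∫_{D ∩ {0<f<s}} |∇f|`, `D = (H' △ S) ∩ W ⊆ slab` a.e., so `I(s+h) - I(s) ≤ 2ε ω_{m-1} ((s+h)^{m-1} - s^{m-1})` and `I'(s) ≤ 2ε(m-1)ω_{m-1}s^{m-2}`.
  Quasi-minimality; subtract the finite number `μ(W ∩ {s<f})`; let `s' ↓ s` (countably many `s'`, so that the a.e. set of `s` is fixed), `r' ↑ r`, and finally `s ↓ ρ`.
* AM versions: `GmtAM.toQM` with `r = R`: `δ = κR ≤ 1`, `Λ s ≤ ΛR ≤ 1`; open balls `ball y s ⊆ ball x₀ R`: apply the QM estimates to `s' < s` (`closedBall y s' ⊆ ball y s`) and let `s' ↑ s`.  NOTE for the lower bounds: `Λ s ≤ ε₀(m)` is needed: it is a hypothesis.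
-/

set_option autoImplicit false
open scoped ContDiff ENNReal RealInnerProductSpace Topology
open MeasureTheory Metric Set Filter

namespace Claimed.Agent.Gmt

variable {m : ℕ}

/-- a ball contained in a ball has a smaller radius (`m ≥ 1`). -/
theorem gmtqf_radius_le (hm : 1 ≤ m) {y x₀ : E m} {s R : ℝ} (hs : 0 < s) (h : ball y s ⊆ ball x₀ R) :
    s ≤ R := by
  by_contra hcon
  push Not at hcon
  · have hR0 : 0 < R := by
      have : y ∈ ball x₀ R := h (mem_ball_self hs)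
      exact pos_of_mem_ball this
    set e : E m := eb ⟨0, hm⟩ with he
    have hen : ‖e‖ = 1 := by simp [he]
    have h1 : y + R • e ∈ ball x₀ R := h (by
      rw [mem_ball, dist_eq_norm, add_sub_cancel_left, norm_smul, hen, mul_one, Real.norm_eq_abs,
        abs_of_pos hR0]
      exact hcon)
    have h2 : y - R • e ∈ ball x₀ R := h (by
      rw [mem_ball, dist_eq_norm, sub_sub_cancel_left, norm_neg, norm_smul, hen, mul_one,
        Real.norm_eq_abs, abs_of_pos hR0]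
      exact hcon)
    rw [mem_ball, dist_eq_norm] at h1 h2
    have h3 : ‖(2 * R) • e‖ ≤ ‖y + R • e - x₀‖ + ‖y - R • e - x₀‖ := by
      have : (2 * R) • e = (y + R • e - x₀) - (y - R • e - x₀) := by
        rw [two_mul, add_smul]; abel
      rw [this]
      exact norm_sub_le _ _
    rw [norm_smul, hen, mul_one, Real.norm_eq_abs, abs_of_pos (by positivity)] at h3
    linarith

/-- a bound on all smaller open balls passes to the open ball. -/
theorem gmtqf_ball_le_of_lt (μ : Measure (E m)) (y : E m) {s : ℝ} {c : ℝ≥0∞}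
    (h : ∀ s' < s, μ (ball y s') ≤ c) : μ (ball y s) ≤ c := by
  obtain ⟨u, hu, hus, hut⟩ := exists_seq_strictMono_tendsto s
  have h1 : ball y s = ⋃ n, ball y (u n) := by
    ext x
    simp only [mem_iUnion, mem_ball]
    constructor
    · intro hx
      exact ((hut.eventually (lt_mem_nhds hx)).exists)
    · rintro ⟨n, hn⟩
      exact hn.trans (hus n)
  have hmono : Monotone fun n => ball y (u n) := fun a b hab => ball_subset_ball (hu.monotone hab)
  rw [h1, hmono.measure_iUnion]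
  exact iSup_le fun n => h _ (hus n)

theorem gmtqf_om_nonneg (k : ℕ) : 0 ≤ gmtOm k := ENNReal.toReal_nonneg

/-- (a) upper density bound, all centres. -/
theorem GmtAM.mu_ball_le (hm : 1 ≤ m) {κ Λ R : ℝ} {x₀ : E m} {S : Set (E m)} (h : GmtAM κ Λ x₀ R S)
    (hκ : 0 ≤ κ) (hΛ : 0 ≤ Λ) (hR : (κ + Λ) * R ≤ 1) {y : E m} {s : ℝ} (hs : 0 < s)
    (hys : ball y s ⊆ ball x₀ R) :
    gmtMu S (ball y s) ≤ ENNReal.ofReal ((2 * m + 1) * gmtOm m * s ^ (m - 1)) := by
  have hsR : s ≤ R := gmtqf_radius_le hm hs hys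
  have hR0 : 0 < R := hs.trans_le hsR
  have hQ := h.toQM (le_refl R)
  have hκR : κ * R ≤ 1 := by nlinarith
  have hΛR : Λ * R ≤ 1 := by nlinarith
  have hom := gmtqf_om_nonneg m
  apply gmtqf_ball_le_of_lt
  intro s' hs'
  by_cases hs0 : 0 < s'
  · have hsub : closedBall y s' ⊆ ball x₀ R := (closedBall_subset_ball hs').trans hys
    have h1 := GmtQM.per_ball_le (mul_nonneg hκ hR0.le) hΛ isOpen_ball hQ hs0 hsub
    rw [gmtMu_open S isOpen_ball]
    refine h1.trans (ENNReal.ofReal_le_ofReal ?_)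
    have hpow : s' ^ m = s' * s' ^ (m - 1) := by
      obtain ⟨k, rfl⟩ : ∃ k, m = k + 1 := ⟨m - 1, by omega⟩
      rw [Nat.add_sub_cancel, pow_succ, mul_comm]
    have hp1 : s' ^ (m - 1) ≤ s ^ (m - 1) := pow_le_pow_left₀ hs0.le hs'.le _
    have hp0 : 0 ≤ s' ^ (m - 1) := by positivity
    have hΛs : Λ * s' ≤ 1 := le_trans (mul_le_mul_of_nonneg_left (hs'.le.trans hsR) hΛ) hΛR
    have hm0 : (0 : ℝ) ≤ m := Nat.cast_nonneg m
    have e1 : (1 + κ * R) * m * gmtOm m * s' ^ (m - 1) ≤ 2 * m * gmtOm m * s' ^ (m - 1) := by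
      have : (1 + κ * R) * (m * gmtOm m * s' ^ (m - 1)) ≤ 2 * (m * gmtOm m * s' ^ (m - 1)) :=
        mul_le_mul_of_nonneg_right (by linarith) (by positivity)
      nlinarith
    have e2 : Λ * gmtOm m * s' ^ m ≤ gmtOm m * s' ^ (m - 1) := by
      rw [hpow]
      have : (Λ * s') * (gmtOm m * s' ^ (m - 1)) ≤ 1 * (gmtOm m * s' ^ (m - 1)) :=
        mul_le_mul_of_nonneg_right hΛs (by positivity)
      nlinarith
    have e3 : (2 * m + 1) * gmtOm m * s' ^ (m - 1) ≤ (2 * m + 1) * gmtOm m * s ^ (m - 1) :=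
      mul_le_mul_of_nonneg_left hp1 (by positivity)
    nlinarith
  · rw [ball_eq_empty.2 (not_lt.1 hs0), measure_empty]
    exact zero_le

theorem GmtAM.mu_closedBall_le' (hm : 1 ≤ m) {κ Λ R : ℝ} {x₀ : E m} {S : Set (E m)} (h : GmtAM κ Λ x₀ R S)
    (hκ : 0 ≤ κ) (hΛ : 0 ≤ Λ) (hR : (κ + Λ) * R ≤ 1) {y : E m} {s : ℝ} (hs : 0 < s)
    (hys : closedBall y s ⊆ ball x₀ R) :
    gmtMu S (closedBall y s) ≤ ENNReal.ofReal ((2 * m + 1) * gmtOm m * s ^ (m - 1)) := by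
  obtain ⟨δ, hδ, hsub⟩ := (isCompact_closedBall y s).exists_cthickening_subset_open isOpen_ball hys
  rw [cthickening_closedBall hδ.le hs.le] at hsub
  have hcont : Tendsto (fun t : ℝ => ENNReal.ofReal ((2 * m + 1) * gmtOm m * t ^ (m - 1))) (𝓝[>] s)
      (𝓝 (ENNReal.ofReal ((2 * m + 1) * gmtOm m * s ^ (m - 1)))) := by
    apply Tendsto.mono_left _ nhdsWithin_le_nhds
    apply (ENNReal.continuous_ofReal.comp (by fun_prop)).tendsto
  refine ge_of_tendsto hcont ?_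
  have hev : ∀ᶠ t in 𝓝[>] s, t ∈ Ioo s (δ + s) := Ioo_mem_nhdsGT (by linarith)
  filter_upwards [hev] with t ht
  have h1 : ball y t ⊆ ball x₀ R := (ball_subset_closedBall.trans (closedBall_subset_closedBall ht.2.le)).trans hsub
  exact (measure_mono (closedBall_subset_ball ht.1)).trans
    (h.mu_ball_le hm hκ hΛ hR (hs.trans ht.1) h1)

/-- (b) lower density bounds at boundary points. -/
theorem gmtAM_lower (m : ℕ) (hm : 1 ≤ m) :
    ∃ c > 0, ∃ ε₀ > 0, ∀ (κ Λ R : ℝ) (x₀ : E m) (S : Set (E m)) (y : E m) (s : ℝ), 0 ≤ κ → 0 ≤ Λ →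
      κ * R ≤ 1 → GmtAM κ Λ x₀ R S → y ∈ gmtBd S → 0 < s → ball y s ⊆ ball x₀ R →
      Λ * s ≤ ε₀ →
        ENNReal.ofReal (c * s ^ (m - 1)) ≤ gmtMu S (ball y s) ∧
        ENNReal.ofReal (c * s ^ m) ≤ volume (S ∩ ball y s) ∧
        ENNReal.ofReal (c * s ^ m) ≤ volume (ball y s \ S) := by
  obtain ⟨c₁, hc₁, ε₁, hε₁, H₁⟩ := gmtQM_volume m hm 1
  obtain ⟨c₂, hc₂, ε₂, hε₂, H₂⟩ := gmtQM_per_lower m hm 1
  refine ⟨min (c₁ / 2 ^ m) (c₂ / 2 ^ (m - 1)), lt_min (by positivity) (by positivity), min ε₁ ε₂,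
    lt_min hε₁ hε₂, ?_⟩
  intro κ Λ R x₀ S y s hκ hΛ hκR h hy hs hys hΛs
  have hsR : s ≤ R := gmtqf_radius_le hm hs hys
  have hR0 : 0 < R := hs.trans_le hsR
  have hQ := h.toQM (le_refl R)
  have hs2 : 0 < s / 2 := by positivity
  have hsub : closedBall y (s / 2) ⊆ ball x₀ R := (closedBall_subset_ball (by linarith)).trans hys
  have hΛ2 : Λ * (s / 2) ≤ min ε₁ ε₂ := le_trans (mul_le_mul_of_nonneg_left (by linarith) hΛ) hΛs
  have hb : ball y (s / 2) ⊆ ball y s := ball_subset_ball (by linarith)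
  obtain ⟨v1, v2⟩ := H₁ (κ * R) Λ (ball x₀ R) S y (s / 2) (mul_nonneg hκ hR0.le) hκR hΛ isOpen_ball hQ hy
    hs2 hsub (hΛ2.trans (min_le_left _ _))
  have p1 := H₂ (κ * R) Λ (ball x₀ R) S y (s / 2) (mul_nonneg hκ hR0.le) hκR hΛ isOpen_ball hQ hy
    hs2 hsub (hΛ2.trans (min_le_right _ _))
  have e1 : min (c₁ / 2 ^ m) (c₂ / 2 ^ (m - 1)) * s ^ m ≤ c₁ * (s / 2) ^ m := by
    rw [div_pow]
    calc _ ≤ c₁ / 2 ^ m * s ^ m := mul_le_mul_of_nonneg_right (min_le_left _ _) (by positivity)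
      _ = _ := by ring
  have e2 : min (c₁ / 2 ^ m) (c₂ / 2 ^ (m - 1)) * s ^ (m - 1) ≤ c₂ * (s / 2) ^ (m - 1) := by
    rw [div_pow]
    calc _ ≤ c₂ / 2 ^ (m - 1) * s ^ (m - 1) :=
          mul_le_mul_of_nonneg_right (min_le_right _ _) (by positivity)
      _ = _ := by ring
  refine ⟨?_, ?_, ?_⟩
  · refine (ENNReal.ofReal_le_ofReal e2).trans (p1.trans ?_)
    rw [← gmtMu_open S isOpen_ball]
    exact measure_mono hb
  · exact (ENNReal.ofReal_le_ofReal e1).trans (v1.trans (measure_mono (inter_subset_inter_right _ hb)))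
  · exact (ENNReal.ofReal_le_ofReal e1).trans (v2.trans (measure_mono (sdiff_subset_sdiff_left hb)))

/-- (c) flat competitor for `GmtAM`. -/
theorem GmtAM.flat_le (hm : 2 ≤ m) {κ Λ R : ℝ} {x₀ : E m} {S : Set (E m)}
    (h : GmtAM κ Λ x₀ R S) (hκ : 0 ≤ κ) (hΛ : 0 ≤ Λ) {x e : E m} (he : ‖e‖ = 1) {r h₀ ε R' : ℝ}
    (hR' : R' ≤ R) (hε : 0 ≤ ε) (hεh : ε < h₀) (hC : closure (gmtCylH x r h₀ e) ⊆ ball x₀ R')
    (hlow : volume ({y | y ∈ gmtCylH x r h₀ e ∧ ⟪y - x, e⟫ < -ε} \ S) = 0)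
    (hup : volume (S ∩ {y | y ∈ gmtCylH x r h₀ e ∧ ε < ⟪y - x, e⟫}) = 0) {ρ : ℝ} (hρ0 : 0 < ρ)
    (hρ : ρ < r) :
    gmtMu S (gmtCylH x ρ h₀ e) ≤
      ENNReal.ofReal ((1 + κ * R') * (gmtOm (m - 1) * ρ ^ (m - 1)
          + 2 * ε * (m - 1) * gmtOm (m - 1) * ρ ^ (m - 2))
        + Λ * (2 * ε * gmtOm (m - 1) * ρ ^ (m - 1))) := by
  have hx : x ∈ gmtCylH x r h₀ e := by
    simp only [gmtCylH, mem_ofPred_eq, sub_self, inner_zero_left, abs_zero, gmtPr, zero_smul,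
      norm_zero]
    exact ⟨hρ0.trans hρ, lt_of_le_of_lt hε hεh⟩
  have hR0 : 0 < R' := pos_of_mem_ball (hC (subset_closure hx))
  exact GmtQM.flat_le hm (mul_nonneg hκ hR0.le) hΛ isOpen_ball (h.toQM hR') he hε hεh hC hlow hup hρ0 hρ

theorem gmtqf_cc_empty {W : Set (E m)} (h : GmtCC W ∅) : W = ∅ :=
  subset_empty_iff.1 (subset_closure.trans h.2.2)

theorem gmtqf_cc_mono {W U U' : Set (E m)} (h : GmtCC W U) (hU : U ⊆ U') : GmtCC W U' :=
  ⟨h.1, h.2.1, h.2.2.trans hU⟩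

/-- continuous compactly supported functions are integrable if the support has finite measure. -/
theorem gmtqf_integrable_of_cpt {μ : Measure (E m)} {f : E m → ℝ} (hf : Continuous f)
    (hc : HasCompactSupport f) (hμ : μ (tsupport f) ≠ ⊤) : Integrable f μ := by
  obtain ⟨M, hM⟩ := hc.exists_bound_of_continuous hf
  have h1 : IntegrableOn f (tsupport f) μ :=
    Measure.integrableOn_of_bounded (M := M) hμ hf.aestronglyMeasurable
      (Filter.Eventually.of_forall hM)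
  exact (integrableOn_iff_integrable_of_support_subset (subset_tsupport f)).1 h1

theorem GmtAM.mono {κ Λ R κ' Λ' R' : ℝ} {x₀ : E m} {S : Set (E m)} (h : GmtAM κ Λ x₀ R S)
    (hκ0 : 0 ≤ κ) (hκ : κ ≤ κ') (hΛ : Λ ≤ Λ') (hR : R' ≤ R) : GmtAM κ' Λ' x₀ R' S := by
  refine ⟨⟨h.lf.1, fun W hW => h.lf.2 W (gmtqf_cc_mono hW (ball_subset_ball hR))⟩, ?_, ?_⟩
  · intro r hr W S' hW hS' hCD
    by_cases hr0 : 0 ≤ r
    · refine (h.am r (hr.trans hR) W S' hW hS' hCD).trans ?_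
      gcongr
    · rw [ball_eq_empty.2 (not_le.1 hr0).le] at hW
      rw [gmtqf_cc_empty hW, ← gmtMu_open S isOpen_empty, measure_empty]
      exact zero_le
  · intro r hr X hX
    refine (h.fv r (hr.trans hR) X hX).trans ?_
    have hXc : Continuous X := hX.smooth.continuous
    have hdXc : Continuous (fderiv ℝ X) := hX.smooth.continuous_fderiv (by simp)
    have hK : gmtMu S (tsupport X) ≠ ⊤ :=
      gmtMu_compact_ne_top isOpen_ball h.lf hX.cpt (hX.sub.trans (ball_subset_ball (hr.trans hR)))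
    have i1 : Integrable (fun x => ‖X x‖) (gmtMu S) := by
      apply gmtqf_integrable_of_cpt hXc.norm hX.cpt.norm
      refine ne_top_of_le_ne_top hK (measure_mono ?_)
      exact closure_mono (fun x hx => by
        simp only [Function.mem_support, ne_eq, norm_eq_zero] at hx ⊢; exact hx)
    have i2 : Integrable (fun x => ‖fderiv ℝ X x‖) (gmtMu S) := by
      apply gmtqf_integrable_of_cpt hdXc.norm (hX.cpt.fderiv (𝕜 := ℝ)).norm
      refine ne_top_of_le_ne_top hK (measure_mono ?_)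
      refine (closure_mono (fun x hx => ?_)).trans (tsupport_fderiv_subset ℝ)
      simp only [Function.mem_support, ne_eq, norm_eq_zero] at hx ⊢; exact hx
    by_cases hr0 : 0 ≤ r
    · apply integral_mono ((i2.const_mul _).add (i1.const_mul _)) ((i2.const_mul _).add (i1.const_mul _))
      intro x
      have a1 : κ * r * ‖fderiv ℝ X x‖ ≤ κ' * r * ‖fderiv ℝ X x‖ := by gcongr
      have a2 : (κ + Λ) * ‖X x‖ ≤ (κ' + Λ') * ‖X x‖ := by gcongr
      exact add_le_add a1 a2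
    · have hX0 : X = 0 := by
        have := hX.sub
        rw [ball_eq_empty.2 (not_le.1 hr0).le, subset_empty_iff, tsupport_eq_empty_iff] at this
        exact this
      subst hX0
      simp

theorem GmtAM.volume_gmtBd (hm : 1 ≤ m) {κ Λ R : ℝ} {x₀ : E m} {S : Set (E m)}
    (h : GmtAM κ Λ x₀ R S) (hκ : 0 ≤ κ) (hΛ : 0 ≤ Λ) (hR : κ * R ≤ 1) :
    volume (gmtBd S ∩ ball x₀ R) = 0 := by
  by_cases hR0 : 0 ≤ R
  · exact GmtQM.volume_gmtBd hm (mul_nonneg hκ hR0) hΛ isOpen_ball (h.toQM (le_refl R))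
  · rw [ball_eq_empty.2 (not_le.1 hR0).le, inter_empty, measure_empty]

end Claimed.Agent.Gmt
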