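import Claimed.Agent.Lib.Gmt.FlStep
import Claimed.Agent.Lib.Gmt.FlGeo
import Claimed.Agent.Lib.Gmt.QmFlat
import Claimed.Agent.Lib.Gmt.QmCompact

/-!
# Lib/Gmt G4.8 (architect: helper190): from the class `GmtAM` to the unit scale hypotheses; the step at all scales.
PACKAGES L-GMT-FlScaleA (`fl_gg_of_lf`, `fl_cyl_eq`, `fl_fv_AM`, `fl_exc_AM`, `fl_unit_of_AM`), L-GMT-FlScaleB (`fl_tilt`, `fl_step_unit_AM`, `fl_step_AM`).   GLUE only.   ALL PROVED (helper190).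
Input: helper75's API (`gmt_gauss_green`, `norm_gmtNu_le_one`, `measurable_gmtNu`, `norm_gmtNu_ae`, `gmtMu_compact_ne_top`; `QmFlat.lean`: `GmtAM.mu_ball_le`, `gmtAM_lower`, `GmtAM.flat_le`, `GmtAM.mono`; `GmtAM.gmtDil`),
helper184's `gmtBlow` API (`FrB`, `FrD`), `FlGeo`, `fl_unit_step`.

PLAN.
* `fl_gg_of_lf`: field by field from the API.
* `fl_cyl_eq`: `gmtPr (gmtEn n) y = flInc n (gmtHor y)`, `⟪y, gmtEn n⟫ = gmtVer y` (`FlCoord`).
* `fl_exc_AM`: `GmtAM.flat_le` with `x = 0`, `e = gmtEn n`, `R' = R = 4`, `r = 3/2`, `h₀ = 1`, `ρ = 1` (`closure (gmtCylH 0 (3/2) 1 e) ⊆ closedBall 0 2 ⊆ ball 0 4`); `hlow`, `hup` from `FlFlat S 0 4 (ε/4) e` (`ε/4 * 4 = ε`);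
  `(1+4κ)(ω_n + 2εnω_n) + Λ 2εω_n ≤ ω_n + C(ε + κ + Λ)` for `ε, κ, Λ ≤ 1`.
* `fl_fv_AM`: `GmtAM.fv` with `r = R = 4`, `4κ‖DX‖ + (κ+Λ)‖X‖ ≤ (4κ+Λ)(‖DX‖ + ‖X‖)`; monotonicity of the integral (continuous compactly supported integrands, `gmtMu_compact_ne_top`).
* `fl_unit_of_AM`: `C₀ = (2(n+1)+1) ω_{n+1}` (`GmtAM.mu_ball_le`, needs `(κ+Λ) 4 ≤ 1`), `c₀` from `gmtAM_lower` (needs `4κ ≤ 1`, `Λ s ≤ 4Λ ≤ ε₀`): choose `C ≥ 4, 4/ε₀, C_exc`.
* `fl_tilt`: `q = gmtEn n - flInc n p`, `e' = q/‖q‖`, `‖q‖² = 1 + ‖p‖²`, `⟪y,q⟫ = t - ⟪p,z⟫`, `|⟪y,e'⟫| ≤ |⟪y,q⟫|`, `‖e' - e‖ ≤ 2‖p‖`.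
* `fl_step_unit_AM`: `ε = 4η`; `fl_unit_of_AM`, `fl_unit_step` (`κ' = 4κ+Λ ≤ 4 c₁' η² `), `fl_tilt`, `fl_flat_of_bd` (`r = 4`, flatness `η`, `r' = 4τ²`, new flatness `τη`: `τη · 4τ² = ε τ³`; needs `16 η < 4 τ²`; `‖e-e'‖ ≤ 2 C₁ ε ≤ 1`).
* `fl_step_AM`: `L` = rotation with `L e = gmtEn n` (`fl_exists_rot`), `S̃ = gmtBlow L 0 (r/4) S = gmtDil 0 (r/4) (gmtBlow L 0 1 S)` (`gmtDil_gmtBlow`); `h L : GmtAM κ Λ 0 R (gmtBlow L 0 1 S)`, `GmtAM.gmtDil`, `GmtAM.mono` (radius `4 ≤ R/(r/4)`);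
  `FlFlat.blow_isometry`, `gmtBd_gmtBlow` (`0 ∈ gmtBd S̃`), `fl_step_unit_AM`, `FlFlat.of_blow_isometry`; `‖L.symm e' - e‖ = ‖e' - L e‖`.
-/

set_option autoImplicit false
open scoped ContDiff ENNReal RealInnerProductSpace
open MeasureTheory Metric Set

namespace Claimed.Agent.Gmt

variable {m n : ℕ}

theorem fl_gg_of_lf {U S : Set (E m)} (hU : IsOpen U) (hS : GmtLF S U) :
    FlGG U S (gmtMu S) (gmtNu S) :=
  ⟨hS.1, fun _ hK hKU => gmtMu_compact_ne_top hU hS hK hKU, measurable_gmtNu S,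
    norm_gmtNu_le_one S, norm_gmtNu_ae hU hS, fun _ hT => gmt_gauss_green hU hS hT⟩

theorem fl_pr_en (y : E (n + 1)) : gmtPr (gmtEn n) y = flInc n (gmtHor y) := by
  have h1 : y = flInc n (gmtHor y) + gmtVer y • gmtEn n := by
    rw [← fl_join_eq, fl_join_hor_ver]
  rw [gmtPr, ← fl_ver_eq_inner]
  nth_rewrite 1 [h1]
  abel

theorem fl_cyl_eq (ρ h : ℝ) :
    gmtCylH (0 : E (n + 1)) ρ h (gmtEn n) = {y | ‖gmtHor y‖ < ρ ∧ |gmtVer y| < h} := by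
  ext y
  simp only [gmtCylH, sub_zero, mem_ofPred_eq, fl_pr_en, fl_norm_inc, ← fl_ver_eq_inner]

theorem fl_om_pos (k : ℕ) : 0 < gmtOm k := by
  rw [gmtOm]
  exact ENNReal.toReal_pos (measure_ball_pos _ _ one_pos).ne' measure_ball_lt_top.ne

/-- continuous compactly supported functions are integrable if the support has finite measure. -/
theorem fl_integrable_of_cpt {μ : Measure (E m)} {f : E m → ℝ} (hf : Continuous f)
    (hc : HasCompactSupport f) (hμ : μ (tsupport f) ≠ ⊤) : Integrable f μ := by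
  obtain ⟨M, hM⟩ := hc.exists_bound_of_continuous hf
  have h1 : IntegrableOn f (tsupport f) μ :=
    Measure.integrableOn_of_bounded (M := M) hμ hf.aestronglyMeasurable
      (Filter.Eventually.of_forall hM)
  exact (integrableOn_iff_integrable_of_support_subset (subset_tsupport f)).1 h1

theorem fl_fv_AM {κ Λ : ℝ} {S : Set (E m)} (hκ : 0 ≤ κ) (hΛ : 0 ≤ Λ) (h : GmtAM κ Λ 0 4 S) :
    FlFV (4 * κ + Λ) (ball 0 4) (gmtMu S) (gmtNu S) := by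
  intro X hX
  have h1 := h.fv 4 le_rfl X hX
  refine h1.trans ?_
  rw [← integral_const_mul]
  have hXc : Continuous X := hX.smooth.continuous
  have hDc : Continuous (fderiv ℝ X) := hX.smooth.continuous_fderiv (by simp)
  have hfin : gmtMu S (tsupport X) ≠ ⊤ := gmtMu_compact_ne_top isOpen_ball h.lf hX.cpt hX.sub
  have hsX : HasCompactSupport fun x => ‖X x‖ := hX.cpt.norm
  have hsD : HasCompactSupport fun x => ‖fderiv ℝ X x‖ := (hX.cpt.fderiv (𝕜 := ℝ)).norm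
  have hiX : Integrable (fun x => ‖X x‖) (gmtMu S) := by
    refine fl_integrable_of_cpt hXc.norm hsX (ne_top_of_le_ne_top hfin (measure_mono ?_))
    exact closure_mono (fun x hx => by
      simp only [Function.mem_support, ne_eq, norm_eq_zero] at hx ⊢; exact hx)
  have hiD : Integrable (fun x => ‖fderiv ℝ X x‖) (gmtMu S) := by
    refine fl_integrable_of_cpt hDc.norm hsD (ne_top_of_le_ne_top hfin (measure_mono ?_))
    refine (closure_mono (fun x hx => ?_)).trans (tsupport_fderiv_subset ℝ)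
    simp only [Function.mem_support, ne_eq, norm_eq_zero] at hx ⊢; exact hx
  refine integral_mono ((hiD.const_mul _).add (hiX.const_mul _)) ((hiD.add hiX).const_mul _) ?_
  intro x
  have a1 := norm_nonneg (fderiv ℝ X x)
  have a2 := norm_nonneg (X x)
  show κ * 4 * ‖fderiv ℝ X x‖ + (κ + Λ) * ‖X x‖ ≤ (4 * κ + Λ) * (‖fderiv ℝ X x‖ + ‖X x‖)
  nlinarith [mul_nonneg hκ a2, mul_nonneg hΛ a1]

/-- **flat competitor**: the mass in the unit cylinder is almost that of the disc. -/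
theorem fl_exc_AM (n : ℕ) (hn : 1 ≤ n) : ∃ C : ℝ, 0 < C ∧
    ∀ (κ Λ ε : ℝ) (S : Set (E (n + 1))), 0 ≤ κ → 0 ≤ Λ → κ ≤ 1 → Λ ≤ 1 → 0 < ε → ε ≤ 1 / 4 →
      GmtAM κ Λ 0 4 S → FlFlat S 0 4 (ε / 4) (gmtEn n) →
        gmtMu S (flCyl 1) ≤ ENNReal.ofReal (gmtOm n + C * (ε + κ + Λ)) := by
  have hω := fl_om_pos n
  refine ⟨(10 * n + 6) * gmtOm n, by positivity, ?_⟩
  intro κ Λ ε S hκ hΛ hκ1 hΛ1 hε hε4 h hfl
  have he : ‖gmtEn n‖ = 1 := hfl.unit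
  have hsub : gmtCylH (0 : E (n + 1)) (3 / 2) 1 (gmtEn n) ⊆ ball 0 4 := by
    rw [fl_cyl_eq]
    intro y hy
    have h1 := fl_norm_sq y
    have h2 : gmtVer y ^ 2 < 1 := by
      have := hy.2; rw [← sq_abs]; nlinarith [abs_nonneg (gmtVer y)]
    have h3 : ‖gmtHor y‖ ^ 2 < 9 / 4 := by nlinarith [hy.1, norm_nonneg (gmtHor y)]
    simp only [mem_ball, dist_zero_right]
    nlinarith [norm_nonneg y]
  have hC : closure (gmtCylH (0 : E (n + 1)) (3 / 2) 1 (gmtEn n)) ⊆ ball 0 4 := by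
    refine (closure_gmtCylH_subset _ _ _ _).trans ?_
    intro y hy
    simp only [sub_zero, mem_ofPred_eq, fl_pr_en, fl_norm_inc, ← fl_ver_eq_inner] at hy
    have h1 := fl_norm_sq y
    have h2 : gmtVer y ^ 2 ≤ 1 := by
      have := hy.2; rw [← sq_abs]; nlinarith [abs_nonneg (gmtVer y)]
    have h3 : ‖gmtHor y‖ ^ 2 ≤ 9 / 4 := by nlinarith [hy.1, norm_nonneg (gmtHor y)]
    simp only [mem_ball, dist_zero_right]
    nlinarith [norm_nonneg y]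
  have hε' : ε / 4 * 4 = ε := by ring
  have hlow : volume ({y | y ∈ gmtCylH (0 : E (n + 1)) (3 / 2) 1 (gmtEn n) ∧
      ⟪y - 0, gmtEn n⟫ < -ε} \ S) = 0 := by
    have := hfl.below
    rw [hε'] at this
    rw [← nonpos_iff_eq_zero]
    refine le_trans (measure_mono ?_) (ae_iff.1 this).le
    intro y hy
    simp only [mem_ofPred_eq, Classical.not_imp]
    exact ⟨hsub hy.1.1, hy.1.2, hy.2⟩
  have hup : volume (S ∩ {y | y ∈ gmtCylH (0 : E (n + 1)) (3 / 2) 1 (gmtEn n) ∧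
      ε < ⟪y - 0, gmtEn n⟫}) = 0 := by
    have := hfl.above
    rw [hε'] at this
    rw [← nonpos_iff_eq_zero]
    refine le_trans (measure_mono ?_) (ae_iff.1 this).le
    intro y hy
    simp only [mem_ofPred_eq, Classical.not_imp, not_not]
    exact ⟨hsub hy.2.1, hy.2.2, hy.1⟩
  have key := GmtAM.flat_le (m := n + 1) (by omega) h hκ hΛ (x := 0) he (r := 3 / 2) (h₀ := 1)
    (ε := ε) (R' := 4) le_rfl hε.le (by linarith) hC hlow hup (ρ := 1) one_pos (by norm_num)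
  have hcyl : (flCyl 1 : Set (E (n + 1))) = gmtCylH (0 : E (n + 1)) 1 1 (gmtEn n) := by
    rw [fl_cyl_eq]; rfl
  rw [hcyl]
  refine key.trans (ENNReal.ofReal_le_ofReal ?_)
  simp only [one_pow, mul_one, Nat.add_sub_cancel, Nat.cast_add, Nat.cast_one, add_sub_cancel_right]
  have hn0 : (0 : ℝ) ≤ n := Nat.cast_nonneg n
  have a1 : 0 ≤ gmtOm n * ε := by positivity
  have a2 : 0 ≤ gmtOm n * κ := by positivity
  have a3 : 0 ≤ gmtOm n * Λ := by positivity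
  have a4 : gmtOm n * κ * ε ≤ gmtOm n * κ * 1 := mul_le_mul_of_nonneg_left (by linarith) a2
  have a5 : gmtOm n * Λ * ε ≤ gmtOm n * Λ * 1 := mul_le_mul_of_nonneg_left (by linarith) a3
  have a6 := mul_le_mul_of_nonneg_left a4 hn0
  have a7 := mul_nonneg hn0 a1
  have a8 := mul_nonneg hn0 a2
  have a9 := mul_nonneg hn0 a3
  nlinarith


/-- a ball contained in `ball 0 R` has radius at most `R`. -/
theorem fl_radius_le {y : E (n + 1)} {s R : ℝ} (hs : 0 < s)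
    (h : ball y s ⊆ ball (0 : E (n + 1)) R) : s ≤ R := by
  by_contra hcon
  rw [not_le] at hcon
  have he : ‖gmtEn n‖ = 1 := by simp
  have hR : 0 < R := by
    have := h (mem_ball_self hs)
    simp only [mem_ball, dist_zero_right] at this
    exact lt_of_le_of_lt (norm_nonneg _) this
  have h1 : y + R • gmtEn n ∈ ball y s := by
    simp only [mem_ball, dist_eq_norm, add_sub_cancel_left, norm_smul, he, mul_one,
      Real.norm_eq_abs, abs_of_pos hR]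
    exact hcon
  have h2 : y - R • gmtEn n ∈ ball y s := by
    simp only [mem_ball, dist_eq_norm, sub_sub_cancel_left, norm_neg, norm_smul, he, mul_one,
      Real.norm_eq_abs, abs_of_pos hR]
    exact hcon
  have h3 := h h1
  have h4 := h h2
  simp only [mem_ball, dist_zero_right] at h3 h4
  have h5 : ‖(2 * R) • gmtEn n‖ ≤ ‖y + R • gmtEn n‖ + ‖y - R • gmtEn n‖ := by
    have : (2 * R) • gmtEn n = (y + R • gmtEn n) - (y - R • gmtEn n) := by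
      rw [two_mul, add_smul]; abel
    rw [this]; exact norm_sub_le _ _
  rw [norm_smul, he, mul_one, Real.norm_eq_abs, abs_of_pos (by positivity)] at h5
  linarith

/-- **the unit scale hypotheses hold in the class `GmtAM`.** -/
theorem fl_unit_of_AM (n : ℕ) (hn : 1 ≤ n) : ∃ c₀ C₀ C : ℝ, 0 < c₀ ∧ 0 < C₀ ∧ 1 ≤ C ∧
    ∀ (κ Λ ε : ℝ) (S : Set (E (n + 1))), 0 ≤ κ → 0 ≤ Λ → 0 < ε → C * (ε + κ + Λ) ≤ 1 →
      GmtAM κ Λ 0 4 S → FlFlat S 0 4 (ε / 4) (gmtEn n) →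
        FlUnit n ε (4 * κ + Λ) (C * (ε + κ + Λ)) c₀ C₀ S (gmtMu S) (gmtNu S) := by
  obtain ⟨c, hc, ε₀, hε₀, hlow⟩ := gmtAM_lower (n + 1) (by omega)
  obtain ⟨Ce, hCe, hexc⟩ := fl_exc_AM n hn
  have hω := fl_om_pos (n + 1)
  obtain ⟨C, hC4, hCε, hCe'⟩ : ∃ C : ℝ, 4 ≤ C ∧ 4 / ε₀ ≤ C ∧ Ce ≤ C :=
    ⟨max (max 4 (4 / ε₀)) Ce, (le_max_left _ _).trans (le_max_left _ _),
      (le_max_right _ _).trans (le_max_left _ _), le_max_right _ _⟩
  refine ⟨c, (2 * ((n + 1 : ℕ) : ℝ) + 1) * gmtOm (n + 1), C, hc, by positivity, by linarith, ?_⟩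
  intro κ Λ ε S hκ hΛ hε hC1 h hfl
  have hC0 : 0 < C := by linarith
  have hsum : 4 * (ε + κ + Λ) ≤ 1 :=
    (mul_le_mul_of_nonneg_right hC4 (by positivity)).trans hC1
  have hΛε : Λ * 4 ≤ ε₀ := by
    have h1 : C * Λ ≤ 1 := by nlinarith
    have h2 : 4 / ε₀ * Λ ≤ 1 := (mul_le_mul_of_nonneg_right hCε hΛ).trans h1
    have h3 : 4 / ε₀ * Λ = Λ * 4 / ε₀ := by ring
    rw [h3, div_le_one hε₀] at h2
    exact h2
  refine ⟨hε, by linarith, by positivity, by linarith, by positivity, hC1, hc, by positivity,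
    fl_gg_of_lf isOpen_ball h.lf, fl_fv_AM hκ hΛ h, ⟨?_, ?_⟩, hfl, ?_⟩
  · intro y s hs hys
    exact GmtAM.mu_ball_le (by omega) h hκ hΛ (by linarith) hs hys
  · intro y hy s hs hys
    have hs4 : s ≤ 4 := fl_radius_le hs hys
    exact (hlow κ Λ 4 0 S y s hκ hΛ (by linarith) h hy hs hys
      ((mul_le_mul_of_nonneg_left hs4 hΛ).trans hΛε)).1
  · refine (hexc κ Λ ε S hκ hΛ (by linarith) (by linarith) hε (by linarith) h hfl).trans
      (ENNReal.ofReal_le_ofReal ?_)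
    have := mul_le_mul_of_nonneg_right hCe' (by positivity : 0 ≤ ε + κ + Λ)
    linarith

/-- the tilted direction. -/
theorem fl_tilt (p : E n) : ∃ e' : E (n + 1), ‖e'‖ = 1 ∧ ‖e' - gmtEn n‖ ≤ 2 * ‖p‖ ∧
    ∀ y : E (n + 1), |⟪y, e'⟫| ≤ |gmtVer y - ⟪p, gmtHor y⟫| := by
  set q : E (n + 1) := gmtEn n - flInc n p with hq
  have he : ‖gmtEn n‖ = 1 := by simp
  have hq1 : 1 ≤ ‖q‖ := by
    have h1 : ⟪q, gmtEn n⟫ = 1 := by
      rw [← fl_ver_eq_inner, hq]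
      have : gmtVer (gmtEn n - flInc n p) = gmtVer (gmtEn n) - gmtVer (flInc n p) := by
        simp [gmtVer]
      rw [this, fl_ver_en, fl_inc_apply, fl_ver_join]; ring
    have h2 := real_inner_le_norm q (gmtEn n)
    rw [h1, he, mul_one] at h2
    exact h2
  have hq2 : ‖q‖ ≤ 1 + ‖p‖ := fl_aff_norm p
  have hq0 : 0 < ‖q‖ := by linarith
  refine ⟨‖q‖⁻¹ • q, ?_, ?_, ?_⟩
  · rw [norm_smul, norm_inv, norm_norm, inv_mul_cancel₀ hq0.ne']
  · have h1 : ‖q‖⁻¹ • q - gmtEn n = (‖q‖⁻¹ - 1) • q + (q - gmtEn n) := by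
      rw [sub_smul, one_smul]; abel
    have h2 : ‖(‖q‖⁻¹ - 1) • q‖ = ‖q‖ - 1 := by
      rw [norm_smul, Real.norm_eq_abs]
      have : ‖q‖⁻¹ - 1 ≤ 0 := by
        have := inv_le_one_of_one_le₀ hq1; linarith
      rw [abs_of_nonpos this]
      field_simp
      ring
    have h3 : ‖q - gmtEn n‖ = ‖p‖ := by
      rw [hq, sub_sub_cancel_left, norm_neg, fl_norm_inc]
    rw [h1]
    refine (norm_add_le _ _).trans ?_
    rw [h2, h3]; linarith
  · intro y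
    have h1 : gmtVer y - ⟪p, gmtHor y⟫ = ⟪q, y⟫ := by
      have := fl_aff_eq 0 p y
      simpa using this
    rw [h1, real_inner_smul_right, real_inner_comm, abs_mul, abs_inv, abs_norm]
    have := inv_le_one_of_one_le₀ hq1
    calc ‖q‖⁻¹ * |⟪q, y⟫| ≤ 1 * |⟪q, y⟫| := mul_le_mul_of_nonneg_right this (abs_nonneg _)
      _ = _ := one_mul _


/-- the step at unit scale in the class `GmtAM`. -/
theorem fl_step_unit_AM (n : ℕ) (hn : 1 ≤ n) : ∃ τ η₀ c₁ C₁ : ℝ, 0 < τ ∧ τ ≤ 1 / 8 ∧ 0 < η₀ ∧ 0 < c₁ ∧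
    0 < C₁ ∧ ∀ (κ Λ η : ℝ) (S : Set (E (n + 1))), 0 ≤ κ → 0 ≤ Λ → 0 < η → η ≤ η₀ →
      κ + Λ ≤ c₁ * η ^ 2 → GmtAM κ Λ 0 4 S → (0 : E (n + 1)) ∈ gmtBd S →
      FlFlat S 0 4 η (gmtEn n) →
        ∃ e' : E (n + 1), ‖e' - gmtEn n‖ ≤ C₁ * η ∧ FlFlat S 0 (4 * τ ^ 2) (τ * η) e' := by
  obtain ⟨c₀, C₀, C, hc₀, hC₀, hC, hunit⟩ := fl_unit_of_AM n hn
  obtain ⟨τ, ε₀, c₁, δ₀, C₁, hτ, hτ8, hε₀, hc₁, hδ₀, hC₁, hstep⟩ := fl_unit_step n hn c₀ C₀ hc₀ hC₀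
  have hC0 : 0 < C := by linarith
  obtain ⟨c₁', hc₁'0, hc₁'1, hc₁'4⟩ : ∃ c : ℝ, 0 < c ∧ c ≤ 1 ∧ c ≤ 4 * c₁ :=
    ⟨min 1 (4 * c₁), lt_min one_pos (by positivity), min_le_left _ _, min_le_right _ _⟩
  obtain ⟨η₀, hη₀, h1, h2, h3, h4, h5, h6⟩ : ∃ η₀ : ℝ, 0 < η₀ ∧ η₀ ≤ 1 ∧ η₀ ≤ 1 / (5 * C) ∧
      η₀ ≤ δ₀ / (5 * C) ∧ η₀ ≤ ε₀ / 4 ∧ η₀ ≤ 1 / (8 * C₁) ∧ η₀ ≤ τ ^ 2 / 8 := by
    refine ⟨min 1 (min (1 / (5 * C)) (min (δ₀ / (5 * C)) (min (ε₀ / 4) (min (1 / (8 * C₁))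
      (τ ^ 2 / 8))))), ?_, min_le_left _ _, (min_le_right _ _).trans (min_le_left _ _),
      (min_le_right _ _).trans ((min_le_right _ _).trans (min_le_left _ _)),
      (min_le_right _ _).trans ((min_le_right _ _).trans ((min_le_right _ _).trans
        (min_le_left _ _))),
      (min_le_right _ _).trans ((min_le_right _ _).trans ((min_le_right _ _).trans
        ((min_le_right _ _).trans (min_le_left _ _)))),
      (min_le_right _ _).trans ((min_le_right _ _).trans ((min_le_right _ _).trans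
        ((min_le_right _ _).trans (min_le_right _ _))))⟩
    refine lt_min one_pos (lt_min (by positivity) (lt_min (by positivity) (lt_min (by positivity)
      (lt_min (by positivity) (by positivity)))))
  refine ⟨τ, η₀, c₁', 8 * C₁, hτ, hτ8, hη₀, hc₁'0, by positivity, ?_⟩
  intro κ Λ η S hκ hΛ hη hηη₀ hκΛ hAM h0 hfl
  have hη1 : η ≤ 1 := hηη₀.trans h1
  have hη2 : η ^ 2 ≤ η := by nlinarith
  have hκΛ' : κ + Λ ≤ η := by nlinarith [sq_nonneg η]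
  have hsum : C * (4 * η + κ + Λ) ≤ 5 * C * η := by nlinarith
  have hle1 : C * (4 * η + κ + Λ) ≤ 1 := by
    refine hsum.trans ?_
    have := mul_le_mul_of_nonneg_left (hηη₀.trans h2) (by positivity : 0 ≤ 5 * C)
    rwa [mul_one_div_cancel (by positivity)] at this
  have hleδ : C * (4 * η + κ + Λ) ≤ δ₀ := by
    refine hsum.trans ?_
    have := mul_le_mul_of_nonneg_left (hηη₀.trans h3) (by positivity : 0 ≤ 5 * C)
    rwa [mul_div_cancel₀ _ (by positivity)] at this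
  have hfl' : FlFlat S 0 4 (4 * η / 4) (gmtEn n) := by
    rw [mul_div_cancel_left₀ _ (by norm_num)]; exact hfl
  have H := hunit κ Λ (4 * η) S hκ hΛ (by positivity) hle1 hAM hfl'
  have hκ' : 4 * κ + Λ ≤ c₁ * (4 * η) ^ 2 := by
    have : c₁' * η ^ 2 ≤ 4 * c₁ * η ^ 2 := mul_le_mul_of_nonneg_right hc₁'4 (sq_nonneg η)
    nlinarith
  obtain ⟨p, hp, hbd⟩ := hstep (4 * η) _ _ S _ _ H (by linarith) hκ' hleδ h0
  obtain ⟨e', he', hee, hin⟩ := fl_tilt p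
  have hee' : ‖e' - gmtEn n‖ ≤ 8 * C₁ * η := by linarith
  refine ⟨e', hee', ?_⟩
  have hτ2 : τ ^ 2 ≤ 1 / 64 := by nlinarith
  refine fl_flat_of_bd hfl he' (by positivity) (by linarith) (by positivity) (by nlinarith) ?_ ?_ ?_
  · rw [norm_sub_rev]
    refine hee'.trans ?_
    have := mul_le_mul_of_nonneg_left (hηη₀.trans h5) (by positivity : 0 ≤ 8 * C₁)
    rwa [mul_one_div_cancel (by positivity)] at this
  · have : η ≤ τ ^ 2 / 8 := hηη₀.trans h6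
    have : 0 < τ ^ 2 := by positivity
    linarith
  · intro y hy hyr
    rw [sub_zero]
    refine (hin y).trans ((hbd y hy hyr).trans (le_of_eq ?_))
    ring

/-- **the rotation invariant centred class**: every rotated copy of `S` belongs to `AM(κ,Λ;0,R)`.
(Frames are only determined up to rotations, `GmtFrame.isometry`; so `gmt_lam_am` gives this class.) -/
def FlAMR (κ Λ R : ℝ) (S : Set (E m)) : Prop :=
  ∀ O : E m ≃ₗᵢ[ℝ] E m, GmtAM κ Λ 0 R (gmtBlow O.toContinuousLinearEquiv 0 1 S)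

/-- **improvement of flatness, all scales, all directions.** -/
theorem fl_step_AM (n : ℕ) (hn : 1 ≤ n) : ∃ τ η₀ c₁ C₁ : ℝ, 0 < τ ∧ τ ≤ 1 / 8 ∧ 0 < η₀ ∧ 0 < c₁ ∧
    0 < C₁ ∧ ∀ (κ Λ R r η : ℝ) (e : E (n + 1)) (S : Set (E (n + 1))), 0 ≤ κ → 0 ≤ Λ →
      FlAMR κ Λ R S → (0 : E (n + 1)) ∈ gmtBd S → 0 < r → r ≤ R → 0 < η → η ≤ η₀ →
      (κ + Λ) * r ≤ c₁ * η ^ 2 → FlFlat S 0 r η e →
        ∃ e' : E (n + 1), ‖e' - e‖ ≤ C₁ * η ∧ FlFlat S 0 (τ ^ 2 * r) (τ * η) e' := by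
  obtain ⟨τ, η₀, c₁, C₁, hτ, hτ8, hη₀, hc₁, hC₁, hstep⟩ := fl_step_unit_AM n hn
  refine ⟨τ, η₀, c₁, C₁, hτ, hτ8, hη₀, hc₁, hC₁, ?_⟩
  intro κ Λ R r η e S hκ hΛ hAM h0 hr hrR hη hηη₀ hκΛ hfl
  obtain ⟨L, hL⟩ := fl_exists_rot hfl.unit
  have hr4 : 0 < r / 4 := by positivity
  have h1 : GmtAM (κ * (r / 4)) (Λ * (r / 4)) 0 4
      (gmtBlow L.toContinuousLinearEquiv 0 (r / 4) S) := by
    have h2 := (hAM L).gmtDil hr4
    rw [gmtDil_gmtBlow, one_mul] at h2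
    refine h2.mono (by positivity) le_rfl le_rfl ?_
    rw [le_div_iff₀ hr4]; linarith
  have h3 : (0 : E (n + 1)) ∈ gmtBd (gmtBlow L.toContinuousLinearEquiv 0 (r / 4) S) := by
    rw [gmtBd_gmtBlow _ _ hr4]
    show gmtAff L.toContinuousLinearEquiv 0 (r / 4) 0 ∈ gmtBd S
    simpa [gmtAff] using h0
  have h4 : FlFlat (gmtBlow L.toContinuousLinearEquiv 0 (r / 4) S) 0 4 η (gmtEn n) := by
    have := hfl.blow_isometry L hr4
    rw [hL] at this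
    have e1 : r / (r / 4) = 4 := by field_simp
    rwa [e1] at this
  have h5 : κ * (r / 4) + Λ * (r / 4) ≤ c₁ * η ^ 2 := by
    have : 0 ≤ (κ + Λ) * r := by positivity
    linarith
  obtain ⟨e'', hee, hfl''⟩ := hstep _ _ η _ (by positivity) (by positivity) hη hηη₀ h5 h1 h3 h4
  refine ⟨L.symm e'', ?_, ?_⟩
  · have : L.symm e'' - e = L.symm (e'' - gmtEn n) := by
      rw [map_sub, ← hL, L.symm_apply_apply]
    rw [this, L.symm.norm_map]
    exact hee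
  · have := FlFlat.of_blow_isometry L hr4 hfl''
    have e1 : 4 * τ ^ 2 * (r / 4) = τ ^ 2 * r := by ring
    rwa [e1] at this

end Claimed.Agent.Gmt
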