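import Claimed.Agent.Lib.Gmt.FlMoll
import Claimed.Agent.Lib.Gmt.FlHeight
import Claimed.Agent.Lib.Gmt.FlMean

/-!
# Lib/Gmt G4.7 (architect: helper190): improvement of flatness at unit scale (F8).
PACKAGE L-GMT-FlStep (glue of F4-F7; real-number bookkeeping only).   ALL PROVED (helper190).

`fl_L2`: combine `fl_harm` (`om = C₄ (√(δ(ε²+κ)) + κ)`), `fl_moll` for `h = flH S` (`fl_H_measurable`, `fl_H_bound`) and `fl_height`.  With `κ ≤ ε²`: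
 `ε om ≤ C₄ (√2 ε² √δ + ε κ)`;   `∫_{C_ρ} (t - a - p·z)² dμ ≤ C₅ (ε om + ε² (2ρ)^{n+4}) + C₆ ε² √δ + (2 + C₅)² ε² δ ≤ C (ε² ρ^{n+4} + ε² √δ + ε κ)` (`δ ≤ √δ` as `δ ≤ 1`).
`fl_sup`: let `y0 ∈ gmtBd S ∩ ball 0 R`, `R ≤ 1/8`, `L(y) = t - a - p·z = -a + ⟪q,y⟫`, `q = gmtEn n - flInc n p`, `‖q‖ ≤ 1 + ‖p‖ ≤ 2`.  Suppose `|L(y0)| > D`, `0 < D ≤ 2R`; `s = D/4`:
 on `ball y0 s`: `|L| ≥ D - 2s = D/2`; lower density: `c₀ s^n (D/2)² ≤ ∫_{ball y0 s} L² dμ`; `fl_mean` (`U = ball 0 4`, radius `R`; `ball y0 R ⊆ ball 0 (2R) ⊆ flCyl (2R)`):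
 `c₀ D²/4 ≤ C₇ (R^{-n} ∫_{C_{2R}} L² dμ + κ C₀ R²)`.  So `|L(y0)| ≤ D` as soon as `c₀ D²/4 > C₇ (...)`, `D ≤ 2R`, `κ log (4R/D) ≤ 1`.
`fl_unit_step`: `R = 4θ`, `θ = τ²`, `D = ε τ³/2`; `0 ∈ gmtBd S` gives `|a| = |L(0)| ≤ D`, so `|t - p·z| ≤ 2D = ε τ³` on `gmtBd S ∩ ball 0 (4θ)`.  Choice of constants:
 need `c₀ ε² τ⁶/16 > C₇ [ (4θ)^{-n} C (ε² (8θ)^{n+4} + ε² √δ + ε κ) + κ C₀ 16 θ² ]`.   First term: `C₇ C 2^n 8⁴ θ⁴ ε² = K₁ τ⁸ ε²`: choose `τ` with `K₁ τ² < c₀/64`.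
 Then `δ₀`, `c₁` (depending on `τ`) with `C₇ C (4θ)^{-n} √δ₀ < c₀ τ⁶/64`, `C₇ C (4θ)^{-n} c₁ < c₀ τ⁶/64` (`ε κ ≤ c₁ ε³ ≤ c₁ ε²`), `16 C₇ C₀ θ² c₁ < c₀ τ⁶/64`.
 `κ log(4R/D) = κ log (32/(ε τ)) ≤ c₁ ε² (log (32/τ) + 1/ε) ≤ 1` for `c₁` small (`log x ≤ x`).  `κ ≤ κ₀`: `c₁ ≤ κ₀`.  `ε₀`: `C₅ ε₀ ≤ 1`.
-/

set_option autoImplicit false
open scoped ContDiff ENNReal RealInnerProductSpace
open MeasureTheory Metric Set

namespace Claimed.Agent.Gmt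

/-- `L²(μ)` closeness to an affine function. -/
theorem fl_L2 (n : ℕ) : ∃ C : ℝ, 0 < C ∧ ∀ (ε κ δ c₀ C₀ : ℝ) (S : Set (E (n + 1)))
    (μ : Measure (E (n + 1))) (ν : E (n + 1) → E (n + 1)), FlUnit n ε κ δ c₀ C₀ S μ ν → κ ≤ ε ^ 2 →
      ∃ (a : ℝ) (p : E n), |a| ≤ ε ∧ ‖p‖ ≤ C * ε ∧ ∀ ρ : ℝ, 0 < ρ → ρ ≤ 1 / 4 →
        ∫ y in flCyl ρ, (gmtVer y - a - ⟪p, gmtHor y⟫) ^ 2 ∂μ ≤
          C * (ε ^ 2 * ρ ^ (n + 4) + ε ^ 2 * Real.sqrt δ + ε * κ) := by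
  obtain ⟨C₄, hC₄, h4⟩ := fl_harm n
  obtain ⟨C₅, hC₅, h5⟩ := fl_moll n
  obtain ⟨C₆, hC₆, h6⟩ := fl_height n
  have h2n : (0 : ℝ) < 2 ^ (n + 4) := by positivity
  refine ⟨C₅ + 2 * C₅ * C₄ + C₅ * 2 ^ (n + 4) + C₆ + (2 + C₅) ^ 2, by positivity, ?_⟩
  intro ε κ δ c₀ C₀ S μ ν H hκε
  have hε := H.hε
  have hκ := H.hκ
  have hδ := H.hδ
  have hsδ : 0 ≤ Real.sqrt δ := Real.sqrt_nonneg δ
  have hom : 0 ≤ C₄ * (Real.sqrt (δ * (ε ^ 2 + κ)) + κ) :=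
    mul_nonneg hC₄.le (add_nonneg (Real.sqrt_nonneg _) hκ)
  obtain ⟨a, p, ha, hp, hρ⟩ := h5 (flH S) ε _ (fl_H_measurable H.gg.mS) hε.le hom (fl_H_bound H)
    (h4 ε κ δ c₀ C₀ S μ ν H)
  have hCC : C₅ ≤ C₅ + 2 * C₅ * C₄ + C₅ * 2 ^ (n + 4) + C₆ + (2 + C₅) ^ 2 := by
    have : 0 ≤ 2 * C₅ * C₄ + C₅ * 2 ^ (n + 4) + C₆ + (2 + C₅) ^ 2 := by positivity
    linarith
  refine ⟨a, p, ha, hp.trans (mul_le_mul_of_nonneg_right hCC hε.le), ?_⟩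
  intro ρ hρ0 hρ1
  have h7 := h6 ε κ δ c₀ C₀ S μ ν H a p ρ hρ0 hρ1
  have h8 := hρ (2 * ρ) (by linarith) (by linarith)
  -- `√(δ(ε²+κ)) ≤ 2 ε √δ`
  have h9 : Real.sqrt (δ * (ε ^ 2 + κ)) ≤ 2 * ε * Real.sqrt δ := by
    have e1 : δ * (ε ^ 2 + κ) ≤ (2 * ε * Real.sqrt δ) ^ 2 := by
      have : (2 * ε * Real.sqrt δ) ^ 2 = 4 * ε ^ 2 * δ := by
        rw [mul_pow, Real.sq_sqrt hδ]; ring
      rw [this]
      nlinarith [mul_nonneg hδ (sq_nonneg ε)]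
    exact Real.sqrt_le_iff.2 ⟨by positivity, e1⟩
  -- `δ ≤ √δ`
  have h10 : δ ≤ Real.sqrt δ := by
    have e1 : Real.sqrt δ ≤ 1 := Real.sqrt_le_one.2 H.hδ' |>.trans le_rfl
    have e2 : Real.sqrt δ * Real.sqrt δ = δ := Real.mul_self_sqrt hδ
    nlinarith
  have h11 : (ε + |a| + ‖p‖) ^ 2 * δ ≤ (2 + C₅) ^ 2 * (ε ^ 2 * Real.sqrt δ) := by
    have e1 : ε + |a| + ‖p‖ ≤ (2 + C₅) * ε := by linarith
    have e0 : 0 ≤ ε + |a| + ‖p‖ := by positivity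
    have e2 : (ε + |a| + ‖p‖) ^ 2 ≤ ((2 + C₅) * ε) ^ 2 := pow_le_pow_left₀ e0 e1 2
    calc (ε + |a| + ‖p‖) ^ 2 * δ ≤ ((2 + C₅) * ε) ^ 2 * Real.sqrt δ :=
          mul_le_mul e2 h10 hδ (by positivity)
      _ = _ := by ring
  have h12 : ε * (C₄ * (Real.sqrt (δ * (ε ^ 2 + κ)) + κ)) ≤
      C₄ * (2 * (ε ^ 2 * Real.sqrt δ) + ε * κ) := by
    have : ε * Real.sqrt (δ * (ε ^ 2 + κ)) ≤ ε * (2 * ε * Real.sqrt δ) :=
      mul_le_mul_of_nonneg_left h9 hε.le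
    nlinarith
  have h13 : (2 * ρ) ^ (n + 4) = 2 ^ (n + 4) * ρ ^ (n + 4) := mul_pow _ _ _
  rw [h13] at h8
  set X := ε ^ 2 * ρ ^ (n + 4) with hX
  set Y := ε ^ 2 * Real.sqrt δ with hY
  set Z := ε * κ with hZ
  have hX0 : 0 ≤ X := by positivity
  have hY0 : 0 ≤ Y := by positivity
  have hZ0 : 0 ≤ Z := by positivity
  have h14 : C₅ * (ε * (C₄ * (Real.sqrt (δ * (ε ^ 2 + κ)) + κ)) + ε ^ 2 * (2 ^ (n + 4) * ρ ^ (n + 4)))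
      ≤ C₅ * (C₄ * (2 * Y + Z) + 2 ^ (n + 4) * X) := by
    apply mul_le_mul_of_nonneg_left _ hC₅.le
    have : ε ^ 2 * (2 ^ (n + 4) * ρ ^ (n + 4)) = 2 ^ (n + 4) * X := by rw [hX]; ring
    rw [this]; linarith
  have h15 : C₆ * ε ^ 2 * Real.sqrt δ = C₆ * Y := by rw [hY]; ring
  rw [h15] at h7
  have hA : 0 ≤ C₅ * C₄ := by positivity
  have hB : 0 ≤ C₅ * 2 ^ (n + 4) := by positivity
  have hD : 0 ≤ (2 + C₅) ^ 2 := by positivity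
  calc _ ≤ _ := h7
    _ ≤ C₅ * (C₄ * (2 * Y + Z) + 2 ^ (n + 4) * X) + C₆ * Y + (2 + C₅) ^ 2 * Y := by linarith
    _ ≤ _ := by
      have t1 := mul_nonneg hC₅.le hX0
      have t2 := mul_nonneg hC₅.le hY0
      have t3 := mul_nonneg hC₅.le hZ0
      have t4 := mul_nonneg hA hX0
      have t5 := mul_nonneg hA hY0
      have t6 := mul_nonneg hA hZ0
      have t7 := mul_nonneg hB hX0
      have t8 := mul_nonneg hB hY0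
      have t9 := mul_nonneg hB hZ0
      have t10 := mul_nonneg hC₆.le hX0
      have t11 := mul_nonneg hC₆.le hY0
      have t12 := mul_nonneg hC₆.le hZ0
      have t13 := mul_nonneg hD hX0
      have t14 := mul_nonneg hD hY0
      have t15 := mul_nonneg hD hZ0
      nlinarith

/-- `t - a - p·z = -a + ⟪q,y⟫`, `q = e - (p,0)`. -/
theorem fl_aff_eq {n : ℕ} (a : ℝ) (p : E n) (y : E (n + 1)) :
    gmtVer y - a - ⟪p, gmtHor y⟫ = -a + ⟪gmtEn n - flInc n p, y⟫ := by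
  rw [inner_sub_left, real_inner_comm y (gmtEn n), ← fl_ver_eq_inner, fl_inner (flInc n p) y,
    fl_inc_apply, fl_hor_join, fl_ver_join]
  ring

theorem fl_aff_norm {n : ℕ} (p : E n) : ‖gmtEn n - flInc n p‖ ≤ 1 + ‖p‖ := by
  refine (norm_sub_le _ _).trans ?_
  rw [fl_norm_inc]
  simp

/-- from `L²(μ)` to `sup` on the boundary. -/
theorem fl_sup (n : ℕ) (hn : 1 ≤ n) : ∃ C κ₀ : ℝ, 0 < C ∧ 0 < κ₀ ∧
    ∀ (ε κ δ c₀ C₀ : ℝ) (S : Set (E (n + 1))) (μ : Measure (E (n + 1)))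
      (ν : E (n + 1) → E (n + 1)), FlUnit n ε κ δ c₀ C₀ S μ ν → κ ≤ κ₀ →
      ∀ (a : ℝ) (p : E n) (R D : ℝ), ‖p‖ ≤ 1 → 0 < R → R ≤ 1 / 8 → 0 < D → D ≤ 2 * R →
        κ * Real.log (4 * R / D) ≤ 1 →
        C * ((R ^ n)⁻¹ * ∫ y in flCyl (2 * R), (gmtVer y - a - ⟪p, gmtHor y⟫) ^ 2 ∂μ +
          κ * C₀ * R ^ 2) < c₀ * D ^ 2 →
        ∀ y ∈ gmtBd S, y ∈ ball (0 : E (n + 1)) R → |gmtVer y - a - ⟪p, gmtHor y⟫| ≤ D := by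
  obtain ⟨C₇, κ₀, hC₇, hκ₀, h7⟩ := fl_mean n hn
  refine ⟨4 * C₇, κ₀, by positivity, hκ₀, ?_⟩
  intro ε κ δ c₀ C₀ S μ ν H hκ a p R D hp hR hR8 hD hDR hlog hlt y0 hy0 hy0R
  by_contra hcon
  rw [not_le] at hcon
  set q : E (n + 1) := gmtEn n - flInc n p with hq
  have hqn : ‖q‖ ≤ 2 := (fl_aff_norm p).trans (by linarith)
  have hL : ∀ y : E (n + 1), gmtVer y - a - ⟪p, gmtHor y⟫ = -a + ⟪q, y⟫ := fun y => fl_aff_eq a p y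
  simp only [hL] at hlt hcon
  have hy0n : ‖y0‖ < R := by simpa using hy0R
  -- geometry
  have hsub4 : closedBall y0 R ⊆ ball (0 : E (n + 1)) 4 := by
    intro y hy
    have : ‖y - y0‖ ≤ R := by simpa [dist_eq_norm] using hy
    have h1 : ‖y‖ ≤ ‖y - y0‖ + ‖y0‖ := by
      have := norm_add_le (y - y0) y0
      simpa using this
    simp only [mem_ball, dist_zero_right]
    linarith
  have hsubC : ball y0 R ⊆ (flCyl (2 * R) : Set (E (n + 1))) := by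
    refine Subset.trans ?_ (fl_ball_subset_cyl (by linarith))
    intro y hy
    have : ‖y - y0‖ < R := by simpa [dist_eq_norm] using hy
    have h1 : ‖y‖ ≤ ‖y - y0‖ + ‖y0‖ := by
      have := norm_add_le (y - y0) y0
      simpa using this
    simp only [mem_ball, dist_zero_right]
    linarith
  have hcyl2 : (flCyl (2 * R) : Set (E (n + 1))) ⊆ closedBall 0 2 := by
    intro y hy
    have := fl_cyl_subset_ball (y := y) (by linarith [hy.1]) hy.2.le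
    exact ball_subset_closedBall this
  -- integrability
  have hfin2 : μ (closedBall (0 : E (n + 1)) 2) ≠ ⊤ :=
    H.gg.fin _ (isCompact_closedBall _ _) (closedBall_subset_ball (by norm_num))
  have hcont : Continuous fun y : E (n + 1) => (-a + ⟪q, y⟫) ^ 2 := by fun_prop
  have hint2 : IntegrableOn (fun y : E (n + 1) => (-a + ⟪q, y⟫) ^ 2) (closedBall 0 2) μ := by
    refine Measure.integrableOn_of_bounded (M := (|a| + 4) ^ 2) hfin2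
      hcont.aestronglyMeasurable ?_
    refine (ae_restrict_iff' measurableSet_closedBall).2 (Filter.Eventually.of_forall ?_)
    intro y hy
    have hyn : ‖y‖ ≤ 2 := by simpa using hy
    have h1 : |⟪q, y⟫| ≤ 4 := by
      refine (abs_real_inner_le_norm q y).trans ?_
      nlinarith [norm_nonneg q, norm_nonneg y]
    have h2 : |-a + ⟪q, y⟫| ≤ |a| + 4 := by
      refine (abs_add_le _ _).trans ?_
      rw [abs_neg]; linarith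
    rw [Real.norm_eq_abs, abs_pow]
    exact pow_le_pow_left₀ (abs_nonneg _) h2 2
  have hintC : IntegrableOn (fun y : E (n + 1) => (-a + ⟪q, y⟫) ^ 2) (flCyl (2 * R)) μ :=
    hint2.mono_set hcyl2
  -- mean value inequality
  have hs : 0 < D / 4 := by positivity
  have hRs : R / (D / 4) = 4 * R / D := by field_simp
  have key := h7 (ball 0 4) μ ν κ C₀ (D / 4) R (-a) y0 q H.gg.mν H.gg.le1
    (H.gg.fin _ (isCompact_closedBall _ _) hsub4) H.fv H.hκ hκ hsub4 H.hC.le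
    (fun ρ hρ hρR => by
      have := H.dens.up y0 ρ hρ ((ball_subset_closedBall.trans (closedBall_subset_closedBall hρR)).trans hsub4)
      simpa using this)
    hs (by linarith) (by linarith) hqn (by rw [hRs]; exact hlog)
  -- upper bound of the right side
  have hup : ∫ y in ball y0 R, (-a + ⟪q, y⟫) ^ 2 ∂μ ≤ ∫ y in flCyl (2 * R), (-a + ⟪q, y⟫) ^ 2 ∂μ :=
    setIntegral_mono_set hintC (Filter.Eventually.of_forall fun y => sq_nonneg _)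
      (Filter.Eventually.of_forall hsubC)
  -- lower bound of the left side
  have hsR : ball y0 (D / 4) ⊆ ball y0 R := ball_subset_ball (by linarith)
  have hints : IntegrableOn (fun y : E (n + 1) => (-a + ⟪q, y⟫) ^ 2) (ball y0 (D / 4)) μ :=
    hintC.mono_set (hsR.trans hsubC)
  have hμs : μ (ball y0 (D / 4)) ≠ ⊤ :=
    ne_top_of_le_ne_top hfin2 (measure_mono ((hsR.trans hsubC).trans hcyl2))
  have hlo : c₀ * (D / 4) ^ n ≤ (μ (ball y0 (D / 4))).toReal := by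
    have := H.dens.lo y0 hy0 (D / 4) hs ((hsR.trans ball_subset_closedBall).trans hsub4)
    have h2 := ENNReal.toReal_mono hμs this
    rw [ENNReal.toReal_ofReal (by have := H.hc; positivity)] at h2
    simpa using h2
  have hlow : D ^ 2 / 4 * (μ (ball y0 (D / 4))).toReal ≤ ∫ y in ball y0 (D / 4), (-a + ⟪q, y⟫) ^ 2 ∂μ := by
    have h1 : ∫ _y in ball y0 (D / 4), (D ^ 2 / 4 : ℝ) ∂μ = D ^ 2 / 4 * (μ (ball y0 (D / 4))).toReal := by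
      rw [setIntegral_const, smul_eq_mul, mul_comm]; rfl
    rw [← h1]
    refine setIntegral_mono_on (integrableOn_const hμs) hints measurableSet_ball ?_
    intro y hy
    have hyn : ‖y - y0‖ < D / 4 := by simpa [dist_eq_norm] using hy
    have h2 : |⟪q, y - y0⟫| ≤ D / 2 := by
      refine (abs_real_inner_le_norm q _).trans ?_
      nlinarith [norm_nonneg q, norm_nonneg (y - y0)]
    have h3 : -a + ⟪q, y⟫ = (-a + ⟪q, y0⟫) + ⟪q, y - y0⟫ := by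
      rw [inner_sub_right]; ring
    have h4 : D / 2 ≤ |-a + ⟪q, y⟫| := by
      rw [h3]
      have := abs_sub_abs_le_abs_sub (-a + ⟪q, y0⟫) (-⟪q, y - y0⟫)
      rw [abs_neg, sub_neg_eq_add] at this
      linarith
    have h5 : (D / 2) ^ 2 ≤ |-a + ⟪q, y⟫| ^ 2 := pow_le_pow_left₀ (by positivity) h4 2
    rw [sq_abs] at h5
    linarith
  have hRn : 0 < R ^ n := by positivity
  have hsn : 0 < (D / 4) ^ n := by positivity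
  have h8 : c₀ * D ^ 2 / 4 ≤ ((D / 4) ^ n)⁻¹ * ∫ y in ball y0 (D / 4), (-a + ⟪q, y⟫) ^ 2 ∂μ := by
    have h9 : D ^ 2 / 4 * (c₀ * (D / 4) ^ n) ≤ ∫ y in ball y0 (D / 4), (-a + ⟪q, y⟫) ^ 2 ∂μ :=
      (mul_le_mul_of_nonneg_left hlo (by positivity)).trans hlow
    have h10 := mul_le_mul_of_nonneg_left h9 (inv_nonneg.2 hsn.le)
    have h11 : ((D / 4) ^ n)⁻¹ * (D ^ 2 / 4 * (c₀ * (D / 4) ^ n)) = c₀ * D ^ 2 / 4 := by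
      field_simp
    rw [h11] at h10
    exact h10
  have h12 : C₇ * ((R ^ n)⁻¹ * ∫ y in ball y0 R, (-a + ⟪q, y⟫) ^ 2 ∂μ + κ * C₀ * R ^ 2) ≤
      C₇ * ((R ^ n)⁻¹ * ∫ y in flCyl (2 * R), (-a + ⟪q, y⟫) ^ 2 ∂μ + κ * C₀ * R ^ 2) := by
    apply mul_le_mul_of_nonneg_left _ hC₇.le
    have := mul_le_mul_of_nonneg_left hup (inv_nonneg.2 hRn.le)
    linarith
  linarith

/-- the choice of the constants in `fl_unit_step`. -/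
theorem fl_step_consts (n : ℕ) {c₀ C₀ C₂ C₃ κ₀ : ℝ} (hc : 0 < c₀) (hC : 0 < C₀) (hC₂ : 0 < C₂)
    (hC₃ : 0 < C₃) (hκ₀ : 0 < κ₀) :
    ∃ τ c₁ b : ℝ, 0 < τ ∧ τ ≤ 1 / 8 ∧ 0 < c₁ ∧ 0 < b ∧ ∀ ε κ sδ : ℝ, 0 < ε → ε ≤ 1 / 4 → 0 ≤ κ →
      κ ≤ c₁ * ε ^ 2 → sδ ≤ b → κ ≤ ε ^ 2 ∧ κ ≤ κ₀ ∧
        κ * Real.log (4 * (4 * τ ^ 2) / (ε * τ ^ 3 / 2)) ≤ 1 ∧
        C₃ * (((4 * τ ^ 2) ^ n)⁻¹ * (C₂ * (ε ^ 2 * (2 * (4 * τ ^ 2)) ^ (n + 4) + ε ^ 2 * sδ + ε * κ)) +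
          κ * C₀ * (4 * τ ^ 2) ^ 2) < c₀ * (ε * τ ^ 3 / 2) ^ 2 := by
  obtain ⟨K₁, hK₁0, hK₁⟩ : ∃ K₁ : ℝ, 0 < K₁ ∧ K₁ = C₃ * C₂ * (2 ^ n * 4096) :=
    ⟨_, by positivity, rfl⟩
  obtain ⟨τ, hτ0, hτ8, hτK⟩ : ∃ τ : ℝ, 0 < τ ∧ τ ≤ 1 / 8 ∧ K₁ * τ ≤ c₀ / 32 := by
    refine ⟨min (1 / 8) (c₀ / (32 * K₁)), lt_min (by norm_num) (by positivity), min_le_left _ _, ?_⟩
    have := mul_le_mul_of_nonneg_left (min_le_right (1 / 8) (c₀ / (32 * K₁))) hK₁0.le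
    have e5 : K₁ * (c₀ / (32 * K₁)) = c₀ / 32 := by field_simp
    rwa [e5] at this
  obtain ⟨Rn, hRn, hRn'⟩ : ∃ Rn : ℝ, 0 < Rn ∧ Rn = (4 * τ ^ 2) ^ n := ⟨_, by positivity, rfl⟩
  obtain ⟨b, hb0, hbb⟩ : ∃ b : ℝ, 0 < b ∧ C₃ * (Rn⁻¹ * (C₂ * b)) = c₀ * τ ^ 6 / 32 := by
    refine ⟨c₀ * τ ^ 6 * Rn / (32 * (C₃ * C₂)), by positivity, ?_⟩
    field_simp
  obtain ⟨c₁, hc₁0, hc₁1, hc₁κ, hc₁τ, hc₁b, hc₁4⟩ : ∃ c₁ : ℝ, 0 < c₁ ∧ c₁ ≤ 1 ∧ c₁ ≤ κ₀ ∧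
      c₁ ≤ τ / 32 ∧ c₁ ≤ b ∧ c₁ ≤ c₀ * τ ^ 2 / (512 * (C₃ * C₀)) := by
    refine ⟨min (min 1 κ₀) (min (τ / 32) (min b (c₀ * τ ^ 2 / (512 * (C₃ * C₀))))), ?_,
      (min_le_left _ _).trans (min_le_left _ _), (min_le_left _ _).trans (min_le_right _ _),
      (min_le_right _ _).trans (min_le_left _ _),
      (min_le_right _ _).trans ((min_le_right _ _).trans (min_le_left _ _)),
      (min_le_right _ _).trans ((min_le_right _ _).trans (min_le_right _ _))⟩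
    exact lt_min (lt_min one_pos hκ₀) (lt_min (by positivity) (lt_min hb0 (by positivity)))
  refine ⟨τ, c₁, b, hτ0, hτ8, hc₁0, hb0, ?_⟩
  intro ε κ sδ hε0 hε4 hκ0 hκ hsδ
  rw [← hRn']
  have hε2 : ε ^ 2 ≤ 1 := by nlinarith
  have hκε : κ ≤ ε ^ 2 := hκ.trans (by nlinarith [sq_nonneg ε])
  have hκκ₀ : κ ≤ κ₀ := hκ.trans (by nlinarith [sq_nonneg ε])
  refine ⟨hκε, hκκ₀, ?_, ?_⟩
  · have e1 : 4 * (4 * τ ^ 2) / (ε * τ ^ 3 / 2) = 32 / (ε * τ) := by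
      field_simp; ring
    have e2 : Real.log (4 * (4 * τ ^ 2) / (ε * τ ^ 3 / 2)) ≤ 32 / (ε * τ) := by
      rw [e1]
      exact (Real.log_le_sub_one_of_pos (by positivity)).trans (by linarith)
    calc κ * Real.log (4 * (4 * τ ^ 2) / (ε * τ ^ 3 / 2)) ≤ κ * (32 / (ε * τ)) :=
          mul_le_mul_of_nonneg_left e2 hκ0
      _ ≤ (c₁ * ε ^ 2) * (32 / (ε * τ)) := mul_le_mul_of_nonneg_right hκ (by positivity)
      _ = c₁ * ε * (32 / τ) := by field_simp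
      _ ≤ (τ / 32) * 1 * (32 / τ) := by
          apply mul_le_mul_of_nonneg_right _ (by positivity)
          exact mul_le_mul hc₁τ (by linarith) hε0.le (by positivity)
      _ = 1 := by field_simp
  · -- T1
    have t1 : C₃ * (Rn⁻¹ * (C₂ * (ε ^ 2 * (2 * (4 * τ ^ 2)) ^ (n + 4)))) ≤ c₀ * ε ^ 2 * τ ^ 6 / 32 := by
      have e1 : C₃ * (Rn⁻¹ * (C₂ * (ε ^ 2 * (2 * (4 * τ ^ 2)) ^ (n + 4)))) =
          K₁ * τ ^ 2 * (ε ^ 2 * τ ^ 6) := by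
        have : (2 * (4 * τ ^ 2)) ^ (n + 4) = 2 ^ n * 16 * (Rn * (4 * τ ^ 2) ^ 4) := by
          rw [mul_pow, pow_add, pow_add, hRn']; norm_num
        rw [this, hK₁]
        field_simp
        ring
      rw [e1]
      have e3 : K₁ * τ ^ 2 ≤ c₀ / 32 := by
        have : τ ^ 2 ≤ τ := by nlinarith
        nlinarith
      have := mul_le_mul_of_nonneg_right e3 (by positivity : 0 ≤ ε ^ 2 * τ ^ 6)
      linarith
    -- T2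
    have t2 : C₃ * (Rn⁻¹ * (C₂ * (ε ^ 2 * sδ))) ≤ c₀ * ε ^ 2 * τ ^ 6 / 32 := by
      have e1 : C₃ * (Rn⁻¹ * (C₂ * (ε ^ 2 * sδ))) ≤ C₃ * (Rn⁻¹ * (C₂ * (ε ^ 2 * b))) := by gcongr
      have e2 : C₃ * (Rn⁻¹ * (C₂ * (ε ^ 2 * b))) = ε ^ 2 * (C₃ * (Rn⁻¹ * (C₂ * b))) := by ring
      rw [e2, hbb] at e1
      linarith
    -- T3
    have t3 : C₃ * (Rn⁻¹ * (C₂ * (ε * κ))) ≤ c₀ * ε ^ 2 * τ ^ 6 / 32 := by
      have e0 : ε * κ ≤ ε ^ 2 * b := by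
        have : ε * κ ≤ ε * (c₁ * ε ^ 2) := mul_le_mul_of_nonneg_left hκ hε0.le
        have e3 : ε * (c₁ * ε ^ 2) = ε ^ 2 * (c₁ * ε) := by ring
        have e4 : c₁ * ε ≤ b * 1 := mul_le_mul hc₁b (by linarith) hε0.le hb0.le
        have e5 := mul_le_mul_of_nonneg_left e4 (sq_nonneg ε)
        linarith
      have e1 : C₃ * (Rn⁻¹ * (C₂ * (ε * κ))) ≤ C₃ * (Rn⁻¹ * (C₂ * (ε ^ 2 * b))) := by gcongr
      have e2 : C₃ * (Rn⁻¹ * (C₂ * (ε ^ 2 * b))) = ε ^ 2 * (C₃ * (Rn⁻¹ * (C₂ * b))) := by ring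
      rw [e2, hbb] at e1
      linarith
    -- T4
    have t4 : C₃ * (κ * C₀ * (4 * τ ^ 2) ^ 2) ≤ c₀ * ε ^ 2 * τ ^ 6 / 32 := by
      have e1 : κ ≤ c₀ * τ ^ 2 / (512 * (C₃ * C₀)) * ε ^ 2 :=
        hκ.trans (mul_le_mul_of_nonneg_right hc₁4 (sq_nonneg ε))
      have e2 : C₃ * (κ * C₀ * (4 * τ ^ 2) ^ 2) ≤
          C₃ * ((c₀ * τ ^ 2 / (512 * (C₃ * C₀)) * ε ^ 2) * C₀ * (4 * τ ^ 2) ^ 2) := by gcongr
      have e3 : C₃ * ((c₀ * τ ^ 2 / (512 * (C₃ * C₀)) * ε ^ 2) * C₀ * (4 * τ ^ 2) ^ 2) =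
          c₀ * ε ^ 2 * τ ^ 6 / 32 := by
        field_simp; ring
      linarith
    have t5 : c₀ * (ε * τ ^ 3 / 2) ^ 2 = c₀ * ε ^ 2 * τ ^ 6 / 4 := by ring
    have t6 : 0 < c₀ * ε ^ 2 * τ ^ 6 := by positivity
    rw [t5]
    have t8 : C₃ * (Rn⁻¹ * (C₂ * (ε ^ 2 * (2 * (4 * τ ^ 2)) ^ (n + 4) + ε ^ 2 * sδ + ε * κ)) +
          κ * C₀ * (4 * τ ^ 2) ^ 2) =
        C₃ * (Rn⁻¹ * (C₂ * (ε ^ 2 * (2 * (4 * τ ^ 2)) ^ (n + 4)))) +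
        C₃ * (Rn⁻¹ * (C₂ * (ε ^ 2 * sδ))) + C₃ * (Rn⁻¹ * (C₂ * (ε * κ))) +
        C₃ * (κ * C₀ * (4 * τ ^ 2) ^ 2) := by ring
    rw [t8]
    linarith

/-- **F8: improvement of flatness at unit scale.** -/
theorem fl_unit_step (n : ℕ) (hn : 1 ≤ n) (c₀ C₀ : ℝ) (hc : 0 < c₀) (hC : 0 < C₀) :
    ∃ τ ε₀ c₁ δ₀ C₁ : ℝ, 0 < τ ∧ τ ≤ 1 / 8 ∧ 0 < ε₀ ∧ 0 < c₁ ∧ 0 < δ₀ ∧ 0 < C₁ ∧
      ∀ (ε κ δ : ℝ) (S : Set (E (n + 1))) (μ : Measure (E (n + 1))) (ν : E (n + 1) → E (n + 1)),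
        FlUnit n ε κ δ c₀ C₀ S μ ν → ε ≤ ε₀ → κ ≤ c₁ * ε ^ 2 → δ ≤ δ₀ → (0 : E (n + 1)) ∈ gmtBd S →
          ∃ p : E n, ‖p‖ ≤ C₁ * ε ∧ ∀ y ∈ gmtBd S, y ∈ ball (0 : E (n + 1)) (4 * τ ^ 2) →
            |gmtVer y - ⟪p, gmtHor y⟫| ≤ ε * τ ^ 3 := by
  obtain ⟨C₂, hC₂, h2⟩ := fl_L2 n
  obtain ⟨C₃, κ₀, hC₃, hκ₀, h3⟩ := fl_sup n hn
  obtain ⟨τ, c₁, b, hτ0, hτ8, hc₁0, hb0, hcon⟩ := fl_step_consts n hc hC hC₂ hC₃ hκ₀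
  refine ⟨τ, 1 / C₂, c₁, b ^ 2, C₂, hτ0, hτ8, by positivity, hc₁0, by positivity, hC₂, ?_⟩
  intro ε κ δ S μ ν H hε hκ hδ h0
  have hε0 := H.hε
  have hε4 := H.hε'
  have hsδ : Real.sqrt δ ≤ b := by
    have := Real.sqrt_le_sqrt hδ
    rwa [Real.sqrt_sq hb0.le] at this
  obtain ⟨hκε, hκκ₀, hlog, hmain'⟩ := hcon ε κ (Real.sqrt δ) hε0 hε4 H.hκ hκ hsδ
  obtain ⟨a, p, ha, hp, hρ⟩ := h2 ε κ δ c₀ C₀ S μ ν H hκε
  have hp1 : ‖p‖ ≤ 1 := by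
    refine hp.trans ?_
    have := mul_le_mul_of_nonneg_left hε hC₂.le
    rwa [mul_one_div_cancel hC₂.ne'] at this
  have hD0 : 0 < ε * τ ^ 3 / 2 := by positivity
  have hR0 : 0 < 4 * τ ^ 2 := by positivity
  have hτ2 : τ ^ 2 ≤ 1 / 64 := by nlinarith
  have hR8 : 4 * τ ^ 2 ≤ 1 / 8 := by linarith
  have hDR : ε * τ ^ 3 / 2 ≤ 2 * (4 * τ ^ 2) := by
    have : ε * τ ^ 3 = (ε * τ) * τ ^ 2 := by ring
    have h1 : ε * τ ≤ 1 := by nlinarith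
    nlinarith [sq_nonneg τ]
  have hI := hρ (2 * (4 * τ ^ 2)) (by positivity) (by linarith)
  have hRn : 0 < (4 * τ ^ 2) ^ n := by positivity
  have hmain : C₃ * (((4 * τ ^ 2) ^ n)⁻¹ *
      ∫ y in flCyl (2 * (4 * τ ^ 2)), (gmtVer y - a - ⟪p, gmtHor y⟫) ^ 2 ∂μ +
      κ * C₀ * (4 * τ ^ 2) ^ 2) < c₀ * (ε * τ ^ 3 / 2) ^ 2 := by
    refine lt_of_le_of_lt ?_ hmain'
    apply mul_le_mul_of_nonneg_left _ hC₃.le
    have := mul_le_mul_of_nonneg_left hI (inv_nonneg.2 hRn.le)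
    linarith
  have hfin := h3 ε κ δ c₀ C₀ S μ ν H hκκ₀ a p _ _ hp1 hR0 hR8 hD0 hDR hlog hmain
  have ha' : |a| ≤ ε * τ ^ 3 / 2 := by
    have := hfin 0 h0 (mem_ball_self hR0)
    have e1 : gmtVer (0 : E (n + 1)) = 0 := by simp [gmtVer]
    have e2 : gmtHor (0 : E (n + 1)) = 0 := by simp [gmtHor]
    rw [e1, e2, inner_zero_right] at this
    simpa using this
  refine ⟨p, hp, fun y hy hyR => ?_⟩
  have h4 := hfin y hy hyR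
  have h5 : gmtVer y - ⟪p, gmtHor y⟫ = (gmtVer y - a - ⟪p, gmtHor y⟫) + a := by ring
  rw [h5]
  refine (abs_add_le _ _).trans ?_
  linarith

end Claimed.Agent.Gmt
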