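import Claimed.Agent.Lib.Gmt.FlIter
import Claimed.Agent.Lib.Gmt.FlGraph

/-!
# Lib/Gmt G4 TOP (architect: helper190): flatness ⇒ `C^{1,1/2}` graph, with constants depending only on `(n, D)`.
PACKAGE L-GMT-FlTop (glue).   ALL PROVED (helper190).

`fl_decay_rot`: transport `fl_decay_K` to `S̃ = gmtBlow L x 1 S` (`L` a linear isometry with `L e = gmtEn n`):
 `FlFlat.blow_isometry` for the flatness at the centre; for `z̃ ∈ gmtBd S̃ ∩ ball 0 (r/2)` put `z = x + L.symm z̃ ∈ gmtBd S ∩ ball x (r/2)` (`gmtBd_gmtBlow`), `flPt L x 1 z = z̃`;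
 `FlFlat.blow` with `T = L` (`fl_norm_isometry`: both norms are `1`; `fl_dir_isometry`: `flDir L e' = L e'`), `‖L e' - gmtEn n‖ = ‖L e' - L e‖ = ‖e' - e‖`.   `M = max 1 C · η`.
`fl_c1a`: `fl_graph` with `c = 1/(2D²)`.
-/

set_option autoImplicit false
open scoped ContDiff ENNReal RealInnerProductSpace
open MeasureTheory Metric Set

namespace Claimed.Agent.Gmt

theorem fl_decay_rot (n : ℕ) (hn : 1 ≤ n) (D : ℝ) (hD : 1 ≤ D) : ∃ η₀ c₁ C : ℝ, 0 < η₀ ∧ 0 < c₁ ∧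
    1 ≤ C ∧ ∀ (κ Λ R r η : ℝ) (x e : E (n + 1)) (S : Set (E (n + 1))), 0 ≤ κ → 0 ≤ Λ →
      FlAMK κ Λ R D (ball x r) S → 0 < r → r ≤ R → 0 < η → η ≤ η₀ → (κ + Λ) * r ≤ c₁ * η ^ 2 →
      FlFlat S x r η e → ∀ L : E (n + 1) ≃ₗᵢ[ℝ] E (n + 1), L e = gmtEn n →
        FlDecay (gmtBlow L.toContinuousLinearEquiv x 1 S) r (1 / (2 * D ^ 2) * r) (C * η) := by
  obtain ⟨η₀, c₁, C, hη₀, hc₁, hC, hdec⟩ := fl_decay_K n hn D hD
  refine ⟨η₀, c₁, max 1 C, hη₀, hc₁, le_max_left _ _, ?_⟩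
  intro κ Λ R r η x e S hκ hΛ hK hr hrR hη hηη₀ hκΛ hfl L hL
  have hC1 : η ≤ max 1 C * η := by
    have := mul_le_mul_of_nonneg_right (le_max_left 1 C) hη.le
    linarith
  have hCC : C * η ≤ max 1 C * η := mul_le_mul_of_nonneg_right (le_max_right 1 C) hη.le
  refine ⟨?_, ?_⟩
  · have := hfl.blow_isometry L one_pos
    rw [div_one, hL] at this
    exact this.mono hr.le hC1
  · intro z' hz' hz'r s hs hsr
    rw [gmtBd_gmtBlow _ _ one_pos] at hz'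
    have hz : gmtAff L.toContinuousLinearEquiv x 1 z' ∈ gmtBd S := hz'
    set z := gmtAff L.toContinuousLinearEquiv x 1 z' with hzdef
    have hzx : z - x = L.symm z' := by
      rw [hzdef, gmtAff, one_smul, add_sub_cancel_left]; rfl
    have hzr : z ∈ ball x (r / 2) := by
      rw [mem_ball, dist_eq_norm, hzx, L.symm.norm_map]
      simpa using hz'r
    have hsr' : s ≤ r / (2 * D ^ 2) := by
      rw [one_div_mul_eq_div] at hsr; exact hsr
    obtain ⟨e', hee, hfl'⟩ := hdec κ Λ R r η x e S hκ hΛ hK hr hrR hη hηη₀ hκΛ hfl z hz hzr s hs hsr'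
    have hnorm := fl_norm_isometry (m := n + 1) (by omega) L
    have h1 := hfl'.blow hs (by positivity) L.toContinuousLinearEquiv x one_pos
    rw [hnorm.1, hnorm.2, fl_dir_isometry L hfl'.unit, mul_one, mul_one, mul_one, div_one] at h1
    have hpt : flPt L.toContinuousLinearEquiv x 1 z = z' := by
      rw [flPt, hzx, inv_one, one_smul]
      exact L.apply_symm_apply z'
    rw [hpt] at h1
    refine ⟨L e', ?_, h1.mono hs.le ?_⟩
    · rw [← hL, ← map_sub, L.norm_map]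
      exact hee.trans hCC
    · exact mul_le_mul_of_nonneg_right hCC (Real.sqrt_nonneg _)

/-- **G4: flat ⇒ `C^{1,1/2}` graph.** -/
theorem fl_c1a (n : ℕ) (hn : 1 ≤ n) (D : ℝ) (hD : 1 ≤ D) : ∃ η₀ c₁ C : ℝ, 0 < η₀ ∧ 0 < c₁ ∧
    0 < C ∧ ∀ (κ Λ R r η : ℝ) (x e : E (n + 1)) (S : Set (E (n + 1))), 0 ≤ κ → 0 ≤ Λ →
      FlAMK κ Λ R D (ball x r) S → 0 < r → r ≤ R → 0 < η → η ≤ η₀ → (κ + Λ) * r ≤ c₁ * η ^ 2 →
      FlFlat S x r η e → ∀ L : E (n + 1) ≃ₗᵢ[ℝ] E (n + 1), L e = gmtEn n →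
        ∃ u : E n → ℝ, FlGr (gmtBlow L.toContinuousLinearEquiv x 1 S) u (r / 4) (C * η) := by
  obtain ⟨η₀, c₁, C, hη₀, hc₁, hC, H⟩ := fl_decay_rot n hn D hD
  have hD0 : 0 < D := lt_of_lt_of_le one_pos hD
  have hc : 0 < 1 / (2 * D ^ 2) := by positivity
  have hc1 : 1 / (2 * D ^ 2) ≤ 1 := by
    rw [div_le_one (by positivity)]
    nlinarith
  obtain ⟨M₀, C', hM₀, hC', G⟩ := fl_graph n (1 / (2 * D ^ 2)) hc hc1
  have hC0 : 0 < C := lt_of_lt_of_le one_pos hC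
  refine ⟨min η₀ (M₀ / C), c₁, C' * C, lt_min hη₀ (by positivity), hc₁, by positivity, ?_⟩
  intro κ Λ R r η x e S hκ hΛ hK hr hrR hη hηle hsm hfl L hL
  have h1 := H κ Λ R r η x e S hκ hΛ hK hr hrR hη (le_trans hηle (min_le_left _ _)) hsm hfl L hL
  have h2 : C * η ≤ M₀ := by
    have := le_trans hηle (min_le_right _ _)
    rw [le_div_iff₀ hC0] at this
    linarith
  obtain ⟨u, hu⟩ := G _ r (C * η) hr (by positivity) h2 h1
  exact ⟨u, by rwa [mul_assoc]⟩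

end Claimed.Agent.Gmt
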