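import Claimed.Agent.Lib.Gmt.BvInt

/-!
# Lib/Gmt FRAMES [part A]: linear algebra of frames.   (architect: helper184)

A *frame* for a positive definite symmetric form `B` (the frozen integrand `A z`) is a linear isomorphism `T` such that in the
coordinates `y = T x` the integrand `B` becomes the Euclidean one:  `B(Tᵀξ, Tᵀη) = (det T)² ⟪ξ,η⟫`.
(For `B = ω² det G · G⁻¹`:  `|T v|² = ω^{2/(m-1)} G(v,v)`: the conformal metric whose area is the weighted area.)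
It exists iff `m ≥ 2` and is unique up to an isometry on the left.

PLAN OF PROOFS
* `gmt_frame_exists`: let `b` be the (symmetric, positive definite) matrix/operator of `B`.  Take `R` invertible with `B(Rᵀξ,Rᵀη) = ⟪ξ,η⟫`
  (e.g. `Matrix.PosDef` ⇒ `b = Cᴴ C` (`Matrix.PosDef.posSemidef`, `Matrix.posSemidef_iff_eq_conjTranspose_mul_self`), `Rᵀ = C⁻¹`; or Gram-Schmidt for the inner product `B`; or the spectral theorem
  `LinearMap.IsSymmetric.eigenvectorBasis`).  Put `T = λ R` with `λ^{2(m-1)} = (det R)^{-2}`, i.e. `λ = |det R|^{-1/(m-1)}` (`Real.rpow`).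
* `gmt_frame_bound`: `c |Tᵀξ| ≤ |det T| |ξ| ≤ C |Tᵀξ|`.  With `R = Tᵀ/|det T|`: `|ξ|/C ≤ |Rξ| ≤ |ξ|/c`, `|det R| = |det T|^{1-m}`, and
  `|det R| ≤ ‖R‖^m`, `|det R⁻¹| ≤ ‖R⁻¹‖^m` (e.g. from `MeasureTheory.Measure.addHaar_image_continuousLinearMap` applied to the unit ball).
* `gmt_frame_unique`: `M = T' T⁻¹` satisfies `|Mᵀξ| = |det M| |ξ|`; taking determinants `|det M|^{m-1} = 1`; so `Mᵀ`, hence `M`, is an isometry.
* `gmt_frame_limit`: by `gmt_frame_bound` the maps `T ∘ (T i)⁻¹` and their inverses are bounded; finite dimension: a subsequence converges to `M`, and the inverses to `M⁻¹`;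
  pass to the limit in the frame relation: `M⁻¹ T`... is a frame of `B`; conclude by `gmt_frame_unique`.
-/

set_option autoImplicit false
open scoped ContDiff ENNReal RealInnerProductSpace Topology
open MeasureTheory Metric Set Filter

namespace Claimed.Agent.Gmt

variable {m : ℕ}

/-- the transpose. -/
noncomputable abbrev gmtAdj (T : E m →L[ℝ] E m) : E m →L[ℝ] E m := ContinuousLinearMap.adjoint T

/-- the determinant of the transpose. -/
theorem gmtfr_det_adj (A : E m →L[ℝ] E m) : (gmtAdj A).det = A.det := by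
  have b := EuclideanSpace.basisFun (Fin m) ℝ
  have h1 : ((gmtAdj A : E m →L[ℝ] E m) : E m →ₗ[ℝ] E m) = LinearMap.adjoint (A : E m →ₗ[ℝ] E m) := by
    rw [LinearMap.adjoint_eq_toCLM_adjoint]
    rfl
  show LinearMap.det ((gmtAdj A : E m →L[ℝ] E m) : E m →ₗ[ℝ] E m) = LinearMap.det (A : E m →ₗ[ℝ] E m)
  rw [h1, ← LinearMap.det_toMatrix b.toBasis, ← LinearMap.det_toMatrix b.toBasis (A : E m →ₗ[ℝ] E m),
    LinearMap.toMatrix_adjoint, Matrix.det_conjTranspose]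
  simp

theorem gmtfr_det_comp (A A' : E m →L[ℝ] E m) : (A.comp A').det = A.det * A'.det :=
  LinearMap.det_comp _ _

theorem gmtfr_det_smul (t : ℝ) (A : E m →L[ℝ] E m) : (t • A).det = t ^ m * A.det := by
  show LinearMap.det (t • (A : E m →ₗ[ℝ] E m)) = _
  rw [LinearMap.det_smul, finrank_euclideanSpace_fin]

theorem gmtfr_det_id : (ContinuousLinearMap.id ℝ (E m)).det = 1 := LinearMap.det_id

theorem gmtfr_det_ne (T : E m ≃L[ℝ] E m) : (T : E m →L[ℝ] E m).det ≠ 0 := by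
  intro h
  have h1 := gmtfr_det_comp (T : E m →L[ℝ] E m) (T.symm : E m →L[ℝ] E m)
  rw [ContinuousLinearEquiv.coe_comp_coe_symm, gmtfr_det_id, h, zero_mul] at h1
  exact one_ne_zero h1

/-- `|det A| ≤ ‖A‖^m`. -/
theorem gmtfr_abs_det_le (A : E m →L[ℝ] E m) : |A.det| ≤ ‖A‖ ^ m := by
  have h1 : (A '' ball (0 : E m) 1) ⊆ closedBall 0 ‖A‖ := by
    rintro _ ⟨x, hx, rfl⟩
    rw [mem_closedBall_zero_iff]
    rw [mem_ball_zero_iff] at hx
    calc ‖A x‖ ≤ ‖A‖ * ‖x‖ := A.le_opNorm x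
      _ ≤ ‖A‖ * 1 := by gcongr
      _ = ‖A‖ := mul_one _
  have h2 := measure_mono (μ := (volume : Measure (E m))) h1
  rw [Measure.addHaar_image_continuousLinearMap, Measure.addHaar_closedBall _ _ (norm_nonneg A),
    finrank_euclideanSpace_fin] at h2
  have h3 : (volume : Measure (E m)) (ball 0 1) ≠ 0 := (measure_ball_pos _ _ one_pos).ne'
  have h4 : (volume : Measure (E m)) (ball 0 1) ≠ ⊤ := measure_ball_lt_top.ne
  rw [ENNReal.mul_le_mul_iff_left h3 h4] at h2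
  exact (ENNReal.ofReal_le_ofReal_iff (by positivity)).1 h2

/-- `T* (T⁻¹)* = 1`. -/
theorem gmtfr_adj_symm (T : E m ≃L[ℝ] E m) (ζ : E m) :
    gmtAdj (T : E m →L[ℝ] E m) (gmtAdj (T.symm : E m →L[ℝ] E m) ζ) = ζ := by
  have h := ContinuousLinearMap.adjoint_comp (T.symm : E m →L[ℝ] E m) (T : E m →L[ℝ] E m)
  rw [ContinuousLinearEquiv.coe_symm_comp_coe, ContinuousLinearMap.adjoint_id] at h
  exact (congrArg (fun f : E m →L[ℝ] E m => f ζ) h).symm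

theorem gmtfr_adj_symm' (T : E m ≃L[ℝ] E m) (ζ : E m) :
    gmtAdj (T.symm : E m →L[ℝ] E m) (gmtAdj (T : E m →L[ℝ] E m) ζ) = ζ := gmtfr_adj_symm T.symm ζ


/-- `T` is a frame for the form `B`. -/
def GmtFrame (B : Bil m) (T : E m ≃L[ℝ] E m) : Prop :=
  ∀ ξ η : E m, B (gmtAdj (T : E m →L[ℝ] E m) ξ) (gmtAdj (T : E m →L[ℝ] E m) η) =
    (T : E m →L[ℝ] E m).det ^ 2 * ⟪ξ, η⟫

/-- symmetric forms with ellipticity constants `c ≤ C`. -/
structure GmtEll (c C : ℝ) (B : Bil m) : Prop where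
  symm : ∀ ξ η : E m, B ξ η = B η ξ
  lo : ∀ ξ : E m, c ^ 2 * ‖ξ‖ ^ 2 ≤ B ξ ξ
  hi : ∀ ξ : E m, B ξ ξ ≤ C ^ 2 * ‖ξ‖ ^ 2

/-- a `B`-orthonormal family. -/
theorem gmtfr_exists_onb {c C : ℝ} (hc : 0 < c) {B : Bil m} (hB : GmtEll c C B) :
    ∃ w : Fin m → E m, ∀ i j, B (w i) (w j) = if i = j then 1 else 0 := by
  let Bf : LinearMap.BilinForm ℝ (E m) := LinearMap.mk₂ ℝ (fun x y => B x y)
    (fun x y z => by simp) (fun t x y => by simp) (fun x y z => by simp) (fun t x y => by simp)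
  have hs : LinearMap.IsSymm Bf := ⟨fun x y => hB.symm x y⟩
  obtain ⟨v, hv⟩ := LinearMap.BilinForm.exists_orthogonal_basis (B := Bf) hs
  have e : Fin m ≃ Fin (Module.finrank ℝ (E m)) := finCongr finrank_euclideanSpace_fin.symm
  have hpos : ∀ i, 0 < B (v i) (v i) := fun i => by
    have h1 : 0 < ‖v i‖ := norm_pos_iff.2 (v.ne_zero i)
    have h2 := hB.lo (v i)
    have h3 : 0 < c ^ 2 * ‖v i‖ ^ 2 := by positivity
    linarith
  refine ⟨fun i => (Real.sqrt (B (v (e i)) (v (e i))))⁻¹ • v (e i), fun i j => ?_⟩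
  simp only [map_smul, _root_.smul_apply, smul_eq_mul]
  split_ifs with h
  · subst h
    have h1 := Real.mul_self_sqrt (hpos (e i)).le
    have h2 : Real.sqrt (B (v (e i)) (v (e i))) ≠ 0 := (Real.sqrt_pos.2 (hpos (e i))).ne'
    field_simp
    nlinarith
  · have h1 : B (v (e i)) (v (e j)) = 0 := hv (fun h' => h (e.injective h'))
    rw [h1, mul_zero, mul_zero]

/-- `B` is the Euclidean form in suitable linear coordinates. -/
theorem gmtfr_exists_sqrt {c C : ℝ} (hc : 0 < c) {B : Bil m} (hB : GmtEll c C B) :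
    ∃ S : E m ≃L[ℝ] E m, ∀ x y, B (S x) (S y) = ⟪x, y⟫ := by
  obtain ⟨w, hw⟩ := gmtfr_exists_onb hc hB
  let S₀ : E m →ₗ[ℝ] E m :=
    { toFun := fun x => ∑ i, x i • w i
      map_add' := fun x y => by simp [add_smul, Finset.sum_add_distrib]
      map_smul' := fun t x => by simp [mul_smul, Finset.smul_sum] }
  have hS : ∀ x y, B (S₀ x) (S₀ y) = ⟪x, y⟫ := by
    intro x y
    show B (∑ i, x i • w i) (∑ j, y j • w j) = _
    simp only [map_sum, map_smul, _root_.sum_apply, _root_.smul_apply, hw,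
      smul_eq_mul, mul_ite, mul_one, mul_zero, Finset.sum_ite_eq', Finset.mem_univ, if_true]
    rw [PiLp.inner_apply]
    refine Finset.sum_congr rfl fun i _ => ?_
    simp [mul_comm]
  have hinj : Function.Injective S₀ := by
    rw [injective_iff_map_eq_zero]
    intro x hx
    have h1 := hS x x
    rw [hx] at h1
    simp only [map_zero] at h1
    exact inner_self_eq_zero.1 h1.symm
  exact ⟨(LinearEquiv.ofInjectiveEndo S₀ hinj).toContinuousLinearEquiv, hS⟩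

theorem gmt_frame_exists (hm : 2 ≤ m) {c C : ℝ} (hc : 0 < c) {B : Bil m} (hB : GmtEll c C B) :
    ∃ T : E m ≃L[ℝ] E m, GmtFrame B T := by
  obtain ⟨S, hS⟩ := gmtfr_exists_sqrt hc hB
  set δ : ℝ := (S : E m →L[ℝ] E m).det with hδ
  have hδ0 : δ ≠ 0 := gmtfr_det_ne S
  have hm1 : m - 1 ≠ 0 := by omega
  set l : ℝ := (|δ|⁻¹) ^ (((m - 1 : ℕ) : ℝ)⁻¹) with hl
  have hl0 : 0 < l := Real.rpow_pos_of_pos (inv_pos.2 (abs_pos.2 hδ0)) _
  have hlp : l ^ (m - 1) = |δ|⁻¹ := Real.rpow_inv_natCast_pow (inv_nonneg.2 (abs_nonneg _)) hm1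
  have hlm : l ^ m = |δ|⁻¹ * l := by
    have : m = (m - 1) + 1 := by omega
    rw [this, pow_succ, hlp]
  let T : E m ≃L[ℝ] E m := ContinuousLinearEquiv.equivOfInverse
    (l • gmtAdj (S : E m →L[ℝ] E m)) (l⁻¹ • gmtAdj (S.symm : E m →L[ℝ] E m))
    (fun x => by
      simp only [_root_.smul_apply, map_smul, smul_smul, mul_inv_cancel₀ hl0.ne', one_smul]
      exact gmtfr_adj_symm' S x)
    (fun x => by
      simp only [_root_.smul_apply, map_smul, smul_smul, inv_mul_cancel₀ hl0.ne', one_smul]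
      exact gmtfr_adj_symm S x)
  have hT : (T : E m →L[ℝ] E m) = l • gmtAdj (S : E m →L[ℝ] E m) := rfl
  have hTa : gmtAdj (T : E m →L[ℝ] E m) = l • (S : E m →L[ℝ] E m) := by
    rw [hT]
    show ContinuousLinearMap.adjoint (l • ContinuousLinearMap.adjoint (S : E m →L[ℝ] E m)) = _
    rw [map_smulₛₗ, ContinuousLinearMap.adjoint_adjoint]
    simp
  refine ⟨T, fun ξ η => ?_⟩
  rw [hTa, hT, gmtfr_det_smul, gmtfr_det_adj, ← hδ, hlm]
  simp only [_root_.smul_apply, map_smul, smul_eq_mul]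
  have h1 : B (S ξ) (S η) = ⟪ξ, η⟫ := hS ξ η
  have h1' : B ((S : E m →L[ℝ] E m) ξ) ((S : E m →L[ℝ] E m) η) = ⟪ξ, η⟫ := h1
  rw [h1']
  have h2 : (|δ|⁻¹ * l * δ) ^ 2 = l ^ 2 := by
    have h3 : |δ| ^ 2 = δ ^ 2 := sq_abs δ
    have h4 : |δ| ≠ 0 := abs_ne_zero.2 hδ0
    field_simp
    rw [h3]
  rw [h2]
  ring

open Classical in
/-- a chosen frame. -/
noncomputable def gmtFr (B : Bil m) : E m ≃L[ℝ] E m :=
  if h : ∃ T : E m ≃L[ℝ] E m, GmtFrame B T then h.choose else ContinuousLinearEquiv.refl ℝ (E m)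

theorem gmtFr_spec (hm : 2 ≤ m) {c C : ℝ} (hc : 0 < c) {B : Bil m} (hB : GmtEll c C B) :
    GmtFrame B (gmtFr B) := by
  have h := gmt_frame_exists hm hc hB
  unfold gmtFr
  rw [dif_pos h]
  exact h.choose_spec

/-- the basic two-sided estimate of a frame. -/
theorem gmtfr_est {c C : ℝ} {B : Bil m} {T : E m ≃L[ℝ] E m} (hB : GmtEll c C B) (hT : GmtFrame B T)
    (ξ : E m) : c ^ 2 * ‖gmtAdj (T : E m →L[ℝ] E m) ξ‖ ^ 2 ≤ (T : E m →L[ℝ] E m).det ^ 2 * ‖ξ‖ ^ 2 ∧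
      (T : E m →L[ℝ] E m).det ^ 2 * ‖ξ‖ ^ 2 ≤ C ^ 2 * ‖gmtAdj (T : E m →L[ℝ] E m) ξ‖ ^ 2 := by
  have h := hT ξ ξ
  rw [real_inner_self_eq_norm_sq] at h
  exact ⟨h ▸ hB.lo _, h ▸ hB.hi _⟩

theorem gmtfr_norm_adj (A : E m →L[ℝ] E m) : ‖gmtAdj A‖ = ‖A‖ :=
  LinearIsometryEquiv.norm_map ContinuousLinearMap.adjoint A

theorem gmtfr_norm_le {c C : ℝ} (hc : 0 < c) {B : Bil m} {T : E m ≃L[ℝ] E m} (hB : GmtEll c C B)
    (hT : GmtFrame B T) : ‖(T : E m →L[ℝ] E m)‖ ≤ |(T : E m →L[ℝ] E m).det| / c := by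
  rw [← gmtfr_norm_adj]
  refine ContinuousLinearMap.opNorm_le_bound _ (by positivity) fun ξ => ?_
  have h := (gmtfr_est hB hT ξ).1
  rw [div_mul_eq_mul_div, le_div_iff₀ hc, mul_comm,
    ← pow_le_pow_iff_left₀ (by positivity) (by positivity) two_ne_zero, mul_pow, mul_pow, sq_abs]
  exact h

theorem gmtfr_norm_symm_le {c C : ℝ} (hC : 0 ≤ C) {B : Bil m} {T : E m ≃L[ℝ] E m} (hB : GmtEll c C B)
    (hT : GmtFrame B T) : ‖(T.symm : E m →L[ℝ] E m)‖ ≤ C / |(T : E m →L[ℝ] E m).det| := by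
  have hd : 0 < |(T : E m →L[ℝ] E m).det| := abs_pos.2 (gmtfr_det_ne T)
  rw [← gmtfr_norm_adj]
  refine ContinuousLinearMap.opNorm_le_bound _ (by positivity) fun ζ => ?_
  have h := (gmtfr_est hB hT (gmtAdj (T.symm : E m →L[ℝ] E m) ζ)).2
  rw [gmtfr_adj_symm] at h
  rw [div_mul_eq_mul_div, le_div_iff₀ hd, mul_comm,
    ← pow_le_pow_iff_left₀ (by positivity) (by positivity) two_ne_zero, mul_pow, mul_pow, sq_abs]
  exact h

theorem gmtfr_det_bounds (hm : 2 ≤ m) {c C : ℝ} (hc : 0 < c) (hC : 0 ≤ C) {B : Bil m}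
    {T : E m ≃L[ℝ] E m} (hB : GmtEll c C B) (hT : GmtFrame B T) :
    min 1 (c ^ m) ≤ |(T : E m →L[ℝ] E m).det| ∧ |(T : E m →L[ℝ] E m).det| ≤ max 1 (C ^ m) := by
  set d : ℝ := |(T : E m →L[ℝ] E m).det| with hd
  have hd0 : 0 < d := abs_pos.2 (gmtfr_det_ne T)
  have hmm : m = (m - 1) + 1 := by omega
  have hm1 : 1 ≤ m - 1 := by omega
  have h1 : d ≤ (d / c) ^ m :=
    (gmtfr_abs_det_le _).trans (pow_le_pow_left₀ (norm_nonneg _) (gmtfr_norm_le hc hB hT) m)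
  have h2 : d⁻¹ ≤ (C / d) ^ m := by
    have h3 := (gmtfr_abs_det_le (T.symm : E m →L[ℝ] E m)).trans
      (pow_le_pow_left₀ (norm_nonneg _) (gmtfr_norm_symm_le hC hB hT) m)
    rwa [ContinuousLinearEquiv.det_coe_symm, abs_inv] at h3
  have h4 : c ^ m ≤ d ^ (m - 1) := by
    rw [div_pow, le_div_iff₀ (by positivity)] at h1
    have h5 : d ^ m = d * d ^ (m - 1) := by
      conv_lhs => rw [hmm, pow_succ]
      ring
    rw [h5] at h1
    exact le_of_mul_le_mul_left h1 hd0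
  have h6 : d ^ (m - 1) ≤ C ^ m := by
    rw [div_pow, le_div_iff₀ (by positivity)] at h2
    have h5 : d⁻¹ * d ^ m = d ^ (m - 1) := by
      conv_lhs => rw [hmm, pow_succ]
      field_simp
    rwa [h5] at h2
  constructor
  · rcases le_total 1 d with h | h
    · exact (min_le_left _ _).trans h
    · have h7 : d ^ (m - 1) ≤ d ^ 1 := pow_le_pow_of_le_one hd0.le h hm1
      rw [pow_one] at h7
      exact (min_le_right _ _).trans (h4.trans h7)
  · rcases le_total 1 d with h | h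
    · have h7 : d ^ 1 ≤ d ^ (m - 1) := pow_le_pow_right₀ h hm1
      rw [pow_one] at h7
      exact (h7.trans h6).trans (le_max_right _ _)
    · exact h.trans (le_max_left _ _)

/-- every frame has distortion bounded by the ellipticity constants. -/
theorem gmt_frame_bound (hm : 2 ≤ m) {c C : ℝ} (hc : 0 < c) (hcC : c ≤ C) :
    ∃ M : ℝ, 1 ≤ M ∧ ∀ (B : Bil m) (T : E m ≃L[ℝ] E m), GmtEll c C B → GmtFrame B T →
      (∀ v, ‖T v‖ ≤ M * ‖v‖) ∧ (∀ v, ‖T.symm v‖ ≤ M * ‖v‖) ∧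
      |(T : E m →L[ℝ] E m).det| ≤ M ∧ |(T : E m →L[ℝ] E m).det|⁻¹ ≤ M := by
  have hC : 0 < C := hc.trans_le hcC
  have hD₀ : 0 < min 1 (c ^ m) := lt_min one_pos (by positivity)
  have hD₁ : 0 < max 1 (C ^ m) := lt_max_of_lt_left one_pos
  set D₀ := min 1 (c ^ m) with hD₀e
  set D₁ := max 1 (C ^ m) with hD₁e
  have p1 : 0 < D₀⁻¹ := inv_pos.2 hD₀
  have p2 : 0 < D₁ / c := div_pos hD₁ hc
  have p3 : 0 < C / D₀ := div_pos hC hD₀
  refine ⟨1 + D₁ + D₀⁻¹ + D₁ / c + C / D₀, by linarith, fun B T hB hT => ?_⟩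
  obtain ⟨h1, h2⟩ := gmtfr_det_bounds hm hc hC.le hB hT
  have hd0 : 0 < |(T : E m →L[ℝ] E m).det| := abs_pos.2 (gmtfr_det_ne T)
  refine ⟨fun v => ?_, fun v => ?_, by linarith, ?_⟩
  · have h3 : ‖(T : E m →L[ℝ] E m)‖ ≤ D₁ / c :=
      (gmtfr_norm_le hc hB hT).trans (div_le_div_of_nonneg_right h2 hc.le)
    calc ‖T v‖ ≤ ‖(T : E m →L[ℝ] E m)‖ * ‖v‖ := (T : E m →L[ℝ] E m).le_opNorm v
      _ ≤ (1 + D₁ + D₀⁻¹ + D₁ / c + C / D₀) * ‖v‖ :=
        mul_le_mul_of_nonneg_right (by linarith) (norm_nonneg v)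
  · have h3 : ‖(T.symm : E m →L[ℝ] E m)‖ ≤ C / D₀ :=
      (gmtfr_norm_symm_le hC.le hB hT).trans (div_le_div_of_nonneg_left hC.le hD₀ h1)
    calc ‖T.symm v‖ ≤ ‖(T.symm : E m →L[ℝ] E m)‖ * ‖v‖ := (T.symm : E m →L[ℝ] E m).le_opNorm v
      _ ≤ (1 + D₁ + D₀⁻¹ + D₁ / c + C / D₀) * ‖v‖ :=
        mul_le_mul_of_nonneg_right (by linarith) (norm_nonneg v)
  · have h3 : |(T : E m →L[ℝ] E m).det|⁻¹ ≤ D₀⁻¹ := inv_anti₀ hD₀ h1
    linarith

/-- frames are unique up to an isometry. -/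
theorem gmt_frame_unique (hm : 2 ≤ m) {B : Bil m} {T T' : E m ≃L[ℝ] E m} (hT : GmtFrame B T)
    (hT' : GmtFrame B T') : ∃ O : E m ≃ₗᵢ[ℝ] E m, ∀ v, T' v = O (T v) := by
  set Mm : E m →L[ℝ] E m := (T' : E m →L[ℝ] E m).comp (T.symm : E m →L[ℝ] E m) with hMm
  have hMa : ∀ ξ, gmtAdj Mm ξ = gmtAdj (T.symm : E m →L[ℝ] E m) (gmtAdj (T' : E m →L[ℝ] E m) ξ) := by
    intro ξ
    show ContinuousLinearMap.adjoint Mm ξ = _
    rw [hMm, ContinuousLinearMap.adjoint_comp]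
    rfl
  have hd : (T : E m →L[ℝ] E m).det ≠ 0 := gmtfr_det_ne T
  have hd' : (T' : E m →L[ℝ] E m).det ≠ 0 := gmtfr_det_ne T'
  set δ : ℝ := Mm.det with hδ
  have hδe : δ = (T' : E m →L[ℝ] E m).det * ((T : E m →L[ℝ] E m).det)⁻¹ := by
    rw [hδ, hMm, gmtfr_det_comp, ContinuousLinearEquiv.det_coe_symm]
  have hδ0 : δ ≠ 0 := by rw [hδe]; exact mul_ne_zero hd' (inv_ne_zero hd)
  have h1 : ∀ ξ η, ⟪gmtAdj Mm ξ, gmtAdj Mm η⟫ = δ ^ 2 * ⟪ξ, η⟫ := by
    intro ξ η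
    have h2 := hT (gmtAdj Mm ξ) (gmtAdj Mm η)
    rw [hMa, hMa, gmtfr_adj_symm, gmtfr_adj_symm, hT' ξ η] at h2
    rw [hMa, hMa, hδe]
    field_simp
    linarith
  have h2 : Mm.comp (gmtAdj Mm) = (δ ^ 2) • ContinuousLinearMap.id ℝ (E m) := by
    ext1 η
    refine ext_inner_left ℝ fun ξ => ?_
    have h3 : ⟪ξ, Mm (gmtAdj Mm η)⟫ = ⟪gmtAdj Mm ξ, gmtAdj Mm η⟫ :=
      (ContinuousLinearMap.adjoint_inner_left Mm (gmtAdj Mm η) ξ).symm
    show ⟪ξ, Mm (gmtAdj Mm η)⟫ = ⟪ξ, (δ ^ 2) • η⟫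
    rw [h3, h1, inner_smul_right]
  have h3 : δ ^ 2 = 1 := by
    have h4 := congrArg ContinuousLinearMap.det h2
    rw [gmtfr_det_comp, gmtfr_det_adj, gmtfr_det_smul, gmtfr_det_id, mul_one, ← hδ] at h4
    have hmm : m = (m - 1) + 1 := by omega
    have h5 : (δ ^ 2) ^ (m - 1) = 1 := by
      have h6 : (δ ^ 2) ^ m = (δ ^ 2) ^ (m - 1) * δ ^ 2 := by
        conv_lhs => rw [hmm, pow_succ]
      rw [h6] at h4
      have h7 : δ ^ 2 ≠ 0 := pow_ne_zero _ hδ0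
      have h8 : 1 * δ ^ 2 = (δ ^ 2) ^ (m - 1) * δ ^ 2 := by rw [one_mul, ← h4]; ring
      exact (mul_right_cancel₀ h7 h8).symm
    exact (pow_eq_one_iff_of_nonneg (sq_nonneg δ) (by omega)).1 h5
  rw [h3, one_smul] at h2
  have hinj : Function.Injective Mm := T'.injective.comp T.symm.injective
  have h4 : ∀ v, gmtAdj Mm (Mm v) = v := fun v =>
    hinj (congrArg (fun f : E m →L[ℝ] E m => f (Mm v)) h2)
  have h5 : ∀ v, ‖Mm v‖ = ‖v‖ := by
    intro v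
    have h6 := h1 (Mm v) (Mm v)
    rw [h4, h3, one_mul, real_inner_self_eq_norm_sq, real_inner_self_eq_norm_sq] at h6
    exact ((pow_left_inj₀ (norm_nonneg _) (norm_nonneg _) two_ne_zero).1 h6).symm
  refine ⟨⟨(T.symm.trans T').toLinearEquiv, h5⟩, fun v => ?_⟩
  show T' v = T' (T.symm (T v))
  rw [ContinuousLinearEquiv.symm_apply_apply]

theorem gmt_frame_eu : GmtFrame (gmtEu m) (ContinuousLinearEquiv.refl ℝ (E m)) := by
  intro ξ η
  rw [ContinuousLinearEquiv.coe_refl, gmtfr_det_id]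
  show innerSL ℝ (ContinuousLinearMap.adjoint (ContinuousLinearMap.id ℝ (E m)) ξ)
    (ContinuousLinearMap.adjoint (ContinuousLinearMap.id ℝ (E m)) η) = _
  rw [ContinuousLinearMap.adjoint_id]
  simp

theorem GmtFrame.isometry {B : Bil m} {T : E m ≃L[ℝ] E m} (hT : GmtFrame B T)
    (O : E m ≃ₗᵢ[ℝ] E m) : GmtFrame B (T.trans O.toContinuousLinearEquiv) := by
  intro ξ η
  have e1 : ((T.trans O.toContinuousLinearEquiv : E m ≃L[ℝ] E m) : E m →L[ℝ] E m) =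
      (O.toContinuousLinearEquiv : E m →L[ℝ] E m).comp (T : E m →L[ℝ] E m) := rfl
  have e2 : gmtAdj (O.toContinuousLinearEquiv : E m →L[ℝ] E m) =
      (O.symm.toContinuousLinearEquiv : E m →L[ℝ] E m) := O.adjoint_eq_symm
  have e3 : (O.toContinuousLinearEquiv : E m →L[ℝ] E m).det ^ 2 = 1 := by
    have h1 := gmtfr_det_comp (gmtAdj (O.toContinuousLinearEquiv : E m →L[ℝ] E m))
      (O.toContinuousLinearEquiv : E m →L[ℝ] E m)
    rw [gmtfr_det_adj] at h1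
    rw [sq, ← h1, e2]
    have h2 : (O.symm.toContinuousLinearEquiv : E m →L[ℝ] E m).comp
        (O.toContinuousLinearEquiv : E m →L[ℝ] E m) = ContinuousLinearMap.id ℝ (E m) := by
      ext1 v
      exact O.symm_apply_apply v
    rw [h2, gmtfr_det_id]
  have e4 : ∀ ζ, gmtAdj ((T.trans O.toContinuousLinearEquiv : E m ≃L[ℝ] E m) : E m →L[ℝ] E m) ζ =
      gmtAdj (T : E m →L[ℝ] E m) (O.symm ζ) := by
    intro ζ
    rw [e1]
    show ContinuousLinearMap.adjoint _ ζ = _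
    rw [ContinuousLinearMap.adjoint_comp]
    show gmtAdj (T : E m →L[ℝ] E m) (gmtAdj (O.toContinuousLinearEquiv : E m →L[ℝ] E m) ζ) = _
    rw [e2]
    rfl
  rw [e4, e4, hT, e1, gmtfr_det_comp, mul_pow, e3, one_mul, LinearIsometryEquiv.inner_map_map]

/-- frames of the Euclidean form are isometries. -/
theorem gmt_frame_eu_isometry (hm : 2 ≤ m) {T : E m ≃L[ℝ] E m} (hT : GmtFrame (gmtEu m) T) :
    ∃ O : E m ≃ₗᵢ[ℝ] E m, ∀ v, T v = O v := by
  obtain ⟨O, hO⟩ := gmt_frame_unique hm gmt_frame_eu hT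
  exact ⟨O, fun v => hO v⟩

theorem gmtfr_tendsto_comp {f g : ℕ → E m →L[ℝ] E m} {f₀ g₀ : E m →L[ℝ] E m}
    (hf : Tendsto f atTop (𝓝 f₀)) (hg : Tendsto g atTop (𝓝 g₀)) :
    Tendsto (fun i => (f i).comp (g i)) atTop (𝓝 (f₀.comp g₀)) :=
  ((isBoundedBilinearMap_comp (𝕜 := ℝ) (E := E m) (F := E m) (G := E m)).continuous.tendsto
    (f₀, g₀)).comp (hf.prodMk_nhds hg)

theorem gmtfr_tendsto_apply {G : Type*} [NormedAddCommGroup G] [NormedSpace ℝ G]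
    {f : ℕ → E m →L[ℝ] G} {x : ℕ → E m} {f₀ : E m →L[ℝ] G} {x₀ : E m}
    (hf : Tendsto f atTop (𝓝 f₀)) (hx : Tendsto x atTop (𝓝 x₀)) :
    Tendsto (fun i => f i (x i)) atTop (𝓝 (f₀ x₀)) :=
  ((isBoundedBilinearMap_apply (𝕜 := ℝ) (E := E m) (F := G)).continuous.tendsto
    (f₀, x₀)).comp (hf.prodMk_nhds hx)

theorem GmtEll.abs {c C : ℝ} {B : Bil m} (h : GmtEll c C B) : GmtEll c |C| B :=
  ⟨h.symm, h.lo, fun ξ => by rw [sq_abs]; exact h.hi ξ⟩

theorem GmtEll.le_abs (hm : 2 ≤ m) {c C : ℝ} (hc : 0 < c) {B : Bil m} (h : GmtEll c C B) : c ≤ |C| := by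
  have h1 := (h.lo (eb ⟨0, by omega⟩)).trans (h.hi (eb ⟨0, by omega⟩))
  have h2 : ‖(eb ⟨0, by omega⟩ : E m)‖ = 1 := by simp
  rw [h2, one_pow, mul_one, mul_one, ← sq_abs C] at h1
  exact (pow_le_pow_iff_left₀ hc.le (abs_nonneg C) two_ne_zero).1 h1

/-- continuity of frames up to isometries and subsequences. -/
theorem gmt_frame_limit (hm : 2 ≤ m) {c C : ℝ} (hc : 0 < c) {B : ℕ → Bil m} {B' : Bil m}
    (hB : ∀ i, GmtEll c C (B i)) (hlim : Tendsto B atTop (𝓝 B')) {T : ℕ → E m ≃L[ℝ] E m}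
    {T' : E m ≃L[ℝ] E m} (hT : ∀ i, GmtFrame (B i) (T i)) (hT' : GmtFrame B' T') :
    ∃ (φ : ℕ → ℕ) (O : E m ≃ₗᵢ[ℝ] E m), StrictMono φ ∧
      Tendsto (fun i => ((T' : E m →L[ℝ] E m).comp ((T (φ i)).symm : E m →L[ℝ] E m))) atTop
        (𝓝 (O.toContinuousLinearEquiv : E m →L[ℝ] E m)) := by
  obtain ⟨M, hM1, hM⟩ := gmt_frame_bound hm hc ((hB 0).le_abs hm hc)
  have hM0 : 0 ≤ M := zero_le_one.trans hM1
  have hmem : ∀ i, (((T i : E m ≃L[ℝ] E m) : E m →L[ℝ] E m), ((T i).symm : E m →L[ℝ] E m)) ∈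
      closedBall (0 : E m →L[ℝ] E m) M ×ˢ closedBall (0 : E m →L[ℝ] E m) M := by
    intro i
    obtain ⟨h1, h2, -, -⟩ := hM (B i) (T i) (hB i).abs (hT i)
    refine ⟨?_, ?_⟩
    · rw [mem_closedBall_zero_iff]
      exact ContinuousLinearMap.opNorm_le_bound _ hM0 h1
    · rw [mem_closedBall_zero_iff]
      exact ContinuousLinearMap.opNorm_le_bound _ hM0 h2
  obtain ⟨⟨T₀, A₀⟩, -, φ, hφ, hlimφ⟩ :=
    ((isCompact_closedBall (0 : E m →L[ℝ] E m) M).prod (isCompact_closedBall _ M)).tendsto_subseq hmem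
  have hT₀ : Tendsto (fun i => ((T (φ i) : E m ≃L[ℝ] E m) : E m →L[ℝ] E m)) atTop (𝓝 T₀) :=
    (continuous_fst.tendsto (T₀, A₀)).comp hlimφ
  have hA₀ : Tendsto (fun i => ((T (φ i)).symm : E m →L[ℝ] E m)) atTop (𝓝 A₀) :=
    (continuous_snd.tendsto (T₀, A₀)).comp hlimφ
  have h1 : T₀.comp A₀ = ContinuousLinearMap.id ℝ (E m) := by
    refine tendsto_nhds_unique (gmtfr_tendsto_comp hT₀ hA₀) ?_
    simp only [ContinuousLinearEquiv.coe_comp_coe_symm]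
    exact tendsto_const_nhds
  have h2 : A₀.comp T₀ = ContinuousLinearMap.id ℝ (E m) := by
    refine tendsto_nhds_unique (gmtfr_tendsto_comp hA₀ hT₀) ?_
    simp only [ContinuousLinearEquiv.coe_symm_comp_coe]
    exact tendsto_const_nhds
  let Te : E m ≃L[ℝ] E m := ContinuousLinearEquiv.equivOfInverse T₀ A₀
    (fun x => congrArg (fun f : E m →L[ℝ] E m => f x) h2)
    (fun x => congrArg (fun f : E m →L[ℝ] E m => f x) h1)
  have hTe : (Te : E m →L[ℝ] E m) = T₀ := rfl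
  have hfr : GmtFrame B' Te := by
    intro ξ η
    rw [hTe]
    have ha : Tendsto (fun i => gmtAdj ((T (φ i) : E m ≃L[ℝ] E m) : E m →L[ℝ] E m)) atTop
        (𝓝 (gmtAdj T₀)) :=
      ((ContinuousLinearMap.adjoint (𝕜 := ℝ) (E := E m) (F := E m)).continuous.tendsto T₀).comp hT₀
    have hBφ : Tendsto (fun i => B (φ i)) atTop (𝓝 B') := hlim.comp hφ.tendsto_atTop
    have l1 := gmtfr_tendsto_apply (gmtfr_tendsto_apply hBφ (gmtfr_tendsto_apply ha
      (tendsto_const_nhds (x := ξ)))) (gmtfr_tendsto_apply ha (tendsto_const_nhds (x := η)))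
    have l2 : Tendsto (fun i => ((T (φ i) : E m ≃L[ℝ] E m) : E m →L[ℝ] E m).det ^ 2 * ⟪ξ, η⟫) atTop
        (𝓝 (T₀.det ^ 2 * ⟪ξ, η⟫)) :=
      (((ContinuousLinearMap.continuous_det.tendsto T₀).comp hT₀).pow 2).mul_const _
    refine tendsto_nhds_unique l1 (l2.congr fun i => ?_)
    exact (hT (φ i) ξ η).symm
  obtain ⟨O, hO⟩ := gmt_frame_unique hm hfr hT'
  refine ⟨φ, O, hφ, ?_⟩
  have h3 : (O.toContinuousLinearEquiv : E m →L[ℝ] E m) = (T' : E m →L[ℝ] E m).comp A₀ := by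
    ext1 v
    show O v = T' (A₀ v)
    rw [hO]
    show O v = O (T₀ (A₀ v))
    rw [show T₀ (A₀ v) = v from congrArg (fun f : E m →L[ℝ] E m => f v) h1]
  rw [h3]
  exact gmtfr_tendsto_comp tendsto_const_nhds hA₀

/-- ellipticity constants of a smooth integrand on a compact set (cf. `gmtInt_bounds`). -/
theorem gmtInt_ell {U K : Set (E m)} {A : E m → Bil m} (hU : IsOpen U) (hA : GmtInt U A)
    (hK : IsCompact K) (hKU : K ⊆ U) :
    ∃ c C : ℝ, 0 < c ∧ c ≤ C ∧ ∀ x ∈ K, GmtEll c C (A x) := by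
  obtain ⟨c, C, hc, hcC, hb⟩ := gmtInt_bounds hU hA hK hKU
  exact ⟨c, C, hc, hcC, fun x hx => ⟨hA.symm x (hKU hx), fun ξ => (hb x hx ξ).1, fun ξ => (hb x hx ξ).2⟩⟩

end Claimed.Agent.Gmt
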