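import Claimed.Agent.Lib.Gmt.GgDens

/-!
# Lib/Gmt [GgMeas2 part B] [GgMeas part B] G0b: the perimeter measures `gmtPerM A S`, `gmtMu S` and the normal `gmtNu S`.
(architect: helper75)          These are the proofs of section 1 of `IF.lean`.

CHAIN
1. `gmt_deGiorgiLetta`: an increasing, subadditive, superadditive (on disjoint sets), inner regular set function `α` on open sets is the
   restriction of an outer regular Borel measure.  Proof: `μ* B = ⨅ U ⊇ B open, α U` is an outer measure (countable subadditivity on open sets: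
   inner regularity + compactness reduce to finite unions); it is a METRIC outer measure (`MeasureTheory.OuterMeasure.IsMetric`: sets at positive distance have
   disjoint open neighbourhoods; superadditivity), so Borel sets are Carathéodory measurable (`IsMetric.borel_le_caratheodory`); `toMeasure`.
2. `gmtPerM_spec`: the four properties for `U ↦ gmtPer A S U` are `gmtPer_mono`, `gmtPer_union_le`, `gmtPer_add_le_union`, `gmtPer_iUnion_mono` (for non measurable `S` replace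
   `S` by `toMeasurable volume S`: `Measure.restrict_toMeasurable_of_sFinite`).
3. `gmtNu_spec`: let `U₀ = {x | ∃ r > 0, gmtP S (ball x r) ≠ ⊤}` (open; contains every open `U` with `GmtLF S U`; `GmtLF S U₀` by `gmtLF_iff_local` if `S` is measurable; if `S` is not measurable no `U` satisfies `GmtLF S U` and `ν = 0` works).
   Apply `gmtRiesz_of_measure` (`GgRieszC.lean`) on `U₀` to `L T = ∫_S div T` and `μ = gmtMu S` (outer regular by `gmtPerM_spec`; `μ W = gmtP S W = sup L T` by `gmtMu_open` and `gmtAdm_eu_iff`; `GmtTestK` with `k = m` is `GmtTest`; finite on compact sets: `gmtMu_compact_ne_top`).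
4. `gmtPerM_eq_withDensity`: NOW IN `GgDens.lean` (freezing of the coefficients + `gmt_polar_open_gen`).
-/

set_option autoImplicit false
open scoped ContDiff ENNReal RealInnerProductSpace Topology
open MeasureTheory Metric Set Filter

namespace Claimed.Agent.Gmt

variable {m : ℕ}

/-- `gmtBd S = spt |Dχ_S|`. -/
theorem gmtBd_iff_gmtMu {S : Set (E m)} (hS : MeasurableSet S) (x : E m) :
    x ∈ gmtBd S ↔ ∀ r > 0, 0 < gmtMu S (ball x r) := by
  rw [gmtP_ball_pos_iff hS]
  refine forall₂_congr fun r _ => ?_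
  rw [gmtMu_open S isOpen_ball]

theorem gmtMu_compl_gmtBd {S : Set (E m)} (hS : MeasurableSet S) : gmtMu S (gmtBd S)ᶜ = 0 := by
  have ho : IsOpen (gmtBd S)ᶜ := (isClosed_gmtBd S).isOpen_compl
  rw [gmtMu_open S ho]
  exact gmtP_eq_zero_of_disjoint hS ho disjoint_compl_left

/-- Gauss-Green with a scalar factor: `∫_S (φ div T + ∇φ·T) = ∫ φ T·ν dμ` for `φ ∈ C¹(U)`. -/
theorem gmt_gauss_green_smul {U S : Set (E m)} (hU : IsOpen U) (hS : GmtLF S U) {T : E m → E m}
    (hT : GmtTest U T) {φ : E m → ℝ} (hφ : ContDiffOn ℝ 1 φ U) :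
    ∫ x in S, (φ x * gmtDiv T x + fderiv ℝ φ x (T x)) =
      ∫ x, φ x * ⟪T x, gmtNu S x⟫ ∂(gmtMu S) := by
  have hT' := hT.smul_on hU hφ
  have h := gmt_gauss_green hU hS hT'
  have e1 : ∀ x, gmtDiv (fun y => φ y • T y) x = φ x * gmtDiv T x + fderiv ℝ φ x (T x) := by
    intro x
    by_cases hx : x ∈ tsupport T
    · exact gmtDiv_smul ((hφ.contDiffAt (hU.mem_nhds (hT.sub hx))).differentiableAt one_ne_zero)
        hT.differentiable.differentiableAt
    · have hx' : x ∉ tsupport (fun y => φ y • T y) := by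
        intro hx'
        apply hx
        have hs : Function.support (fun x => φ x • T x) ⊆ tsupport T := by
          intro x hx
          apply subset_tsupport
          intro h0
          apply hx
          show φ x • T x = 0
          rw [h0, smul_zero]
        exact closure_minimal hs (isClosed_tsupport T) hx'
      rw [gmtDiv_eq_zero_of_notMem hx', gmtDiv_eq_zero_of_notMem hx,
        image_eq_zero_of_notMem_tsupport hx, map_zero, mul_zero, add_zero]
  simp only [e1, real_inner_smul_left] at h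
  exact h

/-- comparison of outer regular measures on open subsets of `U`. -/
theorem gmt_restrict_add_le {U : Set (E m)} (hU : IsOpen U) {μ₁ μ₂ μ₃ μ₄ : Measure (E m)}
    [μ₃.OuterRegular] [μ₄.OuterRegular]
    (h : ∀ V, IsOpen V → V ⊆ U → μ₁ V + μ₂ V ≤ μ₃ V + μ₄ V) :
    μ₁.restrict U + μ₂.restrict U ≤ μ₃.restrict U + μ₄.restrict U := by
  rw [Measure.le_iff]
  intro B hB
  simp only [Measure.add_apply, Measure.restrict_apply hB]
  refine ENNReal.le_of_forall_pos_le_add fun ε hε hfin => ?_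
  have hε2 : ((ε / 2 : NNReal) : ℝ≥0∞) ≠ 0 := by
    have : 0 < ε / 2 := by positivity
    exact_mod_cast this.ne'
  have h3 : μ₃ (B ∩ U) ≠ ⊤ := (ENNReal.add_lt_top.1 hfin).1.ne
  have h4 : μ₄ (B ∩ U) ≠ ⊤ := (ENNReal.add_lt_top.1 hfin).2.ne
  obtain ⟨V₃, hV₃, ho₃, hm₃⟩ := (B ∩ U).exists_isOpen_lt_add h3 hε2
  obtain ⟨V₄, hV₄, ho₄, hm₄⟩ := (B ∩ U).exists_isOpen_lt_add h4 hε2
  have hsub : B ∩ U ⊆ V₃ ∩ V₄ ∩ U := fun y hy => ⟨⟨hV₃ hy, hV₄ hy⟩, hy.2⟩
  calc μ₁ (B ∩ U) + μ₂ (B ∩ U) ≤ μ₁ (V₃ ∩ V₄ ∩ U) + μ₂ (V₃ ∩ V₄ ∩ U) :=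
        add_le_add (measure_mono hsub) (measure_mono hsub)
    _ ≤ μ₃ (V₃ ∩ V₄ ∩ U) + μ₄ (V₃ ∩ V₄ ∩ U) :=
        h _ ((ho₃.inter ho₄).inter hU) inter_subset_right
    _ ≤ μ₃ V₃ + μ₄ V₄ :=
        add_le_add (measure_mono fun y hy => hy.1.1) (measure_mono fun y hy => hy.1.2)
    _ ≤ (μ₃ (B ∩ U) + ((ε / 2 : NNReal) : ℝ≥0∞)) + (μ₄ (B ∩ U) + ((ε / 2 : NNReal) : ℝ≥0∞)) :=
        add_le_add hm₃.le hm₄.le
    _ = μ₃ (B ∩ U) + μ₄ (B ∩ U) + ε := by
        have : ((ε / 2 : NNReal) : ℝ≥0∞) + ((ε / 2 : NNReal) : ℝ≥0∞) = ε := by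
          rw [← ENNReal.coe_add, add_halves]
        rw [← this]
        ring

/-- the lattice inequality for measures. -/
theorem gmtPerM_lattice {U : Set (E m)} {A : E m → Bil m} (hU : IsOpen U) (hA : GmtInt U A)
    {S S' : Set (E m)} (hS : MeasurableSet S) (hS' : MeasurableSet S') :
    (gmtPerM A (S ∩ S')).restrict U + (gmtPerM A (S ∪ S')).restrict U ≤
      (gmtPerM A S).restrict U + (gmtPerM A S').restrict U := by
  have := (gmtPerM_spec A S).1
  have := (gmtPerM_spec A S').1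
  refine gmt_restrict_add_le hU fun V hV hVU => ?_
  simp only [gmtPerM_open A _ hV]
  exact gmtPer_lattice hV (hA.mono hVU) hS hS'

/-- the dilation homeomorphism `y ↦ x + ρ • y`. -/
theorem gmt_exists_dilHomeo (x : E m) {ρ : ℝ} (hρ : 0 < ρ) :
    ∃ h : E m ≃ₜ E m, (∀ y, h y = x + ρ • y) ∧ ∀ z, h.symm z = ρ⁻¹ • (z - x) := by
  refine ⟨(Homeomorph.smulOfNeZero ρ hρ.ne').trans (Homeomorph.addLeft x), fun y => rfl, fun z => ?_⟩
  rw [Homeomorph.symm_apply_eq]
  show z = x + ρ • (ρ⁻¹ • (z - x))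
  rw [smul_smul, mul_inv_cancel₀ hρ.ne', one_smul]
  abel

theorem gmt_map_homeo_apply (h : E m ≃ₜ E m) (μ : Measure (E m)) (B : Set (E m)) :
    μ.map h B = μ (h ⁻¹' B) := h.toMeasurableEquiv.map_apply B

theorem gmt_preimage_dilHomeo {x : E m} {ρ : ℝ} {h : E m ≃ₜ E m} (hh : ∀ y, h y = x + ρ • y)
    (B : Set (E m)) : h ⁻¹' B = gmtDil x ρ B := by
  ext y
  simp only [mem_preimage, hh, gmtDil, mem_ofPred_eq]

/-- the perimeter measure of `S` is a multiple of the push forward of that of the dilated set. -/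
theorem gmtMu_eq_smul_map_gmtDil {S : Set (E m)} (hS : MeasurableSet S) (x : E m) {ρ : ℝ}
    (hρ : 0 < ρ) (h : E m ≃ₜ E m) (hh : ∀ y, h y = x + ρ • y) :
    gmtMu S = ENNReal.ofReal (ρ⁻¹ * ρ ^ m) • (gmtMu (gmtDil x ρ S)).map h := by
  have : (gmtMu (gmtDil x ρ S)).OuterRegular := (gmtPerM_spec _ _).1
  have : ((gmtMu (gmtDil x ρ S)).map h).OuterRegular := Measure.OuterRegular.map h _
  refine (gmtPerM_unique ⟨Measure.OuterRegular.smul _ ENNReal.ofReal_ne_top, fun U hU => ?_⟩).symm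
  have hoU : IsOpen (gmtDil x ρ U) := by
    rw [← gmt_preimage_dilHomeo hh]
    exact hU.preimage h.continuous
  rw [Measure.smul_apply, gmt_map_homeo_apply, gmt_preimage_dilHomeo hh, gmtMu_open _ hoU,
    smul_eq_mul, ENNReal.ofReal_mul (inv_nonneg.2 hρ.le), mul_assoc,
    mul_comm (ENNReal.ofReal (ρ ^ m)), gmtP_gmtDil hS U x hρ, ← mul_assoc,
    ← ENNReal.ofReal_mul (inv_nonneg.2 hρ.le), inv_mul_cancel₀ hρ.ne', ENNReal.ofReal_one, one_mul]
  rfl

/-- scaling of the measure and of the normal. -/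
theorem gmtMu_gmtDil {S : Set (E m)} (hS : MeasurableSet S) (x : E m) {ρ : ℝ} (hρ : 0 < ρ)
    (B : Set (E m)) :
    gmtMu (gmtDil x ρ S) (gmtDil x ρ B) * ENNReal.ofReal (ρ ^ m) = ENNReal.ofReal ρ * gmtMu S B := by
  obtain ⟨h, hh, -⟩ := gmt_exists_dilHomeo x hρ
  rw [gmtMu_eq_smul_map_gmtDil hS x hρ h hh, Measure.smul_apply, gmt_map_homeo_apply,
    gmt_preimage_dilHomeo hh, smul_eq_mul, ← mul_assoc, ← ENNReal.ofReal_mul hρ.le, ← mul_assoc,
    mul_inv_cancel₀ hρ.ne', one_mul, mul_comm]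

theorem GmtLF.gmtDil {U S : Set (E m)} (hS : GmtLF S U) (x : E m) {ρ : ℝ} (hρ : 0 < ρ) :
    GmtLF (gmtDil x ρ S) (gmtDil x ρ U) := by
  obtain ⟨h, hh, -⟩ := gmt_exists_dilHomeo x hρ
  refine ⟨measurableSet_gmtDil hS.1 x ρ, fun W hW => ?_⟩
  have hW' : GmtCC (h '' W) U := by
    refine ⟨h.isOpenMap _ hW.1, ?_, ?_⟩
    · rw [← h.image_closure]
      exact hW.2.1.image h.continuous
    · rw [← h.image_closure]
      rintro _ ⟨y, hy, rfl⟩
      have := hW.2.2 hy
      rw [← gmt_preimage_dilHomeo hh] at this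
      exact this
  have h1 := hS.2 _ hW'
  have h2 := gmtP_gmtDil hS.1 (h '' W) x hρ
  rw [← gmt_preimage_dilHomeo hh (h '' W), h.injective.preimage_image] at h2
  intro htop
  rw [htop, ENNReal.top_mul (by simpa using pow_pos hρ m)] at h2
  exact ENNReal.mul_ne_top ENNReal.ofReal_ne_top h1 h2.symm

/-- change of variables for integrals against the perimeter measure. -/
theorem integral_gmtMu_gmtDil {S : Set (E m)} (hS : MeasurableSet S) (x : E m) {ρ : ℝ}
    (hρ : 0 < ρ) (g : E m → ℝ) :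
    ρ ^ m * ∫ y, g (x + ρ • y) ∂(gmtMu (gmtDil x ρ S)) = ρ * ∫ z, g z ∂(gmtMu S) := by
  obtain ⟨h, hh, -⟩ := gmt_exists_dilHomeo x hρ
  rw [gmtMu_eq_smul_map_gmtDil hS x hρ h hh, integral_smul_measure,
    h.measurableEmbedding.integral_map, ENNReal.toReal_ofReal (by positivity)]
  simp only [hh, smul_eq_mul]
  rw [← mul_assoc, ← mul_assoc, mul_inv_cancel₀ hρ.ne', one_mul]

/-- test fields are transported by dilations. -/
theorem gmt_test_dil {U : Set (E m)} {x : E m} {ρ : ℝ} (hρ : 0 < ρ) {T : E m → E m}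
    (hT : GmtTest (gmtDil x ρ U) T) : GmtTest U (fun z => T (ρ⁻¹ • (z - x))) := by
  obtain ⟨h, hh, hs⟩ := gmt_exists_dilHomeo x hρ
  have e : (fun z => T (ρ⁻¹ • (z - x))) = T ∘ h.symm := by
    funext z
    simp only [Function.comp_apply, hs]
  refine ⟨hT.c1.comp (by fun_prop), ?_, ?_⟩
  · rw [e]
    exact hT.cpt.comp_homeomorph h.symm
  · rw [e, tsupport_comp_eq_preimage]
    intro z hz
    have := hT.sub hz
    rw [← gmt_preimage_dilHomeo hh] at this
    simpa using this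

theorem gmtDiv_dil {T : E m → E m} (hT : Differentiable ℝ T) (x : E m) (ρ : ℝ) (z : E m) :
    gmtDiv (fun z => T (ρ⁻¹ • (z - x))) z = ρ⁻¹ * gmtDiv T (ρ⁻¹ • (z - x)) := by
  have h1 : HasFDerivAt (fun z : E m => ρ⁻¹ • (z - x)) (ρ⁻¹ • ContinuousLinearMap.id ℝ (E m)) z :=
    ((hasFDerivAt_id z).sub_const x).const_smul ρ⁻¹
  have h2 := ((hT (ρ⁻¹ • (z - x))).hasFDerivAt.comp z h1).fderiv
  have h3 : fderiv ℝ (fun z => T (ρ⁻¹ • (z - x))) z =
      (fderiv ℝ T (ρ⁻¹ • (z - x))).comp (ρ⁻¹ • ContinuousLinearMap.id ℝ (E m)) := h2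
  simp only [gmtDiv, h3, Finset.mul_sum]
  refine Finset.sum_congr rfl fun i _ => ?_
  simp

/-- Lebesgue change of variables for dilations. -/
theorem gmt_setIntegral_dil (S : Set (E m)) (hS : MeasurableSet S) (x : E m) {ρ : ℝ} (hρ : 0 < ρ)
    (F : E m → ℝ) :
    ∫ z in S, F (ρ⁻¹ • (z - x)) = ρ ^ m * ∫ y in gmtDil x ρ S, F y := by
  have h1 : ∀ y, (gmtDil x ρ S).indicator F y =
      S.indicator (fun z => F (ρ⁻¹ • (z - x))) (x + ρ • y) := by
    intro y
    have e : ρ⁻¹ • (x + ρ • y - x) = y := by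
      rw [add_sub_cancel_left, smul_smul, inv_mul_cancel₀ hρ.ne', one_smul]
    by_cases hy : x + ρ • y ∈ S
    · rw [indicator_of_mem hy, indicator_of_mem (show y ∈ gmtDil x ρ S from hy), e]
    · rw [indicator_of_notMem hy, indicator_of_notMem (show y ∉ gmtDil x ρ S from hy)]
  rw [← integral_indicator hS, ← integral_indicator (measurableSet_gmtDil hS x ρ)]
  simp only [h1]
  rw [Measure.integral_comp_smul volume
    (fun w => S.indicator (fun z => F (ρ⁻¹ • (z - x))) (x + w)) ρ,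
    integral_add_left_eq_self (μ := volume) (S.indicator (fun z => F (ρ⁻¹ • (z - x)))) x,
    finrank_euclideanSpace_fin, abs_of_pos (by positivity), smul_eq_mul, ← mul_assoc,
    mul_inv_cancel₀ (pow_pos hρ m).ne', one_mul]
theorem gmtNu_gmtDil {U S : Set (E m)} (hU : IsOpen U) (hS : GmtLF S U) (x : E m) {ρ : ℝ}
    (hρ : 0 < ρ) :
    gmtNu (gmtDil x ρ S) =ᵐ[(gmtMu (gmtDil x ρ S)).restrict (gmtDil x ρ U)]
      fun y => gmtNu S (x + ρ • y) := by
  obtain ⟨h, hh, hs⟩ := gmt_exists_dilHomeo x hρ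
  have hoU : IsOpen (gmtDil x ρ U) := by
    rw [← gmt_preimage_dilHomeo hh]
    exact hU.preimage h.continuous
  have hmU : MeasurableSet (gmtDil x ρ U) := hoU.measurableSet
  have hν : Measurable fun y => gmtNu S (x + ρ • y) :=
    (measurable_gmtNu S).comp (by fun_prop)
  have hpm : ENNReal.ofReal (ρ ^ m) ≠ 0 := by simpa using pow_pos hρ m
  have key := gmtMu_gmtNu_unique (μ := (gmtMu (gmtDil x ρ S)).restrict (gmtDil x ρ U))
    (ν := fun y => gmtNu S (x + ρ • y)) hoU (measurableSet_gmtDil hS.1 x ρ) hν ?_ ?_ ?_ ?_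
  · exact key.2.2.symm
  · -- unit length
    have h1 := norm_gmtNu_ae hU hS
    have hN : MeasurableSet {z | ¬ ‖gmtNu S z‖ = 1} :=
      (measurableSet_eq_fun (measurable_gmtNu S).norm measurable_const).compl
    rw [ae_iff, Measure.restrict_apply hN] at h1
    have hN' : MeasurableSet {y | ¬ ‖gmtNu S (x + ρ • y)‖ = 1} :=
      (measurableSet_eq_fun hν.norm measurable_const).compl
    rw [ae_iff, Measure.restrict_apply hN']
    have h2 := gmtMu_gmtDil hS.1 x hρ ({z | ¬ ‖gmtNu S z‖ = 1} ∩ U)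
    rw [h1, mul_zero, mul_eq_zero] at h2
    exact h2.resolve_right hpm
  · rw [Measure.restrict_apply hmU.compl, compl_inter_self, measure_empty]
  · intro K hK hKU
    exact ((Measure.restrict_apply_le _ _).trans_lt
      (gmtMu_compact_ne_top hoU (hS.gmtDil x hρ) hK hKU).lt_top).ne
  · intro T hT
    have hT' := gmt_test_dil hρ hT
    have hgg := gmt_gauss_green hU hS hT'
    simp only [gmtDiv_dil hT.differentiable] at hgg
    rw [gmt_setIntegral_dil S hS.1 x hρ (fun y => ρ⁻¹ * gmtDiv T y), integral_const_mul] at hgg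
    have h3 := integral_gmtMu_gmtDil hS.1 x hρ (fun z => ⟪T (ρ⁻¹ • (z - x)), gmtNu S z⟫)
    rw [← hgg] at h3
    have e : ∀ y : E m, ρ⁻¹ • (x + ρ • y - x) = y := by
      intro y
      rw [add_sub_cancel_left, smul_smul, inv_mul_cancel₀ hρ.ne', one_smul]
    simp only [e] at h3
    rw [setIntegral_eq_integral_of_forall_compl_eq_zero (s := gmtDil x ρ U)
      (μ := gmtMu (gmtDil x ρ S))]
    · have h4 : ρ ^ m * ∫ y, ⟪T y, gmtNu S (x + ρ • y)⟫ ∂(gmtMu (gmtDil x ρ S)) =
          ρ ^ m * ∫ y in gmtDil x ρ S, gmtDiv T y := by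
        rw [h3]
        field_simp
      exact (mul_left_cancel₀ (pow_pos hρ m).ne' h4).symm
    · intro y hy
      have : y ∉ tsupport T := fun h' => hy (hT.sub h')
      rw [image_eq_zero_of_notMem_tsupport this, inner_zero_left]

end Claimed.Agent.Gmt
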