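import Claimed.Agent.Lib.Gmt.FrA
import Claimed.Agent.Lib.Gmt.Data
import Claimed.Agent.Lib.Gmt.GgMeas

/-!
# Lib/Gmt FRAMES [part B: definitions, set algebra]: affine changes of variables (blow-up maps).   (architect: helper184)

`gmtAff T z r y = z + r T⁻¹ y`;  `gmtBlow T z r S = (gmtAff T z r)⁻¹ S` is "`S` seen from `z` at scale `r` in the frame `T`".
With `Ā = gmtBlowA T z r A`, `f̄ = gmtBlowF T z r f`:
`Per_A(S;U) = r^{m-1} Per_Ā(S̄;Ū)`,  `∫_{S∩W} f = r^{m-1} ∫_{S̄∩W̄} f̄`;  so local absolute minimisers are preserved.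

PLAN OF PROOFS (this file: elementary; `Ψ = gmtAff T z r` is an affine homeomorphism with inverse `x ↦ r⁻¹ • T (x - z)`)
* `gmtAff_inv`: unfold; `map_smul`, `T.symm_apply_apply`, `smul_smul`, `mul_inv_cancel₀ hr.ne'`, `add_sub_cancel`.   `gmtAff_bijective`: injective (`add_left_cancel`, `smul_right_injective _ hr.ne'`, `T.symm.injective`), surjective by `gmtAff_inv`.
* `gmtBlow_refl`, `gmtBlow_gmtBlow`, `gmtDil_gmtBlow`, `gmtBlow_univ`: `ext y`; unfold `gmtBlow`, `gmtAff`, `gmtDil`; `simp [smul_add, smul_smul, add_assoc, mul_comm]`.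
* `measurableSet_gmtBlow`, `isOpen_gmtBlow`: `Ψ` is continuous (`continuous_const.add (continuous_const.smul T.symm.continuous)`), preimages.
* `volume_gmtBlow`: `gmtBlow T z r S = Ψ ⁻¹' S`; `Ψ = (· + z) ∘ L`, `L = r • T.symm`; `MeasureTheory.Measure.addHaar_preimage_continuousLinearMap`/`addHaar_preimage_linearMap` (`volume (L ⁻¹' s) = ofReal |(det L)⁻¹| * volume s`), `measure_preimage_add`; `det (r • T.symm) = r ^ m * (det T)⁻¹` (`LinearMap.det_smul`, `finrank_euclideanSpace_fin`, `LinearEquiv.det_symm`-type / `det T * det T.symm = 1`).   `gmtBlow_congr`: `volume_gmtBlow` applied to `symmDiff` (preimage of a null set is null).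
* `ball_subset_gmtBlow`, `gmtBlow_ball_subset`: `‖Ψ y - z‖ = r ‖T.symm y‖ ≤ r M ‖y‖`; `y = T (T.symm y)`, `‖y‖ ≤ M ‖T.symm y‖ = M ‖Ψ y - z‖ / r` (`mem_ball_zero_iff`, `mem_ball_iff_norm`, `div_lt_iff₀`, `lt_div_iff₀`).
* `gmtCC_gmtBlow`, `gmtCD_gmtBlow`: build the `Homeomorph` `h` of `E m` with `h = Ψ` (`Homeomorph.mk (Equiv.ofBijective ..)` or compose `T.symm.toHomeomorph`, `Homeomorph.smulOfNeZero r`, `Homeomorph.addLeft z`): `h.preimage_closure`, `h.isCompact_preimage`, `h.isOpen_preimage`, `preimage` is monotone and reflects inclusions (surjectivity), commutes with `symmDiff`; compact `K ↦ Ψ ⁻¹' K`, resp. `Ψ '' K`.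
-/

set_option autoImplicit false
open scoped ContDiff ENNReal RealInnerProductSpace Topology
open MeasureTheory Metric Set Filter

namespace Claimed.Agent.Gmt

variable {m : ℕ}

/-- the affine map `y ↦ z + r T⁻¹ y`. -/
def gmtAff (T : E m ≃L[ℝ] E m) (z : E m) (r : ℝ) (y : E m) : E m := z + r • T.symm y

/-- `S` seen from `z` at scale `r` in the frame `T`. -/
def gmtBlow (T : E m ≃L[ℝ] E m) (z : E m) (r : ℝ) (S : Set (E m)) : Set (E m) :=
  gmtAff T z r ⁻¹' S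

/-- the integrand in the new coordinates (normalised by `r^{2(m-1)}`). -/
noncomputable def gmtBlowA (T : E m ≃L[ℝ] E m) (z : E m) (r : ℝ) (A : E m → Bil m) :
    E m → Bil m := fun y =>
  ((T : E m →L[ℝ] E m).det ^ 2)⁻¹ • (A (gmtAff T z r y)).bilinearComp
    (gmtAdj (T : E m →L[ℝ] E m)) (gmtAdj (T : E m →L[ℝ] E m))

/-- the pressure in the new coordinates (normalised by `r^{m-1}`). -/
noncomputable def gmtBlowF (T : E m ≃L[ℝ] E m) (z : E m) (r : ℝ) (f : E m → ℝ) : E m → ℝ :=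
  fun y => r * |(T : E m →L[ℝ] E m).det|⁻¹ * f (gmtAff T z r y)

/-! ### set algebra -/

theorem gmtAff_inv (T : E m ≃L[ℝ] E m) (z : E m) {r : ℝ} (hr : 0 < r) (x : E m) :
    gmtAff T z r (r⁻¹ • T (x - z)) = x := by
  unfold gmtAff
  rw [map_smul, T.symm_apply_apply, smul_smul, mul_inv_cancel₀ hr.ne', one_smul, add_sub_cancel]

theorem gmtAff_bijective (T : E m ≃L[ℝ] E m) (z : E m) {r : ℝ} (hr : 0 < r) :
    Function.Bijective (gmtAff T z r) := by
  constructor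
  · intro a b h
    unfold gmtAff at h
    exact T.symm.injective (smul_right_injective _ hr.ne' (add_left_cancel h))
  · intro x
    exact ⟨_, gmtAff_inv T z hr x⟩

theorem gmtBlow_refl (z : E m) (r : ℝ) (S : Set (E m)) :
    gmtBlow (ContinuousLinearEquiv.refl ℝ (E m)) z r S = gmtDil z r S := by
  ext y
  simp [gmtBlow, gmtAff, gmtDil]

/-- composition of two blow-up maps. -/
theorem gmtBlow_gmtBlow (T T' : E m ≃L[ℝ] E m) (z z' : E m) (r r' : ℝ) (S : Set (E m)) :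
    gmtBlow T' z' r' (gmtBlow T z r S) = gmtBlow (T.trans T') (gmtAff T z r z') (r * r') S := by
  ext y
  simp [gmtBlow, gmtAff, smul_add, smul_smul, add_assoc]

theorem gmtDil_gmtBlow (T : E m ≃L[ℝ] E m) (z : E m) (r s : ℝ) (S : Set (E m)) :
    gmtDil 0 s (gmtBlow T z r S) = gmtBlow T z (r * s) S := by
  ext y
  simp [gmtBlow, gmtAff, gmtDil, smul_smul]

theorem gmtFrB_continuous (T : E m ≃L[ℝ] E m) (z : E m) (r : ℝ) : Continuous (gmtAff T z r) := by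
  unfold gmtAff
  exact continuous_const.add (T.symm.continuous.const_smul r)

/-- the affine map as a homeomorphism. -/
noncomputable def gmtFrBH (T : E m ≃L[ℝ] E m) (z : E m) {r : ℝ} (hr : 0 < r) : E m ≃ₜ E m where
  toFun := gmtAff T z r
  invFun := fun x => r⁻¹ • T (x - z)
  left_inv := fun y => (gmtAff_bijective T z hr).1 (gmtAff_inv T z hr _)
  right_inv := gmtAff_inv T z hr
  continuous_toFun := gmtFrB_continuous T z r
  continuous_invFun := by fun_prop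

theorem gmtFrB_blow_eq (T : E m ≃L[ℝ] E m) (z : E m) {r : ℝ} (hr : 0 < r) (S : Set (E m)) :
    gmtBlow T z r S = gmtFrBH T z hr ⁻¹' S := rfl

theorem measurableSet_gmtBlow (T : E m ≃L[ℝ] E m) (z : E m) (r : ℝ) {S : Set (E m)}
    (hS : MeasurableSet S) : MeasurableSet (gmtBlow T z r S) := by
  exact (gmtFrB_continuous T z r).measurable hS

theorem isOpen_gmtBlow (T : E m ≃L[ℝ] E m) (z : E m) (r : ℝ) {S : Set (E m)}
    (hS : IsOpen S) : IsOpen (gmtBlow T z r S) := by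
  exact hS.preimage (gmtFrB_continuous T z r)

theorem gmtBlow_univ (T : E m ≃L[ℝ] E m) (z : E m) (r : ℝ) : gmtBlow T z r univ = univ := by
  exact preimage_univ

theorem gmtFrB_volume (T : E m ≃L[ℝ] E m) (z : E m) {r : ℝ} (hr : 0 < r) (S : Set (E m)) :
    volume S = ENNReal.ofReal (r ^ m * |(T : E m →L[ℝ] E m).det|⁻¹) * volume (gmtBlow T z r S) := by
  have hdT : LinearMap.det ((T.toLinearEquiv : E m ≃ₗ[ℝ] E m) : E m →ₗ[ℝ] E m) ≠ 0 :=
    (LinearEquiv.isUnit_det' T.toLinearEquiv).ne_zero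
  have hdet : LinearMap.det (r • ((T.toLinearEquiv.symm : E m ≃ₗ[ℝ] E m) : E m →ₗ[ℝ] E m)) =
      r ^ m * (LinearMap.det ((T.toLinearEquiv : E m ≃ₗ[ℝ] E m) : E m →ₗ[ℝ] E m))⁻¹ := by
    rw [LinearMap.det_smul, finrank_euclideanSpace_fin, LinearEquiv.det_coe_symm]
  have hne : LinearMap.det (r • ((T.toLinearEquiv.symm : E m ≃ₗ[ℝ] E m) : E m →ₗ[ℝ] E m)) ≠ 0 := by
    rw [hdet]
    exact mul_ne_zero (pow_ne_zero _ hr.ne') (inv_ne_zero hdT)
  have hpre : gmtBlow T z r S =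
      (r • ((T.toLinearEquiv.symm : E m ≃ₗ[ℝ] E m) : E m →ₗ[ℝ] E m)) ⁻¹' ((fun h => z + h) ⁻¹' S) := by
    ext y
    simp [gmtBlow, gmtAff]
  have hT : (T : E m →L[ℝ] E m).det = LinearMap.det ((T.toLinearEquiv : E m ≃ₗ[ℝ] E m) : E m →ₗ[ℝ] E m) := rfl
  rw [hpre, MeasureTheory.Measure.addHaar_preimage_linearMap _ hne, measure_preimage_add, hdet, hT,
    ← mul_assoc, ← ENNReal.ofReal_mul (by positivity)]
  have h1 : r ^ m * |LinearMap.det ((T.toLinearEquiv : E m ≃ₗ[ℝ] E m) : E m →ₗ[ℝ] E m)|⁻¹ *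
      |(r ^ m * (LinearMap.det ((T.toLinearEquiv : E m ≃ₗ[ℝ] E m) : E m →ₗ[ℝ] E m))⁻¹)⁻¹| = 1 := by
    rw [abs_inv, abs_mul, abs_inv, abs_of_pos (pow_pos hr m)]
    have h2 : |LinearMap.det ((T.toLinearEquiv : E m ≃ₗ[ℝ] E m) : E m →ₗ[ℝ] E m)| ≠ 0 := abs_ne_zero.2 hdT
    have h3 : r ^ m ≠ 0 := pow_ne_zero _ hr.ne'
    field_simp
  rw [h1, ENNReal.ofReal_one, one_mul]

/-- a.e. equality is preserved. -/
theorem gmtBlow_congr (T : E m ≃L[ℝ] E m) (z : E m) {r : ℝ} (hr : 0 < r) {S S' : Set (E m)}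
    (h : S =ᵐ[volume] S') : (gmtBlow T z r S : Set (E m)) =ᵐ[volume] gmtBlow T z r S' := by
  rw [← MeasureTheory.measure_symmDiff_eq_zero_iff] at h ⊢
  have h1 := gmtFrB_volume T z hr (symmDiff S S')
  rw [h] at h1
  have h2 : gmtBlow T z r (symmDiff S S') = symmDiff (gmtBlow T z r S) (gmtBlow T z r S') := rfl
  rw [h2] at h1
  have hdT : (T : E m →L[ℝ] E m).det ≠ 0 := (LinearEquiv.isUnit_det' T.toLinearEquiv).ne_zero
  have h3 : ENNReal.ofReal (r ^ m * |(T : E m →L[ℝ] E m).det|⁻¹) ≠ 0 := by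
    rw [Ne, ENNReal.ofReal_eq_zero, not_le]
    have := abs_pos.2 hdT
    positivity
  exact (mul_eq_zero.1 h1.symm).resolve_left h3

theorem volume_gmtBlow (T : E m ≃L[ℝ] E m) (z : E m) {r : ℝ} (hr : 0 < r) (S : Set (E m)) :
    volume S = ENNReal.ofReal (r ^ m * |(T : E m →L[ℝ] E m).det|⁻¹) * volume (gmtBlow T z r S) := by
  exact gmtFrB_volume T z hr S

/-- balls: if `‖T.symm v‖ ≤ M ‖v‖` then `ball 0 (R / (M r)) ⊆ gmtBlow T z r (ball z R)`. -/
theorem ball_subset_gmtBlow (T : E m ≃L[ℝ] E m) (z : E m) {r M R : ℝ} (hr : 0 < r) (hM : 0 < M)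
    (hT : ∀ v, ‖T.symm v‖ ≤ M * ‖v‖) : ball 0 (R / (M * r)) ⊆ gmtBlow T z r (ball z R) := by
  intro y hy
  rw [mem_ball_zero_iff, lt_div_iff₀ (by positivity)] at hy
  show gmtAff T z r y ∈ ball z R
  rw [mem_ball_iff_norm]
  unfold gmtAff
  rw [add_sub_cancel_left, norm_smul, Real.norm_of_nonneg hr.le]
  calc r * ‖T.symm y‖ ≤ r * (M * ‖y‖) := by gcongr; exact hT y
    _ = ‖y‖ * (M * r) := by ring
    _ < R := hy

theorem gmtBlow_ball_subset (T : E m ≃L[ℝ] E m) (z : E m) {r M R : ℝ} (hr : 0 < r) (hM : 0 < M)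
    (hT : ∀ v, ‖T v‖ ≤ M * ‖v‖) : gmtBlow T z r (ball z R) ⊆ ball 0 (M * R / r) := by
  intro y hy
  have hy' : gmtAff T z r y ∈ ball z R := hy
  rw [mem_ball_iff_norm] at hy'
  unfold gmtAff at hy'
  rw [add_sub_cancel_left, norm_smul, Real.norm_of_nonneg hr.le] at hy'
  rw [mem_ball_zero_iff, lt_div_iff₀ hr]
  have h1 := hT (T.symm y)
  rw [T.apply_symm_apply] at h1
  calc ‖y‖ * r ≤ (M * ‖T.symm y‖) * r := by gcongr
    _ = M * (r * ‖T.symm y‖) := by ring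
    _ < M * R := by gcongr

theorem gmtCC_gmtBlow (T : E m ≃L[ℝ] E m) (z : E m) {r : ℝ} (hr : 0 < r) {W U : Set (E m)} :
    GmtCC (gmtBlow T z r W) (gmtBlow T z r U) ↔ GmtCC W U := by
  unfold GmtCC
  rw [gmtFrB_blow_eq T z hr W, gmtFrB_blow_eq T z hr U, (gmtFrBH T z hr).isOpen_preimage,
    ← (gmtFrBH T z hr).preimage_closure, (gmtFrBH T z hr).isCompact_preimage,
    (gmtFrBH T z hr).surjective.preimage_subset_preimage_iff]

theorem gmtCD_gmtBlow (T : E m ≃L[ℝ] E m) (z : E m) {r : ℝ} (hr : 0 < r) {S S' W : Set (E m)} :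
    GmtCD (gmtBlow T z r S) (gmtBlow T z r S') (gmtBlow T z r W) ↔ GmtCD S S' W := by
  unfold GmtCD
  rw [gmtFrB_blow_eq T z hr S, gmtFrB_blow_eq T z hr S', gmtFrB_blow_eq T z hr W]
  have hs : symmDiff (gmtFrBH T z hr ⁻¹' S) (gmtFrBH T z hr ⁻¹' S') = gmtFrBH T z hr ⁻¹' (symmDiff S S') := rfl
  rw [hs]
  constructor
  · rintro ⟨K, hK, hKW, hSK⟩
    refine ⟨gmtFrBH T z hr '' K, hK.image (gmtFrBH T z hr).continuous, ?_, ?_⟩
    · rintro _ ⟨y, hy, rfl⟩
      exact hKW hy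
    · intro x hx
      obtain ⟨y, rfl⟩ := (gmtFrBH T z hr).surjective x
      exact ⟨y, hSK hx, rfl⟩
  · rintro ⟨K, hK, hKW, hSK⟩
    exact ⟨gmtFrBH T z hr ⁻¹' K, (gmtFrBH T z hr).isCompact_preimage.2 hK, preimage_mono hKW,
      preimage_mono hSK⟩

end Claimed.Agent.Gmt
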