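import Claimed.Agent.Lib.Gmt.FrB

/-!
# Lib/Gmt FRAMES [part C: perimeters, integrals, minimisers]: affine changes of variables (blow-up maps).   (architect: helper184)

`gmtAff T z r y = z + r T⁻¹ y`;  `gmtBlow T z r S = (gmtAff T z r)⁻¹ S` is "`S` seen from `z` at scale `r` in the frame `T`".
With `Ā = gmtBlowA T z r A`, `f̄ = gmtBlowF T z r f`:
`Per_A(S;U) = r^{m-1} Per_Ā(S̄;Ū)`,  `∫_{S∩W} f = r^{m-1} ∫_{S̄∩W̄} f̄`;  so local absolute minimisers are preserved.

PLAN OF PROOFS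
* `gmtPer_smul_sq`: `≤` is `gmtPer_le_mul_gmtPer hc` (`BvBasic`, with `B = A`); `≥`: the same lemma with `c⁻¹` and the roles exchanged (`A = c⁻² • (c² • A)`), `ENNReal.ofReal_mul`, `ENNReal.ofReal_inv_of_pos`.
* `gmtPer_gmtBlow`.  `m = 0`: all perimeters vanish (`gmtDiv T = 0`: empty sum; `gmtPer = ⨆ ofReal 0 = 0`).  `m ≥ 1`: `S₁ = gmtDil z r S`, `U₁ = gmtDil z r U`; `gmtBlow T z r S = T '' S₁` (`ext`; `T.image_eq_preimage`/`T.symm`).
  (i) `gmtPer_gmtDil A hS U z hr : gmtPer (A (z + r • ·)) S₁ U₁ * ofReal (r^m) = ofReal r * gmtPer A S U`;   (ii) `gmtPer_linear T Ā (S := S₁) (U := U₁)`: `gmtPer Ā (T '' S₁) (T '' U₁) = gmtPer (w ↦ det T² • (Ā (T w)).bilinearComp (adj T⁻¹) (adj T⁻¹)) S₁ U₁`,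
  and `det T² • (Ā (T w)) (adj T⁻¹ ξ) (adj T⁻¹ η) = A (z + r • w) ξ η` [`gmtAff T z r (T w) = z + r • w`; `adj T (adj T⁻¹ ξ) = adj (T⁻¹ ∘ T) ξ = ξ`: `ContinuousLinearMap.adjoint_comp`; `det T ≠ 0`].  (iii) ENNReal algebra: `X r^m = r Y` ⇒ `Y = r^(m-1) X` (`pow_succ`, `ENNReal.ofReal_mul`, cancel `ofReal r ≠ 0, ⊤`).
  ALTERNATIVE for open `U`: `gmtPer_diffeo` (`DiffeoB.lean`, helper274, proved) with `τ = gmtAff T z r`, `σ x = r⁻¹ • T (x - z)`, `gmtPull τ σ A = (r^(m-1))² • Ā`, then `gmtPer_smul_sq`.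
* `integral_gmtBlow`: `integral_image_eq_integral_abs_det_fderiv_smul` for `Ψ = gmtAff T z r` on `gmtBlow T z r S` (`Ψ '' (Ψ ⁻¹' S) = S`), for NON measurable `S` use instead `MeasurePreserving`/`integral_comp_smul`-type statements: `∫_S f = ∫ S.indicator f`, `Measure.integral_comp_...`:  simplest: `volume.map Ψ = c • volume` (`Measure.map_linearMap_addHaar_eq_smul_addHaar`, `map_add_left_eq_self`) with the closed embedding `Ψ` (`MeasurableEmbedding.setIntegral_map`).  `|det (r T⁻¹)| = r^m |det T|⁻¹ = r^(m-1) · (r |det T|⁻¹)`.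
* `gmt_blow_int`: smooth: `hA.smooth.comp` (affine map, `MapsTo` by definition of `gmtBlow`), then the continuous linear operation `B ↦ c • B.bilinearComp P P` (`ContinuousLinearMap.bilinearComp` is linear continuous in `B`: write it as `((compL ..).flip ..)`, or prove `ContDiffOn` via `contDiffOn_clm_apply`/pointwise evaluation `contDiffOn_euclidean`-style: a map into `Bil m` is smooth iff all `y ↦ B y ξ η` are (finite dimension)).  symm, pos: `gmtAdj T ξ ≠ 0` for `ξ ≠ 0` (adjoint of an equivalence is injective), `det² > 0`.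
* `gmt_blow_data`: `isOpen_gmtBlow`, `gmt_blow_int`, `hd.f` composed with the affine map times a constant.
* `gmt_blow_lam`: `meas`: `measurableSet_gmtBlow`.  Every window `W̄ ⋐ Ū` is `gmtBlow T z r W` with `W = Ψ '' W̄` (`gmtCC_gmtBlow`), every competitor `S̄' = gmtBlow T z r (Ψ '' S̄')` (`gmtCD_gmtBlow`; bijectivity: `preimage_image_eq`).  `gmtPer_gmtBlow`, `integral_gmtBlow` (for `S ∩ W`: `gmtBlow` commutes with `∩`): both sides of the minimality inequality are multiplied by `r^(m-1) > 0` (`ENNReal.toReal_mul`, `ENNReal.toReal_ofReal`, `mul_le_mul_left`).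
* `gmtBlowA_zero`: `gmtAff T z r 0 = z`; `ext ξ η`; definition of `GmtFrame`; `inv_mul_cancel₀` (`det T ≠ 0`).     `gmtBlowA_eu`: `det O = ± 1` (`LinearIsometryEquiv.det`-lemmas: `|det| = 1`), `⟪adj O ξ, adj O η⟫ = ⟪ξ, η⟫` (`adj O = O⁻¹` is an isometry).     `gmt_blow_min`: `gmt_blow_lam` + `gmtBlowA_eu`, `gmtBlowF .. 0 = 0`.
-/

set_option autoImplicit false
open scoped ContDiff ENNReal RealInnerProductSpace Topology
open MeasureTheory Metric Set Filter

namespace Claimed.Agent.Gmt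

variable {m : ℕ}

/-! ### perimeters, integrals, minimisers -/

theorem gmtPer_smul_sq (A : E m → Bil m) {c : ℝ} (hc : 0 < c) (S U : Set (E m)) :
    gmtPer (fun x => c ^ 2 • A x) S U = ENNReal.ofReal c * gmtPer A S U := by
  apply le_antisymm
  · exact gmtPer_le_mul_gmtPer hc (fun x _ ξ => by simp) S
  · have h1 : gmtPer A S U ≤ ENNReal.ofReal c⁻¹ * gmtPer (fun x => c ^ 2 • A x) S U := by
      refine gmtPer_le_mul_gmtPer (inv_pos.2 hc) (fun x _ ξ => ?_) S
      simp only [smul_apply, smul_eq_mul]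
      rw [← mul_assoc, inv_pow, inv_mul_cancel₀ (pow_ne_zero 2 hc.ne'), one_mul]
    calc ENNReal.ofReal c * gmtPer A S U
        ≤ ENNReal.ofReal c * (ENNReal.ofReal c⁻¹ * gmtPer (fun x => c ^ 2 • A x) S U) := by gcongr
      _ = gmtPer (fun x => c ^ 2 • A x) S U := by
        rw [← mul_assoc, ← ENNReal.ofReal_mul hc.le, mul_inv_cancel₀ hc.ne', ENNReal.ofReal_one, one_mul]

theorem gmtFrC_adj_adj (T : E m ≃L[ℝ] E m) (ξ : E m) :
    gmtAdj (T : E m →L[ℝ] E m) (gmtAdj (T.symm : E m →L[ℝ] E m) ξ) = ξ := by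
  have h : (gmtAdj (T : E m →L[ℝ] E m)).comp (gmtAdj (T.symm : E m →L[ℝ] E m)) =
      ContinuousLinearMap.id ℝ (E m) := by
    unfold gmtAdj
    rw [← ContinuousLinearMap.adjoint_comp]
    have : (T.symm : E m →L[ℝ] E m).comp (T : E m →L[ℝ] E m) = ContinuousLinearMap.id ℝ (E m) := by
      ext1 x
      simp
    rw [this]
    exact ContinuousLinearMap.adjoint_id
  exact congrArg (fun L : E m →L[ℝ] E m => L ξ) h

theorem gmtFrC_det_ne (T : E m ≃L[ℝ] E m) : (T : E m →L[ℝ] E m).det ≠ 0 :=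
  (LinearEquiv.isUnit_det' T.toLinearEquiv).ne_zero

theorem gmtFrC_blow_image (T : E m ≃L[ℝ] E m) (z : E m) (r : ℝ) (S : Set (E m)) :
    gmtBlow T z r S = T '' (gmtDil z r S) := by
  ext y
  constructor
  · intro hy
    exact ⟨T.symm y, hy, T.apply_symm_apply y⟩
  · rintro ⟨w, hw, rfl⟩
    show z + r • T.symm (T w) ∈ S
    rw [T.symm_apply_apply]
    exact hw

theorem gmtFrC_per_zero (A : E 0 → Bil 0) (S U : Set (E 0)) : gmtPer A S U = 0 := by
  unfold gmtPer
  simp [gmtDiv]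

theorem gmtPer_gmtBlow (T : E m ≃L[ℝ] E m) (z : E m) {r : ℝ} (hr : 0 < r) (A : E m → Bil m)
    {S : Set (E m)} (hS : MeasurableSet S) (U : Set (E m)) :
    gmtPer A S U = ENNReal.ofReal (r ^ (m - 1)) *
      gmtPer (gmtBlowA T z r A) (gmtBlow T z r S) (gmtBlow T z r U) := by
  rcases Nat.eq_zero_or_pos m with rfl | hm
  · rw [gmtFrC_per_zero, gmtFrC_per_zero, mul_zero]
  have h1 := gmtPer_gmtDil A hS U z hr
  have h2 := gmtPer_linear T (gmtBlowA T z r A) (measurableSet_gmtDil hS z r) (gmtDil z r U)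
  have h3 : (fun x => ((T : E m →L[ℝ] E m).det ^ 2) •
        ((gmtBlowA T z r A (T x)).bilinearComp (ContinuousLinearMap.adjoint (T.symm : E m →L[ℝ] E m))
          (ContinuousLinearMap.adjoint (T.symm : E m →L[ℝ] E m)))) = fun y => A (z + r • y) := by
    funext w
    ext ξ η
    have e1 := gmtFrC_adj_adj T ξ
    have e2 := gmtFrC_adj_adj T η
    unfold gmtAdj at e1 e2
    simp only [gmtBlowA, gmtAff, smul_apply, ContinuousLinearMap.bilinearComp_apply,
      smul_eq_mul, T.symm_apply_apply, e1, e2]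
    rw [← mul_assoc, mul_inv_cancel₀ (pow_ne_zero 2 (gmtFrC_det_ne T)), one_mul]
  rw [h3] at h2
  rw [gmtFrC_blow_image, gmtFrC_blow_image, h2]
  have h4 : r ^ m = r * r ^ (m - 1) := by
    rw [← pow_succ']
    congr 1
    omega
  rw [h4, ENNReal.ofReal_mul hr.le, mul_comm, mul_assoc] at h1
  have h5 : ENNReal.ofReal r ≠ 0 := by
    rw [Ne, ENNReal.ofReal_eq_zero, not_le]
    exact hr
  exact ((ENNReal.mul_right_inj h5 ENNReal.ofReal_ne_top).1 h1).symm

theorem gmtFrC_map (T : E m ≃L[ℝ] E m) (z : E m) {r : ℝ} (hr : 0 < r) :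
    Measure.map (gmtAff T z r) volume =
      ENNReal.ofReal (r ^ m * |(T : E m →L[ℝ] E m).det|⁻¹)⁻¹ • (volume : Measure (E m)) := by
  have hk : 0 < r ^ m * |(T : E m →L[ℝ] E m).det|⁻¹ := by
    have := abs_pos.2 (gmtFrC_det_ne T)
    positivity
  ext s hs
  rw [Measure.map_apply (gmtFrB_continuous T z r).measurable hs, Measure.smul_apply, smul_eq_mul,
    volume_gmtBlow T z hr s, ← mul_assoc, ← ENNReal.ofReal_mul (inv_pos.2 hk).le,
    inv_mul_cancel₀ hk.ne', ENNReal.ofReal_one, one_mul]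
  rfl

theorem integral_gmtBlow (hm : 1 ≤ m) (T : E m ≃L[ℝ] E m) (z : E m) {r : ℝ} (hr : 0 < r)
    (f : E m → ℝ) (S : Set (E m)) :
    ∫ x in S, f x = r ^ (m - 1) * ∫ y in gmtBlow T z r S, gmtBlowF T z r f y := by
  have hk : 0 < r ^ m * |(T : E m →L[ℝ] E m).det|⁻¹ := by
    have := abs_pos.2 (gmtFrC_det_ne T)
    positivity
  have hemb : MeasurableEmbedding (gmtAff T z r) := (gmtFrBH T z hr).measurableEmbedding
  have h1 := hemb.setIntegral_map (μ := volume) f S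
  rw [gmtFrC_map T z hr, Measure.restrict_smul, integral_smul_measure,
    ENNReal.toReal_ofReal (inv_pos.2 hk).le, smul_eq_mul] at h1
  have h2 : ∫ x in S, f x = (r ^ m * |(T : E m →L[ℝ] E m).det|⁻¹) * ∫ x in gmtAff T z r ⁻¹' S, f (gmtAff T z r x) := by
    rw [← h1, ← mul_assoc, mul_inv_cancel₀ hk.ne', one_mul]
  rw [h2]
  unfold gmtBlowF gmtBlow
  rw [integral_const_mul, ← mul_assoc, ← mul_assoc]
  congr 2
  rw [← pow_succ]
  congr 1
  omega

theorem gmtFrC_contDiff (T : E m ≃L[ℝ] E m) (z : E m) (r : ℝ) : ContDiff ℝ ∞ (gmtAff T z r) := by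
  unfold gmtAff
  exact contDiff_const.add (T.symm.contDiff.const_smul r)

theorem gmtFrC_adj_ne (T : E m ≃L[ℝ] E m) {ξ : E m} (hξ : ξ ≠ 0) : gmtAdj (T : E m →L[ℝ] E m) ξ ≠ 0 := by
  intro h
  apply hξ
  have h1 := gmtFrC_adj_adj T.symm ξ
  rw [T.symm_symm, h, map_zero] at h1
  exact h1.symm

theorem gmt_blow_int (T : E m ≃L[ℝ] E m) (z : E m) {r : ℝ} (hr : 0 < r) {U : Set (E m)}
    {A : E m → Bil m} (hA : GmtInt U A) : GmtInt (gmtBlow T z r U) (gmtBlowA T z r A) := by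
  have hc : ContDiffOn ℝ ∞ (fun y => A (gmtAff T z r y)) (gmtBlow T z r U) :=
    hA.smooth.comp (gmtFrC_contDiff T z r).contDiffOn (fun y hy => hy)
  refine ⟨?_, ?_, ?_⟩
  · unfold gmtBlowA
    apply ContDiffOn.const_smul
    rw [contDiffOn_clm_apply]
    intro ξ
    rw [contDiffOn_clm_apply]
    intro η
    simp only [ContinuousLinearMap.bilinearComp_apply]
    exact (hc.clm_apply contDiffOn_const).clm_apply contDiffOn_const
  · intro y hy ξ η
    simp only [gmtBlowA, smul_apply, ContinuousLinearMap.bilinearComp_apply]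
    rw [hA.symm _ hy]
  · intro y hy ξ hξ
    simp only [gmtBlowA, smul_apply, ContinuousLinearMap.bilinearComp_apply, smul_eq_mul]
    have h1 := hA.pos _ hy _ (gmtFrC_adj_ne T hξ)
    have h2 : 0 < (T : E m →L[ℝ] E m).det ^ 2 := by
      have := gmtFrC_det_ne T
      positivity
    positivity

theorem gmt_blow_data (T : E m ≃L[ℝ] E m) (z : E m) {r : ℝ} (hr : 0 < r) {U : Set (E m)}
    {A : E m → Bil m} {f : E m → ℝ} (hd : GmtData U A f) :
    GmtData (gmtBlow T z r U) (gmtBlowA T z r A) (gmtBlowF T z r f) := by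
  refine ⟨isOpen_gmtBlow T z r hd.opn, gmt_blow_int T z hr hd.int, ?_⟩
  unfold gmtBlowF
  exact contDiffOn_const.mul (hd.f.comp (gmtFrC_contDiff T z r).contDiffOn (fun y hy => hy))

/-- LOCAL ABSOLUTE MINIMISERS ARE PRESERVED. -/
theorem gmt_blow_lam (hm : 1 ≤ m) (T : E m ≃L[ℝ] E m) (z : E m) {r : ℝ} (hr : 0 < r)
    {U S : Set (E m)} {A : E m → Bil m} {f : E m → ℝ} (hS : GmtLAM A f U S) :
    GmtLAM (gmtBlowA T z r A) (gmtBlowF T z r f) (gmtBlow T z r U) (gmtBlow T z r S) := by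
  have hinj := (gmtAff_bijective T z hr).1
  have hsurj : ∀ X : Set (E m), gmtBlow T z r (gmtAff T z r '' X) = X := fun X => preimage_image_eq X hinj
  have hk : 0 < r ^ (m - 1) := pow_pos hr _
  have hk0 : ENNReal.ofReal (r ^ (m - 1)) ≠ 0 := by
    rw [Ne, ENNReal.ofReal_eq_zero, not_le]
    exact hk
  refine ⟨measurableSet_gmtBlow T z r hS.meas, ?_, ?_⟩
  · intro W' hW'
    obtain ⟨W, rfl⟩ : ∃ W, gmtBlow T z r W = W' := ⟨_, hsurj W'⟩
    have h1 := hS.fin W ((gmtCC_gmtBlow T z hr).1 hW')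
    rw [gmtPer_gmtBlow T z hr A hS.meas W] at h1
    intro h2
    rw [h2, ENNReal.mul_top hk0] at h1
    exact h1 rfl
  · intro W' S'' hW' hS'' hCD hfin
    obtain ⟨W, rfl⟩ : ∃ W, gmtBlow T z r W = W' := ⟨_, hsurj W'⟩
    have hS0 : MeasurableSet (gmtAff T z r '' S'') :=
      (gmtFrBH T z hr).measurableEmbedding.measurableSet_image.2 hS''
    obtain ⟨S', hS'm, rfl⟩ : ∃ S', MeasurableSet S' ∧ gmtBlow T z r S' = S'' := ⟨_, hS0, hsurj S''⟩
    have h1 := hS.min W S' ((gmtCC_gmtBlow T z hr).1 hW') hS'm ((gmtCD_gmtBlow T z hr).1 hCD) (by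
      rw [gmtPer_gmtBlow T z hr A hS'm W]
      exact ENNReal.mul_ne_top ENNReal.ofReal_ne_top hfin)
    rw [gmtPer_gmtBlow T z hr A hS.meas W, gmtPer_gmtBlow T z hr A hS'm W,
      integral_gmtBlow hm T z hr f (S ∩ W), integral_gmtBlow hm T z hr f (S' ∩ W), ENNReal.toReal_mul,
      ENNReal.toReal_mul, ENNReal.toReal_ofReal hk.le, ← mul_sub, ← mul_sub] at h1
    exact le_of_mul_le_mul_left h1 hk

/-- in a frame at `z` the blown-up integrand is Euclidean at the origin. -/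
theorem gmtBlowA_zero {T : E m ≃L[ℝ] E m} {z : E m} (r : ℝ) {A : E m → Bil m}
    (hT : GmtFrame (A z) T) : gmtBlowA T z r A 0 = gmtEu m := by
  ext ξ η
  have h0 : gmtAff T z r 0 = z := by simp [gmtAff]
  simp only [gmtBlowA, h0, smul_apply, ContinuousLinearMap.bilinearComp_apply, smul_eq_mul]
  rw [hT ξ η, ← mul_assoc, inv_mul_cancel₀ (pow_ne_zero 2 (gmtFrC_det_ne T)), one_mul]
  rfl

/-- the Euclidean integrand in an isometric frame. -/
theorem gmtBlowA_eu (O : E m ≃ₗᵢ[ℝ] E m) (z : E m) (r : ℝ) :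
    gmtBlowA O.toContinuousLinearEquiv z r (fun _ => gmtEu m) = fun _ => gmtEu m := by
  funext y
  ext ξ η
  have hdet : ((O.toContinuousLinearEquiv : E m ≃L[ℝ] E m) : E m →L[ℝ] E m).det ^ 2 = 1 := by
    have h1 := LinearIsometry.normDet_eq_one O.toLinearIsometry
    rw [LinearMap.normDet_eq_abs_det] at h1
    rw [← sq_abs]
    have h2 : |((O.toContinuousLinearEquiv : E m ≃L[ℝ] E m) : E m →L[ℝ] E m).det| = 1 := h1
    rw [h2, one_pow]
  have hadj : ContinuousLinearMap.adjoint ((O.toContinuousLinearEquiv : E m ≃L[ℝ] E m) : E m →L[ℝ] E m) =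
      ((O.symm.toContinuousLinearEquiv : E m ≃L[ℝ] E m) : E m →L[ℝ] E m) :=
    LinearIsometryEquiv.adjoint_eq_symm O
  simp only [gmtBlowA, gmtAdj, hdet, hadj, smul_apply, ContinuousLinearMap.bilinearComp_apply, smul_eq_mul,
    inv_one, one_mul, gmtEu]
  exact O.symm.inner_map_map ξ η

/-- Euclidean minimisers are preserved by similarities. -/
theorem gmt_blow_min (hm : 1 ≤ m) (O : E m ≃ₗᵢ[ℝ] E m) (z : E m) {r : ℝ} (hr : 0 < r)
    {U S : Set (E m)} (hS : GmtMin U S) :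
    GmtMin (gmtBlow O.toContinuousLinearEquiv z r U) (gmtBlow O.toContinuousLinearEquiv z r S) := by
  have h := gmt_blow_lam hm O.toContinuousLinearEquiv z hr hS
  rw [gmtBlowA_eu] at h
  have h0 : gmtBlowF O.toContinuousLinearEquiv z r (fun _ => 0) = fun _ => 0 := by
    funext y
    simp [gmtBlowF]
  rw [h0] at h
  exact h

end Claimed.Agent.Gmt
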