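import Claimed.Agent.Lib.Gmt.QmDens
import Claimed.Agent.Lib.Gmt.DiffeoB

/-!
# Lib/Gmt [LamBaseA = part 1/2 of the former LamBase] G3d: local absolute minimisers `GmtLAM A f U S`: basic API, density estimates.
(architect: helper75; these are the tops of `IF.lean` §1, §3 in unbundled form: `A` elliptic (`GmtInt U A`), `f` continuous on `U`)

PLAN OF PROOFS
* (`gmtAdm_neg`, `gmtPer_compl` are proved in `BvBasicA.lean`.)
* (`gmtPer_le_mul_gmtPer`, `gmtVarA_le_mul_gmtVarA` are proved in `BvBasic.lean`.)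
* `GmtLAM.lf`: on `W ⋐ U`, `c P(S;W) ≤ Per_A(S;W) < ∞` (`gmtInt_bounds` on `closure W`, `mul_gmtP_le_gmtPer`).
* `GmtLAM.compl`: `∫_{Sᶜ ∩ W} f = ∫_W f - ∫_{S ∩ W} f` (`f` is integrable on `W ⋐ U`), `Sᶜ △ S'ᶜ = S △ S'`.
* `GmtLAM.exists_QM`: `gmtInt_bounds` + `GmtLAM.toQM` (+ `GmtLAM.mono`).
* `gmtLAM_area`: choose `V` open with `K ⊆ V ⋐ U` (`exists_compact_superset`-type lemma), `r₀ ≤ dist(K, Vᶜ)/2` and `Λ r₀ ≤ ε₀`; `GmtQM.per_ball_le`, `gmtQM_volume`, `gmtQM_per_lower` with `δ₀ := δ`.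
-/

set_option autoImplicit false
open scoped ContDiff ENNReal RealInnerProductSpace Topology
open MeasureTheory Metric Set Filter

namespace Claimed.Agent.Gmt

variable {m : ℕ}

/-- only the values of the integrand on `U` matter. -/
theorem gmtPer_congr_int {A B : E m → Bil m} {U : Set (E m)}
    (h : ∀ x ∈ U, ∀ ξ : E m, A x ξ ξ = B x ξ ξ) (S : Set (E m)) :
    gmtPer A S U = gmtPer B S U := gmtPer_congr_quad S h

theorem gmtPer_ne_top_iff {U W : Set (E m)} {A : E m → Bil m} (hU : IsOpen U) (hA : GmtInt U A)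
    (hW : GmtCC W U) (S : Set (E m)) : gmtPer A S W ≠ ⊤ ↔ gmtP S W ≠ ⊤ := by
  obtain ⟨c, C, hc, hcC, hb⟩ := gmtInt_bounds hU hA hW.2.1 hW.2.2
  have h1 := mul_gmtP_le_gmtPer (A := A) (U := W) hc.le
    (fun x hx ξ => (hb x (subset_closure hx) ξ).1) S
  have h2 := gmtPer_le_mul_gmtP (A := A) (U := W) (hc.le.trans hcC)
    (fun x hx ξ => (hb x (subset_closure hx) ξ).2) S
  constructor
  · intro h hP
    rw [hP, ENNReal.mul_top (by simpa using hc)] at h1
    exact h (top_le_iff.1 h1)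
  · intro h hP
    rw [hP] at h2
    exact ENNReal.mul_ne_top ENNReal.ofReal_ne_top h (top_le_iff.1 h2)

theorem GmtLAM.lf {U : Set (E m)} {A : E m → Bil m} {f : E m → ℝ} {S : Set (E m)} (hU : IsOpen U)
    (hA : GmtInt U A) (h : GmtLAM A f U S) : GmtLF S U :=
  ⟨h.meas, fun W hW => (gmtPer_ne_top_iff hU hA hW S).1 (h.fin W hW)⟩

theorem GmtLAM.mono {U V : Set (E m)} {A : E m → Bil m} {f : E m → ℝ} {S : Set (E m)}
    (h : GmtLAM A f U S) (hV : V ⊆ U) : GmtLAM A f V S :=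
  ⟨h.meas, fun W hW => h.fin W ⟨hW.1, hW.2.1, hW.2.2.trans hV⟩,
    fun W S' hW => h.min W S' ⟨hW.1, hW.2.1, hW.2.2.trans hV⟩⟩

theorem GmtLAM.compl {U : Set (E m)} {A : E m → Bil m} {f : E m → ℝ} {S : Set (E m)}
    (hU : IsOpen U) (hf : ContinuousOn f U) (h : GmtLAM A f U S) :
    GmtLAM A (fun x => -f x) U Sᶜ := by
  refine ⟨h.meas.compl, fun W hW => ?_, fun W S' hW hS' hCD hfin => ?_⟩
  · rw [gmtPer_compl A h.meas]
    exact h.fin W hW
  · obtain ⟨K, hK, hKW, hd⟩ := hCD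
    have hfW : IntegrableOn f W :=
      ((hf.mono hW.2.2).integrableOn_compact hW.2.1).mono_set subset_closure
    have hmin := h.min W S'ᶜ hW hS'.compl ⟨K, hK, hKW, by
      rw [← compl_symmDiff_compl, compl_compl]
      exact hd⟩ (by rw [gmtPer_compl A hS']; exact hfin)
    rw [gmtPer_compl A hS'] at hmin
    rw [gmtPer_compl A h.meas]
    have e1 := integral_inter_add_sdiff (μ := volume) (s := W) (t := S) (f := f) h.meas hfW
    have e2 := integral_inter_add_sdiff (μ := volume) (s := W) (t := S') (f := f) hS' hfW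
    have s1 : Sᶜ ∩ W = W \ S := by
      ext x
      simp [and_comm]
    have s2 : S'ᶜ ∩ W = W \ S' := by
      ext x
      simp [and_comm]
    rw [s2, inter_comm S W] at hmin
    rw [s1, inter_comm S' W, integral_neg, integral_neg]
    linarith

/-- competitors which differ from `S` in a compact subset of `W` only up to a null set. -/
theorem GmtLAM.min_ae {U : Set (E m)} {A : E m → Bil m} {f : E m → ℝ} {S : Set (E m)}
    (h : GmtLAM A f U S) {W S' K : Set (E m)} (hW : GmtCC W U) (hS' : MeasurableSet S')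
    (hK : IsCompact K) (hKW : K ⊆ W) (hd : volume (symmDiff S S' \ K) = 0)
    (hfin : gmtPer A S' W ≠ ⊤) :
    (gmtPer A S W).toReal - ∫ x in S ∩ W, f x ≤ (gmtPer A S' W).toReal - ∫ x in S' ∩ W, f x := by
  obtain ⟨S'', hS''def⟩ : ∃ S'', S'' = (S' ∩ K) ∪ (S \ K) := ⟨_, rfl⟩
  have hS''m : MeasurableSet S'' := by
    rw [hS''def]
    exact (hS'.inter hK.measurableSet).union (h.meas.diff hK.measurableSet)
  have hsub : symmDiff S S'' ⊆ K := by
    intro x hx
    by_contra hxK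
    rw [hS''def] at hx
    rcases hx with ⟨h1, h2⟩ | ⟨h1, h2⟩
    · exact h2 (Or.inr ⟨h1, hxK⟩)
    · rcases h1 with h1 | h1
      · exact hxK h1.2
      · exact h2 h1.1
  have hae : (S'' : Set (E m)) =ᵐ[volume] S' := by
    rw [ae_eq_set]
    have hs1 : S'' \ S' ⊆ symmDiff S S' \ K := by
      rw [hS''def]
      rintro x ⟨h1 | h1, h2⟩
      · exact absurd h1.1 h2
      · exact ⟨Or.inl ⟨h1.1, h2⟩, h1.2⟩
    have hs2 : S' \ S'' ⊆ symmDiff S S' \ K := by
      rw [hS''def]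
      rintro x ⟨h1, h2⟩
      have hxK : x ∉ K := fun hxK => h2 (Or.inl ⟨h1, hxK⟩)
      exact ⟨Or.inr ⟨h1, fun hxS => h2 (Or.inr ⟨hxS, hxK⟩)⟩, hxK⟩
    exact ⟨measure_mono_null hs1 hd, measure_mono_null hs2 hd⟩
  have haeW : (S'' ∩ W : Set (E m)) =ᵐ[volume] (S' ∩ W : Set (E m)) :=
    hae.inter (ae_eq_refl _)
  have hper : gmtPer A S'' W = gmtPer A S' W := gmtPer_congr A hS''m hS' haeW
  have hmin := h.min W S'' hW hS''m ⟨K, hK, hKW, hsub⟩ (by rw [hper]; exact hfin)
  rw [hper, setIntegral_congr_set haeW] at hmin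
  exact hmin

theorem GmtLAM.congr {U : Set (E m)} {A : E m → Bil m} {f : E m → ℝ} {S S' : Set (E m)}
    (h : GmtLAM A f U S) (hS' : MeasurableSet S') (hSS : S =ᵐ[volume] S') : GmtLAM A f U S' := by
  have hper : ∀ W, gmtPer A S' W = gmtPer A S W := fun W =>
    gmtPer_congr A hS' h.meas (hSS.symm.inter (ae_eq_refl _))
  refine ⟨hS', fun W hW => ?_, fun W S'' hW hS'' hCD hfin => ?_⟩
  · rw [hper]
    exact h.fin W hW
  · obtain ⟨K, hK, hKW, hd⟩ := hCD
    have h0 : volume (symmDiff S S'' \ K) = 0 := by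
      have hs : symmDiff S S'' \ K ⊆ symmDiff S S' := by
        rintro x ⟨hx, hxK⟩
        have hiff : x ∈ S' ↔ x ∈ S'' := by
          constructor
          · intro h1
            by_contra h2
            exact hxK (hd (Or.inl ⟨h1, h2⟩))
          · intro h1
            by_contra h2
            exact hxK (hd (Or.inr ⟨h1, h2⟩))
        rcases hx with ⟨h1, h2⟩ | ⟨h1, h2⟩
        · exact Or.inl ⟨h1, fun h3 => h2 (hiff.1 h3)⟩
        · exact Or.inr ⟨hiff.2 h1, h2⟩
      refine measure_mono_null hs ?_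
      have := ae_eq_set.1 hSS
      exact measure_union_null this.1 this.2
    have hmin := h.min_ae hW hS'' hK hKW h0 hfin
    rw [hper, setIntegral_congr_set (hSS.symm.inter (ae_eq_refl W))]
    exact hmin

/-- only the values of the data on `U` matter. -/
theorem GmtLAM.congr_data {U : Set (E m)} {A B : E m → Bil m} {f g : E m → ℝ} {S : Set (E m)}
    (h : GmtLAM A f U S) (hAB : ∀ x ∈ U, A x = B x) (hfg : ∀ x ∈ U, f x = g x) :
    GmtLAM B g U S := by
  have hper : ∀ W S', GmtCC W U → gmtPer B S' W = gmtPer A S' W := fun W S' hW =>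
    gmtPer_congr_quad S' fun x hx ξ => by rw [hAB x (hW.2.2 (subset_closure hx))]
  have hint : ∀ W S', GmtCC W U → MeasurableSet S' →
      ∫ x in S' ∩ W, g x = ∫ x in S' ∩ W, f x := fun W S' hW hS' =>
    setIntegral_congr_fun (hS'.inter hW.1.measurableSet)
      fun x hx => (hfg x (hW.2.2 (subset_closure hx.2))).symm
  refine ⟨h.meas, fun W hW => ?_, fun W S' hW hS' hCD hfin => ?_⟩
  · rw [hper W S hW]
    exact h.fin W hW
  · rw [hper W S hW, hper W S' hW, hint W S hW h.meas, hint W S' hW hS']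
    rw [hper W S' hW] at hfin
    exact h.min W S' hW hS' hCD hfin

end Claimed.Agent.Gmt
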