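import Claimed.Agent.Lib.Gmt.FvI
import Claimed.Agent.Lib.Gmt.LamBaseA

/-!
# Lib/Gmt FV [part E = steps 6-7]: THE FIRST VARIATION `gmt_lam_fv`, `gmt_min_fv`.   (architect: helper184)

General description of the chain: header of `FvA.lean`.  Tools: `gmt_fv_taylor` (`FvD`, proved from jets), jets (`FvJ`, `FvK`), `FvC` (`gmtPer_flow_le`, `gmtPer_flow_zero`, `gmt_flow_integral`, `gmtMu_integrableOn`, `gmtFlowNu_*`), `FvI` (integrability: `gmtFv1_integrable`, `gmt_press_integrable`, `gmtFv1_measurable`, `gmtFv1_of_notMem`), `gmt_gauss_green_smul` (`GgMeas`), `gmt_exists_cc` (`BvTools`).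

PLAN OF PROOFS
* `gmt_fv_per`: `(C, t₁)` from `gmt_fv_taylor`, also `t₁ ≤ t₀` of `gmt_flow_diffeo`.  `‖gmtNu S x‖ = 1` for `μ`-a.e. `x ∈ W` (`(gmt_nu_spec S).unit_ae U hU hS`, restrict to `W ⊆ U`).  `gmtFlowPer t - gmtFlowPer 0 - t ∫_W Fv1 = ∫_W (integrand_t - integrand_0 - t Fv1)` (`integral_sub`, `integral_const_mul`; integrability on `W`: `gmtMu_integrableOn`, `gmtFv1_integrable.integrableOn`);
  `gmtFlowNu X 0 S x = gmtNu S x` (`gmtCof_id`), `gmtFlow X 0 x = x`; `norm_integral_le_of_norm_le_const`-type bound: `≤ C t² μ(W).toReal`.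
* `gmt_fv_dens`: `(gmtJet_det hB).smul'`/`GmtJet.bilin (ContinuousLinearMap.mul ℝ ℝ)` of `gmtJet_det` (index `x ∈ W`, `B x = fderiv X x`, bounded by `gmt_test_bdd`) and `gmtJet_comp_flow hU hf hW hX'` (`F = ℝ`); take `.rem`.
* `gmt_fv_volume`: for `|t| < t₀`: `Φ_t '' S ∩ W = Φ_t '' (S ∩ W)` (`ht.img W hX.sub`, `Set.image_inter ht.bij.1`), `gmt_flow_integral`: `∫_{Φ_t S ∩ W} f = ∫_{S ∩ W} det D_t · f(Φ_t)`.  By `gmt_fv_dens`: `|.. - ∫_{S∩W} f - t ∫_{S ∩ W} (f div X + Df(X))| ≤ C t² vol(W)` (`vol W ≤ vol (closure W) < ⊤`; integrability: continuous functions on the compact `closure W`).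
  `∫_{S∩W} (f div X + Df(X)) = ∫_S (..)` (the integrand vanishes off `tsupport X ⊆ W`) `= ∫ f ⟪X, ν⟫ dμ` (`gmt_gauss_green_smul hU hS hX.toTest (hf.of_le ..)`) `= ∫_W ..` (`X = 0` off `W`).
* `gmt_fv_elem`: if `a > 0` take `t = -min (t₁/2) (a/(2(|C|+1)))`; if `a < 0` the opposite sign: `t a + C t² < 0`.
* `gmt_lam_fv`: `W ⋐ U` with `tsupport X ⊆ W` (`gmt_exists_cc hX.cpt hU hX.sub`), `hX' : GmtTestS W X`.  `hS' : GmtLF S U` (`gmt_lam_lf`-type: `LamBase`; if it creates an import cycle use `gmtPer_ne_top_iff`/take `GmtLF S U` from `hS.fin` + `gmtInt_bounds`).  For small `t`: `hS.min W (Φ_t '' S) hW (ht.meas ..) ⟨tsupport X, hX.cpt, hX'.sub, ht.sd S⟩ (finite by gmtPer_flow_le)`;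
  `(gmtPer A S W).toReal = h(0)` (`gmtPer_flow_zero`, `ENNReal.toReal_ofReal`, `h ≥ 0`), `(gmtPer A (Φ_t S) W).toReal ≤ h(t)` (`gmtPer_flow_le`).  With `gmt_fv_per`, `gmt_fv_volume`: `0 ≤ t (∫_W Fv1 - ∫_W f⟪X,ν⟫) + 2 C t²`.  `gmt_fv_elem`.  `∫_W = ∫` (`gmtFv1_of_notMem`, `X x = 0`; `setIntegral_eq_integral_of_forall_compl_eq_zero`), `integral_sub`.
* `gmt_min_fv`: `gmt_lam_fv` with `A = fun _ => gmtEu m`, `f = 0` (`gmtInt_eu`, `contDiffOn_const`); for `‖ν‖ = 1`: `gmtFv1 (Eu) X x ν = div X - ⟪ν, (DX)ᵀ ν⟫ = div X - ⟪ν, DX ν⟫`-form (`fderiv_const`, `gmtEu` = `innerSL`, `real_inner_self_eq_norm_sq`, `Real.sqrt_one`, `ContinuousLinearMap.adjoint_inner_right`); a.e. equality w.r.t. `μ` on `U`, both integrands vanish off `tsupport X ⊆ U`.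
-/

set_option autoImplicit false
open scoped ContDiff ENNReal RealInnerProductSpace Topology
open MeasureTheory Metric Set Filter

namespace Claimed.Agent.Gmt

variable {m : ℕ}

/-- integrated form. -/
theorem gmt_fv_per {U W S : Set (E m)} {A : E m → Bil m} (hU : IsOpen U) (hA : GmtInt U A)
    (hS : GmtLF S U) (hW : GmtCC W U) {X : E m → E m} (hX : GmtTestS W X) :
    ∃ C t₁ : ℝ, 0 < t₁ ∧ ∀ t, |t| < t₁ →
      |gmtFlowPer A X S W t - gmtFlowPer A X S W 0 -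
        t * ∫ x in W, gmtFv1 A X x (gmtNu S x) ∂(gmtMu S)| ≤ C * t ^ 2 := by
  have hWU : W ⊆ U := subset_closure.trans hW.2.2
  have hX' : GmtTestS U X := ⟨hX.smooth, hX.cpt, hX.sub.trans hWU⟩
  obtain ⟨C, t₁, ht₁, hT⟩ := gmt_fv_taylor hU hA hW hX
  obtain ⟨t₀, ht₀, hOK⟩ := gmt_flow_diffeo hX'
  have hfinm := gmtMu_restrict_finite hU hS hW
  have hfin : gmtMu S W < ⊤ := by
    have := measure_lt_top ((gmtMu S).restrict W) univ
    rwa [Measure.restrict_apply_univ] at this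
  have hint : ∀ t, GmtFlowOK X t → IntegrableOn (fun x => Real.sqrt (A (gmtFlow X t x)
      (gmtFlowNu X t S x) (gmtFlowNu X t S x))) W (gmtMu S) := by
    intro t ht
    obtain ⟨C', hC'⟩ := gmtFlowNu_bdd hX' ht
    refine gmtc_integrableOn hU hA hS hW ht.smooth.continuous.continuousOn (fun x hx => ?_)
      (gmtFlowNu_measurable hX.smooth ht S) (hC' S)
    rw [← ht.img W hX.sub]
    exact mem_image_of_mem _ hx
  have hint1 : IntegrableOn (fun x => gmtFv1 A X x (gmtNu S x)) W (gmtMu S) :=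
    (gmtFv1_integrable hU hA hS hX'.test).integrableOn
  have hae : ∀ᵐ x ∂((gmtMu S).restrict W), ‖gmtNu S x‖ = 1 :=
    ae_restrict_of_ae_restrict_of_subset hWU (norm_gmtNu_ae hU hS)
  refine ⟨C * (gmtMu S).real W, min t₁ t₀, lt_min ht₁ ht₀, fun t ht => ?_⟩
  have h1 : |t| < t₁ := lt_of_lt_of_le ht (min_le_left _ _)
  have h2 : GmtFlowOK X t := hOK t (lt_of_lt_of_le ht (min_le_right _ _))
  have h0 : GmtFlowOK X 0 := gmtFlowOK_zero X
  unfold gmtFlowPer
  have hsub : IntegrableOn (fun x => Real.sqrt (A (gmtFlow X t x) (gmtFlowNu X t S x)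
      (gmtFlowNu X t S x)) - Real.sqrt (A (gmtFlow X 0 x) (gmtFlowNu X 0 S x)
      (gmtFlowNu X 0 S x))) W (gmtMu S) := (hint t h2).sub (hint 0 h0)
  rw [← integral_const_mul, ← integral_sub (hint t h2) (hint 0 h0),
    ← integral_sub hsub (hint1.const_mul t), ← Real.norm_eq_abs]
  have hb := norm_setIntegral_le_of_norm_le_const_ae (μ := gmtMu S) (s := W)
    (f := fun x => Real.sqrt (A (gmtFlow X t x) (gmtFlowNu X t S x) (gmtFlowNu X t S x)) -
      Real.sqrt (A (gmtFlow X 0 x) (gmtFlowNu X 0 S x) (gmtFlowNu X 0 S x)) -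
      t * gmtFv1 A X x (gmtNu S x)) (C := C * t ^ 2) hfin (by
      filter_upwards [hae, ae_restrict_mem hW.1.measurableSet] with x hx hxW
      have e1 : gmtFlow X 0 x = x := by
        unfold gmtFlow
        rw [zero_smul, add_zero]
      have e2 : gmtFlowNu X 0 S x = gmtNu S x := by
        unfold gmtFlowNu
        have e3 : gmtFlowD X 0 x = ContinuousLinearMap.id ℝ (E m) := by
          unfold gmtFlowD
          ext y
          simp
        rw [e3, gmtCof_id]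
      rw [e1, e2, Real.norm_eq_abs]
      exact hT t h1 x hxW (gmtNu S x) hx)
  refine hb.trans (le_of_eq ?_)
  ring

/-- the jet of the volume density `f(Φ_t x) det DΦ_t(x)`. -/
theorem gmt_fv_dens {U W : Set (E m)} {f : E m → ℝ} (hU : IsOpen U)
    (hf : ContDiffOn ℝ ∞ f U) (hW : GmtCC W U) {X : E m → E m} (hX : GmtTestS W X) :
    ∃ C t₁ : ℝ, 0 < t₁ ∧ ∀ t, |t| < t₁ → ∀ x ∈ W,
      |(gmtFlowD X t x).det * f (gmtFlow X t x) - f x -
        t * (f x * gmtDiv X x + fderiv ℝ f x (X x))| ≤ C * t ^ 2 := by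
  have hWU : W ⊆ U := subset_closure.trans hW.2.2
  have hX' : GmtTestS U X := ⟨hX.smooth, hX.cpt, hX.sub.trans hWU⟩
  obtain ⟨L, -, -, hL1, -⟩ := gmt_test_bdd hX'
  have J1 := gmtJet_det (P := W) (B := fun x => fderiv ℝ X x) ⟨L, fun p _ => hL1 p⟩
  have J2 := gmtJet_comp_flow hU hf hW hX'
  obtain ⟨C, t₁, ht₁, hr⟩ := (GmtJet.smul' J1 J2).rem
  refine ⟨C, t₁, ht₁, fun t ht x hx => ?_⟩
  have h := hr t ht x hx
  rw [Real.norm_eq_abs] at h
  simp only [smul_eq_mul, one_mul] at h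
  have e : f x * gmtDiv X x = (∑ i, fderiv ℝ X x (eb i) i) * f x := mul_comm _ _
  rw [e]
  exact h

/-- the volume term. -/
theorem gmt_fv_volume {U W S : Set (E m)} {f : E m → ℝ} (hU : IsOpen U)
    (hf : ContDiffOn ℝ ∞ f U) (hS : GmtLF S U) (hW : GmtCC W U) {X : E m → E m}
    (hX : GmtTestS W X) :
    ∃ C t₁ : ℝ, 0 < t₁ ∧ ∀ t, |t| < t₁ →
      |(∫ y in gmtFlow X t '' S ∩ W, f y) - (∫ y in S ∩ W, f y) -
        t * ∫ x in W, f x * ⟪X x, gmtNu S x⟫ ∂(gmtMu S)| ≤ C * t ^ 2 := by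
  have hWU : W ⊆ U := subset_closure.trans hW.2.2
  have hWm : MeasurableSet W := hW.1.measurableSet
  have hX' : GmtTestS U X := ⟨hX.smooth, hX.cpt, hX.sub.trans hWU⟩
  obtain ⟨C, t₁, ht₁, hD⟩ := gmt_fv_dens hU hf hW hX
  obtain ⟨t₀, ht₀, hOK⟩ := gmt_flow_diffeo hX'
  have hSW : S ∩ W ⊆ closure W := inter_subset_right.trans subset_closure
  have hfin : volume (S ∩ W) < ⊤ := lt_of_le_of_lt (measure_mono hSW) hW.2.1.measure_lt_top
  have hfc : ContinuousOn f U := hf.continuousOn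
  -- the first order term
  obtain ⟨G, hGdef⟩ : ∃ G : E m → ℝ, G = fun x => f x * gmtDiv X x + fderiv ℝ f x (X x) := ⟨_, rfl⟩
  have hGc : ContinuousOn G U := by
    rw [hGdef]
    exact (hfc.mul (continuous_gmtDiv hX'.test).1.continuousOn).add
      (gmt_fderiv_apply_continuousOn hU hf hX.smooth.continuous)
  have hG0 : ∀ x, x ∉ tsupport X → G x = 0 := by
    intro x hx
    rw [hGdef]
    show f x * gmtDiv X x + fderiv ℝ f x (X x) = 0
    rw [gmtDiv_eq_zero_of_notMem hx, image_eq_zero_of_notMem_tsupport hx, mul_zero, map_zero,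
      add_zero]
  have iOn : ∀ g : E m → ℝ, ContinuousOn g U → IntegrableOn g (S ∩ W) volume := fun g hg =>
    ((hg.mono hW.2.2).integrableOn_compact hW.2.1).mono_set hSW
  have hfirst : ∫ x in S ∩ W, G x = ∫ x in W, f x * ⟪X x, gmtNu S x⟫ ∂(gmtMu S) := by
    have e1 : ∫ x in S, G x = ∫ x in S ∩ W, G x :=
      setIntegral_eq_of_subset_of_forall_sdiff_eq_zero hS.1 inter_subset_left
        (fun x hx => hG0 x (fun h => hx.2 ⟨hx.1, hX.sub h⟩))
    have h2 : ((1 : ℕ∞) : WithTop ℕ∞) ≤ ((⊤ : ℕ∞) : WithTop ℕ∞) := by exact_mod_cast le_top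
    have e2 := gmt_gauss_green_smul hU hS hX'.test (hf.of_le h2)
    have e3 : ∫ x in W, f x * ⟪X x, gmtNu S x⟫ ∂(gmtMu S) = ∫ x, f x * ⟪X x, gmtNu S x⟫ ∂(gmtMu S) :=
      setIntegral_eq_integral_of_forall_compl_eq_zero (fun x hx => by
        rw [image_eq_zero_of_notMem_tsupport (fun h => hx (hX.sub h)), inner_zero_left, mul_zero])
    rw [← e1, e3, ← e2, hGdef]
  refine ⟨C * volume.real (S ∩ W), min t₁ t₀, lt_min ht₁ ht₀, fun t ht => ?_⟩
  have h1 : |t| < t₁ := lt_of_lt_of_le ht (min_le_left _ _)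
  have hOKt : GmtFlowOK X t := hOK t (lt_of_lt_of_le ht (min_le_right _ _))
  have eimg : gmtFlow X t '' S ∩ W = gmtFlow X t '' (S ∩ W) := by
    rw [image_inter hOKt.bij.1, hOKt.img W hX.sub]
  have hDc : Continuous fun x => (gmtFlowD X t x).det :=
    ContinuousLinearMap.continuous_det.comp
      (continuous_const.add ((hX.smooth.continuous_fderiv (by simp)).const_smul t))
  have hcomp : ContinuousOn (fun x => (gmtFlowD X t x).det * f (gmtFlow X t x)) U :=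
    hDc.continuousOn.mul (hfc.comp hOKt.smooth.continuous.continuousOn (fun x hx => by
      rw [← hOKt.img U hX'.sub]
      exact mem_image_of_mem _ hx))
  rw [eimg, gmt_flow_integral hOKt (hS.1.inter hWm) f, ← hfirst, ← integral_const_mul,
    ← integral_sub (iOn _ hcomp) (iOn _ hfc)]
  have hsub : IntegrableOn (fun x => (gmtFlowD X t x).det * f (gmtFlow X t x) - f x) (S ∩ W)
      volume := (iOn _ hcomp).sub (iOn _ hfc)
  rw [← integral_sub hsub ((iOn _ hGc).const_mul t), ← Real.norm_eq_abs]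
  have hb := norm_setIntegral_le_of_norm_le_const (μ := volume) (s := S ∩ W)
    (f := fun x => (gmtFlowD X t x).det * f (gmtFlow X t x) - f x - t * G x) (C := C * t ^ 2) hfin
    (fun x hx => by
      rw [Real.norm_eq_abs, hGdef]
      exact hD t h1 x hx.2)
  refine hb.trans (le_of_eq ?_)
  ring

/-- elementary: a function with `0 ≤ t a + C t²` for all small `t` of both signs has `a = 0`. -/
theorem gmt_fv_elem {a C t₁ : ℝ} (ht : 0 < t₁) (h : ∀ t, |t| < t₁ → 0 ≤ t * a + C * t ^ 2) :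
    a = 0 := by
  have key : ∀ a : ℝ, (∀ t, |t| < t₁ → 0 ≤ t * a + C * t ^ 2) → ¬ 0 < a := by
    intro a h ha
    obtain ⟨δ, hδdef⟩ : ∃ δ, δ = min (t₁ / 2) (a / (2 * (|C| + 1))) := ⟨_, rfl⟩
    have hδ : 0 < δ := by
      rw [hδdef]
      exact lt_min (by positivity) (by positivity)
    have h1 := h (-δ) (by
      rw [abs_neg, abs_of_pos hδ, hδdef]
      exact lt_of_le_of_lt (min_le_left _ _) (by linarith))
    have h2 : δ ≤ a / (2 * (|C| + 1)) := hδdef ▸ min_le_right _ _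
    have h3 : δ * (2 * (|C| + 1)) ≤ a := (le_div_iff₀ (by positivity)).1 h2
    have h4 : C ≤ |C| := le_abs_self C
    have h5 : C * δ ^ 2 ≤ |C| * δ ^ 2 := mul_le_mul_of_nonneg_right h4 (sq_nonneg _)
    have h6 : δ * (δ * (2 * (|C| + 1))) ≤ δ * a := mul_le_mul_of_nonneg_left h3 hδ.le
    nlinarith [mul_pos hδ hδ, mul_pos hδ ha]
  rcases lt_trichotomy a 0 with ha | ha | ha
  · exfalso
    refine key (-a) (fun t ht => ?_) (by linarith)
    have := h (-t) (by rwa [abs_neg])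
    nlinarith
  · exact ha
  · exact absurd ha (key a h)

/-- **FIRST VARIATION** of `Per_A - ∫ f` at a local absolute minimiser. -/
theorem gmt_lam_fv {U S : Set (E m)} {A : E m → Bil m} {f : E m → ℝ} (hU : IsOpen U)
    (hA : GmtInt U A) (hf : ContDiffOn ℝ ∞ f U) (hS : GmtLAM A f U S) {X : E m → E m}
    (hX : GmtTestS U X) :
    ∫ x, (gmtFv1 A X x (gmtNu S x) - f x * ⟪X x, gmtNu S x⟫) ∂(gmtMu S) = 0 := by
  obtain ⟨W, hW, hKW⟩ := gmt_exists_cc hX.cpt.isCompact hU hX.sub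
  have hX' : GmtTestS W X := ⟨hX.smooth, hX.cpt, hKW⟩
  have hLF : GmtLF S U := hS.lf hU hA
  obtain ⟨C1, t1, ht1, hP⟩ := gmt_fv_per hU hA hLF hW hX'
  obtain ⟨C2, t2, ht2, hVol⟩ := gmt_fv_volume hU hf hLF hW hX'
  obtain ⟨t0, ht0, hOK⟩ := gmt_flow_diffeo hX
  obtain ⟨I1, hI1⟩ : ∃ I1, I1 = ∫ x in W, gmtFv1 A X x (gmtNu S x) ∂(gmtMu S) := ⟨_, rfl⟩
  obtain ⟨I2, hI2⟩ : ∃ I2, I2 = ∫ x in W, f x * ⟪X x, gmtNu S x⟫ ∂(gmtMu S) := ⟨_, rfl⟩
  rw [← hI1] at hP
  rw [← hI2] at hVol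
  have ha : I1 - I2 = 0 := by
    refine gmt_fv_elem (C := C1 + C2) (t₁ := min (min t1 t2) t0) (lt_min (lt_min ht1 ht2) ht0)
      fun t ht => ?_
    have h1 : |t| < t1 := lt_of_lt_of_le ht ((min_le_left _ _).trans (min_le_left _ _))
    have h2 : |t| < t2 := lt_of_lt_of_le ht ((min_le_left _ _).trans (min_le_right _ _))
    have hOKt : GmtFlowOK X t := hOK t (lt_of_lt_of_le ht (min_le_right _ _))
    have hle := gmtPer_flow_le hU hA hLF hW hX' hOKt
    have hfin : gmtPer A (gmtFlow X t '' S) W ≠ ⊤ := ne_top_of_le_ne_top ENNReal.ofReal_ne_top hle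
    have hmin := hS.min W (gmtFlow X t '' S) hW (hOKt.meas S hS.meas)
      ⟨tsupport X, hX.cpt.isCompact, hKW, hOKt.sd S⟩ hfin
    have h0 := gmtPer_flow_zero hU hA hLF hW X
    have hnn : ∀ t, 0 ≤ gmtFlowPer A X S W t := fun t => integral_nonneg fun x => Real.sqrt_nonneg _
    have e0 : (gmtPer A S W).toReal = gmtFlowPer A X S W 0 := by
      rw [h0, ENNReal.toReal_ofReal (hnn 0)]
    have e1 : (gmtPer A (gmtFlow X t '' S) W).toReal ≤ gmtFlowPer A X S W t :=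
      ENNReal.toReal_le_of_le_ofReal (hnn t) hle
    have p := (abs_le.1 (hP t h1)).2
    have v := (abs_le.1 (hVol t h2)).1
    rw [e0] at hmin
    nlinarith
  have i1 := gmtFv1_integrable hU hA hLF hX.test
  have i2 := gmt_press_integrable hU hf.continuousOn hLF hX.test
  rw [integral_sub i1 i2]
  have e1 : I1 = ∫ x, gmtFv1 A X x (gmtNu S x) ∂(gmtMu S) := by
    rw [hI1]
    exact setIntegral_eq_integral_of_forall_compl_eq_zero
      (fun x hx => gmtFv1_of_notMem A (fun h => hx (hKW h)) _)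
  have e2 : I2 = ∫ x, f x * ⟪X x, gmtNu S x⟫ ∂(gmtMu S) := by
    rw [hI2]
    exact setIntegral_eq_integral_of_forall_compl_eq_zero (fun x hx => by
      rw [image_eq_zero_of_notMem_tsupport (fun h => hx (hKW h)), inner_zero_left, mul_zero])
  rw [← e1, ← e2]
  exact ha

/-- **FIRST VARIATION** of the Euclidean perimeter at a minimiser. -/
theorem gmt_min_fv {U S : Set (E m)} (hU : IsOpen U) (hS : GmtMin U S) {X : E m → E m}
    (hX : GmtTestS U X) :
    ∫ x, (gmtDiv X x - ⟪gmtNu S x, fderiv ℝ X x (gmtNu S x)⟫) ∂(gmtMu S) = 0 := by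
  have hLF : GmtLF S U := GmtLAM.lf hU (gmtInt_eu U) hS
  have h := gmt_lam_fv hU (gmtInt_eu U) (f := fun _ => 0) contDiffOn_const hS hX
  rw [← h]
  have hae := (ae_restrict_iff' hU.measurableSet).1 (norm_gmtNu_ae hU hLF)
  refine integral_congr_ae ?_
  filter_upwards [hae] with x hx
  by_cases hxs : x ∈ tsupport X
  · have h1 : ‖gmtNu S x‖ = 1 := hx (hX.sub hxs)
    have h2 : gmtEu m (gmtNu S x) (gmtNu S x) = 1 := by
      rw [gmtEu_apply, real_inner_self_eq_norm_sq, h1, one_pow]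
    unfold gmtFv1
    simp only [h2, Real.sqrt_one, one_mul, div_one, zero_mul, sub_zero]
    rw [fderiv_fun_const]
    simp only [Pi.zero_apply, _root_.zero_apply, zero_div, zero_sub, gmtEu_apply,
      ContinuousLinearMap.adjoint_inner_right]
    rw [real_inner_comm]
    ring
  · rw [gmtFv1_of_notMem _ hxs, gmtDiv_eq_zero_of_notMem hxs, fderiv_of_notMem_tsupport ℝ hxs]
    simp

end Claimed.Agent.Gmt
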