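import Claimed.Agent.Lib.Gmt.FvD
import Claimed.Agent.Lib.Gmt.BvInt
import Claimed.Agent.Lib.Gmt.BvTools

/-!
# Lib/Gmt FV [part I]: integrability of the first variation integrands.   (architect: helper184)

Generic calculus lemmas are stated for abstract normed spaces (the operator norm of `E m →L[ℝ] Bil m` is not found by
instance search), then specialised.
-/

set_option autoImplicit false
open scoped ContDiff ENNReal RealInnerProductSpace Topology
open MeasureTheory Metric Set Filter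

namespace Claimed.Agent.Gmt

section generic

variable {V F : Type*} [NormedAddCommGroup V] [NormedSpace ℝ V] [NormedAddCommGroup F]
  [NormedSpace ℝ F]

theorem gmt_fderiv_apply_continuousOn {A : V → F} {U : Set V} (hU : IsOpen U)
    (hA : ContDiffOn ℝ ∞ A U) {X : V → V} (hX : Continuous X) :
    ContinuousOn (fun x => fderiv ℝ A x (X x)) U :=
  (hA.continuousOn_fderiv_of_isOpen hU (by simp)).clm_apply hX.continuousOn

theorem gmt_fderiv_bdd {A : V → F} {U K : Set V} (hU : IsOpen U) (hA : ContDiffOn ℝ ∞ A U)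
    (hK : IsCompact K) (hKU : K ⊆ U) :
    ∃ L : ℝ, 0 ≤ L ∧ ∀ y ∈ K, ∀ v, ‖fderiv ℝ A y v‖ ≤ L * ‖v‖ := by
  have hc : ContinuousOn (fun y => ‖fderiv ℝ A y‖) K :=
    ((hA.continuousOn_fderiv_of_isOpen hU (by simp)).mono hKU).norm
  obtain ⟨L, hL⟩ := hK.bddAbove_image hc
  refine ⟨max L 0, le_max_right _ _, fun y hy v => ?_⟩
  refine ((fderiv ℝ A y).le_opNorm v).trans ?_
  exact mul_le_mul_of_nonneg_right ((hL (mem_image_of_mem _ hy)).trans (le_max_left _ _))
    (norm_nonneg _)

/-- mean value inequality for a scalar component. -/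
theorem gmt_mvt_aux {A : V → F} {s : Set V} (hs : Convex ℝ s)
    (hd : ∀ x ∈ s, DifferentiableAt ℝ A x) (l : F →L[ℝ] ℝ) {C : ℝ}
    (hb : ∀ x ∈ s, ∀ v, |l (fderiv ℝ A x v)| ≤ C * ‖v‖) {x y : V} (hx : x ∈ s) (hy : y ∈ s) :
    |l (A y) - l (A x)| ≤ C * ‖y - x‖ := by
  by_cases hxy : y = x
  · subst hxy; simp
  have hC : 0 ≤ C := by
    have h1 := hb x hx (y - x)
    have h2 : 0 < ‖y - x‖ := norm_pos_iff.2 (sub_ne_zero.2 hxy)
    by_contra hneg
    push Not at hneg
    have := (abs_nonneg _).trans h1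
    nlinarith
  have h := hs.norm_image_sub_le_of_norm_hasFDerivWithin_le (f := fun x => l (A x))
    (f' := fun x => l.comp (fderiv ℝ A x)) (C := C)
    (fun z hz => (l.hasFDerivAt.comp z (hd z hz).hasFDerivAt).hasFDerivWithinAt)
    (fun z hz => ContinuousLinearMap.opNorm_le_bound _ hC fun v => by
      simpa [Real.norm_eq_abs] using hb z hz v) hx hy
  simpa [Real.norm_eq_abs] using h

/-- the derivative of a scalar component is bounded by the local Lipschitz constant. -/
theorem gmt_lip_aux {A : V → F} {x : V} (hd : DifferentiableAt ℝ A x) (l : F →L[ℝ] ℝ) {C : ℝ}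
    (hC : 0 ≤ C) (hlip : ∀ᶠ y in 𝓝 x, |l (A y) - l (A x)| ≤ C * ‖y - x‖) (v : V) :
    |l (fderiv ℝ A x v)| ≤ C * ‖v‖ := by
  have h1 : HasFDerivAt (fun x => l (A x)) (l.comp (fderiv ℝ A x)) x :=
    l.hasFDerivAt.comp x hd.hasFDerivAt
  have h2 := h1.le_of_lip' hC (by simpa [Real.norm_eq_abs] using hlip)
  have h3 := (l.comp (fderiv ℝ A x)).le_opNorm v
  calc |l (fderiv ℝ A x v)| = ‖(l.comp (fderiv ℝ A x)) v‖ := by simp [Real.norm_eq_abs]
    _ ≤ ‖l.comp (fderiv ℝ A x)‖ * ‖v‖ := h3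
    _ ≤ C * ‖v‖ := mul_le_mul_of_nonneg_right h2 (norm_nonneg _)

end generic

variable {m : ℕ}

/-- the evaluation `B ↦ B ξ η`. -/
noncomputable def gmtEv (ξ η : E m) : Bil m →L[ℝ] ℝ :=
  (ContinuousLinearMap.apply ℝ ℝ η).comp (ContinuousLinearMap.apply ℝ (E m →L[ℝ] ℝ) ξ)

@[simp] theorem gmtEv_apply (ξ η : E m) (B : Bil m) : gmtEv ξ η B = B ξ η := rfl

/-- bounded measurable functions vanishing off a compact subset of `U` are integrable. -/
theorem gmtMu_integrable_of_cpt {U S : Set (E m)} (hU : IsOpen U) (hS : GmtLF S U)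
    {K : Set (E m)} (hK : IsCompact K) (hKU : K ⊆ U) {g : E m → ℝ} (hg : Measurable g) {C : ℝ}
    (hC : ∀ x ∈ K, |g x| ≤ C) (h0 : ∀ x, x ∉ K → g x = 0) : Integrable g (gmtMu S) := by
  have h1 : IntegrableOn g K (gmtMu S) := by
    refine IntegrableOn.of_bound (gmtMu_compact_ne_top hU hS hK hKU).lt_top
      hg.aestronglyMeasurable C ?_
    exact (ae_restrict_iff' hK.measurableSet).2 (Eventually.of_forall fun x hx => hC x hx)
  refine (integrableOn_iff_integrable_of_support_subset ?_).1 h1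
  intro x hx
  by_contra hxK
  exact hx (h0 x hxK)

theorem gmtFv1_of_notMem (A : E m → Bil m) {X : E m → E m} {x : E m} (hx : x ∉ tsupport X)
    (ν : E m) : gmtFv1 A X x ν = 0 := by
  have h1 : X x = 0 := image_eq_zero_of_notMem_tsupport hx
  have h2 : fderiv ℝ X x = 0 := fderiv_of_notMem_tsupport ℝ hx
  have h3 : gmtDiv X x = 0 := gmtDiv_eq_zero_of_notMem hx
  simp [gmtFv1, h1, h2, h3]

theorem gmtFv1_nu_zero (A : E m → Bil m) (X : E m → E m) (x : E m) : gmtFv1 A X x 0 = 0 := by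
  simp [gmtFv1]

theorem gmtFv1_continuousOn {U : Set (E m)} {A : E m → Bil m} (hU : IsOpen U) (hA : GmtInt U A)
    {X : E m → E m} (hX : GmtTest U X) :
    ContinuousOn (fun p : E m × E m => gmtFv1 A X p.1 p.2) (U ×ˢ {0}ᶜ) := by
  have hfst : ContinuousOn (fun p : E m × E m => p.1) (U ×ˢ ({0}ᶜ : Set (E m))) :=
    continuousOn_fst
  have hsnd : ContinuousOn (fun p : E m × E m => p.2) (U ×ˢ ({0}ᶜ : Set (E m))) :=
    continuousOn_snd
  have hmaps : MapsTo (fun p : E m × E m => p.1) (U ×ˢ ({0}ᶜ : Set (E m))) U := fun p hp => hp.1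
  have hA1 : ContinuousOn (fun p : E m × E m => A p.1) (U ×ˢ ({0}ᶜ : Set (E m))) :=
    hA.continuousOn.comp hfst hmaps
  have hq : ContinuousOn (fun p : E m × E m => A p.1 p.2 p.2) (U ×ˢ ({0}ᶜ : Set (E m))) :=
    (hA1.clm_apply hsnd).clm_apply hsnd
  have hsq : ContinuousOn (fun p : E m × E m => Real.sqrt (A p.1 p.2 p.2))
      (U ×ˢ ({0}ᶜ : Set (E m))) := Real.continuous_sqrt.comp_continuousOn hq
  have hdiv : ContinuousOn (fun p : E m × E m => gmtDiv X p.1) (U ×ˢ ({0}ᶜ : Set (E m))) :=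
    ((continuous_gmtDiv hX).1.comp continuous_fst).continuousOn
  have hDA : ContinuousOn (fun p : E m × E m => fderiv ℝ A p.1 (X p.1))
      (U ×ˢ ({0}ᶜ : Set (E m))) :=
    (gmt_fderiv_apply_continuousOn hU hA.smooth hX.c1.continuous).comp hfst hmaps
  have hDA2 : ContinuousOn (fun p : E m × E m => fderiv ℝ A p.1 (X p.1) p.2 p.2)
      (U ×ˢ ({0}ᶜ : Set (E m))) := (hDA.clm_apply hsnd).clm_apply hsnd
  have hDX : Continuous (fun x => fderiv ℝ X x) := hX.c1.continuous_fderiv (by simp)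
  have hadj : Continuous (fun x => ContinuousLinearMap.adjoint (fderiv ℝ X x)) :=
    (ContinuousLinearMap.adjoint (𝕜 := ℝ) (E := E m) (F := E m)).continuous.comp hDX
  have hadj2 : ContinuousOn (fun p : E m × E m => ContinuousLinearMap.adjoint (fderiv ℝ X p.1) p.2)
      (U ×ˢ ({0}ᶜ : Set (E m))) :=
    ((hadj.comp continuous_fst).clm_apply continuous_snd).continuousOn
  have hterm : ContinuousOn
      (fun p : E m × E m => A p.1 p.2 (ContinuousLinearMap.adjoint (fderiv ℝ X p.1) p.2))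
      (U ×ˢ ({0}ᶜ : Set (E m))) := (hA1.clm_apply hsnd).clm_apply hadj2
  unfold gmtFv1
  refine (hsq.mul hdiv).add (((hDA2.div_const 2).sub hterm).div hsq ?_)
  intro p hp
  exact (Real.sqrt_pos.2 (hA.pos p.1 hp.1 p.2 hp.2)).ne'

open Classical in
theorem gmtFv1_measurable {U : Set (E m)} {A : E m → Bil m} (hU : IsOpen U) (hA : GmtInt U A)
    {X : E m → E m} (hX : GmtTest U X) {ν : E m → E m} (hν : Measurable ν) :
    Measurable (fun x => gmtFv1 A X x (ν x)) := by
  set D : Set (E m × E m) := U ×ˢ {0}ᶜ with hD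
  have hDm : MeasurableSet D := (hU.prod isOpen_compl_singleton).measurableSet
  have h1 : Measurable (D.piecewise (fun p : E m × E m => gmtFv1 A X p.1 p.2) (fun _ => 0)) :=
    (gmtFv1_continuousOn hU hA hX).measurable_piecewise continuousOn_const hDm
  have h2 : (fun x => gmtFv1 A X x (ν x)) =
      (D.piecewise (fun p : E m × E m => gmtFv1 A X p.1 p.2) (fun _ => 0)) ∘
        (fun x => (x, ν x)) := by
    funext x
    simp only [Function.comp]
    by_cases hx : (x, ν x) ∈ D
    · rw [piecewise_eq_of_mem _ _ _ hx]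
    · rw [piecewise_eq_of_notMem _ _ _ hx]
      by_cases hxU : x ∈ U
      · have : ν x = 0 := by
          by_contra h0
          exact hx ⟨hxU, h0⟩
        rw [this, gmtFv1_nu_zero]
      · exact gmtFv1_of_notMem A (fun h => hxU (hX.sub h)) _
  rw [h2]
  exact h1.comp (measurable_id.prodMk hν)

/-- the first variation integrand is integrable. -/
theorem gmtFv1_integrable {U S : Set (E m)} {A : E m → Bil m} (hU : IsOpen U) (hA : GmtInt U A)
    (hS : GmtLF S U) {X : E m → E m} (hX : GmtTest U X) :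
    Integrable (fun x => gmtFv1 A X x (gmtNu S x)) (gmtMu S) := by
  have hK : IsCompact (tsupport X) := hX.cpt
  have hc : IsCompact (tsupport X ×ˢ sphere (0 : E m) 1) := hK.prod (isCompact_sphere 0 1)
  have hsub : tsupport X ×ˢ sphere (0 : E m) 1 ⊆ U ×ˢ ({0}ᶜ : Set (E m)) := by
    intro p hp
    refine ⟨hX.sub hp.1, fun h0 => ?_⟩
    have h1 : ‖p.2‖ = 1 := by simpa using hp.2
    rw [mem_singleton_iff.1 h0] at h1
    simp at h1
  obtain ⟨C, hC⟩ := hc.bddAbove_image ((gmtFv1_continuousOn hU hA hX).mono hsub).abs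
  refine gmtMu_integrable_of_cpt hU hS hK hX.sub
    (gmtFv1_measurable hU hA hX (measurable_gmtNu S)) (C := max C 0) ?_
    (fun x hx => gmtFv1_of_notMem A hx _)
  intro x hx
  rcases (gmtNu_spec S).unit x with h1 | h0
  · exact (hC (mem_image_of_mem _ (show (x, gmtNu S x) ∈ tsupport X ×ˢ sphere (0 : E m) 1 from
      ⟨hx, by simpa using h1⟩))).trans (le_max_left _ _)
  · rw [h0, gmtFv1_nu_zero, abs_zero]
    exact le_max_right _ _

/-- the pressure term is integrable. -/
theorem gmt_press_integrable {U S : Set (E m)} {f : E m → ℝ} (hU : IsOpen U)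
    (hf : ContinuousOn f U) (hS : GmtLF S U) {X : E m → E m} (hX : GmtTest U X) :
    Integrable (fun x => f x * ⟪X x, gmtNu S x⟫) (gmtMu S) := by
  have hK : IsCompact (tsupport X) := hX.cpt
  have hsupp : tsupport (fun x => f x • X x) ⊆ tsupport X :=
    closure_mono (fun x hx h0 => hx (by simp [h0]))
  have hcont : Continuous (fun x => f x • X x) :=
    (hf.smul hX.c1.continuous.continuousOn).continuous_of_tsupport_subset hU
      (hsupp.trans hX.sub)
  have heq : (fun x => f x * ⟪X x, gmtNu S x⟫) = fun x => ⟪f x • X x, gmtNu S x⟫ := by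
    funext x
    rw [real_inner_smul_left]
  rw [heq]
  obtain ⟨C, hC⟩ := hK.bddAbove_image hcont.norm.continuousOn
  refine gmtMu_integrable_of_cpt hU hS hK hX.sub
    (hcont.measurable.inner (measurable_gmtNu S)) (C := C) ?_ ?_
  · intro x hx
    calc |⟪f x • X x, gmtNu S x⟫| ≤ ‖f x • X x‖ * ‖gmtNu S x‖ := abs_real_inner_le_norm _ _
      _ ≤ ‖f x • X x‖ * 1 :=
        mul_le_mul_of_nonneg_left (norm_gmtNu_le_one S x) (norm_nonneg _)
      _ ≤ C := by rw [mul_one]; exact hC (mem_image_of_mem _ hx)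
  · intro x hx
    rw [image_eq_zero_of_notMem_tsupport hx, smul_zero, inner_zero_left]

/-- the Euclidean first variation integrand is integrable. -/
theorem gmt_delta_integrable {U S : Set (E m)} (hU : IsOpen U) (hS : GmtLF S U) {X : E m → E m}
    (hX : GmtTest U X) :
    Integrable (fun x => gmtDiv X x - ⟪gmtNu S x, fderiv ℝ X x (gmtNu S x)⟫) (gmtMu S) := by
  have hK : IsCompact (tsupport X) := hX.cpt
  have hDX : Continuous (fun x => fderiv ℝ X x) := hX.c1.continuous_fderiv (by simp)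
  have hdiv := (continuous_gmtDiv hX).1
  obtain ⟨C₁, hC₁⟩ := hK.bddAbove_image hdiv.abs.continuousOn
  obtain ⟨C₂, hC₂⟩ := hK.bddAbove_image hDX.norm.continuousOn
  have hmeas : Measurable (fun x => fderiv ℝ X x (gmtNu S x)) := by
    have h1 : Continuous (fun p : E m × E m => fderiv ℝ X p.1 p.2) :=
      (hDX.comp continuous_fst).clm_apply continuous_snd
    exact h1.measurable.comp (measurable_id.prodMk (measurable_gmtNu S))
  refine gmtMu_integrable_of_cpt hU hS hK hX.sub
    (hdiv.measurable.sub ((measurable_gmtNu S).inner hmeas)) (C := C₁ + C₂) ?_ ?_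
  · intro x hx
    have h1 : |gmtDiv X x| ≤ C₁ := hC₁ (mem_image_of_mem _ hx)
    have h2 : ‖fderiv ℝ X x‖ ≤ C₂ := hC₂ (mem_image_of_mem _ hx)
    have hν := norm_gmtNu_le_one S x
    have h3 : |⟪gmtNu S x, fderiv ℝ X x (gmtNu S x)⟫| ≤ C₂ := by
      calc |⟪gmtNu S x, fderiv ℝ X x (gmtNu S x)⟫| ≤ ‖gmtNu S x‖ * ‖fderiv ℝ X x (gmtNu S x)‖ :=
            abs_real_inner_le_norm _ _
        _ ≤ 1 * (‖fderiv ℝ X x‖ * 1) := by
            gcongr
            exact ((fderiv ℝ X x).le_opNorm _).trans (by gcongr)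
        _ ≤ C₂ := by simpa using h2
    exact (abs_sub _ _).trans (add_le_add h1 h3)
  · intro x hx
    rw [gmtDiv_eq_zero_of_notMem hx, fderiv_of_notMem_tsupport ℝ hx]
    simp

/-- continuous compactly supported majorants are integrable. -/
theorem gmt_major_integrable {U S : Set (E m)} (hU : IsOpen U) (hS : GmtLF S U) {X : E m → E m}
    (hX : GmtTest U X) (a b : ℝ) :
    Integrable (fun x => a * ‖fderiv ℝ X x‖ + b * ‖X x‖) (gmtMu S) := by
  have hK : IsCompact (tsupport X) := hX.cpt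
  have hDX : Continuous (fun x => fderiv ℝ X x) := hX.c1.continuous_fderiv (by simp)
  have hcont : Continuous (fun x => a * ‖fderiv ℝ X x‖ + b * ‖X x‖) :=
    (continuous_const.mul hDX.norm).add (continuous_const.mul hX.c1.continuous.norm)
  obtain ⟨C, hC⟩ := hK.bddAbove_image hcont.abs.continuousOn
  refine gmtMu_integrable_of_cpt hU hS hK hX.sub hcont.measurable (C := C)
    (fun x hx => hC (mem_image_of_mem _ hx)) ?_
  intro x hx
  rw [image_eq_zero_of_notMem_tsupport hx, fderiv_of_notMem_tsupport ℝ hx]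
  simp

end Claimed.Agent.Gmt
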