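import Claimed.Agent.Lib.Gmt.LamBaseA

/-!
# Lib/Gmt [LamBase = part 2/2 of the former LamBase] G3d: local absolute minimisers `GmtLAM A f U S`: basic API, density estimates.
(architect: helper75; these are the tops of `IF.lean` §1, §3 in unbundled form: `A` elliptic (`GmtInt U A`), `f` continuous on `U`)

PLAN OF PROOFS
* (`gmtAdm_neg`, `gmtPer_compl` are proved in `BvBasicA.lean`.)
* (`gmtPer_le_mul_gmtPer`, `gmtVarA_le_mul_gmtVarA` are proved in `BvBasic.lean`.)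
* `GmtLAM.lf`: on `W ⋐ U`, `c P(S;W) ≤ Per_A(S;W) < ∞` (`gmtInt_bounds` on `closure W`, `mul_gmtP_le_gmtPer`).
* `GmtLAM.compl`: `∫_{Sᶜ ∩ W} f = ∫_W f - ∫_{S ∩ W} f` (`f` is integrable on `W ⋐ U`), `Sᶜ △ S'ᶜ = S △ S'`.
* `GmtLAM.exists_QM`: `gmtInt_bounds` + `GmtLAM.toQM` (+ `GmtLAM.mono`).
* `gmtLAM_area`: choose `V` open with `K ⊆ V ⋐ U` (`exists_compact_superset`-type lemma), `r₀ ≤ dist(K, Vᶜ)/2` and `Λ r₀ ≤ ε₀`; `GmtQM.per_ball_le`, `gmtQM_volume`, `gmtQM_per_lower` with `δ₀ := δ`.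
-/

set_option autoImplicit false
open scoped ContDiff ENNReal RealInnerProductSpace Topology
open MeasureTheory Metric Set Filter

namespace Claimed.Agent.Gmt

variable {m : ℕ}

theorem gmtlb_per_split (A : E m → Bil m) (S : Set (E m)) {W K : Set (E m)} (hW : IsOpen W)
    (hK : IsCompact K) (hKW : K ⊆ W) : gmtPer A S W = gmtPerM A S K + gmtPerM A S (W \ K) := by
  rw [← gmtPerM_open A S hW, ← measure_inter_add_sdiff W hK.measurableSet, inter_eq_right.2 hKW]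

theorem gmtlb_inter_compl {S S' K : Set (E m)} (hd : symmDiff S S' ⊆ K) : S ∩ Kᶜ = S' ∩ Kᶜ := by
  ext x
  constructor
  · rintro ⟨h1, h2⟩
    refine ⟨?_, h2⟩
    by_contra h3
    exact h2 (hd (Or.inl ⟨h1, h3⟩))
  · rintro ⟨h1, h2⟩
    refine ⟨?_, h2⟩
    by_contra h3
    exact h2 (hd (Or.inr ⟨h1, h3⟩))

theorem gmtlb_off (A : E m → Bil m) {S S' K : Set (E m)} (hS : MeasurableSet S)
    (hS' : MeasurableSet S') (hK : IsCompact K) (hd : symmDiff S S' ⊆ K) {W : Set (E m)}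
    (hW : MeasurableSet W) : gmtPerM A S (W \ K) = gmtPerM A S' (W \ K) := by
  have h := gmtPerM_restrict_congr A hK.isClosed.isOpen_compl hS hS'
    (by rw [gmtlb_inter_compl hd]; exact ae_eq_refl _)
  have h1 := congrArg (fun μ : Measure (E m) => μ W) h
  simp only [Measure.restrict_apply hW] at h1
  exact h1

theorem gmtlb_integrableOn {U W : Set (E m)} {f : E m → ℝ} (hf : ContinuousOn f U) (hW : GmtCC W U) :
    IntegrableOn f W :=
  ((hf.mono hW.2.2).integrableOn_compact hW.2.1).mono_set subset_closure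

theorem gmtlb_integral_split {S W K : Set (E m)} {f : E m → ℝ} (hS : MeasurableSet S)
    (hW : MeasurableSet W) (hK : IsCompact K) (hKW : K ⊆ W) (hf : IntegrableOn f W) :
    ∫ x in S ∩ W, f x = (∫ x in S ∩ K, f x) + ∫ x in S ∩ Kᶜ ∩ W, f x := by
  have e : S ∩ W = (S ∩ K) ∪ (S ∩ Kᶜ ∩ W) := by
    ext x
    constructor
    · rintro ⟨h1, h2⟩
      by_cases h3 : x ∈ K
      · exact Or.inl ⟨h1, h3⟩
      · exact Or.inr ⟨⟨h1, h3⟩, h2⟩
    · rintro (⟨h1, h2⟩ | ⟨⟨h1, -⟩, h2⟩)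
      · exact ⟨h1, hKW h2⟩
      · exact ⟨h1, h2⟩
  rw [e]
  refine setIntegral_union ?_ ((hS.inter hK.measurableSet.compl).inter hW) (hf.mono_set ?_)
    (hf.mono_set inter_subset_right)
  · rw [Set.disjoint_left]
    rintro x ⟨-, h1⟩ ⟨⟨-, h2⟩, -⟩
    exact h2 h1
  · exact fun x hx => hKW hx.2

/-- it is enough to test each competitor in ONE window containing the compact set where it differs
from `S` (the perimeter measures of `S` and `S'` agree off that compact set: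
`gmtPerM_restrict_congr`, `gmtPerM_open`; all quantities are finite). -/
theorem gmtLAM_of_cofinal {U : Set (E m)} {A : E m → Bil m} {f : E m → ℝ} {S : Set (E m)}
    (hU : IsOpen U) (hA : GmtInt U A) (hf : ContinuousOn f U) (hS : MeasurableSet S)
    (hfin : ∀ W, GmtCC W U → gmtPer A S W ≠ ⊤)
    (hmin : ∀ K, IsCompact K → K ⊆ U → ∀ S', MeasurableSet S' → symmDiff S S' ⊆ K →
      ∃ W, GmtCC W U ∧ K ⊆ W ∧ (gmtPer A S' W ≠ ⊤ →
        (gmtPer A S W).toReal - ∫ x in S ∩ W, f x ≤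
          (gmtPer A S' W).toReal - ∫ x in S' ∩ W, f x)) : GmtLAM A f U S := by
  refine ⟨hS, hfin, fun W S' hW hS' hCD hfin' => ?_⟩
  obtain ⟨K, hK, hKW, hd⟩ := hCD
  have hWU : W ⊆ U := subset_closure.trans hW.2.2
  obtain ⟨W₀, hW₀, hKW₀, hmin₀⟩ := hmin K hK (hKW.trans hWU) S' hS' hd
  -- the four perimeters
  have p1 := gmtlb_per_split A S hW.1 hK hKW
  have p2 := gmtlb_per_split A S' hW.1 hK hKW
  have p3 := gmtlb_per_split A S hW₀.1 hK hKW₀
  have p4 := gmtlb_per_split A S' hW₀.1 hK hKW₀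
  rw [← gmtlb_off A hS hS' hK hd hW.1.measurableSet] at p2
  rw [← gmtlb_off A hS hS' hK hd hW₀.1.measurableSet] at p4
  have f1 := hfin W hW
  have f3 := hfin W₀ hW₀
  rw [p1] at f1
  rw [p3] at f3
  have f2 := hfin'
  rw [p2] at f2
  obtain ⟨a1, b1⟩ := ENNReal.add_ne_top.1 f1
  obtain ⟨-, b3⟩ := ENNReal.add_ne_top.1 f3
  obtain ⟨a2, -⟩ := ENNReal.add_ne_top.1 f2
  have f4 : gmtPer A S' W₀ ≠ ⊤ := by
    rw [p4]
    exact ENNReal.add_ne_top.2 ⟨a2, b3⟩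
  have h0 := hmin₀ f4
  rw [p3, p4, ENNReal.toReal_add a1 b3, ENNReal.toReal_add a2 b3,
    gmtlb_integral_split hS hW₀.1.measurableSet hK hKW₀ (gmtlb_integrableOn hf hW₀),
    gmtlb_integral_split hS' hW₀.1.measurableSet hK hKW₀ (gmtlb_integrableOn hf hW₀),
    gmtlb_inter_compl hd] at h0
  rw [p1, p2, ENNReal.toReal_add a1 b1, ENNReal.toReal_add a2 b1,
    gmtlb_integral_split hS hW.1.measurableSet hK hKW (gmtlb_integrableOn hf hW),
    gmtlb_integral_split hS' hW.1.measurableSet hK hKW (gmtlb_integrableOn hf hW),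
    gmtlb_inter_compl hd]
  linarith

/-- on relatively compact open subsets a local absolute minimiser is a quasi-minimiser. -/
theorem GmtLAM.exists_QM {U : Set (E m)} {A : E m → Bil m} {f : E m → ℝ} {S : Set (E m)}
    (hU : IsOpen U) (hA : GmtInt U A) (hf : ContinuousOn f U) (h : GmtLAM A f U S) {W : Set (E m)}
    (hW : GmtCC W U) : ∃ δ Λ : ℝ, 0 ≤ δ ∧ 0 ≤ Λ ∧ GmtQM δ Λ W S := by
  have hWU : W ⊆ U := subset_closure.trans hW.2.2
  obtain ⟨c, C, hc, hcC, hb⟩ := gmtInt_bounds hU hA hW.2.1 hW.2.2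
  obtain ⟨Λ₀, hΛ₀⟩ := hW.2.1.exists_bound_of_continuousOn (hf.mono hW.2.2)
  have hΛ : ∀ x ∈ W, |f x| ≤ max Λ₀ 0 := fun x hx =>
    (hΛ₀ x (subset_closure hx)).trans (le_max_left _ _)
  refine ⟨C / c - 1, max Λ₀ 0 / c, ?_, div_nonneg (le_max_right _ _) hc.le,
    GmtLAM.toQM hW.1 (h.mono hWU) (hf.mono hWU) hc hcC (fun x hx => hb x (subset_closure hx)) hΛ⟩
  rw [sub_nonneg, le_div_iff₀ hc, one_mul]
  exact hcC

/-- AREA AND VOLUME BOUNDS (`IF.gmt_lam_area`). -/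
theorem gmtLAM_area (hm : 1 ≤ m) {U : Set (E m)} {A : E m → Bil m} {f : E m → ℝ} {S : Set (E m)}
    (hU : IsOpen U) (hA : GmtInt U A) (hf : ContinuousOn f U) (h : GmtLAM A f U S) {K : Set (E m)}
    (hK : IsCompact K) (hKU : K ⊆ U) :
    ∃ c C r₀ : ℝ, 0 < c ∧ 0 < C ∧ 0 < r₀ ∧ ∀ x ∈ K, ∀ r, 0 < r → r < r₀ →
      gmtMu S (ball x r) ≤ ENNReal.ofReal (C * r ^ (m - 1)) ∧
      (x ∈ gmtBd S → ENNReal.ofReal (c * r ^ (m - 1)) ≤ gmtMu S (ball x r) ∧
        ENNReal.ofReal (c * r ^ m) ≤ volume (S ∩ ball x r) ∧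
        ENNReal.ofReal (c * r ^ m) ≤ volume (ball x r \ S)) := by
  obtain ⟨V, hV, hKV⟩ := gmt_exists_cc hK hU hKU
  obtain ⟨δ, Λ, hδ, hΛ, hQ⟩ := h.exists_QM hU hA hf hV
  obtain ⟨r₁, hr₁, hthick⟩ := hK.exists_cthickening_subset_open hV.1 hKV
  obtain ⟨c₁, hc₁, ε₁, hε₁, hvol⟩ := gmtQM_volume m hm δ
  obtain ⟨c₂, hc₂, ε₂, hε₂, hper⟩ := gmtQM_per_lower m hm δ
  have hω : 0 ≤ gmtOm m := ENNReal.toReal_nonneg
  have hΛ1 : 0 < Λ + 1 := by linarith
  refine ⟨min c₁ c₂, (1 + δ) * m * gmtOm m + Λ * gmtOm m + 1, min r₁ (min 1 (min ε₁ ε₂ / (Λ + 1))),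
    lt_min hc₁ hc₂, by positivity, lt_min hr₁ (lt_min one_pos (div_pos (lt_min hε₁ hε₂) hΛ1)),
    fun x hx r hr0 hr => ?_⟩
  have hr1 : r < r₁ := hr.trans_le (min_le_left _ _)
  have hr2 : r < 1 := hr.trans_le ((min_le_right _ _).trans (min_le_left _ _))
  have hr3 : r < min ε₁ ε₂ / (Λ + 1) := hr.trans_le ((min_le_right _ _).trans (min_le_right _ _))
  have hball : closedBall x r ⊆ V :=
    ((closedBall_subset_cthickening hx r).trans (cthickening_mono hr1.le K)).trans hthick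
  have hΛr : Λ * r ≤ min ε₁ ε₂ := by
    rw [lt_div_iff₀ hΛ1] at hr3
    nlinarith
  have hmm : m = (m - 1) + 1 := by omega
  have hpow : r ^ m ≤ r ^ (m - 1) := pow_le_pow_of_le_one hr0.le hr2.le (Nat.sub_le _ _)
  have hp0 : 0 ≤ r ^ (m - 1) := by positivity
  have hpm : 0 ≤ r ^ m := by positivity
  refine ⟨?_, fun hxB => ⟨?_, ?_, ?_⟩⟩
  · rw [gmtMu_open S isOpen_ball]
    refine (hQ.per_ball_le hδ hΛ hV.1 hr0 hball).trans (ENNReal.ofReal_le_ofReal ?_)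
    have h1 : Λ * gmtOm m * r ^ m ≤ Λ * gmtOm m * r ^ (m - 1) :=
      mul_le_mul_of_nonneg_left hpow (by positivity)
    nlinarith
  · rw [gmtMu_open S isOpen_ball]
    refine le_trans (ENNReal.ofReal_le_ofReal ?_)
      (hper δ Λ V S x r hδ le_rfl hΛ hV.1 hQ hxB hr0 hball (hΛr.trans (min_le_right _ _)))
    exact mul_le_mul_of_nonneg_right (min_le_right _ _) hp0
  · refine le_trans (ENNReal.ofReal_le_ofReal ?_)
      (hvol δ Λ V S x r hδ le_rfl hΛ hV.1 hQ hxB hr0 hball (hΛr.trans (min_le_left _ _))).1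
    exact mul_le_mul_of_nonneg_right (min_le_left _ _) hpm
  · refine le_trans (ENNReal.ofReal_le_ofReal ?_)
      (hvol δ Λ V S x r hδ le_rfl hΛ hV.1 hQ hxB hr0 hball (hΛr.trans (min_le_left _ _))).2
    exact mul_le_mul_of_nonneg_right (min_le_left _ _) hpm

theorem GmtLAM.volume_gmtBd (hm : 1 ≤ m) {U : Set (E m)} {A : E m → Bil m} {f : E m → ℝ}
    {S : Set (E m)} (hU : IsOpen U) (hA : GmtInt U A) (hf : ContinuousOn f U)
    (h : GmtLAM A f U S) : volume (gmtBd S ∩ U) = 0 := by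
  refine measure_null_of_locally_null _ fun x hx => ?_
  obtain ⟨W, hW, hxW⟩ := gmt_exists_cc (isCompact_singleton (x := x)) hU (singleton_subset_iff.2 hx.2)
  obtain ⟨δ, Λ, hδ, hΛ, hQ⟩ := h.exists_QM hU hA hf hW
  refine ⟨gmtBd S ∩ W, ?_, hQ.volume_gmtBd hm hδ hΛ hW.1⟩
  rw [mem_nhdsWithin]
  exact ⟨W, hW.1, hxW rfl, fun y hy => ⟨hy.2.1, hy.1⟩⟩

end Claimed.Agent.Gmt
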