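import Claimed.Agent.Lib.Gmt.FrD
import Claimed.Agent.Lib.Gmt.Fv
import Claimed.Agent.Lib.Gmt.QmCompact
import Claimed.Agent.Lib.Gmt.FvI
import Claimed.Agent.Lib.Gmt.LamBase

/-!
# Lib/Gmt FRAMES [part E: closeness, normalisation]: normalisation `GmtLAM ⇒ GmtAM`, blow-up sequences.   (architect: helper184)

Let `S` be a local absolute minimiser for smooth data `(U, A, f)`, `K ⊆ U` compact.  For `z ∈ K`, a frame `T` of `A z` and `r > 0` put `S̄ = gmtBlow T z r S`, `Ā = gmtBlowA T z r A`, `f̄ = gmtBlowF T z r f`.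

PLAN OF PROOFS
* `gmt_blow_close`: `δ > 0` with `K' = cthickening δ K ⊆ U` compact; `‖DA‖ ≤ L₀`, `|f| ≤ F₀` on `K'`; frame bounds `M` (`gmt_frame_bound`, `gmtInt_ell` on `K`); `R₀ = δ/M`;
  the segment between `Ψ y, Ψ y'` stays in the convex set `ball z δ ⊆ K'` (`Convex.norm_image_sub_le_of_norm_fderiv_le`).  `L = M⁵ L₀`, `Λ₀ = M F₀`.
* `gmt_lam_am` (with `r = 1`).  By `gmt_blow_close` + `gmtBlowA_zero`: `|Ā y ξ η - ⟪ξ,η⟫| ≤ L ρ |ξ||η|` on `ball 0 ρ`.  Take `R ≤ R₀` with `L R ≤ 1/4`.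
  (am): `(1 - Lρ) P ≤ Per_Ā ≤ (1 + Lρ) P` on open subsets of `ball 0 ρ` (`mul_gmtP_le_gmtPer`, `gmtPer_le_mul_gmtP`; `√(1±t)`), minimality of `S̄` (`gmt_blow_lam`), `|∫_{S̄∩W} f̄ - ∫_{S'∩W} f̄| ≤ Λ₀ |S̄ △ S'|`; `(1+t)/(1-t) ≤ 1 + 4t`.
  (fv): `gmt_lam_fv` for `(Ā, f̄)` and the pointwise bound `gmt_fv1_close`.
* `gmt_blow_seq`: `gmtBlow T z r S = gmtDil 0 r (gmtBlow T z 1 S)` (`gmtDil_gmtBlow`), `GmtAM.gmtDil`, `GmtAM.toQM` with the radius `R i = min (R / r i) (r i)^{-1/2}`: `δ i = κ r i R i ≤ κ √(r i)`.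
* `gmt_blow_compact`, `gmt_blow_limit`, `gmt_blow_bd`: `gmtQM_compact`, `gmtQM_closure` (+ `gmtMin_iff_QM`), `gmtQM_wk`, `gmtQM_bd_lim`.
* `gmt_blow_conv`: derivatives of order `k ≥ 1` of `y ↦ A (z + r T⁻¹ y)` carry a factor `r^k` (`ContinuousLinearMap.iteratedFDeriv_comp_right`, `iteratedFDeriv_comp_add_left`), all derivatives of `A`, `f` are bounded on `K'`; order `0`: `gmt_blow_close` + `gmtBlowA_zero`.
* `gmt_blow_sing`: `gmt_sing_lim` (IFb) for the data of `gmt_blow_conv`, `gmtSing_gmtBlow`.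
-/

set_option autoImplicit false
open scoped ContDiff ENNReal RealInnerProductSpace Topology
open MeasureTheory Metric Set Filter

namespace Claimed.Agent.Gmt

variable {m : ℕ}

/-- quantitative control of the data near `z`. -/
structure GmtCtl (c C L₀ F₀ δ : ℝ) (U : Set (E m)) (A : E m → Bil m) (f : E m → ℝ) (z : E m) :
    Prop where
  sub : ball z δ ⊆ U
  ell : GmtEll c C (A z)
  dA : ∀ y ∈ ball z δ, ∀ v ξ η : E m, |fderiv ℝ A y v ξ η| ≤ L₀ * ‖v‖ * ‖ξ‖ * ‖η‖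
  f : ∀ y ∈ ball z δ, |f y| ≤ F₀

theorem gmt_bil_bound {B : Bil m} {c : ℝ} (h : ‖B‖ ≤ c) (ξ η : E m) :
    |B ξ η| ≤ c * ‖ξ‖ * ‖η‖ :=
  calc |B ξ η| = ‖B ξ η‖ := (Real.norm_eq_abs _).symm
    _ ≤ ‖B‖ * ‖ξ‖ * ‖η‖ := B.le_opNorm₂ ξ η
    _ ≤ c * ‖ξ‖ * ‖η‖ := by gcongr

section generic

variable {V F : Type*} [NormedAddCommGroup V] [NormedSpace ℝ V] [NormedAddCommGroup F]
  [NormedSpace ℝ F]

theorem gmt_fderiv_le_iterated (a : V → F) (x v : V) :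
    ‖fderiv ℝ a x v‖ ≤ ‖iteratedFDeriv ℝ 1 a x‖ * ‖v‖ := by
  rw [norm_iteratedFDeriv_one]
  exact (fderiv ℝ a x).le_opNorm v

theorem gmt_iterated_continuousOn {a : V → F} {U : Set V} (hU : IsOpen U)
    (ha : ContDiffOn ℝ ∞ a U) (k : ℕ) : ContinuousOn (fun x => iteratedFDeriv ℝ k a x) U :=
  (ha.continuousOn_iteratedFDerivWithin (m := k) (by exact_mod_cast le_top)
    hU.uniqueDiffOn).congr fun _ hx => (iteratedFDerivWithin_of_isOpen k hU hx).symm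

theorem gmt_dist_iterated_zero (a b : V → F) (x : V) :
    dist (iteratedFDeriv ℝ 0 a x) (iteratedFDeriv ℝ 0 b x) = ‖a x - b x‖ := by
  rw [iteratedFDeriv_zero_eq_comp, iteratedFDeriv_zero_eq_comp]
  simp only [Function.comp]
  rw [LinearIsometryEquiv.dist_map, dist_eq_norm]

end generic

theorem gmt_conv_bdd {F : Type} [NormedAddCommGroup F] [NormedSpace ℝ F] {U' K : Set (E m)}
    {a : ℕ → E m → F} {a' : E m → F} (hU' : IsOpen U') (ha' : ContDiffOn ℝ ∞ a' U')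
    (h : GmtSmoothConv U' a a') (hK : IsCompact K) (hKU : K ⊆ U') (k : ℕ) :
    ∃ L : ℝ, 0 ≤ L ∧ ∀ᶠ i in atTop, ∀ x ∈ K, ‖iteratedFDeriv ℝ k (a i) x‖ ≤ L := by
  obtain ⟨L, hL⟩ := hK.bddAbove_image ((gmt_iterated_continuousOn hU' ha' k).mono hKU).norm
  refine ⟨max L 0 + 1, by positivity, ?_⟩
  filter_upwards [Metric.tendstoUniformlyOn_iff.1 (h K hK hKU k) 1 one_pos] with i hi x hx
  have h1 := hi x hx
  have h2 : ‖iteratedFDeriv ℝ k a' x‖ ≤ L := hL (mem_image_of_mem _ hx)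
  rw [dist_eq_norm] at h1
  have h3 : ‖iteratedFDeriv ℝ k (a i) x‖ ≤
      ‖iteratedFDeriv ℝ k a' x‖ + ‖iteratedFDeriv ℝ k a' x - iteratedFDeriv ℝ k (a i) x‖ := by
    have := norm_sub_le (iteratedFDeriv ℝ k a' x)
      (iteratedFDeriv ℝ k a' x - iteratedFDeriv ℝ k (a i) x)
    simpa using this
  have h4 := le_max_left L 0
  linarith

theorem gmt_conv_close {F : Type} [NormedAddCommGroup F] [NormedSpace ℝ F] {U' K : Set (E m)}
    {a : ℕ → E m → F} {a' : E m → F} (h : GmtSmoothConv U' a a') (hK : IsCompact K)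
    (hKU : K ⊆ U') {ε : ℝ} (hε : 0 < ε) : ∀ᶠ i in atTop, ∀ x ∈ K, ‖a' x - a i x‖ ≤ ε := by
  filter_upwards [Metric.tendstoUniformlyOn_iff.1 (h K hK hKU 0) ε hε] with i hi x hx
  have h1 := hi x hx
  rw [gmt_dist_iterated_zero] at h1
  exact h1.le

/-- smooth data are controlled uniformly on compact sets. -/
theorem gmt_ctl_compact {U K : Set (E m)} {A : E m → Bil m} {f : E m → ℝ}
    (hd : GmtData U A f) (hK : IsCompact K) (hKU : K ⊆ U) :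
    ∃ c C L₀ F₀ δ : ℝ, 0 < c ∧ c ≤ C ∧ 0 ≤ L₀ ∧ 0 ≤ F₀ ∧ 0 < δ ∧
      ∀ z ∈ K, GmtCtl c C L₀ F₀ δ U A f z := by
  obtain ⟨δ, hδ, hδU⟩ := hK.exists_cthickening_subset_open hd.opn hKU
  have hK' : IsCompact (cthickening δ K) := hK.cthickening
  obtain ⟨c, C, hc, hcC, hell⟩ := gmtInt_ell hd.opn hd.int hK hKU
  obtain ⟨L₀, hL₀, hL⟩ := gmt_fderiv_bdd hd.opn hd.int.smooth hK' hδU
  obtain ⟨F₀, hF⟩ := hK'.bddAbove_image (hd.f.continuousOn.mono hδU).abs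
  have hball : ∀ z ∈ K, ball z δ ⊆ cthickening δ K := fun z hz =>
    (ball_subset_thickening hz δ).trans (thickening_subset_cthickening δ K)
  refine ⟨c, C, L₀, max F₀ 0, δ, hc, hcC, hL₀, le_max_right _ _, hδ, fun z hz =>
    ⟨(hball z hz).trans hδU, hell z hz, ?_, ?_⟩⟩
  · intro y hy v ξ η
    exact gmt_bil_bound (hL y (hball z hz hy) v) ξ η
  · intro y hy
    exact (hF (mem_image_of_mem _ (hball z hz hy))).trans (le_max_left _ _)

/-- smoothly convergent data are eventually controlled uniformly on compact sets. -/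
theorem gmt_ctl_conv {U : ℕ → Set (E m)} {A : ℕ → E m → Bil m} {f : ℕ → E m → ℝ}
    {U' : Set (E m)} {A' : E m → Bil m} {f' : E m → ℝ} (h : GmtDataConv U A f U' A' f')
    {K : Set (E m)} (hK : IsCompact K) (hKU : K ⊆ U') :
    ∃ c C L₀ F₀ δ : ℝ, 0 < c ∧ c ≤ C ∧ 0 ≤ L₀ ∧ 0 ≤ F₀ ∧ 0 < δ ∧
      ∀ᶠ i in atTop, ∀ z ∈ K, GmtCtl c C L₀ F₀ δ (U i) (A i) (f i) z := by
  have hd := h.data'
  obtain ⟨δ, hδ, hδU⟩ := hK.exists_cthickening_subset_open hd.opn hKU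
  have hK' : IsCompact (cthickening δ K) := hK.cthickening
  obtain ⟨c, C, hc, hcC, hell⟩ := gmtInt_ell hd.opn hd.int hK hKU
  obtain ⟨L₀, hL₀, hL⟩ := gmt_conv_bdd hd.opn hd.int.smooth h.convA hK' hδU 1
  obtain ⟨F₀, hF₀, hF⟩ := gmt_conv_bdd hd.opn hd.f h.convf hK' hδU 0
  have hcl := gmt_conv_close h.convA hK hKU (ε := c ^ 2 / 2) (by positivity)
  have hball : ∀ z ∈ K, ball z δ ⊆ cthickening δ K := fun z hz =>
    (ball_subset_thickening hz δ).trans (thickening_subset_cthickening δ K)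
  refine ⟨c / 2, C + c, L₀, F₀, δ, by positivity, by linarith, hL₀, hF₀, hδ, ?_⟩
  filter_upwards [hL, hF, hcl, h.exh _ hK' hδU] with i hLi hFi hcli hUi z hz
  have hzU : z ∈ U i := hUi (hball z hz (mem_ball_self hδ))
  refine ⟨(hball z hz).trans hUi, ⟨(h.data i).int.symm z hzU, fun ξ => ?_, fun ξ => ?_⟩, ?_, ?_⟩
  · have h1 := gmt_bil_sub_le (A' z) (A i z) ξ
    have h2 := (hell z hz).lo ξ
    have h3 : ‖A' z - A i z‖ * ‖ξ‖ ^ 2 ≤ c ^ 2 / 2 * ‖ξ‖ ^ 2 := by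
      gcongr
      exact hcli z hz
    have h4 : 0 ≤ c ^ 2 * ‖ξ‖ ^ 2 := by positivity
    nlinarith
  · have h1 := gmt_bil_sub_le (A i z) (A' z) ξ
    have h2 := (hell z hz).hi ξ
    have h3 : ‖A i z - A' z‖ * ‖ξ‖ ^ 2 ≤ c ^ 2 / 2 * ‖ξ‖ ^ 2 := by
      gcongr
      have hrev : ‖A i z - A' z‖ = ‖A' z - A i z‖ := norm_sub_rev (A i z) (A' z)
      rw [hrev]
      exact hcli z hz
    have h4 : 0 ≤ c ^ 2 * ‖ξ‖ ^ 2 := by positivity
    have h5 : 0 ≤ C * c * ‖ξ‖ ^ 2 := by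
      have : 0 ≤ C := hc.le.trans hcC
      positivity
    nlinarith
  · intro y hy v ξ η
    refine gmt_bil_bound ((gmt_fderiv_le_iterated (A i) y v).trans ?_) ξ η
    gcongr
    exact hLi y (hball z hz hy)
  · intro y hy
    have := hFi y (hball z hz hy)
    rwa [norm_iteratedFDeriv_zero, Real.norm_eq_abs] at this

/-- quantitative closeness of the blown-up data to `(Euclid, 0)`: the constants only depend on the control. -/
theorem gmt_blow_close_q (hm : 2 ≤ m) {c C L₀ F₀ δ : ℝ} (hc : 0 < c) (hcC : c ≤ C) (hL₀ : 0 ≤ L₀)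
    (hF₀ : 0 ≤ F₀) (hδ : 0 < δ) :
    ∃ L R₀ Λ₀ : ℝ, 0 < L ∧ 0 < R₀ ∧ 0 ≤ Λ₀ ∧ ∀ (U : Set (E m)) (A : E m → Bil m) (f : E m → ℝ)
      (z : E m) (T : E m ≃L[ℝ] E m), GmtData U A f → GmtCtl c C L₀ F₀ δ U A f z →
      GmtFrame (A z) T →
      ∀ r, 0 < r → ball 0 (R₀ / r) ⊆ gmtBlow T z r U ∧
        (∀ y ∈ ball (0 : E m) (R₀ / r), ∀ y' ∈ ball (0 : E m) (R₀ / r), ∀ ξ η : E m,
          |gmtBlowA T z r A y ξ η - gmtBlowA T z r A y' ξ η| ≤ L * r * ‖y - y'‖ * ‖ξ‖ * ‖η‖) ∧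
        (∀ y ∈ ball (0 : E m) (R₀ / r), |gmtBlowF T z r f y| ≤ Λ₀ * r) := by
  obtain ⟨M, hM1, hM⟩ := gmt_frame_bound hm hc hcC
  have hM0 : 0 < M := by linarith
  refine ⟨M ^ 5 * L₀ + 1, δ / M, M * F₀, by positivity, by positivity, by positivity, ?_⟩
  intro U A f z T hd hctl hT r hr
  obtain ⟨hT1, hT2, hdet1, hdet2⟩ := hM (A z) T hctl.ell hT
  have hmem : ∀ y ∈ ball (0 : E m) (δ / M / r), gmtAff T z r y ∈ ball z δ := by
    intro y hy
    rw [mem_ball_zero_iff] at hy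
    rw [mem_ball, gmtAff, dist_eq_norm, add_sub_cancel_left, norm_smul, Real.norm_eq_abs,
      abs_of_pos hr]
    calc r * ‖T.symm y‖ ≤ r * (M * ‖y‖) := by gcongr; exact hT2 y
      _ < r * (M * (δ / M / r)) := by gcongr
      _ = δ := by field_simp
  have hadj : ∀ ξ : E m, ‖gmtAdj (T : E m →L[ℝ] E m) ξ‖ ≤ M * ‖ξ‖ := by
    intro ξ
    have h1 := (gmtAdj (T : E m →L[ℝ] E m)).le_opNorm ξ
    have h2 : ‖gmtAdj (T : E m →L[ℝ] E m)‖ ≤ M := by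
      rw [gmtAdj, LinearIsometryEquiv.norm_map]
      exact ContinuousLinearMap.opNorm_le_bound _ hM0.le hT1
    exact h1.trans (by gcongr)
  refine ⟨fun y hy => hctl.sub (hmem y hy), ?_, ?_⟩
  · intro y hy y' hy' ξ η
    set a := gmtAdj (T : E m →L[ℝ] E m) ξ with ha
    set b := gmtAdj (T : E m →L[ℝ] E m) η with hb
    have hmv := gmt_mvt_aux (A := A) (convex_ball z δ)
      (fun x hx => (hd.int.smooth.differentiableOn (by simp)).differentiableAt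
        (hd.opn.mem_nhds (hctl.sub hx))) (gmtEv a b) (C := L₀ * ‖a‖ * ‖b‖)
      (fun x hx v => by
        have := hctl.dA x hx v a b
        rw [gmtEv_apply]
        linarith) (hmem y' hy') (hmem y hy)
    rw [gmtEv_apply, gmtEv_apply] at hmv
    have hΨ : ‖gmtAff T z r y - gmtAff T z r y'‖ ≤ r * (M * ‖y - y'‖) := by
      have : gmtAff T z r y - gmtAff T z r y' = r • T.symm (y - y') := by
        simp only [gmtAff, map_sub, smul_sub]
        abel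
      rw [this, norm_smul, Real.norm_eq_abs, abs_of_pos hr]
      gcongr
      exact hT2 _
    have hexp : gmtBlowA T z r A y ξ η - gmtBlowA T z r A y' ξ η =
        ((T : E m →L[ℝ] E m).det ^ 2)⁻¹ *
          (A (gmtAff T z r y) a b - A (gmtAff T z r y') a b) := by
      simp only [gmtBlowA, ContinuousLinearMap.smul_apply, smul_eq_mul,
        ContinuousLinearMap.bilinearComp_apply]
      ring
    have hdet : ((T : E m →L[ℝ] E m).det ^ 2)⁻¹ ≤ M ^ 2 := by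
      have : ((T : E m →L[ℝ] E m).det ^ 2)⁻¹ = (|(T : E m →L[ℝ] E m).det|⁻¹) ^ 2 := by
        rw [inv_pow, sq_abs]
      rw [this]
      gcongr
    have hdet0 : 0 ≤ ((T : E m →L[ℝ] E m).det ^ 2)⁻¹ := by positivity
    rw [hexp, abs_mul, abs_of_nonneg hdet0]
    have hyy : 0 ≤ ‖y - y'‖ := norm_nonneg _
    calc ((T : E m →L[ℝ] E m).det ^ 2)⁻¹ * |A (gmtAff T z r y) a b - A (gmtAff T z r y') a b|
        ≤ M ^ 2 * (L₀ * (M * ‖ξ‖) * (M * ‖η‖) * (r * (M * ‖y - y'‖))) := by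
          gcongr
          refine hmv.trans ?_
          gcongr
          · exact hadj ξ
          · exact hadj η
      _ = M ^ 5 * L₀ * r * ‖y - y'‖ * ‖ξ‖ * ‖η‖ := by ring
      _ ≤ (M ^ 5 * L₀ + 1) * r * ‖y - y'‖ * ‖ξ‖ * ‖η‖ := by
          gcongr
          linarith
  · intro y hy
    have h1 := hctl.f _ (hmem y hy)
    rw [gmtBlowF, abs_mul, abs_mul, abs_of_pos hr, abs_of_nonneg (by positivity)]
    calc r * |(T : E m →L[ℝ] E m).det|⁻¹ * |f (gmtAff T z r y)| ≤ r * M * F₀ := by gcongr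
      _ = M * F₀ * r := by ring

/-- quantitative closeness of the blown-up data to `(Euclid, 0)`. -/
theorem gmt_blow_close (hm : 2 ≤ m) {U K : Set (E m)} {A : E m → Bil m} {f : E m → ℝ}
    (hd : GmtData U A f) (hK : IsCompact K) (hKU : K ⊆ U) :
    ∃ L R₀ Λ₀ : ℝ, 0 < L ∧ 0 < R₀ ∧ 0 ≤ Λ₀ ∧ ∀ z ∈ K, ∀ T : E m ≃L[ℝ] E m, GmtFrame (A z) T →
      ∀ r, 0 < r → ball 0 (R₀ / r) ⊆ gmtBlow T z r U ∧
        (∀ y ∈ ball (0 : E m) (R₀ / r), ∀ y' ∈ ball (0 : E m) (R₀ / r), ∀ ξ η : E m,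
          |gmtBlowA T z r A y ξ η - gmtBlowA T z r A y' ξ η| ≤ L * r * ‖y - y'‖ * ‖ξ‖ * ‖η‖) ∧
        (∀ y ∈ ball (0 : E m) (R₀ / r), |gmtBlowF T z r f y| ≤ Λ₀ * r) := by
  obtain ⟨c, C, L₀, F₀, δ, hc, hcC, hL₀, hF₀, hδ, hctl⟩ := gmt_ctl_compact hd hK hKU
  obtain ⟨L, R₀, Λ₀, hL, hR₀, hΛ₀, h⟩ := gmt_blow_close_q hm hc hcC hL₀ hF₀ hδ
  exact ⟨L, R₀, Λ₀, hL, hR₀, hΛ₀, fun z hz T hT => h U A f z T hd (hctl z hz) hT⟩

/-- the first variation integrand of an integrand close to the Euclidean one. -/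
theorem gmt_fv1_close {A : E m → Bil m} {y : E m} {t L : ℝ} (ht : 0 ≤ t) (ht' : t ≤ 1 / 4)
    (hL : 0 ≤ L) (hsymm : ∀ ξ η : E m, A y ξ η = A y η ξ)
    (hclose : ∀ ξ η : E m, |A y ξ η - ⟪ξ, η⟫| ≤ t * ‖ξ‖ * ‖η‖)
    (hder : ∀ v ξ η : E m, |fderiv ℝ A y v ξ η| ≤ L * ‖v‖ * ‖ξ‖ * ‖η‖) (X : E m → E m) {ν : E m}
    (hν : ‖ν‖ = 1) :
    |gmtFv1 A X y ν - (gmtDiv X y - ⟪ν, fderiv ℝ X y ν⟫)| ≤
      (m + 4) * t * ‖fderiv ℝ X y‖ + L * ‖X y‖ := by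
  set D := fderiv ℝ X y with hD
  set w := ContinuousLinearMap.adjoint D ν with hw
  set a := A y ν ν with ha
  set s := Real.sqrt a with hs
  set b := A y ν w with hb
  set i0 := ⟪ν, w⟫ with hi0
  set d := fderiv ℝ A y (X y) ν ν with hd
  set dv := gmtDiv X y with hdv
  have hDn : 0 ≤ ‖D‖ := norm_nonneg _
  have hwn : ‖w‖ ≤ ‖D‖ := by
    have h1 := (ContinuousLinearMap.adjoint D).le_opNorm ν
    rw [hν, mul_one, LinearIsometryEquiv.norm_map] at h1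
    exact h1
  have hinner : ⟪ν, D ν⟫ = i0 := by
    rw [hi0, hw, ContinuousLinearMap.adjoint_inner_right, real_inner_comm]
  have ha1 : |a - 1| ≤ t := by
    have := hclose ν ν
    rwa [real_inner_self_eq_norm_sq, hν, one_pow, mul_one, mul_one] at this
  obtain ⟨ha2, ha3⟩ := abs_le.1 ha1
  have ha0 : 0 ≤ a := by linarith
  have hs0 : 0 ≤ s := Real.sqrt_nonneg _
  have hss : s * s = a := Real.mul_self_sqrt ha0
  have hs12 : 1 / 2 ≤ s := by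
    by_contra hlt
    push Not at hlt
    nlinarith
  have hs1 : |s - 1| ≤ t := by
    rw [abs_le]
    constructor
    · by_contra hlt
      push Not at hlt
      nlinarith
    · by_contra hlt
      push Not at hlt
      nlinarith
  have hspos : 0 < s := by linarith
  set u := s⁻¹ with hu
  have hsu : s * u = 1 := mul_inv_cancel₀ hspos.ne'
  have hu0 : 0 ≤ u := inv_nonneg.2 hs0
  have hu2 : u ≤ 2 := by
    rw [hu, inv_le_comm₀ hspos (by norm_num)]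
    linarith
  have hb1 : |b - i0| ≤ t * ‖D‖ := by
    have := hclose ν w
    rw [hν, mul_one] at this
    exact this.trans (by gcongr)
  have hi1 : |i0| ≤ ‖D‖ := by
    have := abs_real_inner_le_norm ν w
    rw [hν, one_mul] at this
    exact this.trans hwn
  have hd1 : |d| ≤ L * ‖X y‖ := by
    have := hder (X y) ν ν
    rwa [hν, mul_one, mul_one] at this
  have hdv1 : |dv| ≤ m * ‖D‖ := by
    rw [hdv, gmtDiv]
    refine (Finset.abs_sum_le_sum_abs _ _).trans ?_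
    have : ∀ i ∈ (Finset.univ : Finset (Fin m)), |D (eb i) i| ≤ ‖D‖ := by
      intro i _
      have h1 : |D (eb i) i| ≤ ‖D (eb i)‖ := by
        rw [← Real.norm_eq_abs]
        exact PiLp.norm_apply_le _ _
      have h2 := D.le_opNorm (eb i)
      have h3 : ‖(eb i : E m)‖ = 1 := by simp [eb]
      rw [h3, mul_one] at h2
      exact h1.trans h2
    have := Finset.sum_le_card_nsmul _ _ _ this
    simpa using this
  have hkey : gmtFv1 A X y ν - (dv - ⟪ν, D ν⟫) =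
      (s - 1) * dv + d / 2 * u - (b - i0) * u - i0 * (1 - s) * u := by
    rw [hinner]
    unfold gmtFv1
    rw [div_eq_mul_inv]
    change s * dv + (d / 2 - b) * u - (dv - i0) = _
    linear_combination (-i0) * hsu
  rw [hkey]
  have T1 : |(s - 1) * dv| ≤ t * (m * ‖D‖) := by
    rw [abs_mul]; gcongr
  have T2 : |d / 2 * u| ≤ L * ‖X y‖ / 2 * 2 := by
    rw [abs_mul, abs_div, abs_of_nonneg hu0]
    gcongr
    · simp
  have T3 : |(b - i0) * u| ≤ t * ‖D‖ * 2 := by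
    rw [abs_mul, abs_of_nonneg hu0]; gcongr
  have T4 : |i0 * (1 - s) * u| ≤ ‖D‖ * t * 2 := by
    rw [abs_mul, abs_mul, abs_of_nonneg hu0, abs_sub_comm]; gcongr
  have h1 := abs_sub ((s - 1) * dv + d / 2 * u - (b - i0) * u) (i0 * (1 - s) * u)
  have h2 := abs_sub ((s - 1) * dv + d / 2 * u) ((b - i0) * u)
  have h3 := abs_add_le ((s - 1) * dv) (d / 2 * u)
  linarith

/-- the volume term of two competitors. -/
theorem gmt_integral_symmDiff_le {S S' W : Set (E m)} {g : E m → ℝ} {C : ℝ}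
    (hS : MeasurableSet S) (hS' : MeasurableSet S') (hW : MeasurableSet W)
    (hg : IntegrableOn g W) (hC : ∀ x ∈ W, |g x| ≤ C) (hC0 : 0 ≤ C)
    (hfin : volume (symmDiff S S') ≠ ⊤) :
    |(∫ x in S ∩ W, g x) - ∫ x in S' ∩ W, g x| ≤ C * (volume (symmDiff S S')).toReal := by
  have e1 : ∫ x in S ∩ W, g x = ∫ x in W, S.indicator g x := by
    rw [setIntegral_indicator hS, inter_comm]
  have e2 : ∫ x in S' ∩ W, g x = ∫ x in W, S'.indicator g x := by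
    rw [setIntegral_indicator hS', inter_comm]
  have hΔ : MeasurableSet (symmDiff S S') := hS.symmDiff hS'
  have hint : IntegrableOn ((symmDiff S S').indicator fun _ => C) W :=
    ((integrableOn_const (hfin) (by simp)).integrable_indicator hΔ).integrableOn
  rw [e1, e2, ← integral_sub (hg.indicator hS) (hg.indicator hS'), ← Real.norm_eq_abs]
  refine (norm_integral_le_of_norm_le hint ?_).trans ?_
  · refine (ae_restrict_iff' hW).2 (Eventually.of_forall fun x hx => ?_)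
    have hgx := hC x hx
    rw [Real.norm_eq_abs]
    by_cases h1 : x ∈ S <;> by_cases h2 : x ∈ S' <;>
      simp [h1, h2, mem_symmDiff, hgx, hC0]
  · rw [setIntegral_indicator hΔ, setIntegral_const, smul_eq_mul, mul_comm]
    gcongr
    exact ENNReal.toReal_mono hfin (measure_mono inter_subset_right)

/-- (AM) for data close to `(Euclid, 0)` in `ball 0 R₀`. -/
theorem gmt_close_am {U' S₁ : Set (E m)} {A' : E m → Bil m} {f' : E m → ℝ} {L R₀ Λ₀ r : ℝ}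
    (hL : 0 < L) (hΛ₀ : 0 ≤ Λ₀) (hr0 : 0 < r) (hrR₀ : r ≤ R₀) (hLr : L * r ≤ 1 / 4)
    (hd' : GmtData U' A' f') (hS' : GmtLAM A' f' U' S₁) (hsub : ball (0 : E m) R₀ ⊆ U')
    (hclose : ∀ y ∈ ball (0 : E m) R₀, ∀ ξ η : E m, |A' y ξ η - ⟪ξ, η⟫| ≤ L * ‖y‖ * ‖ξ‖ * ‖η‖)
    (hfb : ∀ y ∈ ball (0 : E m) R₀, |f' y| ≤ Λ₀) {W S' : Set (E m)} (hW : GmtCC W (ball 0 r))
    (hS'm : MeasurableSet S') (hCD : GmtCD S₁ S' W) :
    gmtP S₁ W ≤ ENNReal.ofReal (1 + 4 * L * r) * gmtP S' W +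
      ENNReal.ofReal (2 * Λ₀) * volume (symmDiff S₁ S') := by
  have hlfU : GmtLF S₁ U' := GmtLAM.lf hd'.opn hd'.int hS'
  set t := L * r with ht
  have ht0 : 0 ≤ t := by positivity
  have hrR : ball (0 : E m) r ⊆ ball 0 R₀ := ball_subset_ball hrR₀
  have hWr : W ⊆ ball 0 r := subset_closure.trans hW.2.2
  have hWU : GmtCC W U' := ⟨hW.1, hW.2.1, hW.2.2.trans (hrR.trans hsub)⟩
  have hcl : ∀ x ∈ W, ∀ ξ : E m, |A' x ξ ξ - ‖ξ‖ ^ 2| ≤ t * ‖ξ‖ ^ 2 := by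
    intro x hx ξ
    have h1 := hclose x (hrR (hWr hx)) ξ ξ
    rw [real_inner_self_eq_norm_sq] at h1
    have h2 : ‖x‖ ≤ r := (mem_ball_zero_iff.1 (hWr hx)).le
    calc |A' x ξ ξ - ‖ξ‖ ^ 2| ≤ L * ‖x‖ * ‖ξ‖ * ‖ξ‖ := h1
      _ ≤ L * r * ‖ξ‖ * ‖ξ‖ := by gcongr
      _ = t * ‖ξ‖ ^ 2 := by rw [ht]; ring
  have hlo : ∀ x ∈ W, ∀ ξ : E m, (1 - t) ^ 2 * ‖ξ‖ ^ 2 ≤ A' x ξ ξ := by
    intro x hx ξ
    have h1 := (abs_le.1 (hcl x hx ξ)).1
    have h2 : 0 ≤ ‖ξ‖ ^ 2 := by positivity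
    have h3 : (1 - t) ^ 2 ≤ 1 - t := by nlinarith
    have h4 := mul_le_mul_of_nonneg_right h3 h2
    linarith
  have hhi : ∀ x ∈ W, ∀ ξ : E m, A' x ξ ξ ≤ (1 + t) ^ 2 * ‖ξ‖ ^ 2 := by
    intro x hx ξ
    have h1 := (abs_le.1 (hcl x hx ξ)).2
    have h2 : 0 ≤ ‖ξ‖ ^ 2 := by positivity
    have h3 : 1 + t ≤ (1 + t) ^ 2 := by nlinarith
    have h4 := mul_le_mul_of_nonneg_right h3 h2
    linarith
  have h1 := mul_gmtP_le_gmtPer (c := 1 - t) (by linarith) hlo S₁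
  have h2 := gmtPer_le_mul_gmtP (c := 1 + t) (by linarith) hhi S'
  have h4t : 4 * L * r = 4 * t := by rw [ht]; ring
  rw [h4t]
  by_cases htop : gmtP S' W = ⊤
  · rw [htop, ENNReal.mul_top (by
      rw [Ne, ENNReal.ofReal_eq_zero, not_le]
      linarith)]
    simp
  have hfin' : gmtPer A' S' W ≠ ⊤ :=
    ne_top_of_le_ne_top (ENNReal.mul_ne_top ENNReal.ofReal_ne_top htop) h2
  have hmin := hS'.min W S' hWU hS'm hCD hfin'
  have hfinS : gmtP S₁ W ≠ ⊤ := hlfU.2 W hWU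
  have hfinA : gmtPer A' S₁ W ≠ ⊤ := hS'.fin W hWU
  obtain ⟨K, hK, hKW, hΔK⟩ := hCD
  have hvfin : volume (symmDiff S₁ S') ≠ ⊤ :=
    ne_top_of_le_ne_top hK.measure_lt_top.ne (measure_mono hΔK)
  have hint : IntegrableOn f' W :=
    ((hd'.f.continuousOn.mono hWU.2.2).integrableOn_compact hWU.2.1).mono_set subset_closure
  have hvol := gmt_integral_symmDiff_le hS'.meas hS'm hW.1.measurableSet hint
    (fun x hx => hfb x (hrR (hWr hx))) hΛ₀ hvfin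
  have h1' := ENNReal.toReal_mono hfinA h1
  have h2' := ENNReal.toReal_mono (ENNReal.mul_ne_top ENNReal.ofReal_ne_top htop) h2
  rw [ENNReal.toReal_mul, ENNReal.toReal_ofReal (by linarith)] at h1' h2'
  have hrhs1 : ENNReal.ofReal (1 + 4 * t) * gmtP S' W ≠ ⊤ :=
    ENNReal.mul_ne_top ENNReal.ofReal_ne_top htop
  have hrhs2 : ENNReal.ofReal (2 * Λ₀) * volume (symmDiff S₁ S') ≠ ⊤ :=
    ENNReal.mul_ne_top ENNReal.ofReal_ne_top hvfin
  rw [← ENNReal.toReal_le_toReal hfinS (ENNReal.add_ne_top.2 ⟨hrhs1, hrhs2⟩),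
    ENNReal.toReal_add hrhs1 hrhs2, ENNReal.toReal_mul, ENNReal.toReal_mul,
    ENNReal.toReal_ofReal (by linarith), ENNReal.toReal_ofReal (by positivity)]
  set p := (gmtP S₁ W).toReal
  set p' := (gmtP S' W).toReal
  set v := (volume (symmDiff S₁ S')).toReal
  have hp' : 0 ≤ p' := ENNReal.toReal_nonneg
  have hv : 0 ≤ v := ENNReal.toReal_nonneg
  have hvol' := (abs_le.1 hvol).2
  have hmain : (1 - t) * p ≤ (1 + t) * p' + Λ₀ * v := by linarith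
  have hΛv : 0 ≤ Λ₀ * v := by positivity
  have htp : 0 ≤ t * p' := by positivity
  have hstep : (1 - t) * p ≤ (1 - t) * ((1 + 4 * t) * p' + 2 * Λ₀ * v) := by
    nlinarith
  exact le_of_mul_le_mul_left hstep (by linarith)

/-- (FV) for data close to `(Euclid, 0)` in `ball 0 R₀`. -/
theorem gmt_close_fv {U' S₁ : Set (E m)} {A' : E m → Bil m} {f' : E m → ℝ} {L R₀ Λ₀ r : ℝ}
    (hL : 0 < L) (hΛ₀ : 0 ≤ Λ₀) (hrR₀ : r ≤ R₀) (hLr : L * r ≤ 1 / 4)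
    (hd' : GmtData U' A' f') (hS' : GmtLAM A' f' U' S₁) (hsub : ball (0 : E m) R₀ ⊆ U')
    (hlip : ∀ y ∈ ball (0 : E m) R₀, ∀ y' ∈ ball (0 : E m) R₀, ∀ ξ η : E m,
      |A' y ξ η - A' y' ξ η| ≤ L * ‖y - y'‖ * ‖ξ‖ * ‖η‖)
    (hclose : ∀ y ∈ ball (0 : E m) R₀, ∀ ξ η : E m, |A' y ξ η - ⟪ξ, η⟫| ≤ L * ‖y‖ * ‖ξ‖ * ‖η‖)
    (hfb : ∀ y ∈ ball (0 : E m) R₀, |f' y| ≤ Λ₀) {X : E m → E m} (hX : GmtTestS (ball 0 r) X) :
    |∫ x, (gmtDiv X x - ⟪gmtNu S₁ x, fderiv ℝ X x (gmtNu S₁ x)⟫) ∂(gmtMu S₁)| ≤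
      ∫ x, ((m + 4) * L * r * ‖fderiv ℝ X x‖ + (L + Λ₀) * ‖X x‖) ∂(gmtMu S₁) := by
  have hlfU : GmtLF S₁ U' := GmtLAM.lf hd'.opn hd'.int hS'
  have hrR : ball (0 : E m) r ⊆ ball 0 R₀ := ball_subset_ball hrR₀
  have hXU : GmtTestS U' X := ⟨hX.smooth, hX.cpt, hX.sub.trans (hrR.trans hsub)⟩
  have hXt : GmtTest U' X := hXU.test
  have hfv := gmt_lam_fv hd'.opn hd'.int hd'.f hS' hXU
  have I1 := gmt_delta_integrable hd'.opn hlfU hXt
  have I2 := gmtFv1_integrable hd'.opn hd'.int hlfU hXt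
  have I3 := gmt_press_integrable hd'.opn hd'.f.continuousOn hlfU hXt
  have I23 : Integrable (fun x => gmtFv1 A' X x (gmtNu S₁ x) - f' x * ⟪X x, gmtNu S₁ x⟫)
      (gmtMu S₁) := I2.sub I3
  have I4 := gmt_major_integrable hd'.opn hlfU hXt ((m + 4) * L * r) (L + Λ₀)
  have heq : ∫ x, (gmtDiv X x - ⟪gmtNu S₁ x, fderiv ℝ X x (gmtNu S₁ x)⟫) ∂(gmtMu S₁) =
      ∫ x, ((gmtDiv X x - ⟪gmtNu S₁ x, fderiv ℝ X x (gmtNu S₁ x)⟫) -
        (gmtFv1 A' X x (gmtNu S₁ x) - f' x * ⟪X x, gmtNu S₁ x⟫)) ∂(gmtMu S₁) := by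
    rw [integral_sub I1 I23, hfv, sub_zero]
  rw [heq, ← Real.norm_eq_abs]
  refine norm_integral_le_of_norm_le I4 ?_
  have hae : ∀ᵐ x ∂(gmtMu S₁), x ∈ U' → ‖gmtNu S₁ x‖ = 1 :=
    (ae_restrict_iff' hd'.opn.measurableSet).1 (norm_gmtNu_ae hd'.opn hlfU)
  filter_upwards [hae] with x hx
  rw [Real.norm_eq_abs]
  by_cases hxs : x ∈ tsupport X
  · have hxr : x ∈ ball (0 : E m) r := hX.sub hxs
    have hxn : ‖x‖ < r := mem_ball_zero_iff.1 hxr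
    have hr0 : 0 < r := (norm_nonneg x).trans_lt hxn
    have hxR₀ : x ∈ ball (0 : E m) R₀ := hrR hxr
    have hxU : x ∈ U' := hsub hxR₀
    have hν := hx hxU
    have hder : ∀ v ξ η : E m, |fderiv ℝ A' x v ξ η| ≤ L * ‖v‖ * ‖ξ‖ * ‖η‖ := by
      intro v ξ η
      have h1 := gmt_lip_aux (A := A') (x := x)
        ((hd'.int.smooth.differentiableOn (by simp)).differentiableAt
          (hd'.opn.mem_nhds hxU)) (gmtEv ξ η) (C := L * ‖ξ‖ * ‖η‖) (by positivity)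
        (by
          filter_upwards [isOpen_ball.mem_nhds hxR₀] with y hy
          have := hlip y hy x hxR₀ ξ η
          rw [gmtEv_apply, gmtEv_apply]
          linarith) v
      rw [gmtEv_apply] at h1
      linarith
    have hcl : ∀ ξ η : E m, |A' x ξ η - ⟪ξ, η⟫| ≤ L * r * ‖ξ‖ * ‖η‖ := fun ξ η =>
      (hclose x hxR₀ ξ η).trans (by gcongr)
    have hc1 := gmt_fv1_close (A := A') (y := x) (t := L * r) (L := L) (by positivity)
      hLr hL.le (hd'.int.symm x hxU) hcl hder X hν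
    have hf1 : |f' x * ⟪X x, gmtNu S₁ x⟫| ≤ Λ₀ * ‖X x‖ := by
      rw [abs_mul]
      have h1 := abs_real_inner_le_norm (X x) (gmtNu S₁ x)
      rw [hν, mul_one] at h1
      have h2 := hfb x hxR₀
      gcongr
    have e : (gmtDiv X x - ⟪gmtNu S₁ x, fderiv ℝ X x (gmtNu S₁ x)⟫) -
        (gmtFv1 A' X x (gmtNu S₁ x) - f' x * ⟪X x, gmtNu S₁ x⟫) =
        -(gmtFv1 A' X x (gmtNu S₁ x) -
          (gmtDiv X x - ⟪gmtNu S₁ x, fderiv ℝ X x (gmtNu S₁ x)⟫)) +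
          f' x * ⟪X x, gmtNu S₁ x⟫ := by ring
    rw [e]
    refine (abs_add_le _ _).trans ?_
    rw [abs_neg]
    linarith
  · rw [gmtDiv_eq_zero_of_notMem hxs, fderiv_of_notMem_tsupport ℝ hxs,
      gmtFv1_of_notMem A' hxs, image_eq_zero_of_notMem_tsupport hxs]
    simp

/-- **NORMALISATION, quantitative form**: in a frame at `z` a local absolute minimiser belongs to the centred class; the
constants (and the distortion `M` of the frame) only depend on the control of the data near `z`. -/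
theorem gmt_lam_am_q (hm : 2 ≤ m) {c C L₀ F₀ δ : ℝ} (hc : 0 < c) (hcC : c ≤ C) (hL₀ : 0 ≤ L₀)
    (hF₀ : 0 ≤ F₀) (hδ : 0 < δ) :
    ∃ κ Λ R M : ℝ, 0 ≤ κ ∧ 0 ≤ Λ ∧ 0 < R ∧ κ * R ≤ 1 ∧ Λ * R ≤ 1 ∧ 1 ≤ M ∧
      ∀ (U S : Set (E m)) (A : E m → Bil m) (f : E m → ℝ) (z : E m) (T : E m ≃L[ℝ] E m),
        GmtData U A f → GmtLAM A f U S → GmtCtl c C L₀ F₀ δ U A f z → GmtFrame (A z) T →
        GmtAM κ Λ 0 R (gmtBlow T z 1 S) ∧ (∀ v, ‖T v‖ ≤ M * ‖v‖) ∧ (∀ v, ‖T.symm v‖ ≤ M * ‖v‖) := by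
  obtain ⟨M, hM1, hM⟩ := gmt_frame_bound hm hc hcC
  obtain ⟨L, R₀, Λ₀, hL, hR₀, hΛ₀, hq⟩ := gmt_blow_close_q hm hc hcC hL₀ hF₀ hδ
  set κ : ℝ := (m + 4) * L with hκdef
  set Λ : ℝ := 2 * Λ₀ with hΛdef
  set R : ℝ := min R₀ (min (1 / κ) (1 / (Λ + 1))) with hRdef
  have hκ : 0 < κ := by positivity
  have hΛ : 0 ≤ Λ := by positivity
  have hR : 0 < R := lt_min hR₀ (lt_min (by positivity) (by positivity))
  have hR1 : R ≤ 1 / κ := (min_le_right _ _).trans (min_le_left _ _)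
  have hR2 : R ≤ 1 / (Λ + 1) := (min_le_right _ _).trans (min_le_right _ _)
  have hRR₀ : R ≤ R₀ := min_le_left _ _
  have hκR : κ * R ≤ 1 := by
    rw [le_div_iff₀ hκ] at hR1
    linarith
  have hΛR : Λ * R ≤ 1 := by
    rw [le_div_iff₀ (by positivity)] at hR2
    nlinarith
  have hκL : 4 * L ≤ κ := by
    have : (0 : ℝ) ≤ m := Nat.cast_nonneg m
    rw [hκdef]
    nlinarith
  have hLR : L * R ≤ 1 / 4 := by nlinarith
  refine ⟨κ, Λ, R, M, hκ.le, hΛ, hR, hκR, hΛR, hM1, ?_⟩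
  intro U S A f z T hd hS hctl hT
  obtain ⟨hT1, hT2, -, -⟩ := hM (A z) T hctl.ell hT
  refine ⟨?_, hT1, hT2⟩
  obtain ⟨hsub, hlip, hfb⟩ := hq U A f z T hd hctl hT 1 one_pos
  rw [div_one] at hsub hlip hfb
  simp only [mul_one] at hlip hfb
  have hd' : GmtData (gmtBlow T z 1 U) (gmtBlowA T z 1 A) (gmtBlowF T z 1 f) :=
    gmt_blow_data T z one_pos hd
  have hS' : GmtLAM (gmtBlowA T z 1 A) (gmtBlowF T z 1 f) (gmtBlow T z 1 U) (gmtBlow T z 1 S) :=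
    gmt_blow_lam (by omega) T z one_pos hS
  have hA0 : gmtBlowA T z 1 A 0 = gmtEu m := gmtBlowA_zero 1 hT
  have hlfU := GmtLAM.lf hd'.opn hd'.int hS'
  have hclose : ∀ y ∈ ball (0 : E m) R₀, ∀ ξ η : E m,
      |gmtBlowA T z 1 A y ξ η - ⟪ξ, η⟫| ≤ L * ‖y‖ * ‖ξ‖ * ‖η‖ := by
    intro y hy ξ η
    have := hlip y hy 0 (mem_ball_self hR₀) ξ η
    rwa [hA0, gmtEu_apply, sub_zero] at this
  refine ⟨hlfU.mono ((ball_subset_ball hRR₀).trans hsub), ?_, ?_⟩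
  · intro r hr W S' hW hS'm hCD
    rcases le_or_gt r 0 with hr0 | hr0
    · have hWe : W = ∅ := by
        have h1 : closure W ⊆ ∅ := by
          rw [← ball_eq_empty.2 hr0]
          exact hW.2.2
        exact subset_empty_iff.1 (subset_closure.trans h1)
      rw [hWe, ← gmtMu_open _ isOpen_empty, measure_empty]
      exact zero_le
    have hLr : L * r ≤ 1 / 4 := by
      have : L * r ≤ L * R := by gcongr
      linarith
    refine (gmt_close_am hL hΛ₀ hr0 (hr.trans hRR₀) hLr hd' hS' hsub hclose hfb hW hS'm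
      hCD).trans ?_
    gcongr
  · intro r hr X hX
    rcases le_or_gt r 0 with hr0 | hr0
    · have hXe : ∀ x, x ∉ tsupport X := by
        intro x hx
        have := hX.sub hx
        rw [ball_eq_empty.2 hr0] at this
        exact this
      have e1 : ∀ x, gmtDiv X x - ⟪gmtNu (gmtBlow T z 1 S) x,
          fderiv ℝ X x (gmtNu (gmtBlow T z 1 S) x)⟫ = 0 := by
        intro x
        rw [gmtDiv_eq_zero_of_notMem (hXe x), fderiv_of_notMem_tsupport ℝ (hXe x)]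
        simp
      have e2 : ∀ x, κ * r * ‖fderiv ℝ X x‖ + (κ + Λ) * ‖X x‖ = 0 := by
        intro x
        rw [image_eq_zero_of_notMem_tsupport (hXe x), fderiv_of_notMem_tsupport ℝ (hXe x)]
        simp
      simp only [e1, e2, integral_zero, abs_zero, le_refl]
    have hLr : L * r ≤ 1 / 4 := by
      have : L * r ≤ L * R := by gcongr
      linarith
    refine (gmt_close_fv hL hΛ₀ (hr.trans hRR₀) hLr hd' hS' hsub hlip hclose hfb hX).trans ?_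
    have hXt : GmtTest (gmtBlow T z 1 U) X :=
      ⟨hX.smooth.of_le (by simp), hX.cpt,
        hX.sub.trans ((ball_subset_ball (hr.trans hRR₀)).trans hsub)⟩
    refine integral_mono (gmt_major_integrable hd'.opn hlfU hXt _ _)
      (gmt_major_integrable hd'.opn hlfU hXt _ _) fun x => ?_
    have hXn : 0 ≤ ‖X x‖ := norm_nonneg _
    have h1 : (L + Λ₀) * ‖X x‖ ≤ (κ + Λ) * ‖X x‖ := by
      gcongr
      · linarith
      · rw [hΛdef]; linarith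
    show (m + 4) * L * r * ‖fderiv ℝ X x‖ + (L + Λ₀) * ‖X x‖ ≤
      κ * r * ‖fderiv ℝ X x‖ + (κ + Λ) * ‖X x‖
    linarith

/-- **NORMALISATION**: in a frame at `z` a local absolute minimiser belongs to the centred class, with constants uniform
for `z` in a compact set. -/
theorem gmt_lam_am (hm : 2 ≤ m) {U K S : Set (E m)} {A : E m → Bil m} {f : E m → ℝ}
    (hd : GmtData U A f) (hS : GmtLAM A f U S) (hK : IsCompact K) (hKU : K ⊆ U) :
    ∃ κ Λ R : ℝ, 0 ≤ κ ∧ 0 ≤ Λ ∧ 0 < R ∧ κ * R ≤ 1 ∧ Λ * R ≤ 1 ∧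
      ∀ z ∈ K, ∀ T : E m ≃L[ℝ] E m, GmtFrame (A z) T → GmtAM κ Λ 0 R (gmtBlow T z 1 S) := by
  obtain ⟨c, C, L₀, F₀, δ, hc, hcC, hL₀, hF₀, hδ, hctl⟩ := gmt_ctl_compact hd hK hKU
  obtain ⟨κ, Λ, R, M, hκ, hΛ, hR, hκR, hΛR, -, h⟩ := gmt_lam_am_q hm hc hcC hL₀ hF₀ hδ
  exact ⟨κ, Λ, R, hκ, hΛ, hR, hκR, hΛR, fun z hz T hT => (h U S A f z T hd hS (hctl z hz) hT).1⟩

/-- **NORMALISATION for sequences of data**: uniform constants along smoothly convergent data. -/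
theorem gmt_lam_am_seq (hm : 2 ≤ m) {U : ℕ → Set (E m)} {A : ℕ → E m → Bil m} {f : ℕ → E m → ℝ}
    {U' : Set (E m)} {A' : E m → Bil m} {f' : E m → ℝ} (h : GmtDataConv U A f U' A' f')
    {K : Set (E m)} (hK : IsCompact K) (hKU : K ⊆ U') :
    ∃ κ Λ R M : ℝ, 0 ≤ κ ∧ 0 ≤ Λ ∧ 0 < R ∧ κ * R ≤ 1 ∧ Λ * R ≤ 1 ∧ 1 ≤ M ∧
      ∀ᶠ i in atTop, ∀ S : Set (E m), GmtLAM (A i) (f i) (U i) S → ∀ z ∈ K,
        ∀ T : E m ≃L[ℝ] E m, GmtFrame (A i z) T →
        GmtAM κ Λ 0 R (gmtBlow T z 1 S) ∧ (∀ v, ‖T v‖ ≤ M * ‖v‖) ∧ (∀ v, ‖T.symm v‖ ≤ M * ‖v‖) := by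
  obtain ⟨c, C, L₀, F₀, δ, hc, hcC, hL₀, hF₀, hδ, hctl⟩ := gmt_ctl_conv h hK hKU
  obtain ⟨κ, Λ, R, M, hκ, hΛ, hR, hκR, hΛR, hM, hq⟩ := gmt_lam_am_q hm hc hcC hL₀ hF₀ hδ
  refine ⟨κ, Λ, R, M, hκ, hΛ, hR, hκR, hΛR, hM, ?_⟩
  filter_upwards [hctl] with i hi S hS z hz T hT
  exact hq (U i) S (A i) (f i) z T (h.data i) hS (hi z hz) hT

/-- Euclidean minimisers belong to the centred class with vanishing constants. -/
theorem GmtMin.toAM {S : Set (E m)} {x : E m} {R : ℝ} (hS : GmtMin (ball x R) S) :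
    GmtAM 0 0 x R S := by
  refine ⟨GmtLAM.lf isOpen_ball (gmtInt_eu _) hS, ?_, ?_⟩
  · intro r hr W S' hW hS' hCD
    have hW' : GmtCC W (ball x R) := ⟨hW.1, hW.2.1, hW.2.2.trans (ball_subset_ball hr)⟩
    simp only [zero_mul, add_zero, ENNReal.ofReal_one, one_mul, ENNReal.ofReal_zero]
    by_cases htop : gmtP S' W = ⊤
    · rw [htop]; exact le_top
    · have h := hS.min W S' hW' hS' hCD htop
      simp only [integral_zero, sub_zero] at h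
      exact (ENNReal.toReal_le_toReal (hS.fin W hW') htop).1 h
  · intro r hr X hX
    have hX' : GmtTestS (ball x R) X := ⟨hX.smooth, hX.cpt, hX.sub.trans (ball_subset_ball hr)⟩
    rw [gmt_min_fv isOpen_ball hS hX']
    simp

end Claimed.Agent.Gmt
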