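import Claimed.Agent.Lib.Gmt.FrE

/-!
# Lib/Gmt FRAMES [part F: blow-up sequences]: normalisation `GmtLAM ⇒ GmtAM`, blow-up sequences.   (architect: helper184)

Let `S` be a local absolute minimiser for smooth data `(U, A, f)`, `K ⊆ U` compact.  For `z ∈ K`, a frame `T` of `A z` and `r > 0` put `S̄ = gmtBlow T z r S`, `Ā = gmtBlowA T z r A`, `f̄ = gmtBlowF T z r f`.

PLAN OF PROOFS
* `gmt_blow_close`: `δ > 0` with `K' = cthickening δ K ⊆ U` compact; `‖DA‖ ≤ L₀`, `|f| ≤ F₀` on `K'`; frame bounds `M` (`gmt_frame_bound`, `gmtInt_ell` on `K`); `R₀ = δ/M`;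
  the segment between `Ψ y, Ψ y'` stays in the convex set `ball z δ ⊆ K'` (`Convex.norm_image_sub_le_of_norm_fderiv_le`).  `L = M⁵ L₀`, `Λ₀ = M F₀`.
* `gmt_lam_am` (with `r = 1`).  By `gmt_blow_close` + `gmtBlowA_zero`: `|Ā y ξ η - ⟪ξ,η⟫| ≤ L ρ |ξ||η|` on `ball 0 ρ`.  Take `R ≤ R₀` with `L R ≤ 1/4`.
  (am): `(1 - Lρ) P ≤ Per_Ā ≤ (1 + Lρ) P` on open subsets of `ball 0 ρ` (`mul_gmtP_le_gmtPer`, `gmtPer_le_mul_gmtP`; `√(1±t)`), minimality of `S̄` (`gmt_blow_lam`), `|∫_{S̄∩W} f̄ - ∫_{S'∩W} f̄| ≤ Λ₀ |S̄ △ S'|`; `(1+t)/(1-t) ≤ 1 + 4t`.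
  (fv): `gmt_lam_fv` for `(Ā, f̄)` and the pointwise bound `gmt_fv1_close`.
* `gmt_blow_seq`: `gmtBlow T z r S = gmtDil 0 r (gmtBlow T z 1 S)` (`gmtDil_gmtBlow`), `GmtAM.gmtDil`, `GmtAM.toQM` with the radius `R i = min (R / r i) (r i)^{-1/2}`: `δ i = κ r i R i ≤ κ √(r i)`.
* `gmt_blow_compact`, `gmt_blow_limit`, `gmt_blow_bd`: `gmtQM_compact`, `gmtQM_closure` (+ `gmtMin_iff_QM`), `gmtQM_wk`, `gmtQM_bd_lim`.
* `gmt_blow_conv`: derivatives of order `k ≥ 1` of `y ↦ A (z + r T⁻¹ y)` carry a factor `r^k` (`ContinuousLinearMap.iteratedFDeriv_comp_right`, `iteratedFDeriv_comp_add_left`), all derivatives of `A`, `f` are bounded on `K'`; order `0`: `gmt_blow_close` + `gmtBlowA_zero`.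
* `gmt_blow_sing`: `gmt_sing_lim` (IFb) for the data of `gmt_blow_conv`, `gmtSing_gmtBlow`.
-/

set_option autoImplicit false
open scoped ContDiff ENNReal RealInnerProductSpace Topology
open MeasureTheory Metric Set Filter

namespace Claimed.Agent.Gmt

variable {m : ℕ}

/-- a blow-up sequence: centres in a compact set, frames, scales tending to zero. -/
structure GmtBlowSeq (K : Set (E m)) (A : E m → Bil m) (z : ℕ → E m) (T : ℕ → E m ≃L[ℝ] E m)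
    (r : ℕ → ℝ) : Prop where
  mem : ∀ i, z i ∈ K
  frame : ∀ i, GmtFrame (A (z i)) (T i)
  pos : ∀ i, 0 < r i
  lim : Tendsto r atTop (𝓝 0)

theorem GmtBlowSeq.comp {K : Set (E m)} {A : E m → Bil m} {z : ℕ → E m}
    {T : ℕ → E m ≃L[ℝ] E m} {r : ℕ → ℝ} (h : GmtBlowSeq K A z T r) {φ : ℕ → ℕ}
    (hφ : StrictMono φ) : GmtBlowSeq K A (z ∘ φ) (T ∘ φ) (r ∘ φ) :=
  ⟨fun _ => h.mem _, fun _ => h.frame _, fun _ => h.pos _, h.lim.comp hφ.tendsto_atTop⟩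

/-- blow-up sequences are quasi-minimisers with vanishing constants on exhausting balls. -/
theorem gmt_blow_seq (hm : 2 ≤ m) {U K S : Set (E m)} {A : E m → Bil m} {f : E m → ℝ}
    (hd : GmtData U A f) (hS : GmtLAM A f U S) (hK : IsCompact K) (hKU : K ⊆ U) {z : ℕ → E m}
    {T : ℕ → E m ≃L[ℝ] E m} {r : ℕ → ℝ} (h : GmtBlowSeq K A z T r) :
    ∃ δ Λ R : ℕ → ℝ, (∀ i, 0 ≤ δ i ∧ δ i ≤ 1) ∧ (∀ i, 0 ≤ Λ i) ∧
      Tendsto δ atTop (𝓝 0) ∧ Tendsto Λ atTop (𝓝 0) ∧ GmtExh (fun i => ball (0 : E m) (R i)) univ ∧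
      ∀ i, GmtQM (δ i) (Λ i) (ball 0 (R i)) (gmtBlow (T i) (z i) (r i) S) := by
  obtain ⟨κ, Λ₀, R₀, hκ, hΛ₀, hR₀, hκR, -, hAM⟩ := gmt_lam_am hm hd hS hK hKU
  have hr := h.pos
  have hs : ∀ i, 0 < Real.sqrt (r i) := fun i => Real.sqrt_pos.2 (hr i)
  have hs0 : Tendsto (fun i => Real.sqrt (r i)) atTop (𝓝 0) := by
    have := (Real.continuous_sqrt.tendsto 0).comp h.lim
    rw [Real.sqrt_zero] at this
    exact this
  have hss : ∀ i, Real.sqrt (r i) * Real.sqrt (r i) = r i := fun i => Real.mul_self_sqrt (hr i).le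
  set R : ℕ → ℝ := fun i => min (R₀ / r i) (1 / Real.sqrt (r i)) with hRdef
  have hRpos : ∀ i, 0 < R i := fun i => lt_min (div_pos hR₀ (hr i)) (one_div_pos.2 (hs i))
  have hδle : ∀ i, κ * r i * R i ≤ κ * Real.sqrt (r i) := by
    intro i
    have h1 : R i ≤ 1 / Real.sqrt (r i) := min_le_right _ _
    have h2 : r i * R i ≤ Real.sqrt (r i) := by
      calc r i * R i ≤ r i * (1 / Real.sqrt (r i)) := mul_le_mul_of_nonneg_left h1 (hr i).le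
        _ = Real.sqrt (r i) := by
          rw [mul_one_div, div_eq_iff (hs i).ne', hss i]
    calc κ * r i * R i = κ * (r i * R i) := by ring
      _ ≤ κ * Real.sqrt (r i) := mul_le_mul_of_nonneg_left h2 hκ
  refine ⟨fun i => κ * r i * R i, fun i => Λ₀ * r i, R, fun i => ⟨?_, ?_⟩, fun i => ?_, ?_, ?_,
    ⟨isOpen_univ, fun i => isOpen_ball, ?_⟩, fun i => ?_⟩
  · exact mul_nonneg (mul_nonneg hκ (hr i).le) (hRpos i).le
  · have h1 : R i ≤ R₀ / r i := min_le_left _ _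
    calc κ * r i * R i ≤ κ * r i * (R₀ / r i) :=
          mul_le_mul_of_nonneg_left h1 (mul_nonneg hκ (hr i).le)
      _ = κ * R₀ := by field_simp [(hr i).ne']
      _ ≤ 1 := hκR
  · exact mul_nonneg hΛ₀ (hr i).le
  · refine squeeze_zero (fun i => mul_nonneg (mul_nonneg hκ (hr i).le) (hRpos i).le) hδle ?_
    simpa using hs0.const_mul κ
  · simpa using h.lim.const_mul Λ₀
  · intro K' hK' _
    obtain ⟨ρ, hρ0, hρ⟩ := hK'.isBounded.subset_ball_lt 0 0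
    have h1 : ∀ᶠ i in atTop, r i < R₀ / ρ := h.lim.eventually (gt_mem_nhds (div_pos hR₀ hρ0))
    have h2 : ∀ᶠ i in atTop, Real.sqrt (r i) < 1 / ρ :=
      hs0.eventually (gt_mem_nhds (one_div_pos.2 hρ0))
    filter_upwards [h1, h2] with i hi1 hi2
    refine hρ.trans (ball_subset_ball (le_min ?_ ?_))
    · rw [le_div_iff₀ (hr i)]
      rw [lt_div_iff₀ hρ0] at hi1
      linarith
    · rw [le_div_iff₀ (hs i)]
      rw [lt_div_iff₀ hρ0] at hi2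
      linarith
  · have h1 := (hAM (z i) (h.mem i) (T i) (h.frame i)).gmtDil (hr i)
    rw [gmtDil_gmtBlow, one_mul] at h1
    exact h1.toQM (min_le_left _ _)

theorem gmt_blow_compact (hm : 2 ≤ m) {U K S : Set (E m)} {A : E m → Bil m} {f : E m → ℝ}
    (hd : GmtData U A f) (hS : GmtLAM A f U S) (hK : IsCompact K) (hKU : K ⊆ U) {z : ℕ → E m}
    {T : ℕ → E m ≃L[ℝ] E m} {r : ℕ → ℝ} (h : GmtBlowSeq K A z T r) :
    ∃ (φ : ℕ → ℕ) (S' : Set (E m)), StrictMono φ ∧ MeasurableSet S' ∧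
      GmtConv univ (fun i => gmtBlow (T (φ i)) (z (φ i)) (r (φ i)) S) S' := by
  obtain ⟨δ, Λ, R, hδ, hΛ, -, hΛ0, hexh, hQM⟩ := gmt_blow_seq hm hd hS hK hKU h
  obtain ⟨Λ₁, hΛ₁⟩ := hΛ0.bddAbove_range
  obtain ⟨φ, S', hφ, hS', -, hc⟩ := gmtQM_compact hexh hQM hδ
    (fun i => ⟨hΛ i, hΛ₁ (mem_range_self i)⟩)
  exact ⟨φ, S', hφ, hS', hc⟩

/-- limits of blow-up sequences are Euclidean minimisers in `E m`; no loss of perimeter. -/
theorem gmt_blow_limit (hm : 2 ≤ m) {U K S : Set (E m)} {A : E m → Bil m} {f : E m → ℝ}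
    (hd : GmtData U A f) (hS : GmtLAM A f U S) (hK : IsCompact K) (hKU : K ⊆ U) {z : ℕ → E m}
    {T : ℕ → E m ≃L[ℝ] E m} {r : ℕ → ℝ} (h : GmtBlowSeq K A z T r) {S' : Set (E m)}
    (hS' : MeasurableSet S') (hc : GmtConv univ (fun i => gmtBlow (T i) (z i) (r i) S) S') :
    GmtMin univ S' ∧ GmtWk univ (fun i => gmtMu (gmtBlow (T i) (z i) (r i) S)) (gmtMu S') := by
  obtain ⟨δ, Λ, R, hδ, hΛ, hδ0, hΛ0, hexh, hQM⟩ := gmt_blow_seq hm hd hS hK hKU h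
  obtain ⟨Λ₁, hΛ₁⟩ := hΛ0.bddAbove_range
  exact ⟨gmtMin_iff_QM.2 (gmtQM_closure hexh hQM (fun i => (hδ i).1) hδ0 hΛ hΛ0 hS' hc),
    gmtQM_wk hexh hQM (fun i => (hδ i).1) hδ0 (fun i => ⟨hΛ i, hΛ₁ (mem_range_self i)⟩) hS' hc⟩

/-- limits of boundary points. -/
theorem gmt_blow_bd (hm : 2 ≤ m) {U K S : Set (E m)} {A : E m → Bil m} {f : E m → ℝ}
    (hd : GmtData U A f) (hS : GmtLAM A f U S) (hK : IsCompact K) (hKU : K ⊆ U) {z : ℕ → E m}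
    {T : ℕ → E m ≃L[ℝ] E m} {r : ℕ → ℝ} (h : GmtBlowSeq K A z T r) {S' : Set (E m)}
    (hS' : MeasurableSet S') (hc : GmtConv univ (fun i => gmtBlow (T i) (z i) (r i) S) S')
    {y : ℕ → E m} {y' : E m} (hy : ∀ i, gmtAff (T i) (z i) (r i) (y i) ∈ gmtBd S)
    (hlim : Tendsto y atTop (𝓝 y')) : y' ∈ gmtBd S' := by
  obtain ⟨δ, Λ, R, hδ, hΛ, -, hΛ0, hexh, hQM⟩ := gmt_blow_seq hm hd hS hK hKU h
  obtain ⟨Λ₁, hΛ₁⟩ := hΛ0.bddAbove_range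
  refine gmtQM_bd_lim (by omega) hexh hQM hδ (fun i => ⟨hΛ i, hΛ₁ (mem_range_self i)⟩) hc (mem_univ y')
    (fun i => ?_) hlim
  rw [gmtBd_gmtBlow _ _ (h.pos i)]
  exact hy i

end Claimed.Agent.Gmt
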