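import Claimed.Agent.Lib.Gmt.GgMeas

/-!
# Lib/Gmt FV [part A = step 1]: deformations `Φ_t = id + t X` and the first variation.   (architect: helper184)

COMMON BASE of all variational identities of the library (G4: axiom `GmtAM.fv`; G6: monotonicity;
G7: first and second variation of the Euclidean perimeter).

No traces, no area formula.  The whole content is the PUSH-FORWARD OF THE GAUSS-GREEN FORMULA
`gmt_flow_gg`:   `∫_{Φ_t(S)} div T = ∫ ⟪T(Φ_t x), cof(DΦ_t x) ν_S(x)⟫ dμ_S`,   `cof L = det L · L^{-T}`.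
It gives `Per_A(Φ_t S; W) ≤ h(t) := ∫_W √(A(Φ_t x)(cof ν, cof ν)) dμ_S` with equality at `t = 0`, so that for a
minimiser `h(0) ≤ h(t)` (plus the volume term): only `≤` is ever needed, and only POINTWISE Taylor
bounds of the integrand, uniform in `x` (no differentiation under the integral sign).

CHAIN
1. `gmt_flow_diffeo`: `t₀ = 1/(2 sup‖DX‖ + 1)`.  Injective: `|Φ_t x - Φ_t y| ≥ |x-y|/2` (`X` is Lipschitz:
   `lipschitzWith_of_nnnorm_fderiv_le`).  Surjective: `y ↦ z - t X(y)` is a contraction (`ContractingWith.exists_fixedPoint`).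
   `Id + t DX` is invertible (Neumann: `‖t DX‖ < 1`, `Units.oneSub`/`NormedRing.inverse_one_sub`), `det > 0`: `s ↦ det (Id + s t DX)` is continuous, nonzero on `[0,1]`, `= 1` at `0`.
   `Φ_t = id` off `tsupport X`; a bijection which is the identity off `K` maps `K` onto `K`.
2. `gmt_piola`: `T' x = det(D) • D⁻¹ (T (Φ x))` is `C¹` with compact support in `U`, and `div T' = det D · (div T)∘Φ`.
   WEAK PROOF (no derivative of the cofactor matrix): for `ψ ∈ C^∞_c`:  `∫ ψ div T' = -∫ ∇ψ·T' = -∫ det D ⟪D^{-T}∇ψ, T∘Φ⟫ = -∫ det D (∇(ψ∘Φ⁻¹)·T)∘Φ`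
   `= -∫ ∇(ψ∘Φ⁻¹)·T = ∫ (ψ∘Φ⁻¹) div T = ∫ ψ (div T)∘Φ det D`  (change of variables `integral_image_eq_integral_abs_det_fderiv_smul`, `Φ⁻¹` is `C¹` by the inverse function theorem);
   both sides are continuous, so they agree pointwise (`ae_eq_zero_of_integral_contDiff_smul_eq_zero`).
3. `gmt_flow_gg`: change of variables, `gmt_piola`, `gmt_gauss_green`, `⟪D⁻¹ v, ν⟫ = ⟪v, D^{-T} ν⟫`.
4. `gmtPer_flow_le`: admissibility of `T` with `ξ = cof ν`.
5. `gmt_fv_taylor`: the function `(t, x, ν) ↦ √(A(x + tX(x))(cof(Id + tDX(x))ν, ·))` is `C²` near the compact set `[-t₁,t₁] × closure W × sphere`; Taylor with a uniform bound of the second `t`-derivative.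
   `d/dt cof(Id+tB)ν = (tr B) ν - Bᵀν` at `t = 0`.
6. `gmt_fv_volume`: `∫_{Φ_t S} f = ∫_S f(Φ_t) det(Id + tDX)`, `f(Φ_t x) det(..) = f + t div(fX) + O(t²)`, Gauss-Green.
7. `gmt_lam_fv`: `0 ≤ t (δ) + C t²` for `|t|` small, both signs.

PLAN OF THIS FILE (step 1; pure Mathlib)
* `gmt_test_bdd`: `X`, `fderiv X` are continuous with compact support (`HasCompactSupport.fderiv`), hence bounded (`HasCompactSupport.exists_bound_of_continuous` / `Continuous.bounded_above_of_compact_support`); Lipschitz: `Convex.norm_image_sub_le_of_norm_fderiv_le` on `univ`.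
* `gmtFlow_hasFDerivAt`: `(hasFDerivAt_id x).add ((hX x).hasFDerivAt.const_smul t)`.   `gmtFlow_contDiff`: `contDiff_id.add (contDiff_const.smul hX)`.
* `gmtFlow_injective`: `Φ x = Φ y` ⇒ `x - y = -t (X x - X y)` ⇒ `‖x - y‖ ≤ |t| L ‖x - y‖ < ‖x - y‖` unless `x = y`.
* `gmtFlow_surjective`: for `z`: `y ↦ z - t • X y` is a contraction of the complete space `E m` with constant `|t| L < 1` (`ContractingWith.fixedPoint`, `LipschitzWith.of_dist_le_mul`).
* `gmt_id_add_invertible`: `Units.oneSub (-B)` in the Banach algebra `E m →L[ℝ] E m` (`NormedRing`, complete), `1 - (-B) = id + B`; a unit of the algebra is invertible (`ContinuousLinearMap.isInvertible_...`/`ContinuousLinearEquiv.unitsEquiv`); or: injective [`‖(id + B) v‖ ≥ (1 - ‖B‖)‖v‖`] + finite dimension (`LinearMap.injective_iff_surjective`, `ContinuousLinearEquiv.ofBijective`/`LinearEquiv.toContinuousLinearEquiv`).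
* `gmt_id_add_det_pos`: `g s = det (id + s • B)` is continuous on `[0,1]` (`ContinuousLinearMap.det` = polynomial in the entries: `Continuous.matrix_det`, `LinearMap.det_toMatrix`; or `gmt_contDiff_det` of `FvK.lean`-type argument), `g 0 = 1`, `g s ≠ 0` (`gmt_id_add_invertible`, `‖s B‖ < 1`; an invertible map has `det ≠ 0`: `LinearEquiv.det`/`ContinuousLinearMap.det` `isUnit`);
  intermediate value theorem (`IsPreconnected.intermediate_value`/`intermediate_value_Icc'`): if `g 1 ≤ 0` there is a zero.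
* `gmt_bij_image`: `Φ` maps `Kᶜ` identically onto `Kᶜ`, so (bijectivity) `K` onto `K`; `W = K ∪ (W \ K)`.
* `gmtFlow_measurableSet_image`: `MeasurableSet.image_of_continuousOn_injOn` (Lusin-Souslin) or `Continuous.measurableEmbedding`.
* `gmt_flow_diffeo`: `L` from `gmt_test_bdd`, `t₀ = 1/(L + 1)`: `|t| L < 1`, `‖t • fderiv X x‖ < 1`; assemble the fields (`sd`: if `x ∉ tsupport X` then `x ∈ S ↔ x ∈ Φ '' S`, by `off` and injectivity).   `gmtFlowOK_zero`: `gmtFlow X 0 = id`, `gmtFlowD X 0 x = id` (`zero_smul`, `add_zero`), `ContinuousLinearMap.det_id`.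
-/

set_option autoImplicit false
open scoped ContDiff ENNReal RealInnerProductSpace Topology
open MeasureTheory Metric Set Filter

namespace Claimed.Agent.Gmt

variable {m : ℕ}

/-- the map `Φ_t = id + t X`. -/
def gmtFlow (X : E m → E m) (t : ℝ) (x : E m) : E m := x + t • X x

/-- its derivative `Id + t DX(x)`. -/
noncomputable def gmtFlowD (X : E m → E m) (t : ℝ) (x : E m) : E m →L[ℝ] E m :=
  ContinuousLinearMap.id ℝ (E m) + t • fderiv ℝ X x

/-- `cof(L) ξ = det L · L^{-T} ξ`. -/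
noncomputable def gmtCof (L : E m →L[ℝ] E m) (ξ : E m) : E m :=
  L.det • ContinuousLinearMap.adjoint (ContinuousLinearMap.inverse L) ξ

/-- the transported normal `cof(DΦ_t x) ν_S(x)` (its length is the Jacobian of `Φ_t` on `∂S`). -/
noncomputable def gmtFlowNu (X : E m → E m) (t : ℝ) (S : Set (E m)) (x : E m) : E m :=
  gmtCof (gmtFlowD X t x) (gmtNu S x)

/-- what "`t` is small" means. -/
structure GmtFlowOK (X : E m → E m) (t : ℝ) : Prop where
  bij : Function.Bijective (gmtFlow X t)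
  smooth : ContDiff ℝ ∞ (gmtFlow X t)
  fder : ∀ x, HasFDerivAt (gmtFlow X t) (gmtFlowD X t x) x
  inv : ∀ x, (gmtFlowD X t x).IsInvertible
  det : ∀ x, 0 < (gmtFlowD X t x).det
  off : ∀ x, x ∉ tsupport X → gmtFlow X t x = x
  img : ∀ W, tsupport X ⊆ W → gmtFlow X t '' W = W
  pre : ∀ W, tsupport X ⊆ W → gmtFlow X t ⁻¹' W = W
  meas : ∀ S, MeasurableSet S → MeasurableSet (gmtFlow X t '' S)
  sd : ∀ S, symmDiff S (gmtFlow X t '' S) ⊆ tsupport X

variable {X : E m → E m}

theorem gmt_test_bdd {U : Set (E m)} (hX : GmtTestS U X) :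
    ∃ L : ℝ, 0 ≤ L ∧ (∀ x, ‖X x‖ ≤ L) ∧ (∀ x, ‖fderiv ℝ X x‖ ≤ L) ∧
      ∀ x y, ‖X x - X y‖ ≤ L * ‖x - y‖ := by
  obtain ⟨L0, h0⟩ := hX.cpt.exists_bound_of_continuous hX.smooth.continuous
  have hc : Continuous (fderiv ℝ X) := hX.smooth.continuous_fderiv (by simp)
  obtain ⟨L1, h1⟩ := (hX.cpt.fderiv ℝ).exists_bound_of_continuous hc
  refine ⟨max L0 L1, (norm_nonneg _).trans ((h0 0).trans (le_max_left _ _)),
    fun x => (h0 x).trans (le_max_left _ _), fun x => (h1 x).trans (le_max_right _ _),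
    fun x y => ?_⟩
  exact Convex.norm_image_sub_le_of_norm_fderiv_le
    (fun z _ => (hX.smooth.differentiable (by simp)) z)
    (fun z _ => (h1 z).trans (le_max_right _ _)) convex_univ (mem_univ y) (mem_univ x)

theorem gmtFlow_hasFDerivAt (hX : Differentiable ℝ X) (t : ℝ) (x : E m) :
    HasFDerivAt (gmtFlow X t) (gmtFlowD X t x) x :=
  (hasFDerivAt_id x).add ((hX x).hasFDerivAt.const_smul t)

theorem gmtFlow_contDiff (hX : ContDiff ℝ ∞ X) (t : ℝ) : ContDiff ℝ ∞ (gmtFlow X t) :=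
  contDiff_id.add (hX.const_smul t)

theorem gmtFlow_injective {L : ℝ} (hL : ∀ x y, ‖X x - X y‖ ≤ L * ‖x - y‖) {t : ℝ}
    (ht : |t| * L < 1) : Function.Injective (gmtFlow X t) := by
  intro x y hxy
  unfold gmtFlow at hxy
  by_contra hne
  have hpos : 0 < ‖x - y‖ := norm_pos_iff.2 (sub_ne_zero.2 hne)
  have e : x - y = t • (X y - X x) := by
    rw [smul_sub, sub_eq_sub_iff_add_eq_add, add_comm (t • X y) y]
    exact hxy
  have h1 : ‖x - y‖ ≤ |t| * L * ‖x - y‖ := by
    conv_lhs => rw [e]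
    rw [norm_smul, Real.norm_eq_abs, mul_assoc, norm_sub_rev x y]
    exact mul_le_mul_of_nonneg_left (hL y x) (abs_nonneg _)
  have h2 : |t| * L * ‖x - y‖ < 1 * ‖x - y‖ := mul_lt_mul_of_pos_right ht hpos
  linarith

theorem gmtFlow_surjective {L : ℝ} (hL : ∀ x y, ‖X x - X y‖ ≤ L * ‖x - y‖) {t : ℝ}
    (ht : |t| * L < 1) : Function.Surjective (gmtFlow X t) := by
  intro z
  have hlip : LipschitzWith (Real.toNNReal (|t| * L)) (fun y => z - t • X y) := by
    refine LipschitzWith.of_dist_le_mul fun x y => ?_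
    rw [dist_eq_norm, dist_eq_norm]
    have e : z - t • X x - (z - t • X y) = t • (X y - X x) := by
      rw [smul_sub]
      abel
    rw [e, norm_smul, Real.norm_eq_abs, norm_sub_rev x y]
    calc |t| * ‖X y - X x‖ ≤ |t| * (L * ‖y - x‖) :=
          mul_le_mul_of_nonneg_left (hL y x) (abs_nonneg _)
      _ = |t| * L * ‖y - x‖ := by ring
      _ ≤ (Real.toNNReal (|t| * L) : ℝ) * ‖y - x‖ :=
          mul_le_mul_of_nonneg_right (Real.le_coe_toNNReal _) (norm_nonneg _)
  have hc : ContractingWith (Real.toNNReal (|t| * L)) (fun y => z - t • X y) :=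
    ⟨Real.toNNReal_lt_one.2 ht, hlip⟩
  refine ⟨ContractingWith.fixedPoint _ hc, ?_⟩
  have hfix : z - t • X (ContractingWith.fixedPoint _ hc) = ContractingWith.fixedPoint _ hc :=
    hc.fixedPoint_isFixedPt
  unfold gmtFlow
  exact (sub_eq_iff_eq_add.1 hfix).symm

theorem gmt_id_add_invertible {B : E m →L[ℝ] E m} (hB : ‖B‖ < 1) :
    (ContinuousLinearMap.id ℝ (E m) + B).IsInvertible := by
  have hB' : ‖-B‖ < 1 := by rwa [norm_neg]
  have hu : ((Units.oneSub (-B) hB' : (E m →L[ℝ] E m)ˣ) : E m →L[ℝ] E m)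
      = ContinuousLinearMap.id ℝ (E m) + B := by
    rw [Units.val_oneSub, sub_neg_eq_add]
    rfl
  rw [← hu]
  exact ContinuousLinearMap.IsInvertible.of_inverse
    (g := ((Units.oneSub (-B) hB')⁻¹ : (E m →L[ℝ] E m)ˣ))
    (Units.mul_inv _) (Units.inv_mul _)

theorem gmt_isInvertible_det_ne {D : E m →L[ℝ] E m} (hD : D.IsInvertible) : D.det ≠ 0 := by
  intro h0
  have h1 : D ∘L D.inverse = ContinuousLinearMap.id ℝ (E m) := hD.self_comp_inverse
  have h2 : (D ∘L D.inverse).det = D.det * D.inverse.det := LinearMap.det_comp _ _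
  rw [h1, h0, zero_mul] at h2
  have h3 : (ContinuousLinearMap.id ℝ (E m)).det = 1 := LinearMap.det_id
  rw [h3] at h2
  exact one_ne_zero h2

theorem gmt_id_add_det_pos {B : E m →L[ℝ] E m} (hB : ‖B‖ < 1) :
    0 < (ContinuousLinearMap.id ℝ (E m) + B).det := by
  by_contra hneg
  push Not at hneg
  have hcont : Continuous fun s : ℝ => (ContinuousLinearMap.id ℝ (E m) + s • B).det :=
    ContinuousLinearMap.continuous_det.comp (continuous_const.add (continuous_id.smul continuous_const))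
  have h0 : (ContinuousLinearMap.id ℝ (E m) + (0 : ℝ) • B).det = 1 := by
    have e0 : ContinuousLinearMap.id ℝ (E m) + (0 : ℝ) • B = ContinuousLinearMap.id ℝ (E m) := by
      ext x
      simp
    rw [e0]
    exact LinearMap.det_id
  have h1 : (ContinuousLinearMap.id ℝ (E m) + (1 : ℝ) • B).det ≤ 0 := by
    rw [one_smul]
    exact hneg
  have hmem : (0 : ℝ) ∈ Icc ((ContinuousLinearMap.id ℝ (E m) + (1 : ℝ) • B).det)
      ((ContinuousLinearMap.id ℝ (E m) + (0 : ℝ) • B).det) := ⟨h1, by rw [h0]; exact zero_le_one⟩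
  obtain ⟨s, hs, hs0⟩ := intermediate_value_Icc' zero_le_one hcont.continuousOn hmem
  refine gmt_isInvertible_det_ne (gmt_id_add_invertible (B := s • B) ?_) hs0
  rw [norm_smul, Real.norm_eq_abs, abs_of_nonneg hs.1]
  calc s * ‖B‖ ≤ 1 * ‖B‖ := mul_le_mul_of_nonneg_right hs.2 (norm_nonneg _)
    _ < 1 := by rwa [one_mul]

theorem gmtFlow_off (t : ℝ) {x : E m} (hx : x ∉ tsupport X) : gmtFlow X t x = x := by
  unfold gmtFlow
  rw [image_eq_zero_of_notMem_tsupport hx, smul_zero, add_zero]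

/-- a bijection which is the identity off `K` preserves every set containing `K`. -/
theorem gmt_bij_image {Φ : E m → E m} (hΦ : Function.Bijective Φ) {K W : Set (E m)}
    (hoff : ∀ x, x ∉ K → Φ x = x) (hKW : K ⊆ W) : Φ '' W = W ∧ Φ ⁻¹' W = W := by
  have hK : ∀ x, x ∈ K → Φ x ∈ K := by
    intro x hx
    by_contra h
    have h1 : Φ (Φ x) = Φ x := hoff _ h
    have h2 : Φ x = x := hΦ.injective h1
    exact h (h2.symm ▸ hx)
  have hpre : Φ ⁻¹' W = W := by
    ext x
    by_cases hx : x ∈ K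
    · exact ⟨fun _ => hKW hx, fun _ => hKW (hK x hx)⟩
    · show Φ x ∈ W ↔ x ∈ W
      rw [hoff x hx]
  refine ⟨?_, hpre⟩
  conv_lhs => rw [← hpre]
  exact image_preimage_eq W hΦ.surjective

theorem gmtFlow_measurableSet_image {Φ : E m → E m} (hc : Continuous Φ)
    (hi : Function.Injective Φ) {S : Set (E m)} (hS : MeasurableSet S) :
    MeasurableSet (Φ '' S) :=
  hS.image_of_continuousOn_injOn hc.continuousOn hi.injOn

/-- the soft fields of `GmtFlowOK`. -/
theorem gmtFlowOK_mk {t : ℝ} (hbij : Function.Bijective (gmtFlow X t))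
    (hsm : ContDiff ℝ ∞ (gmtFlow X t)) (hfd : ∀ x, HasFDerivAt (gmtFlow X t) (gmtFlowD X t x) x)
    (hinv : ∀ x, (gmtFlowD X t x).IsInvertible) (hdet : ∀ x, 0 < (gmtFlowD X t x).det) :
    GmtFlowOK X t where
  bij := hbij
  smooth := hsm
  fder := hfd
  inv := hinv
  det := hdet
  off := fun x hx => gmtFlow_off t hx
  img := fun W hW => (gmt_bij_image hbij (fun x hx => gmtFlow_off t hx) hW).1
  pre := fun W hW => (gmt_bij_image hbij (fun x hx => gmtFlow_off t hx) hW).2
  meas := fun S hS => gmtFlow_measurableSet_image hsm.continuous hbij.injective hS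
  sd := by
    intro S x hx
    by_contra hxs
    have hfix : gmtFlow X t x = x := gmtFlow_off t hxs
    rcases hx with ⟨h1, h2⟩ | ⟨⟨y, hy, hyx⟩, h2⟩
    · exact h2 ⟨x, h1, hfix⟩
    · have : y = x := hbij.injective (hyx.trans hfix.symm)
      exact h2 (this ▸ hy)

theorem gmt_flow_diffeo {U : Set (E m)} (hX : GmtTestS U X) :
    ∃ t₀ > 0, ∀ t, |t| < t₀ → GmtFlowOK X t := by
  obtain ⟨L, hL0, -, hL1, hL2⟩ := gmt_test_bdd hX
  refine ⟨1 / (L + 1), by positivity, fun t ht => ?_⟩
  have htL : |t| * L < 1 := by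
    rw [lt_div_iff₀ (by positivity)] at ht
    nlinarith [abs_nonneg t]
  have hn : ∀ x, ‖t • fderiv ℝ X x‖ < 1 := fun x => by
    rw [norm_smul, Real.norm_eq_abs]
    exact lt_of_le_of_lt (mul_le_mul_of_nonneg_left (hL1 x) (abs_nonneg _)) htL
  exact gmtFlowOK_mk ⟨gmtFlow_injective hL2 htL, gmtFlow_surjective hL2 htL⟩
    (gmtFlow_contDiff hX.smooth t)
    (gmtFlow_hasFDerivAt (hX.smooth.differentiable (by simp)) t)
    (fun x => gmt_id_add_invertible (hn x)) (fun x => gmt_id_add_det_pos (hn x))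

theorem gmtFlowOK_zero (X : E m → E m) : GmtFlowOK X 0 := by
  have e : gmtFlow X 0 = id := by
    funext x
    unfold gmtFlow
    rw [zero_smul, add_zero]
    rfl
  have eD : ∀ x, gmtFlowD X 0 x = ContinuousLinearMap.id ℝ (E m) := fun x => by
    unfold gmtFlowD
    ext y
    simp
  refine gmtFlowOK_mk (by rw [e]; exact Function.bijective_id) (by rw [e]; exact contDiff_id)
    (fun x => by rw [e, eD]; exact hasFDerivAt_id x)
    (fun x => by
      rw [eD]
      exact ⟨ContinuousLinearEquiv.refl ℝ (E m), rfl⟩)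
    (fun x => by
      rw [eD]
      have h3 : (ContinuousLinearMap.id ℝ (E m)).det = 1 := LinearMap.det_id
      rw [h3]
      exact one_pos)

end Claimed.Agent.Gmt
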