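import Claimed.Agent.Lib.Gmt.FvA
import Claimed.Agent.Lib.Gmt.DiffeoA

/-!
# Lib/Gmt FV [part B = step 2]: the Piola transform under `Φ_t = id + t X`.   (architect: helper184)

General description of the chain: header of `FvA.lean`.   REDIRECTED (12:30Z): the Piola identity is NOT proved here any more; it is the case `W = W' = U`, `τ = Φ_t`, `σ = Φ_t⁻¹` of helper274's `DiffeoA.lean`
(`gmtPiola_test`, `integral_gmtDiv_gmtPiola`; black boxes).  Only the INTEGRATED identity is exported (that is all `FvC.gmt_flow_gg` needs).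

PLAN OF PROOFS
* `gmtFlowInv X t = Function.invFun (gmtFlow X t)`; `GmtFlowOK.left_inv`, `right_inv`: `Function.leftInverse_invFun ht.bij.1`, `Function.rightInverse_invFun ht.bij.2`.
* `GmtFlowOK.contDiff_inv`: at `y = Φ x`: `ht.smooth.contDiffAt.to_localInverse (ht.fder x with the equivalence (ht.inv x).choose)`: the local inverse of the inverse function theorem (`ContDiffAt.to_localInverse`, `HasStrictFDerivAt.localInverse`, `eventually_right_inverse`) coincides near `y` with `gmtFlowInv` because `Φ` is injective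
  [`Φ (localInverse z) = z = Φ (gmtFlowInv z)` for `z` near `y`]; `ContDiffAt.congr_of_eventuallyEq`.
* `GmtFlowOK.diffeo`: fields: `hU`, `hU`, `ht.smooth.contDiffOn`, `contDiff_inv.contDiffOn`, `maps`: `ht.img U hXU` (`Φ '' U = U`), `maps'`: `ht.pre U hXU` (`Φ ⁻¹' U = U`: `σ y ∈ Φ ⁻¹' U` as `Φ (σ y) = y ∈ U`), `left_inv`, `right_inv`.
* `GmtFlowOK.fderiv_inv`: `GmtDiffeo.fderiv_comp`/`fderiv_comp'` (with `U = univ`): `fderiv σ (Φ x)` is a two sided inverse of `fderiv Φ x = gmtFlowD X t x` (`(ht.fder x).fderiv`); `ContinuousLinearMap.inverse` of an invertible map is THE two sided inverse (`ContinuousLinearMap.inverse_eq`/`IsInvertible.inverse_apply_eq`, or write `gmtFlowD = ↑e`, `ContinuousLinearMap.inverse_equiv`).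
* `gmtPio_eq`: on `U`: `|det| = det` (`ht.det`), `fderiv_inv`.  Off `U`: `x ∉ tsupport X` ⇒ `Φ x = x ∉ tsupport T` ⇒ `T (Φ x) = 0` ⇒ both sides vanish (`Set.indicator_of_notMem`, `map_zero`, `smul_zero`).
* `gmt_piola`: `gmtPiola_test (ht.diffeo hU hX.sub) hT`, rewritten by `gmtPio_eq`.   Integral: `integral_gmtDiv_gmtPiola (ht.diffeo ..) hT (ht.meas S hS)` with `S' = Φ '' S`: `Φ ⁻¹' (Φ '' S) = S` (`Function.Injective.preimage_image`);
  `∫_{S ∩ U} div (PT) = ∫_S div (PT)` because `div (PT) = 0` off `tsupport (PT) ⊆ U` (`gmtDiv_eq_zero_of_notMem`; `setIntegral_eq_of_subset_of_forall_diff_eq_zero`).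
-/

set_option autoImplicit false
open scoped ContDiff ENNReal RealInnerProductSpace Topology
open MeasureTheory Metric Set Filter

namespace Claimed.Agent.Gmt

variable {m : ℕ} {X : E m → E m} {t : ℝ}

/-- the inverse of `Φ_t`. -/
noncomputable def gmtFlowInv (X : E m → E m) (t : ℝ) : E m → E m := Function.invFun (gmtFlow X t)

/-- the Piola transform `det(DΦ) • (DΦ)⁻¹ (T ∘ Φ)`. -/
noncomputable def gmtPio (X : E m → E m) (t : ℝ) (T : E m → E m) (x : E m) : E m :=
  (gmtFlowD X t x).det • ContinuousLinearMap.inverse (gmtFlowD X t x) (T (gmtFlow X t x))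

theorem GmtFlowOK.left_inv (ht : GmtFlowOK X t) (x : E m) :
    gmtFlowInv X t (gmtFlow X t x) = x := Function.leftInverse_invFun ht.bij.1 x

theorem GmtFlowOK.right_inv (ht : GmtFlowOK X t) (y : E m) :
    gmtFlow X t (gmtFlowInv X t y) = y := Function.rightInverse_invFun ht.bij.2 y

theorem GmtFlowOK.contDiff_inv (ht : GmtFlowOK X t) : ContDiff ℝ ∞ (gmtFlowInv X t) := by
  rw [contDiff_iff_contDiffAt]
  intro y
  obtain ⟨x, rfl⟩ := ht.bij.2 y
  obtain ⟨e, he⟩ := ht.inv x
  have hf : ContDiffAt ℝ ∞ (gmtFlow X t) x := ht.smooth.contDiffAt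
  have hf' : HasFDerivAt (gmtFlow X t) (e : E m →L[ℝ] E m) x := by rw [he]; exact ht.fder x
  have h1 := hf.to_localInverse hf' (by simp)
  refine h1.congr_of_eventuallyEq ?_
  have h2 := (hf.hasStrictFDerivAt' hf' (by simp)).eventually_right_inverse
  filter_upwards [h2] with z hz
  apply ht.bij.1
  rw [ht.right_inv]
  exact hz.symm

theorem GmtFlowOK.diffeo (ht : GmtFlowOK X t) {U : Set (E m)} (hU : IsOpen U)
    (hXU : tsupport X ⊆ U) : GmtDiffeo U U (gmtFlow X t) (gmtFlowInv X t) where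
  opn := hU
  opn' := hU
  smooth := ht.smooth.contDiffOn
  smooth' := ht.contDiff_inv.contDiffOn
  maps := fun x hx => by
    rw [← ht.img U hXU]
    exact mem_image_of_mem _ hx
  maps' := fun y hy => by
    rw [← ht.pre U hXU]
    show gmtFlow X t (gmtFlowInv X t y) ∈ U
    rw [ht.right_inv]
    exact hy
  left := fun x _ => ht.left_inv x
  right := fun y _ => ht.right_inv y

theorem GmtFlowOK.fderiv_inv (ht : GmtFlowOK X t) (x : E m) :
    fderiv ℝ (gmtFlowInv X t) (gmtFlow X t x) = ContinuousLinearMap.inverse (gmtFlowD X t x) := by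
  have hd := ht.diffeo isOpen_univ (subset_univ _)
  have h1 := hd.fderiv_comp (mem_univ x)
  have h2 := hd.fderiv_comp' (mem_univ x)
  rw [(ht.fder x).fderiv] at h1 h2
  exact (ContinuousLinearMap.inverse_eq h2 h1).symm

theorem gmtPio_eq (ht : GmtFlowOK X t) {U : Set (E m)} (hXU : tsupport X ⊆ U) {T : E m → E m}
    (hT : tsupport T ⊆ U) :
    gmtPiola U (gmtFlow X t) (gmtFlowInv X t) T = gmtPio X t T := by
  funext x
  unfold gmtPiola gmtPio
  by_cases hx : x ∈ U
  · rw [indicator_of_mem hx, (ht.fder x).fderiv, ht.fderiv_inv, abs_of_pos (ht.det x)]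
  · rw [indicator_of_notMem hx, ht.off x (fun h => hx (hXU h)),
      image_eq_zero_of_notMem_tsupport (fun h => hx (hT h)), map_zero, smul_zero]

/-- PIOLA TRANSFORM (integrated form). -/
theorem gmt_piola {U : Set (E m)} (hU : IsOpen U) (hX : GmtTestS U X)
    (ht : GmtFlowOK X t) {T : E m → E m} (hT : GmtTest U T) :
    GmtTest U (gmtPio X t T) ∧ ∀ S, MeasurableSet S →
      ∫ x in S, gmtDiv (gmtPio X t T) x = ∫ y in gmtFlow X t '' S, gmtDiv T y := by
  have hd := ht.diffeo hU hX.sub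
  have htest : GmtTest U (gmtPio X t T) := by
    rw [← gmtPio_eq ht hX.sub hT.sub]
    exact gmtPiola_test hd hT
  refine ⟨htest, fun S hS => ?_⟩
  have h1 := integral_gmtDiv_gmtPiola hd hT (ht.meas S hS)
  rw [gmtPio_eq ht hX.sub hT.sub, ht.bij.1.preimage_image] at h1
  rw [← h1]
  exact setIntegral_eq_of_subset_of_forall_sdiff_eq_zero hS inter_subset_left
    (fun x hx => gmtDiv_eq_zero_of_notMem (fun h => hx.2 ⟨hx.1, htest.sub h⟩))

end Claimed.Agent.Gmt
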