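import Claimed.Agent.Lib.Gmt.GgMeasB

/-!
# Lib/Gmt [GgDens] G0b: `Per_A(S; ·) = √(A ν ν) |Dχ_S|`.   (architect: helper75)

`μ = gmtMu S`, `ν = gmtNu S`, `S` of locally finite perimeter in `U`, `A` a smooth elliptic integrand on `U`.

PLAN
* `gmt_exists_sqrt_form`: a symmetric positive semidefinite form `B` on `E m` is `B ξ η = ⟪s ξ, s η⟫`.  Take the operator `a` with `⟪a ξ, η⟫ = B ξ η` (`gmtSharp`, or `InnerProductSpace.toDual`/`ContinuousLinearMap.toSesqForm`-inverse); it is self-adjoint and positive (`ContinuousLinearMap.IsPositive`); `s = CFC.sqrt a`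
  (`CFC.sqrt_mul_sqrt_self`, self-adjoint) — or diagonalise (`LinearMap.IsSymmetric.eigenvectorBasis`): `s ξ = ∑_i √λ_i ⟪b_i, ξ⟫ b_i` — or matrices: `Matrix.PosSemidef.sqrt`/`Matrix.posSemidef_iff_eq_conjTranspose_mul_self`.
* `gmtPer_le_lintegral_dens` (any `A` with `A x ξ ξ ≥ 0`... no hypothesis at all): for `T` admissible in `W ⊆ U`: `∫_S div T = ∫ ⟪T,ν⟫ dμ` (`gmt_gauss_green`) `≤ ∫_W √(A ν ν) dμ` (admissibility with `ξ = ν x`; `T = 0` off `W`); `gmt_ofReal_integral_le`.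
* `lintegral_dens_const_le`: constant form `B` (symmetric, `≥ 0`), `s` as above, `σ = s ∘ ν` (measurable, bounded by `‖s‖`): `∫⁻_W √(B ν ν) dμ = ∫⁻_W ‖σ‖ₑ dμ = sup { ∫ ⟪T', s ν⟫ dμ : T' ∈ C¹_c(W), ‖T'‖ ≤ 1 }` (`gmt_polar_open_gen`), and
  `T = s† ∘ T'` (adjoint; `C¹`, same support) is admissible for `B`: `⟪s† T', ξ⟫ = ⟪T', s ξ⟫ ≤ ‖s ξ‖ = √(B ξ ξ)`; `∫ ⟪T', s ν⟫ dμ = ∫ ⟪T, ν⟫ dμ = ∫_S div T ≤ gmtPer (fun _ => B) S W`.
* `gmt_freeze`: `gmtInt_osc_at`-type statement in both directions on a small ball: `√(A x₀ ξ ξ) ≤ (1+η) √(A y ξ ξ)` and `√(A y ξ ξ) ≤ (1+η) √(A x₀ ξ ξ)` for `y ∈ ball x₀ r` (`gmtInt_osc`, `BvInt.lean`).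
* `lintegral_dens_le_local`: on `W ⊆ ball x₀ r`: `∫⁻_W √(A ν ν) dμ ≤ (1+η) ∫⁻_W √(A x₀ ν ν) dμ ≤ (1+η) gmtPer (fun _ => A x₀) S W ≤ (1+η)² gmtPer A S W`
  (last step: `T` admissible for `A x₀` ⟹ `(1+η)⁻¹ T` admissible for `A` on the ball; as `gmtPer_le_mul_gmtPer` in `BvBasic.lean`).
* `gmtPerM_eq_withDensity`: `≤`: `gmt_measure_le_of_local` with `c = 1` (`gmtPer_le_lintegral_dens`, `gmtPerM_open`; the density measure restricted to `W ⋐ U` is finite hence outer regular; or compare on open sets and use outer regularity of... see `DiffeoB.gmtPerM_le_of_open`).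
  `≥`: `gmt_measure_le_of_local` with `μ₂ = gmtPerM A S` (outer regular), `c = (1+η)²`, all `η > 0`; let `η → 0` (`ENNReal.le_of_forall_pos_le_add`-type argument on each measurable set).
-/

set_option autoImplicit false
open scoped ContDiff ENNReal RealInnerProductSpace Topology
open MeasureTheory Metric Set Filter

namespace Claimed.Agent.Gmt

variable {m : ℕ}

theorem gmt_exists_sqrt_form (B : Bil m) (hs : ∀ ξ η, B ξ η = B η ξ) (hp : ∀ ξ, 0 ≤ B ξ ξ) :
    ∃ s : E m →L[ℝ] E m, ∀ ξ η, B ξ η = ⟪s ξ, s η⟫ := by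
  set a : E m →L[ℝ] E m := ∑ i, (B.flip (eb i)).smulRight (eb i) with ha
  have haB : ∀ ξ η, ⟪a ξ, η⟫ = B ξ η := by
    intro ξ η
    have e : η = ∑ i, η i • (eb i : E m) := (gmt_sum_eb η).symm
    conv_rhs => rw [e, map_sum]
    simp only [ha, sum_apply, ContinuousLinearMap.smulRight_apply,
      ContinuousLinearMap.flip_apply, sum_inner, real_inner_smul_left, map_smul, smul_eq_mul]
    refine Finset.sum_congr rfl fun i _ => ?_
    rw [real_inner_comm, gmt_inner_eb, mul_comm]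
  have hsym : (a : E m →ₗ[ℝ] E m).IsSymmetric := fun ξ η => by
    show ⟪a ξ, η⟫ = ⟪ξ, a η⟫
    rw [haB, real_inner_comm, haB, hs]
  set b := hsym.eigenvectorBasis rfl with hb
  set μ := hsym.eigenvalues rfl with hμ
  have hab : ∀ i, a (b i) = μ i • b i := fun i => hsym.apply_eigenvectorBasis rfl i
  have hbn : ∀ i, ‖b i‖ = 1 := fun i => b.orthonormal.1 i
  have hμ0 : ∀ i, 0 ≤ μ i := by
    intro i
    have h1 := hp (b i)
    rw [← haB, hab, real_inner_smul_left, real_inner_self_eq_norm_sq, hbn] at h1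
    simpa using h1
  set s : E m →L[ℝ] E m := ∑ i, Real.sqrt (μ i) • (innerSL ℝ (b i)).smulRight (b i) with hsdef
  have hsa : ∀ ξ, s ξ = ∑ i, (Real.sqrt (μ i) * ⟪b i, ξ⟫) • b i := by
    intro ξ
    simp only [hsdef, sum_apply, smul_apply,
      ContinuousLinearMap.smulRight_apply, innerSL_apply_apply, smul_smul]
  have hin : ∀ ξ i, ⟪b i, s ξ⟫ = Real.sqrt (μ i) * ⟪b i, ξ⟫ := by
    intro ξ i
    rw [hsa, inner_sum, Finset.sum_eq_single i]
    · rw [inner_smul_right, real_inner_self_eq_norm_sq, hbn]; ring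
    · intro j _ hj
      rw [inner_smul_right, b.orthonormal.2 (Ne.symm hj), mul_zero]
    · intro h; exact absurd (Finset.mem_univ i) h
  refine ⟨s, fun ξ η => ?_⟩
  rw [← haB, ← b.sum_inner_mul_inner (a ξ) η, ← b.sum_inner_mul_inner (s ξ) (s η)]
  refine Finset.sum_congr rfl fun i _ => ?_
  have e1 : ⟪a ξ, b i⟫ = μ i * ⟪b i, ξ⟫ := by
    rw [haB, hs, ← haB, hab, real_inner_smul_left]
  rw [e1, hin, real_inner_comm (b i) (s ξ), hin]
  have := Real.mul_self_sqrt (hμ0 i)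
  calc μ i * ⟪b i, ξ⟫ * ⟪b i, η⟫ = (Real.sqrt (μ i) * Real.sqrt (μ i)) * ⟪b i, ξ⟫ * ⟪b i, η⟫ := by
        rw [this]
    _ = _ := by ring

theorem gmtPer_le_lintegral_dens {U : Set (E m)} (hU : IsOpen U) (A : E m → Bil m)
    {S : Set (E m)} (hS : GmtLF S U) {W : Set (E m)} (hW : IsOpen W) (hWU : W ⊆ U) :
    gmtPer A S W ≤
      ∫⁻ x in W, ENNReal.ofReal (Real.sqrt (A x (gmtNu S x) (gmtNu S x))) ∂(gmtMu S) := by
  unfold gmtPer
  refine iSup_le fun T => iSup_le fun hT => iSup_le fun h1 => ?_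
  have hTU : GmtTest U T := ⟨hT.c1, hT.cpt, hT.sub.trans hWU⟩
  have hTK : GmtTestK U T := ⟨hT.c1, hT.cpt, hT.sub.trans hWU⟩
  rw [gmt_gauss_green hU hS hTU]
  have hint : Integrable (fun x => ⟪T x, gmtNu S x⟫) (gmtMu S) :=
    gmt_integrable_inner_test (fun K hK hKU => gmtMu_compact_ne_top hU hS hK hKU)
      (measurable_gmtNu S) (Eventually.of_forall (norm_gmtNu_le_one S)) hTK
  rw [← setIntegral_eq_integral_of_forall_compl_eq_zero (s := W) fun x hx => by
    rw [image_eq_zero_of_notMem_tsupport (fun h => hx (hT.sub h)), inner_zero_left]]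
  exact (gmt_ofReal_integral_le hint.restrict).trans
    (lintegral_mono fun x => ENNReal.ofReal_le_ofReal (h1 x _))

theorem lintegral_dens_const_le {U : Set (E m)} (hU : IsOpen U) (B : Bil m)
    (hs : ∀ ξ η, B ξ η = B η ξ) (hp : ∀ ξ, 0 ≤ B ξ ξ) {S : Set (E m)} (hS : GmtLF S U)
    {W : Set (E m)} (hW : IsOpen W) (hWU : W ⊆ U) :
    ∫⁻ x in W, ENNReal.ofReal (Real.sqrt (B (gmtNu S x) (gmtNu S x))) ∂(gmtMu S) ≤
      gmtPer (fun _ => B) S W := by
  obtain ⟨s, hs'⟩ := gmt_exists_sqrt_form B hs hp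
  have hsq : ∀ ξ, Real.sqrt (B ξ ξ) = ‖s ξ‖ := fun ξ => by
    rw [hs', real_inner_self_eq_norm_sq, Real.sqrt_sq (norm_nonneg _)]
  have e : ∀ x, ENNReal.ofReal (Real.sqrt (B (gmtNu S x) (gmtNu S x))) = ‖s (gmtNu S x)‖ₑ :=
    fun x => by rw [hsq, ofReal_norm]
  simp only [e]
  rw [gmt_polar_open_gen hU (σ := fun x => s (gmtNu S x))
    (s.continuous.measurable.comp (measurable_gmtNu S)) (C := ‖s‖)
    (fun x => (s.le_opNorm _).trans (mul_le_of_le_one_right (norm_nonneg _)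
      (norm_gmtNu_le_one S x))) (fun K hK hKU => gmtMu_compact_ne_top hU hS hK hKU) hW hWU]
  refine iSup_le fun T' => iSup_le fun hT' => iSup_le fun h1 => ?_
  set T : E m → E m := fun x => (ContinuousLinearMap.adjoint s) (T' x) with hTdef
  have hT : GmtTest W T :=
    ⟨(ContinuousLinearMap.adjoint s).contDiff.comp hT'.c1, hT'.cpt.comp_left (map_zero _),
      (tsupport_comp_subset (map_zero _) _).trans hT'.sub⟩
  have hadm : GmtAdm (fun _ => B) T := fun x ξ => by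
    show ⟪(ContinuousLinearMap.adjoint s) (T' x), ξ⟫ ≤ Real.sqrt (B ξ ξ)
    rw [ContinuousLinearMap.adjoint_inner_left, hsq]
    calc ⟪T' x, s ξ⟫ ≤ ‖T' x‖ * ‖s ξ‖ := real_inner_le_norm _ _
      _ ≤ 1 * ‖s ξ‖ := mul_le_mul_of_nonneg_right (h1 x) (norm_nonneg _)
      _ = ‖s ξ‖ := one_mul _
  have e2 : ∫ x, ⟪T' x, s (gmtNu S x)⟫ ∂(gmtMu S) = ∫ x in S, gmtDiv T x := by
    rw [gmt_gauss_green hU hS ⟨hT.c1, hT.cpt, hT.sub.trans hWU⟩]
    refine integral_congr_ae (Eventually.of_forall fun x => ?_)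
    show ⟪T' x, s (gmtNu S x)⟫ = ⟪(ContinuousLinearMap.adjoint s) (T' x), gmtNu S x⟫
    rw [ContinuousLinearMap.adjoint_inner_left]
  rw [e2]
  unfold gmtPer
  exact le_iSup₂_of_le T hT (le_iSup_of_le hadm le_rfl)

theorem gmt_freeze {U : Set (E m)} {A : E m → Bil m} (hU : IsOpen U) (hA : GmtInt U A) {x₀ : E m}
    (hx₀ : x₀ ∈ U) {η : ℝ} (hη : 0 < η) :
    ∃ r > 0, ball x₀ r ⊆ U ∧ ∀ y ∈ ball x₀ r, ∀ ξ : E m,
      Real.sqrt (A x₀ ξ ξ) ≤ (1 + η) * Real.sqrt (A y ξ ξ) ∧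
      Real.sqrt (A y ξ ξ) ≤ (1 + η) * Real.sqrt (A x₀ ξ ξ) := by
  obtain ⟨r, hr, hrU⟩ := Metric.nhds_basis_closedBall.mem_iff.1 (hU.mem_nhds hx₀)
  obtain ⟨ε, hε, h⟩ := gmtInt_osc hU hA (isCompact_closedBall x₀ r) hrU hη
  refine ⟨min r ε, lt_min hr hε, fun y hy => hrU (ball_subset_closedBall
    (ball_subset_ball (min_le_left _ _) hy)), fun y hy ξ => ?_⟩
  have hy1 : y ∈ closedBall x₀ r := ball_subset_closedBall (ball_subset_ball (min_le_left _ _) hy)
  have hy2 : ‖y - x₀‖ < ε := by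
    rw [mem_ball, dist_eq_norm] at hy
    exact hy.trans_le (min_le_right _ _)
  exact ⟨h y hy1 x₀ (mem_closedBall_self hr.le) hy2 ξ,
    h x₀ (mem_closedBall_self hr.le) y hy1 (by rw [norm_sub_rev]; exact hy2) ξ⟩

theorem lintegral_dens_le_local {U : Set (E m)} {A : E m → Bil m} (hU : IsOpen U)
    (hA : GmtInt U A) {S : Set (E m)} (hS : GmtLF S U) {x₀ : E m} (hx₀ : x₀ ∈ U) {η : ℝ}
    (hη : 0 < η) :
    ∃ r > 0, ∀ W, IsOpen W → W ⊆ ball x₀ r →
      ∫⁻ x in W, ENNReal.ofReal (Real.sqrt (A x (gmtNu S x) (gmtNu S x))) ∂(gmtMu S) ≤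
        ENNReal.ofReal ((1 + η) ^ 2) * gmtPer A S W := by
  obtain ⟨r, hr, hrU, h⟩ := gmt_freeze hU hA hx₀ hη
  refine ⟨r, hr, fun W hW hWr => ?_⟩
  have hWU : W ⊆ U := hWr.trans hrU
  have h1η : 0 < 1 + η := by linarith
  calc ∫⁻ x in W, ENNReal.ofReal (Real.sqrt (A x (gmtNu S x) (gmtNu S x))) ∂(gmtMu S)
      ≤ ∫⁻ x in W, ENNReal.ofReal (1 + η) *
          ENNReal.ofReal (Real.sqrt (A x₀ (gmtNu S x) (gmtNu S x))) ∂(gmtMu S) := by
        refine setLIntegral_mono' hW.measurableSet fun x hx => ?_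
        rw [← ENNReal.ofReal_mul h1η.le]
        exact ENNReal.ofReal_le_ofReal (h x (hWr hx) _).2
    _ = ENNReal.ofReal (1 + η) *
          ∫⁻ x in W, ENNReal.ofReal (Real.sqrt (A x₀ (gmtNu S x) (gmtNu S x))) ∂(gmtMu S) :=
        lintegral_const_mul' _ _ ENNReal.ofReal_ne_top
    _ ≤ ENNReal.ofReal (1 + η) * gmtPer (fun _ => A x₀) S W :=
        mul_le_mul_right (lintegral_dens_const_le hU (A x₀) (hA.symm x₀ hx₀)
          (fun ξ => hA.nonneg hx₀ ξ) hS hW hWU) _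
    _ ≤ ENNReal.ofReal (1 + η) * (ENNReal.ofReal (1 + η) * gmtPer A S W) := by
        refine mul_le_mul_right (gmtPer_le_mul_gmtPer h1η (fun x hx ξ => ?_) S) _
        have h2 := (h x (hWr hx) ξ).1
        have h3 : 0 ≤ A x ξ ξ := hA.nonneg (hWU hx) ξ
        have h4 : 0 ≤ A x₀ ξ ξ := hA.nonneg hx₀ ξ
        calc A x₀ ξ ξ = Real.sqrt (A x₀ ξ ξ) ^ 2 := (Real.sq_sqrt h4).symm
          _ ≤ ((1 + η) * Real.sqrt (A x ξ ξ)) ^ 2 := pow_le_pow_left₀ (Real.sqrt_nonneg _) h2 2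
          _ = (1 + η) ^ 2 * A x ξ ξ := by rw [mul_pow, Real.sq_sqrt h3]
    _ = ENNReal.ofReal ((1 + η) ^ 2) * gmtPer A S W := by
        rw [← mul_assoc, ← ENNReal.ofReal_mul h1η.le, sq]

/-- `Per_A = ∫ √(A ν ν) d|Dχ_S|`. -/
theorem gmtPerM_eq_withDensity {U : Set (E m)} {A : E m → Bil m} {S : Set (E m)} (hU : IsOpen U)
    (hA : GmtInt U A) (hS : GmtLF S U) :
    (gmtPerM A S).restrict U = ((gmtMu S).restrict U).withDensity
      fun x => ENNReal.ofReal (Real.sqrt (A x (gmtNu S x) (gmtNu S x))) := by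
  set d : E m → ℝ≥0∞ := fun x => ENNReal.ofReal (Real.sqrt (A x (gmtNu S x) (gmtNu S x))) with hd
  have hreg : (gmtPerM A S).OuterRegular := (gmtPerM_spec A S).1
  -- the density measure is below the perimeter measure
  have hle : ((gmtMu S).restrict U).withDensity d ≤ (gmtPerM A S).restrict U := by
    have hη : ∀ η : ℝ, 0 < η → ((gmtMu S).restrict U).withDensity d ≤
        ENNReal.ofReal ((1 + η) ^ 2) • (gmtPerM A S).restrict U := by
      intro η hη
      rw [← restrict_withDensity hU.measurableSet]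
      refine gmt_measure_le_of_local hU ENNReal.ofReal_ne_top fun x hx => ?_
      obtain ⟨r, hr, h⟩ := lintegral_dens_le_local hU hA hS hx hη
      refine ⟨r, hr, fun W hW hWr => ?_⟩
      rw [withDensity_apply _ hW.measurableSet, gmtPerM_open A S hW]
      exact h W hW hWr
    refine Measure.le_iff.2 fun s hs => ?_
    have ht : Tendsto (fun η : ℝ => ENNReal.ofReal ((1 + η) ^ 2) * (gmtPerM A S).restrict U s)
        (𝓝[>] 0) (𝓝 (1 * (gmtPerM A S).restrict U s)) := by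
      refine ENNReal.Tendsto.mul_const ?_ (Or.inl one_ne_zero)
      have : Tendsto (fun η : ℝ => (1 + η) ^ 2) (𝓝[>] 0) (𝓝 1) := by
        have hc : Continuous fun η : ℝ => (1 + η) ^ 2 := by fun_prop
        have := hc.tendsto 0
        simp only [add_zero, one_pow] at this
        exact this.mono_left nhdsWithin_le_nhds
      have h2 := (ENNReal.continuous_ofReal.tendsto 1).comp this
      rwa [ENNReal.ofReal_one] at h2
    rw [one_mul] at ht
    refine ge_of_tendsto ht ?_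
    filter_upwards [self_mem_nhdsWithin] with η hη'
    have := hη η hη' s
    rwa [Measure.smul_apply, smul_eq_mul] at this
  -- finiteness on compact sets
  have hfin : ∀ K, IsCompact K → K ⊆ U → (gmtPerM A S).restrict U K ≠ ⊤ := by
    intro K hK hKU
    obtain ⟨W, hWcc, hKW⟩ := gmt_exists_cc hK hU hKU
    obtain ⟨hWo, hWc, hWU⟩ := hWcc
    obtain ⟨c, C, hc, hcC, hb⟩ := gmtInt_bounds hU hA hWc hWU
    have h1 : gmtPer A S W ≤ ENNReal.ofReal C * gmtP S W := by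
      refine gmtPer_le_mul_gmtPer (hc.trans_le hcC) (fun x hx ξ => ?_) S
      have : gmtEu m ξ ξ = ‖ξ‖ ^ 2 := by
        show ⟪ξ, ξ⟫ = _
        exact real_inner_self_eq_norm_sq ξ
      rw [this]
      exact (hb x (subset_closure hx) ξ).2
    have h2 : gmtPer A S W ≠ ⊤ :=
      ne_top_of_le_ne_top (ENNReal.mul_ne_top ENNReal.ofReal_ne_top (hS.2 W ⟨hWo, hWc, hWU⟩)) h1
    refine ne_top_of_le_ne_top h2 ?_
    calc (gmtPerM A S).restrict U K ≤ gmtPerM A S K := Measure.restrict_apply_le _ _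
      _ ≤ gmtPerM A S W := measure_mono hKW
      _ = gmtPer A S W := gmtPerM_open A S hWo
  refine gmt_measure_ext_open hU ?_ ?_ hfin fun W hW hWU => le_antisymm ?_ (hle W)
  · rw [Measure.restrict_apply hU.measurableSet.compl, compl_inter_self, measure_empty]
  · rw [withDensity_apply _ hU.measurableSet.compl, Measure.restrict_restrict hU.measurableSet.compl,
      compl_inter_self, Measure.restrict_empty, lintegral_zero_measure]
  · rw [Measure.restrict_apply hW.measurableSet, inter_eq_self_of_subset_left hWU,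
      gmtPerM_open A S hW, withDensity_apply _ hW.measurableSet,
      Measure.restrict_restrict hW.measurableSet, inter_eq_self_of_subset_left hWU]
    exact gmtPer_le_lintegral_dens hU A hS hW hWU

end Claimed.Agent.Gmt
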