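import Claimed.Agent.Lib.Gmt.FvB
import Claimed.Agent.Lib.Gmt.GgDens
import Claimed.Agent.Lib.Gmt.BvInt

/-!
# Lib/Gmt FV [part C = steps 3-4]: push-forward of the Gauss-Green formula; `Per_A(Φ_t S; W) ≤ h(t)`.   (architect: helper184)

General description of the chain: header of `FvA.lean`.   Black boxes: `gmt_piola` (`FvB`), `gmt_gauss_green`, `measurable_gmtNu`, `norm_gmtNu_le_one` (`GgMeasB`), `gmtMu_compact_ne_top`, `gmtMu_restrict_finite`, `gmtPerM_open` (`GgMeasA`), `gmt_perM_eq'`-type density formula (`GgMeas*`; the statement of `IFa.gmt_perM_eq`).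

PLAN OF PROOFS
* `gmt_flow_integral`: `integral_image_eq_integral_abs_det_fderiv_smul volume hS (fun x _ => (ht.fder x).hasFDerivWithinAt) ht.bij.1.injOn g`; `abs_of_pos (ht.det x)`, `smul_eq_mul`.
* `gmtCof_inner`: `⟪L.det • inverse L v, ν⟫ = ⟪v, gmtCof L ν⟫` (`inner_smul_left`, `inner_smul_right`, `ContinuousLinearMap.adjoint_inner_right`, `conj_trivial`).
* `gmt_flow_gg`: `(gmt_piola hU hX ht hT).2 S hS.1` (right to left), `gmt_gauss_green hU hS (gmt_piola ..).1`, `gmtCof_inner` under the integral (`integral_congr_ae`/`funext`).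
* `gmtCof_id`: `inverse id = id` (`ContinuousLinearMap.inverse_id`), `adjoint id = id`, `det id = 1`.
* `continuous_gmtCofD`: `x ↦ (gmtFlowD X t x).det • adjoint (inverse (gmtFlowD X t x))` is continuous as a map into `E m →L[ℝ] E m`: `fderiv X` continuous; `det` continuous (`ContinuousLinearMap.continuous_det`/polynomial in the entries); `inverse` is continuous at invertible maps (`ContinuousLinearMap.IsInvertible.contDiffAt_map_inverse`/`contDiffAt_map_inverse`, `.continuousAt`); `adjoint` is an isometry (`LinearIsometryEquiv.continuous`).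
* `gmtFlowNu_bdd`: off `tsupport X`: `fderiv X x = 0` ⇒ `gmtFlowD = id` ⇒ `gmtFlowNu = ν`, norm `≤ 1`; on the compact set `tsupport X` the operator norm of the continuous field is bounded (`IsCompact.exists_bound_of_continuousOn`); `le_opNorm`, `norm_gmtNu_le_one`.     `gmtFlowNu_measurable`: continuous field applied to the measurable `gmtNu S` (`Continuous.measurable`, `Measurable.clm_apply`/`ContinuousLinearMap.measurable_apply₂`).
* `gmtMu_integrableOn`: `IntegrableOn.of_bound` (`gmtMu_restrict_finite hU hS hW`), `ae_restrict_of_forall_mem hW.1.measurableSet`.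
* `gmt_flow_lf`: `ht.meas S hS.1`.  For `W' ⋐ U`, `T` test in `W'` with `GmtAdm (Euclid) T` (⇒ `‖T x‖ ≤ 1`: test `ξ = T x`): `∫_{ΦS} div T = ∫ ⟪T (Φ x), gmtFlowNu⟫ dμ ≤ C μ_S(K)`, `K = Φ ⁻¹' closure W'` compact (`= gmtFlowInv '' closure W'`, continuous image) `⊆ Φ ⁻¹' U = U`; `T (Φ x) = 0` off `K`.  `iSup_le`; `ENNReal.ofReal_lt_top`.
* `gmtPer_flow_le`: `iSup₂_le`/`iSup_le`; for `T` test in `W`, `GmtAdm A T`: `gmt_flow_gg` (in `U`; `GmtTest.mono`); `T (Φ x) = 0` for `x ∉ W` (`ht.pre W hX.sub`), so the integral is over `W`; `⟪T (Φ x), ξ⟫ ≤ √(A (Φ x) ξ ξ)` with `ξ = gmtFlowNu`; `setIntegral_mono` (integrability: `gmtMu_integrableOn`, bounded by `gmtInt_bounds` on `closure W` and `gmtFlowNu_bdd`; measurability: `A ∘ Φ` continuous on `W`); `ENNReal.ofReal_le_ofReal`.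
* `gmtPer_flow_zero`: `gmtFlow X 0 x = x`, `gmtFlowNu X 0 S x = gmtNu S x` (`gmtCof_id`); `gmtPer A S W = gmtPerM A S W` (`gmtPerM_open`) `= ∫⁻_W ofReal √(A x ν ν) dμ` (density formula restricted to `U ⊇ W`, `withDensity_apply`, `Measure.restrict_restrict`) `= ofReal ∫_W ..` (`ofReal_integral_eq_lintegral_ofReal`, `gmtMu_integrableOn`, `Real.sqrt_nonneg`).
-/

set_option autoImplicit false
open scoped ContDiff ENNReal RealInnerProductSpace Topology
open MeasureTheory Metric Set Filter

namespace Claimed.Agent.Gmt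

variable {m : ℕ}

/-- change of variables. -/
theorem gmt_flow_integral {X : E m → E m} {t : ℝ} (ht : GmtFlowOK X t) {S : Set (E m)}
    (hS : MeasurableSet S) (g : E m → ℝ) :
    ∫ y in gmtFlow X t '' S, g y = ∫ x in S, (gmtFlowD X t x).det * g (gmtFlow X t x) := by
  rw [integral_image_eq_integral_abs_det_fderiv_smul volume hS
    (fun x _ => (ht.fder x).hasFDerivWithinAt) ht.bij.1.injOn g]
  refine setIntegral_congr_fun hS fun x _ => ?_
  show |(gmtFlowD X t x).det| • g (gmtFlow X t x) = _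
  rw [abs_of_pos (ht.det x), smul_eq_mul]

theorem gmtCof_inner (L : E m →L[ℝ] E m) (v ν : E m) :
    ⟪L.det • ContinuousLinearMap.inverse L v, ν⟫ = ⟪v, gmtCof L ν⟫ := by
  unfold gmtCof
  rw [real_inner_smul_left, real_inner_smul_right, ContinuousLinearMap.adjoint_inner_right]

theorem gmtCof_id (ν : E m) : gmtCof (ContinuousLinearMap.id ℝ (E m)) ν = ν := by
  unfold gmtCof
  have h3 : (ContinuousLinearMap.id ℝ (E m)).det = 1 := LinearMap.det_id
  rw [h3, one_smul, ContinuousLinearMap.inverse_id, ContinuousLinearMap.adjoint_id]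
  rfl

/-- the cofactor field is continuous. -/
theorem continuous_gmtCofD {X : E m → E m} (hX : ContDiff ℝ ∞ X) {t : ℝ} (ht : GmtFlowOK X t) :
    Continuous (fun x => (gmtFlowD X t x).det •
      ContinuousLinearMap.adjoint (ContinuousLinearMap.inverse (gmtFlowD X t x))) := by
  have hD : Continuous (gmtFlowD X t) :=
    continuous_const.add ((hX.continuous_fderiv (by simp)).const_smul t)
  have hdet : Continuous fun x => (gmtFlowD X t x).det :=
    ContinuousLinearMap.continuous_det.comp hD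
  have hinv : Continuous fun x => ContinuousLinearMap.inverse (gmtFlowD X t x) := by
    rw [continuous_iff_continuousAt]
    intro x
    have h1 : ContinuousAt (ContinuousLinearMap.inverse : (E m →L[ℝ] E m) → (E m →L[ℝ] E m))
        (gmtFlowD X t x) :=
      ((ht.inv x).contDiffAt_map_inverse (n := 0)).continuousAt
    exact ContinuousAt.comp (f := gmtFlowD X t) h1 hD.continuousAt
  have hadj : Continuous fun x =>
      ContinuousLinearMap.adjoint (ContinuousLinearMap.inverse (gmtFlowD X t x)) :=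
    (ContinuousLinearMap.adjoint (𝕜 := ℝ) (E := E m) (F := E m)).continuous.comp hinv
  exact hdet.smul hadj

theorem gmtFlowNu_bdd {U : Set (E m)} {X : E m → E m} (hX : GmtTestS U X) {t : ℝ}
    (ht : GmtFlowOK X t) : ∃ C : ℝ, ∀ (S : Set (E m)) (x : E m), ‖gmtFlowNu X t S x‖ ≤ C := by
  have hG := continuous_gmtCofD hX.smooth ht
  obtain ⟨C₀, hC₀⟩ := hX.cpt.isCompact.exists_bound_of_continuousOn hG.continuousOn
  refine ⟨max C₀ 1, fun S x => ?_⟩
  by_cases hx : x ∈ tsupport X
  · have e : gmtFlowNu X t S x = ((gmtFlowD X t x).det •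
        ContinuousLinearMap.adjoint (ContinuousLinearMap.inverse (gmtFlowD X t x))) (gmtNu S x) := rfl
    rw [e]
    refine (ContinuousLinearMap.le_opNorm _ _).trans ?_
    have h1 := hC₀ x hx
    have h2 := norm_gmtNu_le_one S x
    calc _ ≤ C₀ * 1 := mul_le_mul h1 h2 (norm_nonneg _) ((norm_nonneg _).trans h1)
      _ ≤ max C₀ 1 := by rw [mul_one]; exact le_max_left _ _
  · have e : gmtFlowD X t x = ContinuousLinearMap.id ℝ (E m) := by
      unfold gmtFlowD
      rw [fderiv_of_notMem_tsupport (𝕜 := ℝ) hx]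
      ext y
      simp
    unfold gmtFlowNu
    rw [e, gmtCof_id]
    exact (norm_gmtNu_le_one S x).trans (le_max_right _ _)

theorem gmtFlowNu_measurable {X : E m → E m} (hX : ContDiff ℝ ∞ X) {t : ℝ} (ht : GmtFlowOK X t)
    (S : Set (E m)) : Measurable (gmtFlowNu X t S) :=
  ContinuousLinearMap.measurable_apply₂.comp
    ((continuous_gmtCofD hX ht).measurable.prodMk (measurable_gmtNu S))

/-- PUSH-FORWARD OF THE GAUSS-GREEN FORMULA. -/
theorem gmt_flow_gg {U S : Set (E m)} (hU : IsOpen U) (hS : GmtLF S U) {X : E m → E m}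
    (hX : GmtTestS U X) {t : ℝ} (ht : GmtFlowOK X t) {T : E m → E m} (hT : GmtTest U T) :
    ∫ y in gmtFlow X t '' S, gmtDiv T y =
      ∫ x, ⟪T (gmtFlow X t x), gmtFlowNu X t S x⟫ ∂(gmtMu S) := by
  obtain ⟨h1, h2⟩ := gmt_piola hU hX ht hT
  rw [← h2 S hS.1, gmt_gauss_green hU hS h1]
  refine integral_congr_ae (Eventually.of_forall fun x => ?_)
  exact gmtCof_inner _ _ _

/-- integrability of bounded measurable integrands on `W ⋐ U`. -/
theorem gmtMu_integrableOn {U W S : Set (E m)} (hU : IsOpen U) (hS : GmtLF S U) (hW : GmtCC W U)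
    {g : E m → ℝ} (hg : AEStronglyMeasurable g ((gmtMu S).restrict W)) {C : ℝ}
    (hC : ∀ x ∈ W, |g x| ≤ C) :
    IntegrableOn g W (gmtMu S) := by
  have := gmtMu_restrict_finite hU hS hW
  have hfin : gmtMu S W < ⊤ := by
    have := measure_lt_top ((gmtMu S).restrict W) univ
    rwa [Measure.restrict_apply_univ] at this
  exact IntegrableOn.of_bound hfin hg C
    (ae_restrict_of_forall_mem hW.1.measurableSet fun x hx => hC x hx)

/-- integrability of `√(A (Ψ x) (N x) (N x))`. -/
theorem gmtc_integrableOn {U W S : Set (E m)} {A : E m → Bil m} (hU : IsOpen U) (hA : GmtInt U A)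
    (hS : GmtLF S U) (hW : GmtCC W U) {Ψ N : E m → E m} (hΨ : ContinuousOn Ψ W)
    (hmaps : MapsTo Ψ W W) (hN : Measurable N) {C : ℝ} (hC : ∀ x, ‖N x‖ ≤ C) :
    IntegrableOn (fun x => Real.sqrt (A (Ψ x) (N x) (N x))) W (gmtMu S) := by
  have hWU : W ⊆ U := subset_closure.trans hW.2.2
  obtain ⟨c, C₁, hc, hcC, hb⟩ := gmtInt_bounds hU hA hW.2.1 hW.2.2
  have hAΨ : ContinuousOn (fun x => A (Ψ x)) W :=
    hA.continuousOn.comp hΨ (fun x hx => hWU (hmaps hx))
  have m1 : AEMeasurable (fun x => A (Ψ x)) ((gmtMu S).restrict W) :=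
    hAΨ.aemeasurable hW.1.measurableSet
  have m2 : AEMeasurable (fun x => A (Ψ x) (N x)) ((gmtMu S).restrict W) :=
    ContinuousLinearMap.measurable_apply₂.comp_aemeasurable (m1.prodMk hN.aemeasurable)
  have m3 : AEMeasurable (fun x => A (Ψ x) (N x) (N x)) ((gmtMu S).restrict W) :=
    ContinuousLinearMap.measurable_apply₂.comp_aemeasurable (m2.prodMk hN.aemeasurable)
  have m4 : AEMeasurable (fun x => Real.sqrt (A (Ψ x) (N x) (N x))) ((gmtMu S).restrict W) :=
    Real.continuous_sqrt.measurable.comp_aemeasurable m3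
  refine gmtMu_integrableOn hU hS hW m4.aestronglyMeasurable (C := C₁ * C) fun x hx => ?_
  rw [abs_of_nonneg (Real.sqrt_nonneg _)]
  have hC0 : 0 ≤ C := (norm_nonneg _).trans (hC x)
  have hC1 : 0 ≤ C₁ := hc.le.trans hcC
  apply Real.sqrt_le_iff.2
  refine ⟨mul_nonneg hC1 hC0, ?_⟩
  refine (hb (Ψ x) (subset_closure (hmaps hx)) (N x)).2.trans ?_
  rw [mul_pow]
  exact mul_le_mul_of_nonneg_left (pow_le_pow_left₀ (norm_nonneg _) (hC x) 2) (sq_nonneg _)

/-- the deformed set has locally finite perimeter. -/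
theorem gmt_flow_lf {U S : Set (E m)} (hU : IsOpen U) (hS : GmtLF S U) {X : E m → E m}
    (hX : GmtTestS U X) {t : ℝ} (ht : GmtFlowOK X t) : GmtLF (gmtFlow X t '' S) U := by
  refine ⟨ht.meas S hS.1, fun W' hW' => ?_⟩
  obtain ⟨C, hC⟩ := gmtFlowNu_bdd hX ht
  have hC0 : 0 ≤ C := (norm_nonneg _).trans (hC S 0)
  obtain ⟨K, hKdef⟩ : ∃ K, K = gmtFlow X t ⁻¹' closure W' := ⟨_, rfl⟩
  have hKc : IsCompact K := by
    have e : K = gmtFlowInv X t '' closure W' := by
      rw [hKdef]
      ext x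
      constructor
      · intro hx
        exact ⟨gmtFlow X t x, hx, ht.left_inv x⟩
      · rintro ⟨y, hy, rfl⟩
        show gmtFlow X t (gmtFlowInv X t y) ∈ closure W'
        rw [ht.right_inv]
        exact hy
    rw [e]
    exact hW'.2.1.image ht.contDiff_inv.continuous
  have hKU : K ⊆ U := by
    rw [hKdef, ← ht.pre U hX.sub]
    exact preimage_mono hW'.2.2
  have hfin : gmtMu S K < ⊤ := (gmtMu_compact_ne_top hU hS hKc hKU).lt_top
  apply ne_of_lt
  refine lt_of_le_of_lt ?_ (ENNReal.ofReal_lt_top (r := C * (gmtMu S).real K))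
  unfold gmtP gmtPer
  refine iSup_le fun T => iSup_le fun hT => iSup_le fun hadm => ENNReal.ofReal_le_ofReal ?_
  have hT1 : ∀ x, ‖T x‖ ≤ 1 := (gmtAdm_eu_iff T).1 hadm
  rw [gmt_flow_gg hU hS hX ht (hT.mono (subset_closure.trans hW'.2.2)),
    ← setIntegral_eq_integral_of_forall_compl_eq_zero (s := K) (fun x hx => by
      have h1 : gmtFlow X t x ∉ tsupport T := fun h => hx (by
        rw [hKdef]
        exact subset_closure (hT.sub h))
      rw [image_eq_zero_of_notMem_tsupport h1, inner_zero_left])]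
  refine (le_abs_self _).trans ?_
  rw [← Real.norm_eq_abs]
  refine norm_setIntegral_le_of_norm_le_const hfin fun x _ => ?_
  refine (norm_inner_le_norm _ _).trans ?_
  calc _ ≤ 1 * C := mul_le_mul (hT1 _) (hC S x) (norm_nonneg _) zero_le_one
    _ = C := one_mul _

/-- the upper bound `h(t)` of the `A`-perimeter of the deformed set. -/
noncomputable def gmtFlowPer (A : E m → Bil m) (X : E m → E m) (S W : Set (E m)) (t : ℝ) : ℝ :=
  ∫ x in W, Real.sqrt (A (gmtFlow X t x) (gmtFlowNu X t S x) (gmtFlowNu X t S x)) ∂(gmtMu S)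

theorem gmtPer_flow_le {U W S : Set (E m)} {A : E m → Bil m} (hU : IsOpen U) (hA : GmtInt U A)
    (hS : GmtLF S U) (hW : GmtCC W U) {X : E m → E m} (hX : GmtTestS W X) {t : ℝ}
    (ht : GmtFlowOK X t) :
    gmtPer A (gmtFlow X t '' S) W ≤ ENNReal.ofReal (gmtFlowPer A X S W t) := by
  have hWU : W ⊆ U := subset_closure.trans hW.2.2
  have hX' : GmtTestS U X := ⟨hX.smooth, hX.cpt, hX.sub.trans hWU⟩
  obtain ⟨C, hC⟩ := gmtFlowNu_bdd hX' ht
  have hmaps : MapsTo (gmtFlow X t) W W := fun x hx => by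
    rw [← ht.img W hX.sub]
    exact mem_image_of_mem _ hx
  have hNm := gmtFlowNu_measurable hX.smooth ht S
  unfold gmtPer gmtFlowPer
  refine iSup_le fun T => iSup_le fun hT => iSup_le fun hadm => ENNReal.ofReal_le_ofReal ?_
  rw [gmt_flow_gg hU hS hX' ht (hT.mono hWU),
    ← setIntegral_eq_integral_of_forall_compl_eq_zero (s := W) (fun x hx => by
      have h1 : gmtFlow X t x ∉ tsupport T := fun h => hx (by
        rw [← ht.pre W hX.sub]
        exact hT.sub h)
      rw [image_eq_zero_of_notMem_tsupport h1, inner_zero_left])]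
  obtain ⟨CT, hCT⟩ := hT.cpt.exists_bound_of_continuous hT.c1.continuous
  refine setIntegral_mono_on ?_ (gmtc_integrableOn hU hA hS hW ht.smooth.continuous.continuousOn
    hmaps hNm (hC S)) hW.1.measurableSet (fun x _ => hadm _ _)
  refine gmtMu_integrableOn hU hS hW (C := CT * C) ?_ fun x _ => ?_
  · exact (((hT.c1.continuous.comp ht.smooth.continuous).measurable.inner hNm)).aestronglyMeasurable
  · refine (abs_real_inner_le_norm _ _).trans ?_
    exact mul_le_mul (hCT _) (hC S x) (norm_nonneg _) ((norm_nonneg _).trans (hCT 0))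

theorem gmtPer_flow_zero {U W S : Set (E m)} {A : E m → Bil m} (hU : IsOpen U) (hA : GmtInt U A)
    (hS : GmtLF S U) (hW : GmtCC W U) (X : E m → E m) :
    gmtPer A S W = ENNReal.ofReal (gmtFlowPer A X S W 0) := by
  have hWU : W ⊆ U := subset_closure.trans hW.2.2
  have hWm : MeasurableSet W := hW.1.measurableSet
  have e0 : gmtFlowPer A X S W 0 = ∫ x in W, Real.sqrt (A x (gmtNu S x) (gmtNu S x)) ∂(gmtMu S) := by
    unfold gmtFlowPer
    congr 1
    funext x
    have e1 : gmtFlow X 0 x = x := by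
      unfold gmtFlow
      rw [zero_smul, add_zero]
    have e2 : gmtFlowNu X 0 S x = gmtNu S x := by
      unfold gmtFlowNu
      have e3 : gmtFlowD X 0 x = ContinuousLinearMap.id ℝ (E m) := by
        unfold gmtFlowD
        ext y
        simp
      rw [e3, gmtCof_id]
    rw [e1, e2]
  have hint : IntegrableOn (fun x => Real.sqrt (A x (gmtNu S x) (gmtNu S x))) W (gmtMu S) :=
    gmtc_integrableOn hU hA hS hW (Ψ := fun x => x) continuousOn_id (fun x hx => hx)
      (measurable_gmtNu S) (norm_gmtNu_le_one S)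
  rw [e0, ofReal_integral_eq_lintegral_ofReal hint
    (Eventually.of_forall fun x => Real.sqrt_nonneg _), ← gmtPerM_open A S hW.1]
  have h1 : gmtPerM A S W = (gmtPerM A S).restrict U W := by
    rw [Measure.restrict_apply hWm, inter_eq_self_of_subset_left hWU]
  rw [h1, gmtPerM_eq_withDensity hU hA hS, withDensity_apply _ hWm,
    Measure.restrict_restrict hWm, inter_eq_self_of_subset_left hWU]

end Claimed.Agent.Gmt
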