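import Mathlib

/-!
# Lib/Gmt FvJ: uniform first order jets `g t p = g0 p + t • g1 p + O(t²)`.   (architect: helper184)

PAPER-FREE, pure Mathlib, generic normed spaces.  The calculus which replaces "differentiation under the integral sign" in the first variation (`FvD`, `Fv`): all expansions are POINTWISE in the parameter `p ∈ P` with constants uniform in `p`.

PLAN OF PROOFS  (notation: `rg = g t p - g0 p - t • g1 p`, `‖rg‖ ≤ Cg t²` for `|t| < tg`; w.l.o.g. all `t₁ ≤ 1`, all constants `≥ 0`: replace `C` by `max C 0`, `t₁` by `min t₁ 1`)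
* `const`, `affine`: remainder `0` (`sub_self`, `add_sub_cancel_left`, `norm_zero`, `C = 0`, `t₁ = 1`).   `mono`, `comp_index`, `congr`: unfold.
* `bound`: `‖g t p - g0 p‖ ≤ |t| C1 + Cg t² ≤ (C1 + Cg)|t|` for `|t| < min tg 1`; `‖g t p‖ ≤ C0 + C1 + Cg`.
* `map_lin`: `L (g) - L (g0) - t • L (g1) = L rg`.
* `bilin`: `β g k - β g0 k0 - t (β g1 k0 + β g0 k1) = β g0 rk + t² β g1 k1 + t β g1 rk + β rg k` (expand `g = g0 + t g1 + rg`, `k = k0 + t k1 + rk`: `map_add`, `map_smul`, `ContinuousLinearMap.add_apply`, `smul_apply`; check with `module`/`abel` after `simp only`), `ContinuousLinearMap.le_opNorm₂`: `‖β a b‖ ≤ ‖β‖ ‖a‖ ‖b‖`; `bound` for `‖k‖`.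
* `add`, `smul'`, `mul`: direct / `bilin` with `ContinuousLinearMap.lsmul ℝ ℝ`, `ContinuousLinearMap.mul ℝ ℝ`.
* `gmt_sqrt_aux` (elementary): for `q0 ≥ lam > 0`, `q ≥ 0`: `√q - √q0 - (q - q0)/(2√q0) = -(q - q0)²/(2 √q0 (√q + √q0)²)` [from `√q - √q0 = (q - q0)/(√q + √q0)`], so `|..| ≤ (q - q0)²/(2 lam^{3/2})`; state the bound as `≤ (q - q0)^2 / (2 * lam * √lam)`.
* `sqrt`: `q = g t p`, `q0 = g0 p`; for `|t|` small `|q - q0| ≤ C|t| ≤ lam/2` (`bound`) so `q ≥ 0`; `√q - √q0 - t g1/(2√q0) = [√q - √q0 - (q - q0)/(2√q0)] + rg/(2√q0)`; bounds `C² t²/(2 lam √lam) + Cg t²/(2√lam)`.  `bdd0`: `√(g0 p) ≤ √C0`; `bdd1`: `|g1/(2√g0)| ≤ C1/(2√lam)`.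
* `gmtJet_taylor`.  `O = Ioo (-a) a ×ˢ Ω` open.  `D1 z = fderiv ℝ G z (1, 0)` is `C¹` on `O` (`ContDiffOn.fderiv_of_isOpen`, `clm_apply`), `D2 z = fderiv ℝ D1 z (1, 0)` is continuous on `O`, bounded by `C` on the compact set `Icc (-a/2) (a/2) ×ˢ K` (`IsCompact.prod`, `IsCompact.exists_bound_of_continuousOn`).  Fix `p ∈ K`.
  `s ↦ G (s, p)` has derivative `D1 (s, p)`, `s ↦ D1 (s, p)` has derivative `D2 (s, p)` on `Ioo (-a) a` (chain rule with `s ↦ (s, p)`: `HasFDerivAt.comp_hasDerivAt`, `(hasDerivAt_id s).prodMk (hasDerivAt_const s p)`).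
  Mean value inequality on `[[0, s]] ⊆ Icc (-a/2) (a/2)` (`Convex.norm_image_sub_le_of_norm_hasDerivWithin_le`, `convex_uIcc`): `‖D1 (s,p) - D1 (0,p)‖ ≤ C |s|`; then for `k s = G (s,p) - s • D1 (0,p)`, `k' s = D1 (s,p) - D1 (0,p)`, `‖k' s‖ ≤ C |t|` on `[[0,t]]`: `‖k t - k 0‖ ≤ C |t| |t|`.   `t₁ = a/2`.   `bdd0`, `bdd1`: continuity on the compact set `{0} ×ˢ K`.
-/

set_option autoImplicit false
open scoped ContDiff Topology
open Set Filter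

namespace Claimed.Agent.Gmt

/-- `g t p = g0 p + t • g1 p + O(t²)` uniformly in `p ∈ P`, with bounded coefficients. -/
structure GmtJet {ι F : Type} [NormedAddCommGroup F] [NormedSpace ℝ F] (P : Set ι)
    (g : ℝ → ι → F) (g0 g1 : ι → F) : Prop where
  bdd0 : ∃ C : ℝ, ∀ p ∈ P, ‖g0 p‖ ≤ C
  bdd1 : ∃ C : ℝ, ∀ p ∈ P, ‖g1 p‖ ≤ C
  rem : ∃ C t₁ : ℝ, 0 < t₁ ∧ ∀ t, |t| < t₁ → ∀ p ∈ P, ‖g t p - g0 p - t • g1 p‖ ≤ C * t ^ 2

variable {ι κ F G H : Type} [NormedAddCommGroup F] [NormedSpace ℝ F] [NormedAddCommGroup G]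
  [NormedSpace ℝ G] [NormedAddCommGroup H] [NormedSpace ℝ H]
variable {P : Set ι} {g : ℝ → ι → F} {g0 g1 : ι → F}

theorem gmtJet_const (h0 : ∃ C : ℝ, ∀ p ∈ P, ‖g0 p‖ ≤ C) :
    GmtJet P (fun _ => g0) g0 (fun _ => 0) :=
  ⟨h0, ⟨0, fun _ _ => by simp⟩, ⟨0, 1, one_pos, fun t _ p _ => by simp⟩⟩

theorem gmtJet_affine (h0 : ∃ C : ℝ, ∀ p ∈ P, ‖g0 p‖ ≤ C) (h1 : ∃ C : ℝ, ∀ p ∈ P, ‖g1 p‖ ≤ C) :
    GmtJet P (fun t p => g0 p + t • g1 p) g0 g1 :=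
  ⟨h0, h1, ⟨0, 1, one_pos, fun t _ p _ => by simp⟩⟩

theorem GmtJet.mono (h : GmtJet P g g0 g1) {Q : Set ι} (hQ : Q ⊆ P) : GmtJet Q g g0 g1 := by
  obtain ⟨C0, h0⟩ := h.bdd0
  obtain ⟨C1, h1⟩ := h.bdd1
  obtain ⟨C, t₁, ht₁, hr⟩ := h.rem
  exact ⟨⟨C0, fun p hp => h0 p (hQ hp)⟩, ⟨C1, fun p hp => h1 p (hQ hp)⟩,
    ⟨C, t₁, ht₁, fun t ht p hp => hr t ht p (hQ hp)⟩⟩

theorem GmtJet.comp_index (h : GmtJet P g g0 g1) {Q : Set κ} {f : κ → ι} (hf : MapsTo f Q P) :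
    GmtJet Q (fun t q => g t (f q)) (fun q => g0 (f q)) (fun q => g1 (f q)) := by
  obtain ⟨C0, h0⟩ := h.bdd0
  obtain ⟨C1, h1⟩ := h.bdd1
  obtain ⟨C, t₁, ht₁, hr⟩ := h.rem
  exact ⟨⟨C0, fun p hp => h0 _ (hf hp)⟩, ⟨C1, fun p hp => h1 _ (hf hp)⟩,
    ⟨C, t₁, ht₁, fun t ht p hp => hr t ht _ (hf hp)⟩⟩

/-- only small `t`, `p ∈ P` and the values of the coefficients on `P` matter. -/
theorem GmtJet.congr (h : GmtJet P g g0 g1) {g' : ℝ → ι → F} {g0' g1' : ι → F} {t₂ : ℝ}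
    (ht₂ : 0 < t₂) (hg : ∀ t, |t| < t₂ → ∀ p ∈ P, g' t p = g t p) (h0 : ∀ p ∈ P, g0' p = g0 p)
    (h1 : ∀ p ∈ P, g1' p = g1 p) : GmtJet P g' g0' g1' := by
  obtain ⟨C0, hC0⟩ := h.bdd0
  obtain ⟨C1, hC1⟩ := h.bdd1
  obtain ⟨C, t₁, ht₁, hr⟩ := h.rem
  refine ⟨⟨C0, fun p hp => by rw [h0 p hp]; exact hC0 p hp⟩,
    ⟨C1, fun p hp => by rw [h1 p hp]; exact hC1 p hp⟩,
    ⟨C, min t₁ t₂, lt_min ht₁ ht₂, fun t ht p hp => ?_⟩⟩
  rw [hg t (lt_of_lt_of_le ht (min_le_right _ _)) p hp, h0 p hp, h1 p hp]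
  exact hr t (lt_of_lt_of_le ht (min_le_left _ _)) p hp

theorem GmtJet.bound (h : GmtJet P g g0 g1) :
    ∃ C t₁ : ℝ, 0 < t₁ ∧ ∀ t, |t| < t₁ → ∀ p ∈ P, ‖g t p‖ ≤ C ∧ ‖g t p - g0 p‖ ≤ C * |t| := by
  obtain ⟨C0, hC0⟩ := h.bdd0
  obtain ⟨C1, hC1⟩ := h.bdd1
  obtain ⟨C, t₁, ht₁, hr⟩ := h.rem
  refine ⟨max C0 0 + max C1 0 + max C 0, min t₁ 1, lt_min ht₁ one_pos, fun t ht p hp => ?_⟩
  have ht1 : |t| < 1 := lt_of_lt_of_le ht (min_le_right _ _)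
  have hr' := hr t (lt_of_lt_of_le ht (min_le_left _ _)) p hp
  have h0 := (hC0 p hp).trans (le_max_left C0 0)
  have h1 := (hC1 p hp).trans (le_max_left C1 0)
  have hCm : C * t ^ 2 ≤ max C 0 * |t| := by
    have e : t ^ 2 = |t| * |t| := by rw [← sq_abs, sq]
    rw [e]
    calc C * (|t| * |t|) ≤ max C 0 * (|t| * |t|) :=
          mul_le_mul_of_nonneg_right (le_max_left _ _) (by positivity)
      _ ≤ max C 0 * (|t| * 1) := by
          apply mul_le_mul_of_nonneg_left _ (le_max_right _ _)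
          exact mul_le_mul_of_nonneg_left ht1.le (abs_nonneg _)
      _ = max C 0 * |t| := by rw [mul_one]
  have hd : ‖g t p - g0 p‖ ≤ (max C1 0 + max C 0) * |t| := by
    have e : g t p - g0 p = (g t p - g0 p - t • g1 p) + t • g1 p := by abel
    rw [e]
    refine (norm_add_le _ _).trans ?_
    rw [norm_smul, Real.norm_eq_abs]
    have : |t| * ‖g1 p‖ ≤ |t| * max C1 0 := mul_le_mul_of_nonneg_left h1 (abs_nonneg _)
    nlinarith [hr'.trans hCm]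
  have m0 : 0 ≤ max C0 0 := le_max_right _ _
  have m1 : 0 ≤ max C1 0 := le_max_right _ _
  have m2 : 0 ≤ max C 0 := le_max_right _ _
  constructor
  · have e : g t p = (g t p - g0 p) + g0 p := by abel
    rw [e]
    refine (norm_add_le _ _).trans ?_
    have : (max C1 0 + max C 0) * |t| ≤ (max C1 0 + max C 0) * 1 :=
      mul_le_mul_of_nonneg_left ht1.le (by positivity)
    linarith
  · refine hd.trans ?_
    apply mul_le_mul_of_nonneg_right _ (abs_nonneg _)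
    linarith

/-- all constants at once -/
theorem GmtJet.consts (h : GmtJet P g g0 g1) :
    ∃ C t₁ : ℝ, 0 ≤ C ∧ 0 < t₁ ∧ t₁ ≤ 1 ∧ (∀ p ∈ P, ‖g0 p‖ ≤ C) ∧ (∀ p ∈ P, ‖g1 p‖ ≤ C) ∧
      ∀ t, |t| < t₁ → ∀ p ∈ P, ‖g t p - g0 p - t • g1 p‖ ≤ C * t ^ 2 ∧ ‖g t p‖ ≤ C ∧
        ‖g t p - g0 p‖ ≤ C * |t| := by
  obtain ⟨C0, hC0⟩ := h.bdd0
  obtain ⟨C1, hC1⟩ := h.bdd1
  obtain ⟨C, t₁, ht₁, hr⟩ := h.rem
  obtain ⟨B, t₂, ht₂, hb⟩ := h.bound
  have m0 : 0 ≤ max C0 0 := le_max_right _ _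
  have m1 : 0 ≤ max C1 0 := le_max_right _ _
  have m2 : 0 ≤ max C 0 := le_max_right _ _
  have m3 : 0 ≤ max B 0 := le_max_right _ _
  refine ⟨max C0 0 + max C1 0 + max C 0 + max B 0, min (min t₁ t₂) 1, by positivity,
    lt_min (lt_min ht₁ ht₂) one_pos, min_le_right _ _,
    fun p hp => (hC0 p hp).trans ((le_max_left C0 0).trans (by linarith)),
    fun p hp => (hC1 p hp).trans ((le_max_left C1 0).trans (by linarith)), fun t ht p hp => ?_⟩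
  have h1 : |t| < t₁ := lt_of_lt_of_le ht ((min_le_left _ _).trans (min_le_left _ _))
  have h2 : |t| < t₂ := lt_of_lt_of_le ht ((min_le_left _ _).trans (min_le_right _ _))
  refine ⟨(hr t h1 p hp).trans (mul_le_mul_of_nonneg_right ?_ (sq_nonneg _)),
    (hb t h2 p hp).1.trans ?_, (hb t h2 p hp).2.trans (mul_le_mul_of_nonneg_right ?_ (abs_nonneg _))⟩
  · linarith [le_max_left C 0]
  · linarith [le_max_left B 0]
  · linarith [le_max_left B 0]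

/-- bounded (real) linear maps, in unbundled form (for `ContinuousLinearMap.adjoint`). -/
theorem GmtJet.map_lin (h : GmtJet P g g0 g1) {L : F → G} (hsub : ∀ a b, L (a - b) = L a - L b)
    (hsmul : ∀ (c : ℝ) a, L (c • a) = c • L a) {C : ℝ} (hb : ∀ a, ‖L a‖ ≤ C * ‖a‖) :
    GmtJet P (fun t p => L (g t p)) (fun p => L (g0 p)) (fun p => L (g1 p)) := by
  obtain ⟨C0, hC0⟩ := h.bdd0
  obtain ⟨C1, hC1⟩ := h.bdd1
  obtain ⟨Cr, t₁, ht₁, hr⟩ := h.rem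
  have hb' : ∀ a, ‖L a‖ ≤ max C 0 * ‖a‖ := fun a =>
    (hb a).trans (mul_le_mul_of_nonneg_right (le_max_left _ _) (norm_nonneg _))
  have hm : 0 ≤ max C 0 := le_max_right _ _
  refine ⟨⟨max C 0 * C0, fun p hp => (hb' _).trans (mul_le_mul_of_nonneg_left (hC0 p hp) hm)⟩,
    ⟨max C 0 * C1, fun p hp => (hb' _).trans (mul_le_mul_of_nonneg_left (hC1 p hp) hm)⟩,
    ⟨max C 0 * Cr, t₁, ht₁, fun t ht p hp => ?_⟩⟩
  rw [← hsmul, ← hsub, ← hsub, mul_assoc]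
  exact (hb' _).trans (mul_le_mul_of_nonneg_left (hr t ht p hp) hm)

/-- LEIBNIZ RULE for a bounded bilinear map. -/
theorem GmtJet.bilin (β : F →L[ℝ] G →L[ℝ] H) (h : GmtJet P g g0 g1) {k : ℝ → ι → G}
    {k0 k1 : ι → G} (hk : GmtJet P k k0 k1) :
    GmtJet P (fun t p => β (g t p) (k t p)) (fun p => β (g0 p) (k0 p))
      (fun p => β (g1 p) (k0 p) + β (g0 p) (k1 p)) := by
  obtain ⟨A, ta, hA, hta, hta1, a0, a1, ar⟩ := h.consts
  obtain ⟨B, tb, hB, htb, htb1, b0, b1, br⟩ := hk.consts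
  have hβ : ∀ (a : F) (b : G) (x y : ℝ), ‖a‖ ≤ x → ‖b‖ ≤ y → ‖β a b‖ ≤ ‖β‖ * x * y := by
    intro a b x y hx hy
    have hx0 : 0 ≤ x := (norm_nonneg _).trans hx
    refine (β.le_opNorm₂ a b).trans ?_
    exact mul_le_mul (mul_le_mul_of_nonneg_left hx (norm_nonneg β)) hy (norm_nonneg b)
      (mul_nonneg (norm_nonneg β) hx0)
  refine ⟨⟨‖β‖ * A * B, fun p hp => hβ _ _ _ _ (a0 p hp) (b0 p hp)⟩,
    ⟨‖β‖ * A * B + ‖β‖ * A * B, fun p hp => (norm_add_le _ _).trans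
      (add_le_add (hβ _ _ _ _ (a1 p hp) (b0 p hp)) (hβ _ _ _ _ (a0 p hp) (b1 p hp)))⟩,
    ⟨4 * (‖β‖ * A * B), min ta tb, lt_min hta htb, fun t ht p hp => ?_⟩⟩
  have h1 : |t| < ta := lt_of_lt_of_le ht (min_le_left _ _)
  have h2 : |t| < tb := lt_of_lt_of_le ht (min_le_right _ _)
  have ht1 : |t| ≤ 1 := h1.le.trans hta1
  obtain ⟨ra, -, -⟩ := ar t h1 p hp
  obtain ⟨rb, kb, -⟩ := br t h2 p hp
  obtain ⟨rg, hrg⟩ : ∃ rg, rg = g t p - g0 p - t • g1 p := ⟨_, rfl⟩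
  obtain ⟨rk, hrk⟩ : ∃ rk, rk = k t p - k0 p - t • k1 p := ⟨_, rfl⟩
  rw [← hrg] at ra
  rw [← hrk] at rb
  have eg : g t p = g0 p + t • g1 p + rg := by rw [hrg]; abel
  have ek : k t p = k0 p + t • k1 p + rk := by rw [hrk]; abel
  have e : β (g t p) (k t p) - β (g0 p) (k0 p) - t • (β (g1 p) (k0 p) + β (g0 p) (k1 p))
      = β (g0 p) rk + (t ^ 2) • β (g1 p) (k1 p) + t • β (g1 p) rk + β rg (k t p) := by
    conv_lhs => rw [eg]
    simp only [map_add, map_smul, _root_.add_apply, _root_.smul_apply]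
    rw [ek]
    simp only [map_add, map_smul, smul_add, smul_smul]
    rw [sq]
    abel
  rw [e]
  have t2 : 0 ≤ t ^ 2 := sq_nonneg _
  have n1 : ‖β (g0 p) rk‖ ≤ ‖β‖ * A * B * t ^ 2 := by
    refine (hβ _ _ _ _ (a0 p hp) rb).trans (le_of_eq ?_)
    ring
  have n2 : ‖(t ^ 2) • β (g1 p) (k1 p)‖ ≤ ‖β‖ * A * B * t ^ 2 := by
    rw [norm_smul, Real.norm_of_nonneg t2, mul_comm]
    exact mul_le_mul_of_nonneg_right (hβ _ _ _ _ (a1 p hp) (b1 p hp)) t2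
  have n3 : ‖t • β (g1 p) rk‖ ≤ ‖β‖ * A * B * t ^ 2 := by
    rw [norm_smul, Real.norm_eq_abs]
    have h3 : ‖β (g1 p) rk‖ ≤ ‖β‖ * A * B * t ^ 2 := by
      refine (hβ _ _ _ _ (a1 p hp) rb).trans (le_of_eq ?_)
      ring
    calc |t| * ‖β (g1 p) rk‖ ≤ 1 * (‖β‖ * A * B * t ^ 2) :=
          mul_le_mul ht1 h3 (norm_nonneg _) zero_le_one
      _ = _ := one_mul _
  have n4 : ‖β rg (k t p)‖ ≤ ‖β‖ * A * B * t ^ 2 := by
    refine (hβ _ _ _ _ ra kb).trans (le_of_eq ?_)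
    ring
  calc _ ≤ ‖β (g0 p) rk‖ + ‖(t ^ 2) • β (g1 p) (k1 p)‖ + ‖t • β (g1 p) rk‖ + ‖β rg (k t p)‖ :=
        (norm_add_le _ _).trans (add_le_add_left ((norm_add_le _ _).trans
          (add_le_add_left (norm_add_le _ _) _)) _)
    _ ≤ 4 * (‖β‖ * A * B) * t ^ 2 := by linarith

theorem GmtJet.add (h : GmtJet P g g0 g1) {k : ℝ → ι → F} {k0 k1 : ι → F}
    (hk : GmtJet P k k0 k1) :
    GmtJet P (fun t p => g t p + k t p) (fun p => g0 p + k0 p) (fun p => g1 p + k1 p) := by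
  obtain ⟨A, ta, hA, hta, hta1, a0, a1, ar⟩ := h.consts
  obtain ⟨B, tb, hB, htb, htb1, b0, b1, br⟩ := hk.consts
  refine ⟨⟨A + B, fun p hp => (norm_add_le _ _).trans (add_le_add (a0 p hp) (b0 p hp))⟩,
    ⟨A + B, fun p hp => (norm_add_le _ _).trans (add_le_add (a1 p hp) (b1 p hp))⟩,
    ⟨A + B, min ta tb, lt_min hta htb, fun t ht p hp => ?_⟩⟩
  have h1 : |t| < ta := lt_of_lt_of_le ht (min_le_left _ _)
  have h2 : |t| < tb := lt_of_lt_of_le ht (min_le_right _ _)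
  have e : g t p + k t p - (g0 p + k0 p) - t • (g1 p + k1 p)
      = (g t p - g0 p - t • g1 p) + (k t p - k0 p - t • k1 p) := by
    rw [smul_add]
    abel
  rw [e, add_mul]
  exact (norm_add_le _ _).trans (add_le_add (ar t h1 p hp).1 (br t h2 p hp).1)

theorem GmtJet.smul' {c : ℝ → ι → ℝ} {c0 c1 : ι → ℝ} (hc : GmtJet P c c0 c1)
    (h : GmtJet P g g0 g1) :
    GmtJet P (fun t p => c t p • g t p) (fun p => c0 p • g0 p)
      (fun p => c1 p • g0 p + c0 p • g1 p) :=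
  GmtJet.bilin (ContinuousLinearMap.lsmul ℝ ℝ) hc h

theorem gmt_sqrt_aux {lam q0 q : ℝ} (hlam : 0 < lam) (hq0 : lam ≤ q0) (hq : 0 ≤ q) :
    |Real.sqrt q - Real.sqrt q0 - (q - q0) / (2 * Real.sqrt q0)| ≤
      (q - q0) ^ 2 / (2 * lam * Real.sqrt lam) := by
  obtain ⟨a, ha⟩ : ∃ a, a = Real.sqrt q := ⟨_, rfl⟩
  obtain ⟨b, hb⟩ : ∃ b, b = Real.sqrt q0 := ⟨_, rfl⟩
  obtain ⟨s, hs⟩ : ∃ s, s = Real.sqrt lam := ⟨_, rfl⟩
  have ha0 : 0 ≤ a := ha ▸ Real.sqrt_nonneg _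
  have hs0 : 0 < s := hs ▸ Real.sqrt_pos.2 hlam
  have hsb : s ≤ b := by rw [hs, hb]; exact Real.sqrt_le_sqrt hq0
  have hb0 : 0 < b := lt_of_lt_of_le hs0 hsb
  have eq : q = a ^ 2 := by rw [ha, Real.sq_sqrt hq]
  have eq0 : q0 = b ^ 2 := by rw [hb, Real.sq_sqrt (hlam.le.trans hq0)]
  have el : lam = s ^ 2 := by rw [hs, Real.sq_sqrt hlam.le]
  rw [← ha, ← hb, ← hs, eq, eq0, el]
  have e1 : a - b - (a ^ 2 - b ^ 2) / (2 * b) = -((a - b) ^ 2 / (2 * b)) := by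
    field_simp
    ring
  rw [e1, abs_neg, abs_of_nonneg (by positivity), div_le_div_iff₀ (by positivity) (by positivity)]
  have h1 : s ^ 2 * s ≤ (a + b) ^ 2 * b :=
    mul_le_mul (pow_le_pow_left₀ hs0.le (by linarith) 2) hsb hs0.le (by positivity)
  have h2 := mul_le_mul_of_nonneg_left h1 (sq_nonneg (a - b))
  nlinarith [h2]

theorem GmtJet.sqrt {c : ℝ → ι → ℝ} {c0 c1 : ι → ℝ} (hc : GmtJet P c c0 c1) {lam : ℝ}
    (hlam : 0 < lam) (h0 : ∀ p ∈ P, lam ≤ c0 p) :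
    GmtJet P (fun t p => Real.sqrt (c t p)) (fun p => Real.sqrt (c0 p))
      (fun p => c1 p / (2 * Real.sqrt (c0 p))) := by
  obtain ⟨A, ta, hA, hta, hta1, a0, a1, ar⟩ := hc.consts
  obtain ⟨s, hs⟩ : ∃ s, s = Real.sqrt lam := ⟨_, rfl⟩
  have hs0 : 0 < s := hs ▸ Real.sqrt_pos.2 hlam
  have hsb : ∀ p ∈ P, s ≤ Real.sqrt (c0 p) := fun p hp => by
    rw [hs]; exact Real.sqrt_le_sqrt (h0 p hp)
  have hdiv : ∀ p ∈ P, ∀ x y : ℝ, |x| ≤ y → |x / (2 * Real.sqrt (c0 p))| ≤ y / (2 * s) := by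
    intro p hp x y hxy
    have hb0 : 0 < Real.sqrt (c0 p) := lt_of_lt_of_le hs0 (hsb p hp)
    rw [abs_div, abs_of_pos (by positivity : 0 < 2 * Real.sqrt (c0 p))]
    exact div_le_div₀ ((abs_nonneg _).trans hxy) hxy (by positivity)
      (by linarith [hsb p hp])
  refine ⟨⟨Real.sqrt A, fun p hp => ?_⟩, ⟨A / (2 * s), fun p hp => ?_⟩,
    ⟨A ^ 2 / (2 * lam * s) + A / (2 * s), min ta (lam / (2 * A + 1)),
      lt_min hta (by positivity), fun t ht p hp => ?_⟩⟩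
  · rw [Real.norm_of_nonneg (Real.sqrt_nonneg _)]
    exact Real.sqrt_le_sqrt ((le_abs_self _).trans (a0 p hp))
  · exact hdiv p hp _ _ (a1 p hp)
  · have h1 : |t| < ta := lt_of_lt_of_le ht (min_le_left _ _)
    have h2 : |t| < lam / (2 * A + 1) := lt_of_lt_of_le ht (min_le_right _ _)
    obtain ⟨r1, -, r3⟩ := ar t h1 p hp
    rw [Real.norm_eq_abs] at r1 r3
    have h3 : A * |t| ≤ lam / 2 := by
      rw [lt_div_iff₀ (by positivity)] at h2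
      nlinarith [abs_nonneg t]
    have hq : 0 ≤ c t p := by
      have := (abs_le.1 (r3.trans h3)).1
      linarith [h0 p hp]
    have e : Real.sqrt (c t p) - Real.sqrt (c0 p) - t • (c1 p / (2 * Real.sqrt (c0 p)))
        = (Real.sqrt (c t p) - Real.sqrt (c0 p) - (c t p - c0 p) / (2 * Real.sqrt (c0 p)))
          + (c t p - c0 p - t • c1 p) / (2 * Real.sqrt (c0 p)) := by
      simp only [smul_eq_mul]
      ring
    rw [e, Real.norm_eq_abs, add_mul]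
    refine (abs_add_le _ _).trans (add_le_add ?_ ?_)
    · refine (gmt_sqrt_aux hlam (h0 p hp) hq).trans ?_
      rw [← hs, div_mul_eq_mul_div]
      apply div_le_div_of_nonneg_right _ (by positivity)
      have : (c t p - c0 p) ^ 2 ≤ (A * |t|) ^ 2 := by
        rw [← sq_abs (c t p - c0 p)]
        exact pow_le_pow_left₀ (abs_nonneg _) r3 2
      rw [mul_pow, sq_abs] at this
      exact this
    · refine (hdiv p hp _ _ r1).trans (le_of_eq ?_)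
      ring

/-- UNIFORM TAYLOR FORMULA for a jointly `C²` family. -/
theorem gmtJet_taylor {Y : Type} [NormedAddCommGroup Y] [NormedSpace ℝ Y] {Φ : ℝ × Y → F} {a : ℝ}
    (ha : 0 < a) {Ω K : Set Y} (hΩ : IsOpen Ω) (hK : IsCompact K) (hKΩ : K ⊆ Ω)
    (hΦ : ContDiffOn ℝ 2 Φ (Ioo (-a) a ×ˢ Ω)) :
    GmtJet K (fun t p => Φ (t, p)) (fun p => Φ (0, p)) (fun p => fderiv ℝ Φ (0, p) (1, 0)) := by
  have hO : IsOpen (Ioo (-a) a ×ˢ Ω) := isOpen_Ioo.prod hΩ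
  obtain ⟨D1, hD1def⟩ : ∃ D1 : ℝ × Y → F, D1 = fun z => fderiv ℝ Φ z (1, 0) := ⟨_, rfl⟩
  have hD1 : ContDiffOn ℝ 1 D1 (Ioo (-a) a ×ˢ Ω) := by
    rw [hD1def]
    exact (hΦ.fderiv_of_isOpen hO (by norm_num)).clm_apply contDiffOn_const
  obtain ⟨D2, hD2def⟩ : ∃ D2 : ℝ × Y → F, D2 = fun z => fderiv ℝ D1 z (1, 0) := ⟨_, rfl⟩
  have hD2 : ContinuousOn D2 (Ioo (-a) a ×ˢ Ω) := by
    rw [hD2def]
    exact (hD1.continuousOn_fderiv_of_isOpen hO le_rfl).clm_apply continuousOn_const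
  have hsub : Icc (-(a / 2)) (a / 2) ×ˢ K ⊆ Ioo (-a) a ×ˢ Ω := by
    rintro ⟨s, p⟩ ⟨hs, hp⟩
    exact ⟨⟨by linarith [hs.1], by linarith [hs.2]⟩, hKΩ hp⟩
  obtain ⟨C, hC⟩ := (isCompact_Icc.prod hK).exists_bound_of_continuousOn (hD2.mono hsub)
  have hmap : MapsTo (fun p : Y => ((0 : ℝ), p)) K (Ioo (-a) a ×ˢ Ω) := fun p hp =>
    ⟨⟨by linarith, ha⟩, hKΩ hp⟩
  have hc0 : ContinuousOn (fun p : Y => ((0 : ℝ), p)) K := (Continuous.prodMk_right (0 : ℝ)).continuousOn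
  obtain ⟨C0, hC0⟩ := hK.exists_bound_of_continuousOn (hΦ.continuousOn.comp hc0 hmap)
  obtain ⟨C1, hC1⟩ := hK.exists_bound_of_continuousOn (hD1.continuousOn.comp hc0 hmap)
  have hder0 : ∀ p ∈ K, ∀ s ∈ Ioo (-a) a, HasDerivAt (fun s => Φ (s, p)) (D1 (s, p)) s := by
    intro p hp s hs
    have hm : (s, p) ∈ Ioo (-a) a ×ˢ Ω := ⟨hs, hKΩ hp⟩
    have hF := ((hΦ.differentiableOn (by norm_num)).differentiableAt (hO.mem_nhds hm)).hasFDerivAt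
    have := HasFDerivAt.comp_hasDerivAt s hF ((hasDerivAt_id s).prodMk (hasDerivAt_const s p))
    rw [hD1def]
    exact this
  have hder1 : ∀ p ∈ K, ∀ s ∈ Ioo (-a) a, HasDerivAt (fun s => D1 (s, p)) (D2 (s, p)) s := by
    intro p hp s hs
    have hm : (s, p) ∈ Ioo (-a) a ×ˢ Ω := ⟨hs, hKΩ hp⟩
    have hF := ((hD1.differentiableOn (by norm_num)).differentiableAt (hO.mem_nhds hm)).hasFDerivAt
    have := HasFDerivAt.comp_hasDerivAt s hF ((hasDerivAt_id s).prodMk (hasDerivAt_const s p))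
    rw [hD2def]
    exact this
  refine ⟨⟨C0, hC0⟩, ⟨C1, fun p hp => ?_⟩, ⟨C, a / 2, by positivity, fun t ht p hp => ?_⟩⟩
  · have := hC1 p hp
    rw [hD1def] at this
    exact this
  · have hI : uIcc 0 t ⊆ Icc (-(a / 2)) (a / 2) := by
      intro s hs
      have h1 := abs_sub_left_of_mem_uIcc hs
      rw [sub_zero] at h1
      have h2 : |s - 0| ≤ |t - 0| := abs_sub_left_of_mem_uIcc hs
      rw [sub_zero, sub_zero] at h2
      exact abs_le.1 (h2.trans ht.le)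
    have hI' : uIcc 0 t ⊆ Ioo (-a) a := fun s hs =>
      ⟨by linarith [(hI hs).1], by linarith [(hI hs).2]⟩
    have hCn : 0 ≤ C := (norm_nonneg _).trans (hC (0, p) ⟨⟨by linarith, by linarith⟩, hp⟩)
    have step1 : ∀ s ∈ uIcc 0 t, ‖D1 (s, p) - D1 (0, p)‖ ≤ C * |t| := by
      intro s hs
      have := Convex.norm_image_sub_le_of_norm_hasDerivWithin_le (f := fun s => D1 (s, p))
        (f' := fun s => D2 (s, p)) (C := C) (s := uIcc 0 t) (x := 0) (y := s)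
        (fun x hx => (hder1 p hp x (hI' hx)).hasDerivWithinAt)
        (fun x hx => hC (x, p) ⟨hI hx, hp⟩) (convex_uIcc 0 t) left_mem_uIcc hs
      refine this.trans (mul_le_mul_of_nonneg_left ?_ hCn)
      have h2 : |s - 0| ≤ |t - 0| := abs_sub_left_of_mem_uIcc hs
      rw [sub_zero] at h2 ⊢
      rw [sub_zero] at h2
      exact h2
    have step2 := Convex.norm_image_sub_le_of_norm_hasDerivWithin_le
      (f := fun s => Φ (s, p) - s • D1 (0, p))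
      (f' := fun s => D1 (s, p) - D1 (0, p)) (C := C * |t|) (s := uIcc 0 t) (x := 0) (y := t)
      (fun x hx => by
        have h1 := hder0 p hp x (hI' hx)
        have h2 : HasDerivAt (fun s : ℝ => s • D1 (0, p)) ((1 : ℝ) • D1 (0, p)) x :=
          (hasDerivAt_id x).smul_const _
        rw [one_smul] at h2
        exact (h1.sub h2).hasDerivWithinAt)
      step1 (convex_uIcc 0 t) left_mem_uIcc right_mem_uIcc
    have e : Φ (t, p) - Φ (0, p) - t • fderiv ℝ Φ (0, p) (1, 0)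
        = (Φ (t, p) - t • D1 (0, p)) - (Φ (0, p) - (0 : ℝ) • D1 (0, p)) := by
      rw [hD1def, zero_smul]
      abel
    rw [e]
    refine step2.trans (le_of_eq ?_)
    rw [sub_zero, Real.norm_eq_abs, mul_assoc, ← sq, sq_abs]

end Claimed.Agent.Gmt
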