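import Claimed.Agent.Lib.Gmt.FvA
import Claimed.Agent.Lib.Gmt.FvJ

/-!
# Lib/Gmt FvK: the jets of `det (Id + tB)`, `(Id + tB)⁻¹`, `cof (Id + tB) ν`, `A (x + t X x)`.   (architect: helper184)

PAPER-FREE.  Input: `FvJ.lean` (calculus of uniform jets).  Output: used by `FvD.gmt_fv_taylor`, `Fv.gmt_fv_volume`.

PLAN OF PROOFS
* `gmt_contDiff_det`: `L.det = LinearMap.det ↑L = Matrix.det (LinearMap.toMatrix b b ↑L)` (`LinearMap.det_toMatrix`, `b = (EuclideanSpace.basisFun (Fin m) ℝ).toBasis`), entries `L (eb j) i` are continuous linear in `L` (`(EuclideanSpace.proj i).comp (ContinuousLinearMap.apply ℝ _ (eb j))`); `Matrix.det_apply`: finite sum of finite products (`ContDiff.sum`, `contDiff_prod`, `contDiff_const.smul`/`mul`).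
* `gmt_det_hasDerivAt`: matrix `M = toMatrix B`; `Matrix.det_one_add_smul t M : det (1 + t • M) = 1 + trace M * t + (polynomial).eval t * t ^ 2`; the last term has derivative `0` at `0` (`Polynomial.differentiable`/`hasDerivAt` of `p.eval t * t^2`: product rule, value `0`); `Matrix.trace M = ∑ i, B (eb i) i`.
* `gmtJet_det`: `gmtJet_taylor` with `Y = E m →L[ℝ] E m`, `Φ (t, B) = (id + t • B).det` (`gmt_contDiff_det.comp`, jointly smooth: `contDiff_const.add (contDiff_fst.smul contDiff_snd)`), `a = 1`, `Ω = univ`, `K = closedBall 0 L` (compact: `isCompact_closedBall`, `FiniteDimensional.proper_real`);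
  `Φ (0, B) = 1` (`zero_smul`, `add_zero`, `ContinuousLinearMap.det_id`/`LinearMap.det_id`); `fderiv Φ (0, B) (1, 0) = deriv (fun t => Φ (t, B)) 0` (chain rule) `= ∑ i, B (eb i) i` (`gmt_det_hasDerivAt`); then `GmtJet.comp_index` along `B : ι → Y` and `GmtJet.congr`.
* `gmt_inverse_aux`: `D = id + C`, `‖C‖ ≤ 1/2`, `R = inverse D` (`gmt_id_add_invertible`: `D ∘ R = id = R ∘ D`: `ContinuousLinearMap.IsInvertible.self_comp_inverse`, `inverse_comp_self`).  `‖D w‖ ≥ ‖w‖ - ‖C‖‖w‖ ≥ ‖w‖/2` ⇒ `‖R v‖ ≤ 2 ‖v‖` ⇒ `‖R‖ ≤ 2` (`ContinuousLinearMap.opNorm_le_bound`).  `R - id + C = C ∘ C ∘ R` [compose with `D` on the right: `(id - C)(id + C) + C² = id`; or: `R = id - C R` ⇒ `R = id - C (id - C R)`]; `‖C C R‖ ≤ 2 ‖C‖²` (`opNorm_comp_le`).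
* `gmtJet_inverse`: `C = t • B p`, `|t| < t₁ = 1/(2L + 1)`; `gmt_inverse_aux`: remainder `≤ 2 L² t²`.
* `gmtJet_cof`: `gmtCof D ν = D.det • adjoint (inverse D) ν`.  `(gmtJet_inverse hB).map_lin` with `L = ContinuousLinearMap.adjoint` (`map_sub`; `map_smulₛₗ` + `conj_trivial`/`RCLike.conj_to_real`; `LinearIsometryEquiv.norm_map`, `C = 1`); apply to `ν`: `GmtJet.bilin (ContinuousLinearMap.id ℝ (E m →L[ℝ] E m))` with `gmtJet_const`; `GmtJet.smul' (gmtJet_det hB)`.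
  Coefficients: `1 • adjoint id ν = ν`; first order `tr • ν + 1 • (adjoint (-B) ν + 0)`; finish with `GmtJet.congr`.
* `gmt_flow_mem`: `K₀ = tsupport X` compact `⊆ W ⊆ U` open: `δ > 0` with `thickening δ K₀ ⊆ U` (`IsCompact.exists_thickening_subset_open`); `a = δ/(L + 1)`, `‖t • X x‖ < δ`.  For `x ∉ K₀`: `gmtFlow X t x = x`.
* `gmtJet_comp_flow`: `gmtJet_taylor` with `Y = E m`, `Φ (t, x) = A (x + t • X x)`, `Ω = U`, `K = closure W`, `a` from `gmt_flow_mem`; `ContDiffOn.comp` (`hA.of_le`, inner map smooth, `MapsTo` by `gmt_flow_mem`).   `fderiv Φ (0,x) (1,0) = fderiv A x (X x)`: chain rule, the inner map `(t, x) ↦ x + t • X x` has derivative `(τ, ξ) ↦ ξ + τ • X x + 0` at `(0, x)`.   `mono subset_closure`.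
-/

set_option autoImplicit false
open scoped ContDiff ENNReal RealInnerProductSpace Topology
open MeasureTheory Metric Set Filter

namespace Claimed.Agent.Gmt

variable {m : ℕ} {ι : Type} {P : Set ι}

theorem gmtk_det_eq (L : E m →L[ℝ] E m) :
    L.det = Matrix.det (Matrix.of fun i j => L (eb j) i) := by
  show LinearMap.det (L : E m →ₗ[ℝ] E m) = _
  rw [← LinearMap.det_toMatrix (EuclideanSpace.basisFun (Fin m) ℝ).toBasis]
  congr 1

theorem gmt_contDiff_det : ContDiff ℝ ∞ (fun L : E m →L[ℝ] E m => L.det) := by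
  have e : (fun L : E m →L[ℝ] E m => L.det) = fun L : E m →L[ℝ] E m =>
      ∑ σ : Equiv.Perm (Fin m), ((Equiv.Perm.sign σ : ℤ) : ℝ) * ∏ i, L (eb i) (σ i) := by
    funext L
    rw [gmtk_det_eq, Matrix.det_apply']
    rfl
  rw [e]
  refine ContDiff.sum fun σ _ => contDiff_const.mul (contDiff_prod fun i _ => ?_)
  exact ((EuclideanSpace.proj (σ i)).comp (ContinuousLinearMap.apply ℝ (E m) (eb i))).contDiff

theorem gmtk_det_id_add (B : E m →L[ℝ] E m) (t : ℝ) :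
    (ContinuousLinearMap.id ℝ (E m) + t • B).det =
      Matrix.det (1 + t • (Matrix.of fun i j => B (eb j) i : Matrix (Fin m) (Fin m) ℝ)) := by
  rw [gmtk_det_eq]
  congr 1
  ext i j
  simp [Matrix.one_apply]

theorem gmt_det_hasDerivAt (B : E m →L[ℝ] E m) :
    HasDerivAt (fun t : ℝ => (ContinuousLinearMap.id ℝ (E m) + t • B).det) (∑ i, B (eb i) i) 0 := by
  obtain ⟨M, hM⟩ : ∃ M : Matrix (Fin m) (Fin m) ℝ, M = Matrix.of fun i j => B (eb j) i := ⟨_, rfl⟩
  obtain ⟨p, hp⟩ : ∃ p : Polynomial ℝ, ∀ t : ℝ, Matrix.det (1 + t • M) = 1 + M.trace * t + p.eval t * t ^ 2 :=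
    ⟨_, fun t => Matrix.det_one_add_smul t M⟩
  have e : (fun t : ℝ => (ContinuousLinearMap.id ℝ (E m) + t • B).det)
      = fun t : ℝ => 1 + M.trace * t + p.eval t * t ^ 2 := by
    funext t
    rw [gmtk_det_id_add, ← hM, hp]
  have htr : M.trace = ∑ i, B (eb i) i := by
    rw [hM]
    rfl
  rw [e, ← htr]
  have h1 : HasDerivAt (fun t : ℝ => 1 + M.trace * t) (M.trace * 1) 0 :=
    ((hasDerivAt_id (0 : ℝ)).const_mul M.trace).const_add 1
  have h2 := (p.hasDerivAt (0 : ℝ)).mul (hasDerivAt_pow 2 (0 : ℝ))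
  have h3 := h1.add h2
  exact h3.congr_deriv (by simp)


theorem gmtJet_det {B : ι → E m →L[ℝ] E m} (hB : ∃ L : ℝ, ∀ p ∈ P, ‖B p‖ ≤ L) :
    GmtJet P (fun t p => (ContinuousLinearMap.id ℝ (E m) + t • B p).det) (fun _ => 1)
      (fun p => ∑ i, B p (eb i) i) := by
  obtain ⟨L, hL⟩ := hB
  obtain ⟨Φ, hΦdef⟩ : ∃ Φ : ℝ × (E m →L[ℝ] E m) → ℝ,
    Φ = fun z => (ContinuousLinearMap.id ℝ (E m) + z.1 • z.2).det := ⟨_, rfl⟩
  have hΦ : ContDiff ℝ ∞ Φ := by
    rw [hΦdef]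
    exact gmt_contDiff_det.comp (contDiff_const.add (contDiff_fst.smul contDiff_snd))
  have hΦ2 : ContDiffOn ℝ 2 Φ (Ioo (-1) 1 ×ˢ (univ : Set (E m →L[ℝ] E m))) :=
    (hΦ.of_le (by
      have : ((2 : ℕ∞) : WithTop ℕ∞) ≤ ((⊤ : ℕ∞) : WithTop ℕ∞) := by exact_mod_cast le_top
      exact this)).contDiffOn
  have J := gmtJet_taylor one_pos isOpen_univ (isCompact_closedBall (0 : E m →L[ℝ] E m) L)
    (subset_univ _) hΦ2
  have J2 := J.comp_index (Q := P) (f := B) (fun p hp => mem_closedBall_zero_iff.2 (hL p hp))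
  refine J2.congr one_pos (fun t _ p _ => by rw [hΦdef]) (fun p _ => ?_) (fun p _ => ?_)
  · rw [hΦdef]
    show (1 : ℝ) = (ContinuousLinearMap.id ℝ (E m) + (0 : ℝ) • B p).det
    have e0 : ContinuousLinearMap.id ℝ (E m) + (0 : ℝ) • B p = ContinuousLinearMap.id ℝ (E m) := by
      ext x
      simp
    rw [e0]
    exact LinearMap.det_id.symm
  · have h1 := gmt_det_hasDerivAt (B p)
    have hF := (hΦ.differentiable (by simp) ((0 : ℝ), B p)).hasFDerivAt
    have h2 := HasFDerivAt.comp_hasDerivAt (0 : ℝ) hF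
      ((hasDerivAt_id (0 : ℝ)).prodMk (hasDerivAt_const (0 : ℝ) (B p)))
    have h3 : HasDerivAt (fun t : ℝ => (ContinuousLinearMap.id ℝ (E m) + t • B p).det)
        (fderiv ℝ Φ (0, B p) (1, 0)) 0 := by
      have e : (fun t : ℝ => (ContinuousLinearMap.id ℝ (E m) + t • B p).det)
          = Φ ∘ fun t : ℝ => (id t, B p) := by
        rw [hΦdef]
        rfl
      rw [e]
      exact h2
    exact h1.unique h3

theorem gmt_inverse_aux {C : E m →L[ℝ] E m} (hC : ‖C‖ ≤ 1 / 2) :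
    ‖ContinuousLinearMap.inverse (ContinuousLinearMap.id ℝ (E m) + C) -
      ContinuousLinearMap.id ℝ (E m) + C‖ ≤ 2 * ‖C‖ ^ 2 := by
  have hinv : (ContinuousLinearMap.id ℝ (E m) + C).IsInvertible :=
    gmt_id_add_invertible (lt_of_le_of_lt hC (by norm_num))
  obtain ⟨R, hR⟩ : ∃ R, R = ContinuousLinearMap.inverse (ContinuousLinearMap.id ℝ (E m) + C) :=
    ⟨_, rfl⟩
  have h1 : (ContinuousLinearMap.id ℝ (E m) + C) ∘L R = ContinuousLinearMap.id ℝ (E m) := by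
    rw [hR]
    exact hinv.self_comp_inverse
  have h2 : R = ContinuousLinearMap.id ℝ (E m) - C ∘L R := by
    rw [ContinuousLinearMap.add_comp, ContinuousLinearMap.id_comp] at h1
    rw [← h1]
    abel
  have hRn : ‖R‖ ≤ 2 := by
    have h3 : ‖R‖ ≤ 1 + ‖C‖ * ‖R‖ := by
      conv_lhs => rw [h2]
      exact (norm_sub_le _ _).trans
        (add_le_add ContinuousLinearMap.norm_id_le (ContinuousLinearMap.opNorm_comp_le _ _))
    have h4 : ‖C‖ * ‖R‖ ≤ 1 / 2 * ‖R‖ := mul_le_mul_of_nonneg_right hC (norm_nonneg _)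
    linarith
  have h5 : R - ContinuousLinearMap.id ℝ (E m) + C = C ∘L (C ∘L R) := by
    have h6 : C ∘L (C ∘L R) = C ∘L (ContinuousLinearMap.id ℝ (E m) - R) := by
      congr 1
      conv_rhs => rw [h2]
      abel
    rw [h6, ContinuousLinearMap.comp_sub, ContinuousLinearMap.comp_id]
    conv_lhs => rw [h2]
    abel
  rw [← hR, h5]
  calc ‖C ∘L (C ∘L R)‖ ≤ ‖C‖ * (‖C‖ * ‖R‖) :=
        (ContinuousLinearMap.opNorm_comp_le _ _).trans
          (mul_le_mul_of_nonneg_left (ContinuousLinearMap.opNorm_comp_le _ _) (norm_nonneg _))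
    _ ≤ ‖C‖ * (‖C‖ * 2) := by gcongr
    _ = 2 * ‖C‖ ^ 2 := by ring

theorem gmtJet_inverse {B : ι → E m →L[ℝ] E m} (hB : ∃ L : ℝ, ∀ p ∈ P, ‖B p‖ ≤ L) :
    GmtJet P (fun t p => ContinuousLinearMap.inverse (ContinuousLinearMap.id ℝ (E m) + t • B p))
      (fun _ => ContinuousLinearMap.id ℝ (E m)) (fun p => - B p) := by
  obtain ⟨L0, hL0⟩ := hB
  obtain ⟨L, hLdef⟩ : ∃ L, L = max L0 0 := ⟨_, rfl⟩
  have hLn : 0 ≤ L := hLdef ▸ le_max_right _ _
  have hL : ∀ p ∈ P, ‖B p‖ ≤ L := fun p hp => (hL0 p hp).trans (hLdef ▸ le_max_left _ _)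
  refine ⟨⟨1, fun _ _ => ContinuousLinearMap.norm_id_le⟩,
    ⟨L, fun p hp => by rw [norm_neg]; exact hL p hp⟩,
    ⟨2 * L ^ 2, 1 / (2 * L + 1), by positivity, fun t ht p hp => ?_⟩⟩
  have hn : ‖t • B p‖ ≤ |t| * L := by
    rw [norm_smul, Real.norm_eq_abs]
    exact mul_le_mul_of_nonneg_left (hL p hp) (abs_nonneg _)
  have hhalf : ‖t • B p‖ ≤ 1 / 2 := by
    refine hn.trans ?_
    rw [lt_div_iff₀ (by positivity)] at ht
    nlinarith [abs_nonneg t]
  have e : ContinuousLinearMap.inverse (ContinuousLinearMap.id ℝ (E m) + t • B p) -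
      ContinuousLinearMap.id ℝ (E m) - t • (- B p)
      = ContinuousLinearMap.inverse (ContinuousLinearMap.id ℝ (E m) + t • B p) -
      ContinuousLinearMap.id ℝ (E m) + t • B p := by
    rw [smul_neg, sub_neg_eq_add]
  rw [e]
  refine (gmt_inverse_aux hhalf).trans ?_
  have : ‖t • B p‖ ^ 2 ≤ (|t| * L) ^ 2 := pow_le_pow_left₀ (norm_nonneg _) hn 2
  rw [mul_pow, sq_abs] at this
  nlinarith


/-- `cof (Id + tB) ν = ν + t ((tr B) ν - Bᵀ ν) + O(t²)`. -/
theorem gmtJet_cof {B : ι → E m →L[ℝ] E m} (hB : ∃ L : ℝ, ∀ p ∈ P, ‖B p‖ ≤ L) {ν : ι → E m}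
    (hν : ∃ L : ℝ, ∀ p ∈ P, ‖ν p‖ ≤ L) :
    GmtJet P (fun t p => gmtCof (ContinuousLinearMap.id ℝ (E m) + t • B p) (ν p)) ν
      (fun p => (∑ i, B p (eb i) i) • ν p - ContinuousLinearMap.adjoint (B p) (ν p)) := by
  have J1 := (gmtJet_inverse hB).map_lin
    (L := fun T : E m →L[ℝ] E m => ContinuousLinearMap.adjoint T) (C := 1)
    (fun a b => map_sub _ a b)
    (fun c a => by
      show ContinuousLinearMap.adjoint (c • a) = c • ContinuousLinearMap.adjoint a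
      rw [map_smulₛₗ]
      simp)
    (fun a => by
      show ‖ContinuousLinearMap.adjoint a‖ ≤ 1 * ‖a‖
      rw [one_mul, LinearIsometryEquiv.norm_map])
  have J2 := GmtJet.bilin (ContinuousLinearMap.id ℝ (E m →L[ℝ] E m)) J1 (gmtJet_const hν)
  have J3 := GmtJet.smul' (gmtJet_det hB) J2
  have hid : ContinuousLinearMap.adjoint (ContinuousLinearMap.id ℝ (E m)) = ContinuousLinearMap.id ℝ (E m) := by
    exact ContinuousLinearMap.adjoint_id
  refine J3.congr one_pos (fun t _ p _ => rfl) (fun p _ => ?_) (fun p _ => ?_)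
  · simp [hid]
  · simp [hid, sub_eq_add_neg]

/-- for small `t` the maps `Φ_t` preserve `U`. -/
theorem gmt_flow_mem {U : Set (E m)} (hU : IsOpen U) {X : E m → E m} (hX : GmtTestS U X) :
    ∃ a > 0, ∀ t, |t| < a → ∀ x ∈ U, gmtFlow X t x ∈ U := by
  obtain ⟨δ, hδ, hsub⟩ := IsCompact.exists_thickening_subset_open hX.cpt hU hX.sub
  obtain ⟨L, hL⟩ := hX.cpt.exists_bound_of_continuous hX.smooth.continuous
  have hL0 : 0 ≤ L := (norm_nonneg _).trans (hL 0)
  refine ⟨δ / (L + 1), by positivity, fun t ht x hx => ?_⟩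
  by_cases hxs : x ∈ tsupport X
  · apply hsub
    rw [mem_thickening_iff]
    refine ⟨x, hxs, ?_⟩
    unfold gmtFlow
    rw [dist_eq_norm, add_sub_cancel_left, norm_smul, Real.norm_eq_abs]
    rw [lt_div_iff₀ (by positivity)] at ht
    have := mul_le_mul_of_nonneg_left (hL x) (abs_nonneg t)
    nlinarith [abs_nonneg t]
  · unfold gmtFlow
    rw [image_eq_zero_of_notMem_tsupport hxs, smul_zero, add_zero]
    exact hx

/-- `A (x + t X x) = A x + t DA(x)(X x) + O(t²)` uniformly on `W ⋐ U`. -/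
theorem gmtJet_comp_flow {F : Type} [NormedAddCommGroup F] [NormedSpace ℝ F] {A : E m → F}
    {U W : Set (E m)} (hU : IsOpen U) (hA : ContDiffOn ℝ ∞ A U) (hW : GmtCC W U) {X : E m → E m}
    (hX : GmtTestS U X) :
    GmtJet W (fun t x => A (gmtFlow X t x)) A (fun x => fderiv ℝ A x (X x)) := by
  obtain ⟨a, ha, hmem⟩ := gmt_flow_mem hU hX
  obtain ⟨Φ, hΦdef⟩ : ∃ Φ : ℝ × E m → F, Φ = fun z => A (z.2 + z.1 • X z.2) := ⟨_, rfl⟩
  have h2 : ((2 : ℕ∞) : WithTop ℕ∞) ≤ ((⊤ : ℕ∞) : WithTop ℕ∞) := by exact_mod_cast le_top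
  have hin : ContDiff ℝ 2 (fun z : ℝ × E m => z.2 + z.1 • X z.2) :=
    contDiff_snd.add (contDiff_fst.smul ((hX.smooth.of_le h2).comp contDiff_snd))
  have hO : IsOpen (Ioo (-a) a ×ˢ U) := isOpen_Ioo.prod hU
  have hΦ : ContDiffOn ℝ 2 Φ (Ioo (-a) a ×ˢ U) := by
    rw [hΦdef]
    refine (hA.of_le h2).comp hin.contDiffOn ?_
    rintro ⟨t, x⟩ ⟨ht, hx⟩
    exact hmem t (abs_lt.2 ht) x hx
  have J := (gmtJet_taylor ha hU hW.2.1 hW.2.2 hΦ).mono subset_closure
  refine J.congr ha (fun t _ x _ => by rw [hΦdef]; rfl) (fun x _ => ?_) (fun x hx => ?_)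
  · rw [hΦdef]
    simp
  · have hxU : x ∈ U := hW.2.2 (subset_closure hx)
    have hm : ((0 : ℝ), x) ∈ Ioo (-a) a ×ˢ U := ⟨⟨by linarith, ha⟩, hxU⟩
    have hF := ((hΦ.differentiableOn (by norm_num)).differentiableAt (hO.mem_nhds hm)).hasFDerivAt
    have d1 := HasFDerivAt.comp_hasDerivAt (0 : ℝ) hF
      ((hasDerivAt_id (0 : ℝ)).prodMk (hasDerivAt_const (0 : ℝ) x))
    have hAx : HasFDerivAt A (fderiv ℝ A x) (x + (0 : ℝ) • X x) := by
      rw [zero_smul, add_zero]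
      exact ((hA.differentiableOn (by simp)).differentiableAt (hU.mem_nhds hxU)).hasFDerivAt
    have hi : HasDerivAt (fun t : ℝ => x + t • X x) (X x) 0 := by
      have := ((hasDerivAt_id (0 : ℝ)).smul_const (X x)).const_add x
      rw [one_smul] at this
      exact this
    have d2 := HasFDerivAt.comp_hasDerivAt (0 : ℝ) hAx hi
    have d1' : HasDerivAt (fun t : ℝ => A (x + t • X x)) (fderiv ℝ Φ (0, x) (1, 0)) 0 := by
      have e : (fun t : ℝ => A (x + t • X x)) = Φ ∘ fun t : ℝ => (id t, x) := by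
        rw [hΦdef]
        rfl
      rw [e]
      exact d1
    exact HasDerivAt.unique d2 d1'

end Claimed.Agent.Gmt
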