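import Claimed.Agent.Lib.Gmt.FvC
import Claimed.Agent.Lib.Gmt.FvK
import Claimed.Agent.Lib.Gmt.BvInt

/-!
# Lib/Gmt FV [part D = step 5]: pointwise first order Taylor expansion of the perimeter integrand.   (architect: helper184)

General description of the chain: header of `FvA.lean`.   The expansion is an exercise in the calculus of uniform jets (`FvJ.lean`, `FvK.lean`); `gmt_fv_taylor` is PROVED below from `gmtJet_Q`, `gmtFv1_eq`.

PLAN OF PROOFS.   Index set `ι = E m × E m`, `P = W ×ˢ sphere 0 1`, `p = (x, ν)`, `B p = fderiv ℝ X x`.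
* `gmtJet_Q`.  (1) `hAj := (gmtJet_comp_flow hU hA.smooth hW hX').comp_index (f := Prod.fst)` (`hX' : GmtTestS U X` from `hX` and `W ⊆ closure W ⊆ U`): jet `(A x, fderiv A x (X x))` of `A (Φ_t x)` with values in `Bil m`.
  (2) `hc := gmtJet_cof hB hν`: `hB` from `gmt_test_bdd`; `gmtFlowD X t x = id + t • fderiv X x` (rfl); `∑ i, fderiv X x (eb i) i = gmtDiv X x` (rfl).
  (3) `h1 := GmtJet.bilin (ContinuousLinearMap.id ℝ (Bil m)) hAj hc` : jet of `A_t c_t : E m →L[ℝ] ℝ`;  `h2 := GmtJet.bilin (ContinuousLinearMap.id ℝ (E m →L[ℝ] ℝ)) h1 hc` : jet of `A_t c_t c_t`.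
  First order coefficient: `(A₁ ν + A₀ c₁) ν + (A₀ ν) c₁ = A₁ ν ν + 2 A₀ ν c₁` by the symmetry `hA.symm x hx` (`x ∈ W ⊆ U`).  Finish with `GmtJet.congr` (`ContinuousLinearMap.add_apply`, `two_mul`).
  (If instance search has problems with `Bil m` use `(F := E m →L[ℝ] E m →L[ℝ] ℝ)` explicitly.)
* `gmtFv1_eq`: `map_sub`, `map_smul`, `smul_eq_mul`; `A x ν ν = √(A x ν ν) * √(A x ν ν)` (`Real.mul_self_sqrt`); `field_simp`; `ring`.
-/

set_option autoImplicit false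
open scoped ContDiff ENNReal RealInnerProductSpace Topology
open MeasureTheory Metric Set Filter

namespace Claimed.Agent.Gmt

variable {m : ℕ}

/-- the first variation integrand of `√(A x ν ν)`. -/
noncomputable def gmtFv1 (A : E m → Bil m) (X : E m → E m) (x ν : E m) : Real :=
  Real.sqrt (A x ν ν) * gmtDiv X x +
    (fderiv ℝ A x (X x) ν ν / 2 - A x ν (ContinuousLinearMap.adjoint (fderiv ℝ X x) ν)) /
      Real.sqrt (A x ν ν)

/-- the jet of the squared integrand. -/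
theorem gmtJet_Q {U W : Set (E m)} {A : E m → Bil m} (hU : IsOpen U) (hA : GmtInt U A)
    (hW : GmtCC W U) {X : E m → E m} (hX : GmtTestS W X) :
    GmtJet (W ×ˢ sphere (0 : E m) 1)
      (fun t p => A (gmtFlow X t p.1) (gmtCof (gmtFlowD X t p.1) p.2)
        (gmtCof (gmtFlowD X t p.1) p.2))
      (fun p => A p.1 p.2 p.2)
      (fun p => fderiv ℝ A p.1 (X p.1) p.2 p.2 + 2 * A p.1 p.2
        (gmtDiv X p.1 • p.2 - ContinuousLinearMap.adjoint (fderiv ℝ X p.1) p.2)) := by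
  have hWU : W ⊆ U := subset_closure.trans hW.2.2
  have hX' : GmtTestS U X := ⟨hX.smooth, hX.cpt, hX.sub.trans hWU⟩
  have hAj := (gmtJet_comp_flow hU hA.smooth hW hX').comp_index
    (Q := W ×ˢ sphere (0 : E m) 1) (f := Prod.fst) (fun p hp => hp.1)
  obtain ⟨L, -, -, hL1, -⟩ := gmt_test_bdd hX'
  have hc := gmtJet_cof (P := W ×ˢ sphere (0 : E m) 1) (B := fun p => fderiv ℝ X p.1)
    (ν := Prod.snd) ⟨L, fun p _ => hL1 p.1⟩ ⟨1, fun p hp => by
      have : ‖p.2‖ = 1 := by simpa using hp.2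
      exact this.le⟩
  have h1 := GmtJet.bilin (ContinuousLinearMap.id ℝ (Bil m)) hAj hc
  have h2 := GmtJet.bilin (ContinuousLinearMap.id ℝ (E m →L[ℝ] ℝ)) h1 hc
  refine h2.congr one_pos (fun t _ p _ => rfl) (fun p _ => rfl) (fun p hp => ?_)
  have hs := hA.symm p.1 (hWU hp.1)
  show _ = (fderiv ℝ A p.1 (X p.1) p.2 + A p.1 ((∑ i, fderiv ℝ X p.1 (eb i) i) • p.2 -
      ContinuousLinearMap.adjoint (fderiv ℝ X p.1) p.2)) p.2 + A p.1 p.2
        ((∑ i, fderiv ℝ X p.1 (eb i) i) • p.2 - ContinuousLinearMap.adjoint (fderiv ℝ X p.1) p.2)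
  rw [_root_.add_apply, hs _ p.2, two_mul, add_assoc]
  rfl

theorem gmtFv1_eq (A : E m → Bil m) (X : E m → E m) {x ν : E m} (hpos : 0 < A x ν ν) :
    (fderiv ℝ A x (X x) ν ν + 2 * A x ν
      (gmtDiv X x • ν - ContinuousLinearMap.adjoint (fderiv ℝ X x) ν)) /
        (2 * Real.sqrt (A x ν ν)) = gmtFv1 A X x ν := by
  unfold gmtFv1
  have hs : 0 < Real.sqrt (A x ν ν) := Real.sqrt_pos.2 hpos
  have e : A x ν ν = Real.sqrt (A x ν ν) * Real.sqrt (A x ν ν) := (Real.mul_self_sqrt hpos.le).symm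
  rw [map_sub, map_smul, smul_eq_mul]
  obtain ⟨s, hsdef⟩ : ∃ s, s = Real.sqrt (A x ν ν) := ⟨_, rfl⟩
  rw [← hsdef] at hs e ⊢
  rw [e]
  field_simp
  ring

/-- pointwise first order Taylor expansion, uniform in `x ∈ W` and in unit vectors `ν`. -/
theorem gmt_fv_taylor {U W : Set (E m)} {A : E m → Bil m} (hU : IsOpen U) (hA : GmtInt U A)
    (hW : GmtCC W U) {X : E m → E m} (hX : GmtTestS W X) :
    ∃ C t₁ : ℝ, 0 < t₁ ∧ ∀ t, |t| < t₁ → ∀ x ∈ W, ∀ ν : E m, ‖ν‖ = 1 →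
      |Real.sqrt (A (gmtFlow X t x) (gmtCof (gmtFlowD X t x) ν) (gmtCof (gmtFlowD X t x) ν)) -
        Real.sqrt (A x ν ν) - t * gmtFv1 A X x ν| ≤ C * t ^ 2 := by
  obtain ⟨c, C₀, hc, hcC, hb⟩ := gmtInt_bounds hU hA hW.2.1 hW.2.2
  have h0 : ∀ p ∈ W ×ˢ sphere (0 : E m) 1, c ^ 2 ≤ A p.1 p.2 p.2 := by
    rintro ⟨x, ν⟩ ⟨hx, hν⟩
    have h1 := (hb x (subset_closure hx) ν).1
    have h2 : ‖ν‖ = 1 := by simpa using hν
    rw [h2] at h1
    simpa using h1
  obtain ⟨C, t₁, ht₁, hrem⟩ := ((gmtJet_Q hU hA hW hX).sqrt (by positivity) h0).rem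
  refine ⟨C, t₁, ht₁, fun t ht x hx ν hν => ?_⟩
  have hp : ((x, ν) : E m × E m) ∈ W ×ˢ sphere (0 : E m) 1 := ⟨hx, by simpa using hν⟩
  have h3 := hrem t ht (x, ν) hp
  have hpos : 0 < A x ν ν := lt_of_lt_of_le (by positivity) (h0 _ hp)
  rw [Real.norm_eq_abs, smul_eq_mul] at h3
  simp only [] at h3
  rw [gmtFv1_eq A X hpos] at h3
  exact h3

end Claimed.Agent.Gmt
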