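import Claimed.Agent.Lib.Gmt.GgConvB

/-!
# Lib/Gmt [GgConv = part 3/3 of the former GgConv] G0c: convergence of Gauss-Green measures.   (architect: helper75)

`GmtWk U μ μ'`: weak-* convergence in `U` (test functions `C_c(U)`).

PLAN OF PROOFS
* `gmt_portmanteau`: layer-cake / standard: for `g ∈ C_c(U)`, `0 ≤ g ≤ 1`, `∫ g dμ = ∫_0^1 μ{g > t} dt = ∫_0^1 μ{g ≥ t} dt`; Fatou in both directions
  (`{g > t}` open in `U`, `{g ≥ t}` compact in `U` for `t > 0`).
* `gmt_gg_tendsto`: for `T ∈ C¹_c(U)` it is the definition (`∫_{S_i} div T → ∫_{S'} div T`); for continuous `T` approximate uniformly by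
  `gmtMolV ε T` with supports in a fixed compact set and use the uniform mass bound.
* `gmt_reshetnyak`: paper P, App. B l.470-490.  Approximate `ν'` in `L²(μ'|_K)` by a continuous field `e`; expand
  `∫ φ |ν_i - e|² dμ_i = ∫ φ (1 + |e|²) dμ_i - 2 ∫ φ e·ν_i dμ_i → ∫ φ |ν' - e|² dμ'`; uniform continuity of `F` on `K × closedBall 0 2`.
* `gmt_exc_lsc`: `∫_W (1 - ν·e) dμ = sup { ∫_S div (T - φ e) : φ ∈ C¹_c(W;[0,1]), T ∈ C¹_c(W), |T| ≤ φ }`; every member is continuous in `S`.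
-/

set_option autoImplicit false
open scoped ContDiff ENNReal RealInnerProductSpace Topology
open MeasureTheory Metric Set Filter

namespace Claimed.Agent.Gmt

variable {m : ℕ}

theorem gmt_abs_inner_gmtNu_le (v : E m) (Q : Set (E m)) (x : E m) : |⟪v, gmtNu Q x⟫| ≤ ‖v‖ := by
  calc |⟪v, gmtNu Q x⟫| ≤ ‖v‖ * ‖gmtNu Q x‖ := abs_real_inner_le_norm _ _
    _ ≤ ‖v‖ * 1 := mul_le_mul_of_nonneg_left (norm_gmtNu_le_one Q x) (norm_nonneg _)
    _ = ‖v‖ := mul_one _

/-- scalar version of `gmt_gg_tendsto_set`. -/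
theorem gmt_gg_tendsto_set_inner {U : Set (E m)} (hU : IsOpen U) {S : ℕ → Set (E m)}
    {S' : Set (E m)} (hS : ∀ i, GmtLF (S i) U) (hS' : GmtLF S' U) (hc : GmtConv U S S')
    (hw : GmtWk U (fun i => gmtMu (S i)) (gmtMu S')) {B : Set (E m)} (hB : MeasurableSet B)
    (hBc : IsCompact (closure B)) (hBU : closure B ⊆ U) (h0 : gmtMu S' (frontier B) = 0)
    (v : E m) :
    Tendsto (fun i => ∫ x in B, ⟪v, gmtNu (S i) x⟫ ∂(gmtMu (S i))) atTop
      (𝓝 (∫ x in B, ⟪v, gmtNu S' x⟫ ∂(gmtMu S'))) := by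
  have hb := hw.bddPer hU hS hS'
  have hf' := fun K hK hKU => gmtMu_compact_ne_top (K := K) hU hS' hK hKU
  have hfi := fun i K hK hKU => gmtMu_compact_ne_top (K := K) hU (hS i) hK hKU
  have hFc : IsCompact (frontier B) :=
    hBc.of_isClosed_subset isClosed_frontier frontier_subset_closure
  have hFU : frontier B ⊆ U := frontier_subset_closure.trans hBU
  rw [Metric.tendsto_nhds]
  intro ε hε
  obtain ⟨R, hR, hRU⟩ := hFc.exists_cthickening_subset_open hU hFU
  have ht := tendsto_measure_cthickening_of_isClosed (μ := gmtMu S')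
    ⟨R, hR, hf' _ hFc.cthickening hRU⟩ isClosed_frontier
  rw [h0] at ht
  set κ : ℝ := ε / (4 * (‖v‖ + 1)) with hκ
  have hκ0 : 0 < κ := by positivity
  have hvκ : ‖v‖ * κ ≤ ε / 4 := by
    rw [hκ, mul_div_assoc', div_le_div_iff₀ (by positivity) (by norm_num)]
    have := norm_nonneg v
    nlinarith
  have hev := ht.eventually_lt_const (ENNReal.ofReal_pos.2 hκ0)
  obtain ⟨r, hr1, hr2⟩ :=
    ((hev.filter_mono nhdsWithin_le_nhds : ∀ᶠ r in 𝓝[>] (0 : ℝ), _).and (Ioo_mem_nhdsGT hR)).exists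
  obtain ⟨χ, hχs, hχc, hχW, hχ01, hχ1⟩ :=
    gmt_exists_cutoff hFc isOpen_thickening (self_subset_thickening hr2.1 (frontier B))
  have hCsub : tsupport χ ⊆ cthickening r (frontier B) :=
    hχW.trans (thickening_subset_cthickening _ _)
  have hCU : tsupport χ ⊆ U := hCsub.trans ((cthickening_mono hr2.2.le _).trans hRU)
  have hC' : gmtMu S' (tsupport χ) < ENNReal.ofReal κ := lt_of_le_of_lt (measure_mono hCsub) hr1
  have hCi : ∀ᶠ i in atTop, gmtMu (S i) (tsupport χ) < ENNReal.ofReal κ :=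
    eventually_lt_of_limsup_lt (lt_of_le_of_lt (hw.limsup_le hU hf' hfi hχc.isCompact hCU) hC')
  set ψ : E m → ℝ := B.indicator (fun x => 1 - χ x) with hψ
  have hψc : Continuous ψ := Continuous.indicator
    (fun a ha => by rw [hχ1.self_of_nhdsSet a ha, sub_self]) (continuous_const.sub hχs.continuous)
  have hψs : tsupport ψ ⊆ closure B := closure_mono support_indicator_subset
  have hψcs : HasCompactSupport ψ := hBc.of_isClosed_subset (isClosed_tsupport _) hψs
  have hgg := gmt_gg_tendsto hU (fun i => (hS i).1) hS'.1 hc hb (T := fun x => ψ x • v)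
    (hψc.smul continuous_const) hψcs.smul_right
    ((gmt_tsupport_smul_subset_left ψ _).trans (hψs.trans hBU))
  have est : ∀ Q : Set (E m), GmtLF Q U → gmtMu Q (tsupport χ) < ENNReal.ofReal κ →
      |∫ x in B, ⟪v, gmtNu Q x⟫ ∂(gmtMu Q) - ∫ x, ⟪ψ x • v, gmtNu Q x⟫ ∂(gmtMu Q)| ≤
        ‖v‖ * κ := by
    intro Q hQ hQC
    have hfm : Measurable fun x => ⟪v, gmtNu Q x⟫ := measurable_const.inner (measurable_gmtNu Q)
    have hclB : gmtMu Q (closure B) ≠ ⊤ := gmtMu_compact_ne_top hU hQ hBc hBU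
    have i1 : Integrable (B.indicator fun x => ⟪v, gmtNu Q x⟫) (gmtMu Q) := by
      refine gmt_integrable_of_bdd_supp (hfm.indicator hB) hclB (C := ‖v‖) (fun x => ?_)
        fun x hx => indicator_of_notMem (fun h => hx (subset_closure h)) _
      by_cases hx : x ∈ B
      · rw [indicator_of_mem hx]; exact gmt_abs_inner_gmtNu_le v Q x
      · rw [indicator_of_notMem hx, abs_zero]; exact norm_nonneg v
    have hψ01 : ∀ x, |ψ x| ≤ 1 := fun x => by
      by_cases hx : x ∈ B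
      · rw [hψ, indicator_of_mem hx, abs_le]
        constructor <;> linarith [(hχ01 x).1, (hχ01 x).2]
      · rw [hψ, indicator_of_notMem hx, abs_zero]; exact zero_le_one
    have i2 : Integrable (fun x => ⟪ψ x • v, gmtNu Q x⟫) (gmtMu Q) := by
      refine gmt_integrable_of_bdd_supp ((hψc.measurable.smul_const v).inner (measurable_gmtNu Q))
        hclB (C := ‖v‖) (fun x => ?_) fun x hx => ?_
      · rw [real_inner_smul_left, abs_mul]
        calc |ψ x| * |⟪v, gmtNu Q x⟫| ≤ 1 * ‖v‖ :=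
              mul_le_mul (hψ01 x) (gmt_abs_inner_gmtNu_le v Q x) (abs_nonneg _) zero_le_one
          _ = ‖v‖ := one_mul _
      · rw [image_eq_zero_of_notMem_tsupport (fun h => hx (hψs h)), zero_smul, inner_zero_left]
    rw [← integral_indicator hB, ← integral_sub i1 i2]
    refine (gmt_abs_integral_le_of_bdd_supp (K := tsupport χ) (ne_top_of_lt hQC) (C := ‖v‖)
      (fun x => ?_) fun x hx => ?_).trans ?_
    · by_cases hxB : x ∈ B
      · rw [indicator_of_mem hxB, real_inner_smul_left, hψ, indicator_of_mem hxB]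
        have e : ⟪v, gmtNu Q x⟫ - (1 - χ x) * ⟪v, gmtNu Q x⟫ = χ x * ⟪v, gmtNu Q x⟫ := by ring
        rw [e, abs_mul, abs_of_nonneg (hχ01 x).1]
        calc χ x * |⟪v, gmtNu Q x⟫| ≤ 1 * ‖v‖ :=
              mul_le_mul (hχ01 x).2 (gmt_abs_inner_gmtNu_le v Q x) (abs_nonneg _) zero_le_one
          _ = ‖v‖ := one_mul _
      · rw [indicator_of_notMem hxB, hψ, indicator_of_notMem hxB, zero_smul, inner_zero_left,
          sub_zero, abs_zero]
        exact norm_nonneg v
    · by_cases hxB : x ∈ B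
      · rw [indicator_of_mem hxB, real_inner_smul_left, hψ, indicator_of_mem hxB,
          image_eq_zero_of_notMem_tsupport hx]
        ring
      · rw [indicator_of_notMem hxB, hψ, indicator_of_notMem hxB, zero_smul, inner_zero_left,
          sub_zero]
    · refine mul_le_mul_of_nonneg_left ?_ (norm_nonneg v)
      exact ENNReal.toReal_le_of_le_ofReal hκ0.le hQC.le
  rw [Metric.tendsto_nhds] at hgg
  filter_upwards [hCi, hgg (ε / 2) (by positivity)] with i hi hi2
  have h1 := abs_le.1 (est (S i) (hS i) hi)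
  have h2 := abs_le.1 (est S' hS' hC')
  rw [Real.dist_eq] at hi2 ⊢
  have h5 := abs_lt.1 hi2
  rw [abs_lt]
  constructor <;> linarith [h1.1, h1.2, h2.1, h2.2, h5.1, h5.2]

/-- convergence of the vector measures on sets with negligible boundary. -/
theorem gmt_gg_tendsto_set {U : Set (E m)} (hU : IsOpen U) {S : ℕ → Set (E m)} {S' : Set (E m)}
    (hS : ∀ i, GmtLF (S i) U) (hS' : GmtLF S' U) (hc : GmtConv U S S')
    (hw : GmtWk U (fun i => gmtMu (S i)) (gmtMu S')) {B : Set (E m)} (hB : MeasurableSet B)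
    (hBc : IsCompact (closure B)) (hBU : closure B ⊆ U) (h0 : gmtMu S' (frontier B) = 0) :
    Tendsto (fun i => ∫ x in B, gmtNu (S i) x ∂(gmtMu (S i))) atTop
      (𝓝 (∫ x in B, gmtNu S' x ∂(gmtMu S'))) := by
  have key : ∀ Q : Set (E m), GmtLF Q U → ∫ x in B, gmtNu Q x ∂(gmtMu Q) =
      ∑ j, (∫ x in B, ⟪(eb j : E m), gmtNu Q x⟫ ∂(gmtMu Q)) • (eb j : E m) := by
    intro Q hQ
    have hfin : IsFiniteMeasure ((gmtMu Q).restrict B) := ⟨by
      rw [Measure.restrict_apply MeasurableSet.univ, univ_inter]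
      exact lt_of_le_of_lt (measure_mono subset_closure)
        (gmtMu_compact_ne_top hU hQ hBc hBU).lt_top⟩
    have hint : Integrable (gmtNu Q) ((gmtMu Q).restrict B) :=
      Integrable.of_bound (measurable_gmtNu Q).aestronglyMeasurable 1
        (Eventually.of_forall (norm_gmtNu_le_one Q))
    conv_lhs => rw [← gmt_sum_eb (∫ x in B, gmtNu Q x ∂(gmtMu Q))]
    refine Finset.sum_congr rfl fun j _ => ?_
    rw [integral_inner hint, real_inner_comm, gmt_inner_eb]
  simp only [fun i => key (S i) (hS i), key S' hS']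
  exact tendsto_finsetSum _ fun j _ =>
    (gmt_gg_tendsto_set_inner hU hS hS' hc hw hB hBc hBU h0 (eb j)).smul_const _

/-- the excess density lies in `[0,2]`. -/
theorem gmt_exc_dens_mem {e : E m} (he : ‖e‖ = 1) (Q : Set (E m)) (x : E m) :
    1 - ⟪gmtNu Q x, e⟫ ∈ Icc (0 : ℝ) 2 := by
  have := abs_le.1 (gmt_abs_inner_gmtNu_le e Q x)
  rw [he, real_inner_comm] at this
  constructor <;> linarith [this.1, this.2]

theorem gmt_exc_integrableOn {U : Set (E m)} (hU : IsOpen U) {Q : Set (E m)} (hQ : GmtLF Q U)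
    {W : Set (E m)} (hW : GmtCC W U) {f : E m → ℝ} (hf : Measurable f) {C : ℝ}
    (hC : ∀ x, |f x| ≤ C) : IntegrableOn f W (gmtMu Q) :=
  Measure.integrableOn_of_bounded (M := C)
    (ne_top_of_le_ne_top (gmtMu_compact_ne_top hU hQ hW.2.1 hW.2.2) (measure_mono subset_closure))
    hf.aestronglyMeasurable (Eventually.of_forall hC)

/-- the competitors for the excess. -/
theorem GmtResh.exc_test {U W : Set (E m)} {φ : E m → ℝ} {T₀ : E m → E m} (h : GmtResh U φ T₀)
    (hφ : ContDiff ℝ 1 φ) (hT₀ : ContDiff ℝ 1 T₀) (hφW : tsupport φ ⊆ W) (e : E m) :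
    GmtTest W fun x => φ x • (T₀ x - e) :=
  ⟨hφ.smul (hT₀.sub contDiff_const), h.φs.smul_right,
    (gmt_tsupport_smul_subset_left φ _).trans hφW⟩

theorem GmtResh.exc_le {U : Set (E m)} (hU : IsOpen U) {φ : E m → ℝ} {T₀ : E m → E m}
    (h : GmtResh U φ T₀) {Q : Set (E m)} (hQ : GmtLF Q U) {W : Set (E m)} (hW : GmtCC W U)
    (hφW : tsupport φ ⊆ W) {e : E m} (he : ‖e‖ = 1) :
    ∫ x, ⟪φ x • (T₀ x - e), gmtNu Q x⟫ ∂(gmtMu Q) ≤
      ∫ x in W, (1 - ⟪gmtNu Q x, e⟫) ∂(gmtMu Q) := by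
  rw [← setIntegral_eq_integral_of_forall_compl_eq_zero (s := W) fun x hx => by
    rw [image_eq_zero_of_notMem_tsupport (fun h' => hx (hφW h')), zero_smul, inner_zero_left]]
  have hpt : ∀ x, ⟪φ x • (T₀ x - e), gmtNu Q x⟫ ≤ 1 - ⟪gmtNu Q x, e⟫ := fun x => by
    have a1 := (abs_le.1 (gmt_abs_inner_gmtNu_le (T₀ x) Q x)).2
    have a2 := h.e1 x
    have a3 := (gmt_exc_dens_mem he Q x).1
    have a4 := h.φ01 x
    rw [real_inner_smul_left, inner_sub_left, real_inner_comm (gmtNu Q x) e]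
    have a5 : ⟪T₀ x, gmtNu Q x⟫ - ⟪gmtNu Q x, e⟫ ≤ 1 - ⟪gmtNu Q x, e⟫ := by linarith
    calc φ x * (⟪T₀ x, gmtNu Q x⟫ - ⟪gmtNu Q x, e⟫) ≤ φ x * (1 - ⟪gmtNu Q x, e⟫) :=
          mul_le_mul_of_nonneg_left a5 a4.1
      _ ≤ 1 * (1 - ⟪gmtNu Q x, e⟫) := mul_le_mul_of_nonneg_right a4.2 a3
      _ = _ := one_mul _
  refine integral_mono ?_ ?_ hpt
  · refine gmt_exc_integrableOn hU hQ hW
      ((h.φc.measurable.smul (h.ec.measurable.sub_const e)).inner (measurable_gmtNu Q)) (C := 2)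
      fun x => ?_
    refine (gmt_abs_inner_gmtNu_le _ Q x).trans ?_
    rw [norm_smul, Real.norm_of_nonneg (h.φ01 x).1]
    calc φ x * ‖T₀ x - e‖ ≤ 1 * (‖T₀ x‖ + ‖e‖) :=
          mul_le_mul (h.φ01 x).2 (_root_.norm_sub_le _ _) (norm_nonneg _) zero_le_one
      _ ≤ 2 := by rw [he]; linarith [h.e1 x]
  · refine gmt_exc_integrableOn hU hQ hW
      (measurable_const.sub ((measurable_gmtNu Q).inner measurable_const)) (C := 2) fun x => ?_
    have := gmt_exc_dens_mem he Q x
    rw [abs_of_nonneg this.1]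
    exact this.2

/-- near optimal competitors for the excess. -/
theorem gmt_exc_exists_test {U : Set (E m)} (hU : IsOpen U) {Q : Set (E m)} (hQ : GmtLF Q U)
    {W : Set (E m)} (hW : GmtCC W U) {e : E m} (he : ‖e‖ = 1) {ε : ℝ} (hε : 0 < ε) :
    ∃ (φ : E m → ℝ) (T₀ : E m → E m), GmtResh U φ T₀ ∧ ContDiff ℝ 1 φ ∧ ContDiff ℝ 1 T₀ ∧
      tsupport φ ⊆ W ∧ ∫ x in W, (1 - ⟪gmtNu Q x, e⟫) ∂(gmtMu Q) - ε ≤
        ∫ x, ⟪φ x • (T₀ x - e), gmtNu Q x⟫ ∂(gmtMu Q) := by
  have hWU : W ⊆ U := subset_closure.trans hW.2.2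
  set f : E m → ℝ := fun x => 1 - ⟪gmtNu Q x, e⟫ with hf
  have hfm : Measurable f := measurable_const.sub ((measurable_gmtNu Q).inner measurable_const)
  have hf02 : ∀ x, f x ∈ Icc (0 : ℝ) 2 := gmt_exc_dens_mem he Q
  have hfb : ∀ x, |f x| ≤ 2 := fun x => by rw [abs_of_nonneg (hf02 x).1]; exact (hf02 x).2
  have hfW : IntegrableOn f W (gmtMu Q) := gmt_exc_integrableOn hU hQ hW hfm hfb
  obtain ⟨K, hK, hKW, hKK, hun⟩ := gmt_exists_exhaustion hW.1
  have hmono : Monotone K := monotone_nat_of_le_succ fun n => (hKK n).trans interior_subset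
  have ht := tendsto_setIntegral_of_monotone (μ := gmtMu Q) (f := f)
    (fun n => (hK n).measurableSet) hmono (by rw [hun]; exact hfW)
  rw [hun] at ht
  obtain ⟨n, hn⟩ := (ht.eventually_const_lt
    (show ∫ x in W, f x ∂(gmtMu Q) - ε / 2 < ∫ x in W, f x ∂(gmtMu Q) by linarith)).exists
  obtain ⟨φ, hφs, hφc, hφW, hφ01, hφ1⟩ := gmt_exists_cutoff (hK n) hW.1 (hKW n)
  have hφU : tsupport φ ⊆ U := hφW.trans hWU
  have hfin : gmtMu Q (tsupport φ) ≠ ⊤ := gmtMu_compact_ne_top hU hQ hφc.isCompact hφU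
  obtain ⟨T₀, hT₀, hT₀1, hT₀e⟩ := gmt_exists_approx_field hU hφc.isCompact hφU hfin
    (measurable_gmtNu Q) (norm_gmtNu_le_one Q) (ε := ε / 2) (by positivity)
  have hR : GmtResh U φ T₀ := ⟨hφs.continuous, hφc, hφU, hφ01, hT₀.c1.continuous, hT₀1⟩
  refine ⟨φ, T₀, hR, hφs.of_le (by exact_mod_cast le_top), hT₀.c1, hφW, ?_⟩
  set g : E m → ℝ := fun x => 1 - ⟪T₀ x, gmtNu Q x⟫ with hg
  have hgm : Measurable g :=
    measurable_const.sub (hT₀.c1.continuous.measurable.inner (measurable_gmtNu Q))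
  have hg02 : ∀ x, g x ∈ Icc (0 : ℝ) 2 := fun x => by
    have := abs_le.1 ((gmt_abs_inner_gmtNu_le (T₀ x) Q x).trans (hT₀1 x))
    constructor <;> simp only [hg] <;> linarith [this.1, this.2]
  have hgb : ∀ x, |g x| ≤ 2 := fun x => by rw [abs_of_nonneg (hg02 x).1]; exact (hg02 x).2
  have i1 : Integrable (fun x => φ x * f x) (gmtMu Q) := hR.integrable hU hQ hfm hfb
  have i2 : Integrable (fun x => φ x * g x) (gmtMu Q) := hR.integrable hU hQ hgm hgb
  have e1 : ∫ x, ⟪φ x • (T₀ x - e), gmtNu Q x⟫ ∂(gmtMu Q) =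
      ∫ x, φ x * f x ∂(gmtMu Q) - ∫ x, φ x * g x ∂(gmtMu Q) := by
    rw [← integral_sub i1 i2]
    refine integral_congr_ae (Eventually.of_forall fun x => ?_)
    show ⟪φ x • (T₀ x - e), gmtNu Q x⟫ =
      φ x * (1 - ⟪gmtNu Q x, e⟫) - φ x * (1 - ⟪T₀ x, gmtNu Q x⟫)
    rw [real_inner_smul_left, inner_sub_left, real_inner_comm (gmtNu Q x) e]
    ring
  have b1 : ∫ x in K n, f x ∂(gmtMu Q) ≤ ∫ x, φ x * f x ∂(gmtMu Q) := by
    rw [← integral_indicator (hK n).measurableSet]
    refine integral_mono ((hfW.mono_set (hKW n)).integrable_indicator (hK n).measurableSet) i1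
      fun x => ?_
    by_cases hx : x ∈ K n
    · rw [indicator_of_mem hx]
      show f x ≤ φ x * f x
      rw [hφ1.self_of_nhdsSet x hx, one_mul]
    · rw [indicator_of_notMem hx]
      exact mul_nonneg (hφ01 x).1 (hf02 x).1
  have b2 : ∫ x, φ x * g x ∂(gmtMu Q) ≤ ε / 2 := by
    refine le_trans ?_ hT₀e
    rw [← setIntegral_eq_integral_of_forall_compl_eq_zero (s := tsupport φ) fun x hx => by
      rw [image_eq_zero_of_notMem_tsupport hx, zero_mul]]
    have hfinm : IsFiniteMeasure ((gmtMu Q).restrict (tsupport φ)) := ⟨by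
      rw [Measure.restrict_apply MeasurableSet.univ, univ_inter]; exact hfin.lt_top⟩
    refine integral_mono_ae i2.restrict ?_ ?_
    · refine Integrable.of_bound
        (hT₀.c1.continuous.measurable.sub (measurable_gmtNu Q)).norm.aestronglyMeasurable 2
        (Eventually.of_forall fun x => ?_)
      rw [norm_norm, norm_sub_rev]
      exact hR.norm_sub_le Q x
    · filter_upwards [ae_restrict_of_ae_restrict_of_subset hφU (norm_gmtNu_ae hU hQ)] with x hx
      show φ x * g x ≤ ‖T₀ x - gmtNu Q x‖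
      have c1 : g x = ⟪gmtNu Q x - T₀ x, gmtNu Q x⟫ := by
        rw [inner_sub_left, real_inner_self_eq_norm_sq, hx]
        simp only [hg]
        ring
      have c2 : g x ≤ ‖T₀ x - gmtNu Q x‖ := by
        rw [c1, norm_sub_rev]
        calc ⟪gmtNu Q x - T₀ x, gmtNu Q x⟫ ≤ ‖gmtNu Q x - T₀ x‖ * ‖gmtNu Q x‖ :=
              real_inner_le_norm _ _
          _ = ‖gmtNu Q x - T₀ x‖ := by rw [hx, mul_one]
      calc φ x * g x ≤ 1 * g x := mul_le_mul_of_nonneg_right (hφ01 x).2 (hg02 x).1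
        _ ≤ _ := by rw [one_mul]; exact c2
  rw [e1]
  linarith

/-- lower semicontinuity of the (unnormalised) excess on open sets. -/
theorem gmt_exc_lsc {U : Set (E m)} (hU : IsOpen U) {S : ℕ → Set (E m)} {S' : Set (E m)}
    (hS : ∀ i, GmtLF (S i) U) (hS' : GmtLF S' U) (hc : GmtConv U S S') {W : Set (E m)}
    (hW : GmtCC W U) {e : E m} (he : ‖e‖ = 1) :
    ENNReal.ofReal (∫ x in W, (1 - ⟪gmtNu S' x, e⟫) ∂(gmtMu S')) ≤
      liminf (fun i => ENNReal.ofReal (∫ x in W, (1 - ⟪gmtNu (S i) x, e⟫) ∂(gmtMu (S i)))) atTop := by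
  have hWU : W ⊆ U := subset_closure.trans hW.2.2
  set X' : ℝ := ∫ x in W, (1 - ⟪gmtNu S' x, e⟫) ∂(gmtMu S') with hX'
  have key : ∀ ε : ℝ, 0 < ε → ENNReal.ofReal (X' - ε) ≤
      liminf (fun i => ENNReal.ofReal (∫ x in W, (1 - ⟪gmtNu (S i) x, e⟫) ∂(gmtMu (S i)))) atTop := by
    intro ε hε
    obtain ⟨φ, T₀, hR, hφ, hT₀, hφW, hle⟩ := gmt_exc_exists_test hU hS' hW he hε
    have hZ := hR.exc_test hφ hT₀ hφW e
    have hZU : GmtTest U fun x => φ x • (T₀ x - e) := hZ.mono hWU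
    obtain ⟨hdc, hdcs, hdW⟩ := continuous_gmtDiv hZ
    have hconv := GmtConv.tendsto_setIntegral (fun i => (hS i).1) hS'.1 hc hdc hdcs
      (hdW.trans hWU)
    rw [← gmt_gauss_green hU hS' hZU] at hle
    calc ENNReal.ofReal (X' - ε)
        ≤ ENNReal.ofReal (∫ x in S', gmtDiv (fun x => φ x • (T₀ x - e)) x) :=
          ENNReal.ofReal_le_ofReal hle
      _ = liminf (fun i => ENNReal.ofReal (∫ x in S i, gmtDiv (fun x => φ x • (T₀ x - e)) x))
            atTop := ((ENNReal.continuous_ofReal.tendsto _).comp hconv).liminf_eq.symm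
      _ ≤ _ := by
          refine liminf_le_liminf (Eventually.of_forall fun i => ENNReal.ofReal_le_ofReal ?_)
          rw [gmt_gauss_green hU (hS i) hZU]
          exact hR.exc_le hU (hS i) hW hφW he
  have ht : Tendsto (fun ε : ℝ => ENNReal.ofReal (X' - ε)) (𝓝[>] 0) (𝓝 (ENNReal.ofReal X')) := by
    have h1 : Tendsto (fun ε : ℝ => X' - ε) (𝓝 0) (𝓝 (X' - 0)) :=
      tendsto_const_nhds.sub tendsto_id
    rw [sub_zero] at h1
    exact ((ENNReal.continuous_ofReal.tendsto _).comp h1).mono_left nhdsWithin_le_nhds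
  refine le_of_tendsto ht ?_
  filter_upwards [self_mem_nhdsWithin] with ε hε
  exact key ε hε

theorem gmt_abs_sqrt_sub_sqrt_le {a b : ℝ} (ha : 0 ≤ a) (hb : 0 ≤ b) :
    |Real.sqrt a - Real.sqrt b| ≤ Real.sqrt |a - b| := by
  rw [← Real.sqrt_sq_eq_abs]
  refine Real.sqrt_le_sqrt ?_
  set s := Real.sqrt a with hs
  set t := Real.sqrt b with ht
  have hs0 : 0 ≤ s := Real.sqrt_nonneg a
  have ht0 : 0 ≤ t := Real.sqrt_nonneg b
  have ea : a = s ^ 2 := (Real.sq_sqrt ha).symm
  have eb' : b = t ^ 2 := (Real.sq_sqrt hb).symm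
  rw [ea, eb']
  rcases le_total t s with h | h
  · rw [abs_of_nonneg (by nlinarith)]
    nlinarith
  · rw [abs_of_nonpos (by nlinarith)]
    nlinarith

/-- the density `√(B ν ν)` is a.e. measurable on `U`. -/
theorem gmt_aemeasurable_sqrt_dens {U : Set (E m)} (hU : IsOpen U) {B : E m → Bil m}
    (hB : GmtInt U B) (Q : Set (E m)) (μ : Measure (E m)) :
    AEMeasurable (fun x => Real.sqrt (B x (gmtNu Q x) (gmtNu Q x))) (μ.restrict U) := by
  have hΦ : Continuous fun p : Bil m × E m => p.1 p.2 p.2 :=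
    (continuous_fst.clm_apply continuous_snd).clm_apply continuous_snd
  have h1 : AEMeasurable (fun x => (B x, gmtNu Q x)) (μ.restrict U) :=
    (hB.continuousOn.aemeasurable hU.measurableSet).prodMk (measurable_gmtNu Q).aemeasurable
  exact (Real.continuous_sqrt.measurable.comp hΦ.measurable).comp_aemeasurable h1

/-- integration against the `B`-perimeter measure. -/
theorem gmt_integral_perM {U : Set (E m)} (hU : IsOpen U) {B : E m → Bil m} (hB : GmtInt U B)
    {Q : Set (E m)} (hQ : GmtLF Q U) {g : E m → ℝ} (hgU : ∀ x ∉ U, g x = 0) :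
    ∫ x, g x ∂(gmtPerM B Q) =
      ∫ x in U, g x * Real.sqrt (B x (gmtNu Q x) (gmtNu Q x)) ∂(gmtMu Q) := by
  rw [← setIntegral_eq_integral_of_forall_compl_eq_zero hgU, gmtPerM_eq_withDensity hU hB hQ,
    integral_withDensity_eq_integral_toReal_smul₀
      (gmt_aemeasurable_sqrt_dens hU hB Q (gmtMu Q)).ennreal_ofReal
      (Eventually.of_forall fun x => ENNReal.ofReal_lt_top)]
  refine integral_congr_ae (Eventually.of_forall fun x => ?_)
  show (ENNReal.ofReal (Real.sqrt (B x (gmtNu Q x) (gmtNu Q x)))).toReal • g x = _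
  rw [ENNReal.toReal_ofReal (Real.sqrt_nonneg _), smul_eq_mul, mul_comm]

/-- integrability of `g √(B ν ν)`. -/
theorem gmt_integrable_dens {U : Set (E m)} (hU : IsOpen U) {B : E m → Bil m} (hB : GmtInt U B)
    {Q : Set (E m)} (hQ : GmtLF Q U) {g : E m → ℝ} (hg : Continuous g)
    (hgc : HasCompactSupport g) (hgU : tsupport g ⊆ U) :
    Integrable (fun x => g x * Real.sqrt (B x (gmtNu Q x) (gmtNu Q x)))
      ((gmtMu Q).restrict U) := by
  obtain ⟨G, hG⟩ := hg.bounded_above_of_compact_support hgc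
  obtain ⟨c, C, hc, hcC, hb⟩ := gmtInt_bounds hU hB hgc.isCompact hgU
  have hs : Function.support (fun x => g x * Real.sqrt (B x (gmtNu Q x) (gmtNu Q x))) ⊆
      tsupport g := fun x hx => by
    by_contra h
    exact hx (by
      show g x * _ = 0
      rw [image_eq_zero_of_notMem_tsupport h, zero_mul])
  rw [← integrableOn_iff_integrable_of_support_subset hs]
  refine Measure.integrableOn_of_bounded (M := G * C)
    (ne_top_of_le_ne_top (gmtMu_compact_ne_top hU hQ hgc.isCompact hgU)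
      (Measure.restrict_apply_le _ _))
    ((hg.aemeasurable.mul (gmt_aemeasurable_sqrt_dens hU hB Q (gmtMu Q))).aestronglyMeasurable)
    ?_
  refine ae_restrict_of_forall_mem hgc.isCompact.measurableSet fun x hx => ?_
  have hC0 : 0 ≤ C := hc.le.trans hcC
  have h1 : Real.sqrt (B x (gmtNu Q x) (gmtNu Q x)) ≤ C := by
    rw [Real.sqrt_le_left hC0]
    refine ((hb x hx _).2).trans ?_
    have := norm_gmtNu_le_one Q x
    have h0 := norm_nonneg (gmtNu Q x)
    calc C ^ 2 * ‖gmtNu Q x‖ ^ 2 ≤ C ^ 2 * 1 :=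
          mul_le_mul_of_nonneg_left (by nlinarith) (by positivity)
      _ = C ^ 2 := mul_one _
  rw [norm_mul, Real.norm_of_nonneg (Real.sqrt_nonneg _)]
  exact mul_le_mul (hG x) h1 (Real.sqrt_nonneg _) ((norm_nonneg _).trans (hG x))

/-- the integrand of `gmt_perM_wk` is continuous. -/
theorem gmt_continuous_dens {U : Set (E m)} (hU : IsOpen U) {B : E m → Bil m} (hB : GmtInt U B)
    {g : E m → ℝ} (hg : Continuous g) (hgU : tsupport g ⊆ U) :
    Continuous fun p : E m × E m => g p.1 * Real.sqrt (B p.1 p.2 p.2) := by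
  rw [continuous_iff_continuousAt]
  rintro ⟨x₀, ξ₀⟩
  by_cases hx : x₀ ∈ U
  · have hBc : ContinuousAt B x₀ := hB.continuousOn.continuousAt (hU.mem_nhds hx)
    have h1 : ContinuousAt (fun p : E m × E m => B p.1) (x₀, ξ₀) :=
      ContinuousAt.comp (f := Prod.fst) (g := B) hBc continuousAt_fst
    have h2 : ContinuousAt (fun p : E m × E m => B p.1 p.2 p.2) (x₀, ξ₀) :=
      (h1.clm_apply continuousAt_snd).clm_apply continuousAt_snd
    exact (hg.continuousAt.comp continuousAt_fst).mul (Real.continuous_sqrt.continuousAt.comp h2)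
  · have h0 : g =ᶠ[𝓝 x₀] 0 := notMem_tsupport_iff_eventuallyEq.1 fun h => hx (hgU h)
    have h1 : (fun p : E m × E m => g p.1 * Real.sqrt (B p.1 p.2 p.2)) =ᶠ[𝓝 (x₀, ξ₀)]
        fun _ => 0 := by
      filter_upwards [continuousAt_fst.eventually h0] with p hp
      have : g p.1 = 0 := hp
      rw [this, zero_mul]
    exact continuousAt_const.congr h1.symm

/-- weak convergence of the `A_i`-perimeter measures from that of the Euclidean ones. -/
theorem gmt_perM_wk {U : Set (E m)} (hU : IsOpen U) {S : ℕ → Set (E m)} {S' : Set (E m)}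
    (hS : ∀ i, GmtLF (S i) U) (hS' : GmtLF S' U) (hc : GmtConv U S S')
    (hw : GmtWk U (fun i => gmtMu (S i)) (gmtMu S')) {A : ℕ → E m → Bil m} {A' : E m → Bil m}
    (hA : ∀ i, GmtInt U (A i)) (hA' : GmtInt U A')
    (hAc : ∀ K, IsCompact K → K ⊆ U → TendstoUniformlyOn A A' atTop K) :
    GmtWk U (fun i => gmtPerM (A i) (S i)) (gmtPerM A' S') := by
  intro g hg hgc hgU
  have hK := hgc.isCompact
  have hg0 : ∀ x ∉ U, g x = 0 := fun x hx =>
    image_eq_zero_of_notMem_tsupport fun h => hx (hgU h)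
  simp only [fun i => gmt_integral_perM hU (hA i) (hS i) hg0, gmt_integral_perM hU hA' hS' hg0]
  have hR := gmt_reshetnyak hU hS hS' hc hw (F := fun x ξ => g x * Real.sqrt (A' x ξ ξ))
    (gmt_continuous_dens hU hA' hg hgU) hK hgU
    (fun x hx ξ => by rw [image_eq_zero_of_notMem_tsupport hx, zero_mul])
  have eU : ∀ Q : Set (E m), ∫ x, g x * Real.sqrt (A' x (gmtNu Q x) (gmtNu Q x)) ∂(gmtMu Q) =
      ∫ x in U, g x * Real.sqrt (A' x (gmtNu Q x) (gmtNu Q x)) ∂(gmtMu Q) := fun Q =>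
    (setIntegral_eq_integral_of_forall_compl_eq_zero fun x hx => by rw [hg0 x hx, zero_mul]).symm
  simp only [eU] at hR
  have hdiff : Tendsto (fun i =>
      ∫ x in U, g x * Real.sqrt (A i x (gmtNu (S i) x) (gmtNu (S i) x)) ∂(gmtMu (S i)) -
      ∫ x in U, g x * Real.sqrt (A' x (gmtNu (S i) x) (gmtNu (S i) x)) ∂(gmtMu (S i))) atTop
      (𝓝 0) := by
    obtain ⟨G, hG⟩ := hg.bounded_above_of_compact_support hgc
    have hG0 : 0 ≤ G := (norm_nonneg _).trans (hG 0)
    have hfin := gmtMu_compact_ne_top hU hS' hK hgU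
    set C : ℝ≥0∞ := gmtMu S' (tsupport g) + 1 with hC
    have hCtop : C ≠ ⊤ := ENNReal.add_ne_top.2 ⟨hfin, ENNReal.one_ne_top⟩
    have hev : ∀ᶠ i in atTop, gmtMu (S i) (tsupport g) < C :=
      eventually_lt_of_limsup_lt (lt_of_le_of_lt
        (hw.limsup_le hU (fun K hK hKU => gmtMu_compact_ne_top hU hS' hK hKU)
          (fun i K hK hKU => gmtMu_compact_ne_top hU (hS i) hK hKU) hK hgU)
        (ENNReal.lt_add_right hfin one_ne_zero))
    rw [Metric.tendsto_nhds]
    intro ε hε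
    have hC0 := ENNReal.toReal_nonneg (a := C)
    set κ : ℝ := ε / (2 * ((G + 1) * (C.toReal + 1))) with hκ
    have hκ0 : 0 < κ := by positivity
    have hsmall : G * κ * C.toReal < ε := by
      have h1 : G * κ * C.toReal ≤ (G + 1) * (C.toReal + 1) * κ := by nlinarith
      have h2 : (G + 1) * (C.toReal + 1) * κ = ε / 2 := by
        rw [hκ]; field_simp
      linarith
    have hun := (Metric.tendstoUniformlyOn_iff (α := Bil m) (F := A) (f := A') (p := atTop)
      (s := tsupport g)).1 (hAc _ hK hgU) (κ ^ 2) (by positivity)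
    filter_upwards [hev, hun] with i hi hi2
    rw [Real.dist_eq, sub_zero,
      ← integral_sub (gmt_integrable_dens hU (hA i) (hS i) hg hgc hgU)
        (gmt_integrable_dens hU hA' (hS i) hg hgc hgU)]
    refine lt_of_le_of_lt ?_ hsmall
    have hμ : ((gmtMu (S i)).restrict U) (tsupport g) ≤ C :=
      (Measure.restrict_apply_le _ _).trans hi.le
    refine (gmt_abs_integral_le_of_bdd_supp (K := tsupport g) (ne_top_of_le_ne_top hCtop hμ)
      (C := G * κ) (fun x => ?_) fun x hx => ?_).trans ?_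
    · by_cases hx : x ∈ tsupport g
      · rw [← mul_sub, abs_mul]
        refine mul_le_mul (hG x) ?_ (abs_nonneg _) hG0
        set ξ := gmtNu (S i) x with hξ
        refine (gmt_abs_sqrt_sub_sqrt_le ((hA i).nonneg (hgU hx) ξ)
          (hA'.nonneg (hgU hx) ξ)).trans ?_
        rw [Real.sqrt_le_left hκ0.le]
        have h3 : ‖A i x - A' x‖ < κ ^ 2 := by
          have h := hi2 x hx
          have h' : dist (A' x) (A i x) < κ ^ 2 := h
          have e : dist (A' x) (A i x) = ‖A' x - A i x‖ := dist_eq_norm (A' x) (A i x)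
          have e2 : ‖A' x - A i x‖ = ‖A i x - A' x‖ := norm_sub_rev (A' x) (A i x)
          rw [e, e2] at h'
          exact h'
        have h4 : |A i x ξ ξ - A' x ξ ξ| ≤ ‖A i x - A' x‖ * ‖ξ‖ * ‖ξ‖ := by
          have : A i x ξ ξ - A' x ξ ξ = (A i x - A' x) ξ ξ := by simp
          rw [this, ← Real.norm_eq_abs]
          exact (A i x - A' x).le_opNorm₂ ξ ξ
        have h5 : ‖ξ‖ ≤ 1 := norm_gmtNu_le_one (S i) x
        have h6 := norm_nonneg ξ
        have h7 := norm_nonneg (A i x - A' x)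
        calc |A i x ξ ξ - A' x ξ ξ| ≤ ‖A i x - A' x‖ * ‖ξ‖ * ‖ξ‖ := h4
          _ ≤ ‖A i x - A' x‖ * 1 * 1 := by gcongr
          _ ≤ κ ^ 2 := by rw [mul_one, mul_one]; exact h3.le
      · rw [image_eq_zero_of_notMem_tsupport hx, zero_mul, zero_mul, sub_zero, abs_zero]
        positivity
    · rw [image_eq_zero_of_notMem_tsupport hx, zero_mul, zero_mul, sub_zero]
    · exact mul_le_mul_of_nonneg_left (ENNReal.toReal_mono hCtop hμ) (by positivity)
  have := hdiff.add hR
  simpa using this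

end Claimed.Agent.Gmt
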