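import Claimed.Agent.Lib.Gmt.GgMeas
import Claimed.Agent.Lib.Gmt.BvCompact

/-!
# Lib/Gmt [GgConvA = part 1/3 of the former GgConv] G0c: convergence of Gauss-Green measures.   (architect: helper75)

`GmtWk U μ μ'`: weak-* convergence in `U` (test functions `C_c(U)`).

PLAN OF PROOFS
* `gmt_portmanteau`: layer-cake / standard: for `g ∈ C_c(U)`, `0 ≤ g ≤ 1`, `∫ g dμ = ∫_0^1 μ{g > t} dt = ∫_0^1 μ{g ≥ t} dt`; Fatou in both directions
  (`{g > t}` open in `U`, `{g ≥ t}` compact in `U` for `t > 0`).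
* `gmt_gg_tendsto`: for `T ∈ C¹_c(U)` it is the definition (`∫_{S_i} div T → ∫_{S'} div T`); for continuous `T` approximate uniformly by
  `gmtMolV ε T` with supports in a fixed compact set and use the uniform mass bound.
* `gmt_reshetnyak`: paper P, App. B l.470-490.  Approximate `ν'` in `L²(μ'|_K)` by a continuous field `e`; expand
  `∫ φ |ν_i - e|² dμ_i = ∫ φ (1 + |e|²) dμ_i - 2 ∫ φ e·ν_i dμ_i → ∫ φ |ν' - e|² dμ'`; uniform continuity of `F` on `K × closedBall 0 2`.
* `gmt_exc_lsc`: `∫_W (1 - ν·e) dμ = sup { ∫_S div (T - φ e) : φ ∈ C¹_c(W;[0,1]), T ∈ C¹_c(W), |T| ≤ φ }`; every member is continuous in `S`.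
-/

set_option autoImplicit false
open scoped ContDiff ENNReal RealInnerProductSpace Topology
open MeasureTheory Metric Set Filter

namespace Claimed.Agent.Gmt

variable {m : ℕ}

/-- weak-* convergence of (locally finite) measures in the open set `U`. -/
def GmtWk (U : Set (E m)) (μ : ℕ → Measure (E m)) (μ' : Measure (E m)) : Prop :=
  ∀ g : E m → ℝ, Continuous g → HasCompactSupport g → tsupport g ⊆ U →
    Tendsto (fun i => ∫ x, g x ∂(μ i)) atTop (𝓝 (∫ x, g x ∂μ'))

/-- locally uniformly bounded perimeters (eventually: the threshold may depend on `W`). -/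
def GmtBddPer (U : Set (E m)) (S : ℕ → Set (E m)) : Prop :=
  ∀ W, GmtCC W U → ∃ C : ℝ≥0∞, C ≠ ⊤ ∧ ∀ᶠ i in atTop, gmtP (S i) W ≤ C

/-- a continuous function with compact support of finite measure is integrable. -/
theorem gmt_integrable_of_cc {F : Type*} [NormedAddCommGroup F] {μ : Measure (E m)} {h : E m → F}
    (hh : Continuous h) (hc : HasCompactSupport h) (hfin : μ (tsupport h) ≠ ⊤) :
    Integrable h μ := by
  obtain ⟨c, hcb⟩ := hh.bounded_above_of_compact_support hc
  rw [← integrableOn_iff_integrable_of_support_subset (subset_tsupport h)]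
  exact Measure.integrableOn_of_bounded (M := c) hfin hh.aestronglyMeasurable
    (Eventually.of_forall hcb)

theorem gmt_portmanteau_lower {U : Set (E m)} (hU : IsOpen U) {μ : ℕ → Measure (E m)}
    {μ' : Measure (E m)}
    (hl : ∀ W, IsOpen W → W ⊆ U → μ' W ≤ liminf (fun i => μ i W) atTop) {g : E m → ℝ}
    (hg : Continuous g) (h0 : ∀ x, 0 ≤ g x) (hgU : ∀ x ∉ U, g x = 0) :
    ∫⁻ x, ENNReal.ofReal (g x) ∂μ' ≤
      liminf (fun i => ∫⁻ x, ENNReal.ofReal (g x) ∂(μ i)) atTop := by
  have key := lintegral_le_liminf_lintegral_of_forall_isOpen_measure_le_liminf_measure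
    (μ := μ'.restrict U) (μs := fun i => (μ i).restrict U) hg h0 (fun G hG => by
      simp only [Measure.restrict_apply hG.measurableSet]
      exact hl _ (hG.inter hU) inter_subset_right)
  have e : ∀ ρ : Measure (E m),
      ∫⁻ x in U, ENNReal.ofReal (g x) ∂ρ = ∫⁻ x, ENNReal.ofReal (g x) ∂ρ := fun ρ =>
    setLIntegral_eq_of_support_subset fun x hx => by
      by_contra hxU
      exact hx (by show ENNReal.ofReal (g x) = 0; rw [hgU x hxU, ENNReal.ofReal_zero])
  simpa only [e] using key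

theorem gmt_portmanteau_upper {U : Set (E m)} {μ : ℕ → Measure (E m)}
    {μ' : Measure (E m)} (hf : ∀ K, IsCompact K → K ⊆ U → μ' K ≠ ⊤)
    (hu : ∀ K, IsCompact K → K ⊆ U → limsup (fun i => μ i K) atTop ≤ μ' K) {g : E m → ℝ}
    (hg : Continuous g) (h0 : ∀ x, 0 ≤ g x) (hc : HasCompactSupport g) (hgU : tsupport g ⊆ U) :
    limsup (fun i => ∫⁻ x, ENNReal.ofReal (g x) ∂(μ i)) atTop ≤
      ∫⁻ x, ENNReal.ofReal (g x) ∂μ' := by
  set K := tsupport g with hK
  have hKc : IsCompact K := hc.isCompact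
  obtain ⟨M, hM⟩ := hg.bounded_above_of_compact_support hc
  have hM' : ∀ x, g x ≤ M := fun x => (le_abs_self _).trans (hM x)
  set C : ℝ≥0∞ := μ' K + 1 with hC
  have hCtop : C ≠ ⊤ := ENNReal.add_ne_top.2 ⟨hf K hKc hgU, ENNReal.one_ne_top⟩
  have hev : ∀ᶠ i in atTop, μ i K < C :=
    eventually_lt_of_limsup_lt (lt_of_le_of_lt (hu K hKc hgU)
      (ENNReal.lt_add_right (hf K hKc hgU) one_ne_zero))
  obtain ⟨i₀, hi₀⟩ := eventually_atTop.1 hev
  have hsub : ∀ t : ℝ, 0 < t → {a | t ≤ g a} ⊆ K := fun t ht a ha =>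
    subset_tsupport g (fun h => by
      have : t ≤ g a := ha
      rw [h] at this
      linarith)
  simp_rw [lintegral_eq_lintegral_meas_le _ (Eventually.of_forall h0) hg.aemeasurable]
  rw [← limsup_nat_add _ i₀]
  have hmeas : ∀ n, Measurable fun t : ℝ => μ (n + i₀) {a | t ≤ g a} := fun n =>
    Antitone.measurable fun s t hst => measure_mono fun a ha => le_trans hst ha
  refine (limsup_lintegral_le ((Iic M).indicator fun _ => C) hmeas (fun n => ?_) ?_).trans ?_
  · filter_upwards [ae_restrict_mem measurableSet_Ioi] with t ht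
    by_cases htM : t ≤ M
    · rw [indicator_of_mem (show t ∈ Iic M from htM)]
      exact (measure_mono (hsub t ht)).trans (hi₀ _ (Nat.le_add_left _ _)).le
    · have : {a | t ≤ g a} = ∅ := by
        ext a
        simp only [mem_setOf_eq, mem_empty_iff_false, iff_false, not_le]
        exact lt_of_le_of_lt (hM' a) (not_le.1 htM)
      rw [this, measure_empty]
      exact zero_le
  · rw [lintegral_indicator measurableSet_Iic, setLIntegral_const,
      Measure.restrict_apply measurableSet_Iic]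
    refine ENNReal.mul_ne_top hCtop ?_
    have : Iic M ∩ Ioi 0 = Ioc 0 M := by
      ext t; simp only [mem_inter_iff, mem_Iic, mem_Ioi, mem_Ioc]; tauto
    rw [this, Real.volume_Ioc]
    exact ENNReal.ofReal_ne_top
  · refine setLIntegral_mono' measurableSet_Ioi fun t ht => ?_
    rw [limsup_nat_add (fun i => μ i {a | t ≤ g a}) i₀]
    have hcl : IsClosed {a | t ≤ g a} := isClosed_le continuous_const hg
    exact hu _ (hKc.of_isClosed_subset hcl (hsub t ht)) ((hsub t ht).trans hgU)

theorem gmt_portmanteau {U : Set (E m)} (hU : IsOpen U) {μ : ℕ → Measure (E m)}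
    {μ' : Measure (E m)} (hf : ∀ K, IsCompact K → K ⊆ U → μ' K ≠ ⊤)
    (hl : ∀ W, IsOpen W → W ⊆ U → μ' W ≤ liminf (fun i => μ i W) atTop)
    (hu : ∀ K, IsCompact K → K ⊆ U → limsup (fun i => μ i K) atTop ≤ μ' K) : GmtWk U μ μ' := by
  have key : ∀ h : E m → ℝ, Continuous h → (∀ x, 0 ≤ h x) → HasCompactSupport h →
      tsupport h ⊆ U → Tendsto (fun i => ∫ x, h x ∂(μ i)) atTop (𝓝 (∫ x, h x ∂μ')) := by
    intro h hh h0 hc hhU
    have e : ∀ ρ : Measure (E m), ∫ x, h x ∂ρ = (∫⁻ x, ENNReal.ofReal (h x) ∂ρ).toReal :=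
      fun ρ => integral_eq_lintegral_of_nonneg_ae (Eventually.of_forall h0)
        hh.aestronglyMeasurable
    simp only [e]
    have hfin : ∫⁻ x, ENNReal.ofReal (h x) ∂μ' ≠ ⊤ := by
      have := (gmt_integrable_of_cc hh hc (hf _ hc.isCompact hhU)).2
      rw [hasFiniteIntegral_iff_ofReal (Eventually.of_forall h0)] at this
      exact this.ne
    refine (ENNReal.tendsto_toReal hfin).comp ?_
    exact tendsto_of_le_liminf_of_limsup_le
      (gmt_portmanteau_lower hU hl hh h0 fun x hx =>
        image_eq_zero_of_notMem_tsupport fun hx' => hx (hhU hx'))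
      (gmt_portmanteau_upper hf hu hh h0 hc hhU)
  intro g hg hc hgU
  have hK := hc.isCompact
  have hp := key (fun x => max (g x) 0) (hg.max continuous_const) (fun x => le_max_right _ _)
    (hc.comp_left (g := fun y : ℝ => max y 0) (max_self 0))
    ((tsupport_comp_subset (g := fun y : ℝ => max y 0) (max_self 0) g).trans hgU)
  have hn := key (fun x => max (-g x) 0) (hg.neg.max continuous_const) (fun x => le_max_right _ _)
    (hc.comp_left (g := fun y : ℝ => max (-y) 0) (by simp))
    ((tsupport_comp_subset (g := fun y : ℝ => max (-y) 0) (by simp) g).trans hgU)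
  have split : ∀ ρ : Measure (E m), ρ (tsupport g) ≠ ⊤ →
      ∫ x, g x ∂ρ = ∫ x, max (g x) 0 ∂ρ - ∫ x, max (-g x) 0 ∂ρ := by
    intro ρ hρ
    have i1 : Integrable (fun x => max (g x) 0) ρ :=
      gmt_integrable_of_cc (hg.max continuous_const)
        (hc.comp_left (g := fun y : ℝ => max y 0) (max_self 0))
        (ne_top_of_le_ne_top hρ (measure_mono
          (tsupport_comp_subset (g := fun y : ℝ => max y 0) (max_self 0) g)))
    have i2 : Integrable (fun x => max (-g x) 0) ρ :=
      gmt_integrable_of_cc (hg.neg.max continuous_const)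
        (hc.comp_left (g := fun y : ℝ => max (-y) 0) (by simp))
        (ne_top_of_le_ne_top hρ (measure_mono
          (tsupport_comp_subset (g := fun y : ℝ => max (-y) 0) (by simp) g)))
    rw [← integral_sub i1 i2]
    refine integral_congr_ae (Eventually.of_forall fun x => ?_)
    show g x = max (g x) 0 - max (-g x) 0
    rcases le_total 0 (g x) with h | h
    · rw [max_eq_left h, max_eq_right (by linarith)]; ring
    · rw [max_eq_right h, max_eq_left (by linarith)]; ring
  rw [split μ' (hf _ hK hgU)]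
  refine (hp.sub hn).congr' ?_
  have hev : ∀ᶠ i in atTop, μ i (tsupport g) < μ' (tsupport g) + 1 :=
    eventually_lt_of_limsup_lt (lt_of_le_of_lt (hu _ hK hgU)
      (ENNReal.lt_add_right (hf _ hK hgU) one_ne_zero))
  filter_upwards [hev] with i hi
  exact (split (μ i) (ne_top_of_lt hi)).symm

theorem gmt_measure_le_ofReal_integral {ρ : Measure (E m)} {χ : E m → ℝ} (hχ : Integrable χ ρ)
    (h0 : ∀ x, 0 ≤ χ x) {K : Set (E m)} (hK : MeasurableSet K) (h1 : ∀ x ∈ K, 1 ≤ χ x) :
    ρ K ≤ ENNReal.ofReal (∫ x, χ x ∂ρ) := by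
  rw [ofReal_integral_eq_lintegral_ofReal hχ (Eventually.of_forall h0)]
  calc ρ K = ∫⁻ x, K.indicator 1 x ∂ρ := (lintegral_indicator_one hK).symm
    _ ≤ ∫⁻ x, ENNReal.ofReal (χ x) ∂ρ := by
      refine lintegral_mono fun x => ?_
      by_cases hx : x ∈ K
      · rw [indicator_of_mem hx, Pi.one_apply, ← ENNReal.ofReal_one]
        exact ENNReal.ofReal_le_ofReal (h1 x hx)
      · rw [indicator_of_notMem hx]
        exact zero_le

theorem gmt_ofReal_integral_le_measure {ρ : Measure (E m)} {χ : E m → ℝ} (h1 : ∀ x, χ x ≤ 1)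
    {W : Set (E m)} (hW : MeasurableSet W) (h0 : ∀ x ∉ W, χ x = 0) :
    ENNReal.ofReal (∫ x, χ x ∂ρ) ≤ ρ W := by
  by_cases hχ : Integrable χ ρ
  · refine (gmt_ofReal_integral_le hχ).trans ?_
    calc ∫⁻ x, ENNReal.ofReal (χ x) ∂ρ ≤ ∫⁻ x, W.indicator 1 x ∂ρ := by
          refine lintegral_mono fun x => ?_
          by_cases hx : x ∈ W
          · rw [indicator_of_mem hx, Pi.one_apply, ← ENNReal.ofReal_one]
            exact ENNReal.ofReal_le_ofReal (h1 x)
          · rw [indicator_of_notMem hx, h0 x hx, ENNReal.ofReal_zero]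
      _ = ρ W := lintegral_indicator_one hW
  · rw [integral_undef hχ, ENNReal.ofReal_zero]
    exact zero_le

theorem GmtWk.le_liminf {U : Set (E m)} (hU : IsOpen U) {μ : ℕ → Measure (E m)}
    {μ' : Measure (E m)} (h : GmtWk U μ μ') (hf : ∀ K, IsCompact K → K ⊆ U → μ' K ≠ ⊤)
    (hfi : ∀ i, ∀ K, IsCompact K → K ⊆ U → μ i K ≠ ⊤)
    {W : Set (E m)} (hW : IsOpen W) (hWU : W ⊆ U) : μ' W ≤ liminf (fun i => μ i W) atTop := by
  obtain ⟨K, hK, hKW, hKK, hun⟩ := gmt_exists_exhaustion hW
  have hmono : Monotone K := monotone_nat_of_le_succ fun n => (hKK n).trans interior_subset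
  rw [← hun, hmono.measure_iUnion, hun]
  refine iSup_le fun n => ?_
  obtain ⟨χ, hχs, hχc, hχW, hχ01, hχ1⟩ := gmt_exists_cutoff (hK n) hW (hKW n)
  have ht := h χ hχs.continuous hχc (hχW.trans hWU)
  have h1 : μ' (K n) ≤ ENNReal.ofReal (∫ x, χ x ∂μ') :=
    gmt_measure_le_ofReal_integral
      (gmt_integrable_of_cc hχs.continuous hχc (hf _ hχc.isCompact (hχW.trans hWU)))
      (fun x => (hχ01 x).1) (hK n).measurableSet fun x hx => (hχ1.self_of_nhdsSet x hx).ge
  have h2 : ∀ i, ENNReal.ofReal (∫ x, χ x ∂(μ i)) ≤ μ i W := fun i =>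
    gmt_ofReal_integral_le_measure (fun x => (hχ01 x).2) hW.measurableSet fun x hx =>
      image_eq_zero_of_notMem_tsupport fun hx' => hx (hχW hx')
  calc μ' (K n) ≤ ENNReal.ofReal (∫ x, χ x ∂μ') := h1
    _ = liminf (fun i => ENNReal.ofReal (∫ x, χ x ∂(μ i))) atTop :=
        ((ENNReal.continuous_ofReal.tendsto _).comp ht).liminf_eq.symm
    _ ≤ liminf (fun i => μ i W) atTop := liminf_le_liminf (Eventually.of_forall h2)

theorem GmtWk.limsup_le {U : Set (E m)} (hU : IsOpen U) {μ : ℕ → Measure (E m)}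
    {μ' : Measure (E m)} (h : GmtWk U μ μ') (hf : ∀ K, IsCompact K → K ⊆ U → μ' K ≠ ⊤)
    (hfi : ∀ i, ∀ K, IsCompact K → K ⊆ U → μ i K ≠ ⊤)
    {K : Set (E m)} (hK : IsCompact K) (hKU : K ⊆ U) : limsup (fun i => μ i K) atTop ≤ μ' K := by
  obtain ⟨R, hR, hRU⟩ := hK.exists_cthickening_subset_open hU hKU
  have hfinR : μ' (thickening R K) ≠ ⊤ :=
    ne_top_of_le_ne_top (hf _ hK.cthickening hRU) (measure_mono (thickening_subset_cthickening _ _))
  have ht := tendsto_measure_thickening_of_isClosed ⟨R, hR, hfinR⟩ hK.isClosed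
  refine ge_of_tendsto ht ?_
  filter_upwards [Ioo_mem_nhdsGT hR] with r hr
  have hWU : thickening r K ⊆ U :=
    (thickening_mono hr.2.le K).trans ((thickening_subset_cthickening _ _).trans hRU)
  obtain ⟨χ, hχs, hχc, hχW, hχ01, hχ1⟩ :=
    gmt_exists_cutoff hK isOpen_thickening (self_subset_thickening hr.1 K)
  have ht' := h χ hχs.continuous hχc (hχW.trans hWU)
  have h1 : ∀ i, μ i K ≤ ENNReal.ofReal (∫ x, χ x ∂(μ i)) := fun i =>
    gmt_measure_le_ofReal_integral
      (gmt_integrable_of_cc hχs.continuous hχc (hfi i _ hχc.isCompact (hχW.trans hWU)))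
      (fun x => (hχ01 x).1) hK.measurableSet fun x hx => (hχ1.self_of_nhdsSet x hx).ge
  have h2 : ENNReal.ofReal (∫ x, χ x ∂μ') ≤ μ' (thickening r K) :=
    gmt_ofReal_integral_le_measure (fun x => (hχ01 x).2) isOpen_thickening.measurableSet
      fun x hx => image_eq_zero_of_notMem_tsupport fun hx' => hx (hχW hx')
  calc limsup (fun i => μ i K) atTop
      ≤ limsup (fun i => ENNReal.ofReal (∫ x, χ x ∂(μ i))) atTop :=
        limsup_le_limsup (Eventually.of_forall h1)
    _ = ENNReal.ofReal (∫ x, χ x ∂μ') :=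
        ((ENNReal.continuous_ofReal.tendsto _).comp ht').limsup_eq
    _ ≤ μ' (thickening r K) := h2

theorem GmtWk.tendsto_measure {U : Set (E m)} (hU : IsOpen U) {μ : ℕ → Measure (E m)}
    {μ' : Measure (E m)} (h : GmtWk U μ μ') (hf : ∀ K, IsCompact K → K ⊆ U → μ' K ≠ ⊤)
    (hfi : ∀ i, ∀ K, IsCompact K → K ⊆ U → μ i K ≠ ⊤)
    {B : Set (E m)} (hB : MeasurableSet B) (hBc : IsCompact (closure B)) (hBU : closure B ⊆ U)
    (h0 : μ' (frontier B) = 0) : Tendsto (fun i => μ i B) atTop (𝓝 (μ' B)) := by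
  have hci : μ' (closure B) ≤ μ' (interior B) := by
    rw [closure_eq_interior_union_frontier]
    refine (measure_union_le _ _).trans ?_
    rw [h0, add_zero]
  refine tendsto_of_le_liminf_of_limsup_le ?_ ?_
  · calc μ' B ≤ μ' (closure B) := measure_mono subset_closure
      _ ≤ μ' (interior B) := hci
      _ ≤ liminf (fun i => μ i (interior B)) atTop :=
          h.le_liminf hU hf hfi isOpen_interior ((interior_subset.trans subset_closure).trans hBU)
      _ ≤ liminf (fun i => μ i B) atTop :=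
          liminf_le_liminf (Eventually.of_forall fun i => measure_mono interior_subset)
  · calc limsup (fun i => μ i B) atTop ≤ limsup (fun i => μ i (closure B)) atTop :=
          limsup_le_limsup (Eventually.of_forall fun i => measure_mono subset_closure)
      _ ≤ μ' (closure B) := h.limsup_le hU hf hfi hBc hBU
      _ ≤ μ' (interior B) := hci
      _ ≤ μ' B := measure_mono interior_subset

end Claimed.Agent.Gmt
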