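import Claimed.Agent.Lib.Gmt.GgConvA

/-!
# Lib/Gmt [GgConvB = part 2/3 of the former GgConv] G0c: convergence of Gauss-Green measures.   (architect: helper75)

`GmtWk U μ μ'`: weak-* convergence in `U` (test functions `C_c(U)`).

PLAN OF PROOFS
* `gmt_portmanteau`: layer-cake / standard: for `g ∈ C_c(U)`, `0 ≤ g ≤ 1`, `∫ g dμ = ∫_0^1 μ{g > t} dt = ∫_0^1 μ{g ≥ t} dt`; Fatou in both directions
  (`{g > t}` open in `U`, `{g ≥ t}` compact in `U` for `t > 0`).
* `gmt_gg_tendsto`: for `T ∈ C¹_c(U)` it is the definition (`∫_{S_i} div T → ∫_{S'} div T`); for continuous `T` approximate uniformly by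
  `gmtMolV ε T` with supports in a fixed compact set and use the uniform mass bound.
* `gmt_reshetnyak`: paper P, App. B l.470-490.  Approximate `ν'` in `L²(μ'|_K)` by a continuous field `e`; expand
  `∫ φ |ν_i - e|² dμ_i = ∫ φ (1 + |e|²) dμ_i - 2 ∫ φ e·ν_i dμ_i → ∫ φ |ν' - e|² dμ'`; uniform continuity of `F` on `K × closedBall 0 2`.
* `gmt_exc_lsc`: `∫_W (1 - ν·e) dμ = sup { ∫_S div (T - φ e) : φ ∈ C¹_c(W;[0,1]), T ∈ C¹_c(W), |T| ≤ φ }`; every member is continuous in `S`.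
-/

set_option autoImplicit false
open scoped ContDiff ENNReal RealInnerProductSpace Topology
open MeasureTheory Metric Set Filter

namespace Claimed.Agent.Gmt

variable {m : ℕ}

/-- a bounded measurable function which vanishes off a set of finite measure is integrable. -/
theorem gmt_integrable_of_bdd_supp {μ : Measure (E m)} {f : E m → ℝ} (hf : Measurable f)
    {K : Set (E m)} (hμK : μ K ≠ ⊤) {C : ℝ} (hC : ∀ x, |f x| ≤ C) (h0 : ∀ x ∉ K, f x = 0) :
    Integrable f μ := by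
  have hs : Function.support f ⊆ K := fun x hx => by
    by_contra h
    exact hx (h0 x h)
  rw [← integrableOn_iff_integrable_of_support_subset hs]
  exact Measure.integrableOn_of_bounded (M := C) hμK hf.aestronglyMeasurable
    (Eventually.of_forall hC)

/-- the integral of a function bounded by `C` which vanishes off `K`. -/
theorem gmt_abs_integral_le_of_bdd_supp {μ : Measure (E m)} {f : E m → ℝ}
    {K : Set (E m)} (hμK : μ K ≠ ⊤) {C : ℝ} (hC : ∀ x, |f x| ≤ C) (h0 : ∀ x ∉ K, f x = 0) :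
    |∫ x, f x ∂μ| ≤ C * μ.real K := by
  rw [← setIntegral_eq_integral_of_forall_compl_eq_zero h0, ← Real.norm_eq_abs]
  exact norm_setIntegral_le_of_norm_le_const hμK.lt_top fun x _ => hC x

/-- convergence of the integrals over `S i` of a continuous function with compact support. -/
theorem GmtConv.tendsto_setIntegral {U : Set (E m)} {S : ℕ → Set (E m)} {S' : Set (E m)}
    (hS : ∀ i, MeasurableSet (S i)) (hS' : MeasurableSet S') (hc : GmtConv U S S')
    {g : E m → ℝ} (hg : Continuous g) (hgc : HasCompactSupport g) (hgU : tsupport g ⊆ U) :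
    Tendsto (fun i => ∫ x in S i, g x) atTop (𝓝 (∫ x in S', g x)) := by
  have := GmtConvF.tendsto_integral
    (fun i => (gmtChi_locallyIntegrable (hS i)).locallyIntegrableOn U)
    ((gmtChi_locallyIntegrable hS').locallyIntegrableOn U) ((gmtConvF_chi hS hS').2 hc) hg hgc hgU
  simpa only [integral_gmtChi_mul (hS _), integral_gmtChi_mul hS'] using this

theorem gmtLF_of_gmtP_ne_top {S W : Set (E m)} (hS : MeasurableSet S) (h : gmtP S W ≠ ⊤) :
    GmtLF S W :=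
  ⟨hS, fun W' hW' => ne_top_of_le_ne_top h (gmtPer_mono _ S (subset_closure.trans hW'.2.2))⟩

theorem GmtBddPer.limit_le {U : Set (E m)} {S : ℕ → Set (E m)} {S' : Set (E m)}
    (hS : ∀ i, MeasurableSet (S i)) (hS' : MeasurableSet S') (hc : GmtConv U S S')
    {W : Set (E m)} (hW : GmtCC W U) {C : ℝ≥0∞} (hC : ∀ᶠ i in atTop, gmtP (S i) W ≤ C) :
    gmtP S' W ≤ C := by
  refine (gmtP_lsc hW.1 hS hS' (hc.mono (subset_closure.trans hW.2.2))).trans ?_
  exact liminf_le_of_frequently_le' hC.frequently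

theorem GmtBddPer.lf_limit {U : Set (E m)} (hU : IsOpen U) {S : ℕ → Set (E m)} {S' : Set (E m)}
    (hS : ∀ i, MeasurableSet (S i)) (hS' : MeasurableSet S') (hc : GmtConv U S S')
    (hb : GmtBddPer U S) : GmtLF S' U := by
  refine ⟨hS', fun W hW => ?_⟩
  obtain ⟨C, hC, hev⟩ := hb W hW
  exact ne_top_of_le_ne_top hC (GmtBddPer.limit_le hS hS' hc hW hev)

/-- the vector measures always converge. -/
theorem gmt_gg_tendsto {U : Set (E m)} (hU : IsOpen U) {S : ℕ → Set (E m)} {S' : Set (E m)}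
    (hS : ∀ i, MeasurableSet (S i)) (hS' : MeasurableSet S') (hc : GmtConv U S S')
    (hb : GmtBddPer U S) {T : E m → E m} (hT : Continuous T) (hTc : HasCompactSupport T)
    (hTU : tsupport T ⊆ U) :
    Tendsto (fun i => ∫ x, ⟪T x, gmtNu (S i) x⟫ ∂(gmtMu (S i))) atTop
      (𝓝 (∫ x, ⟪T x, gmtNu S' x⟫ ∂(gmtMu S'))) := by
  have hK : IsCompact (tsupport T) := hTc.isCompact
  obtain ⟨W, hWcc, hKW⟩ := gmt_exists_cc hK hU hTU
  obtain ⟨C, hCtop, hev⟩ := hb W hWcc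
  have hWo := hWcc.1
  have hWU : W ⊆ U := subset_closure.trans hWcc.2.2
  have hlim : gmtP S' W ≤ C := GmtBddPer.limit_le hS hS' hc hWcc hev
  obtain ⟨K', hK', hKK', hK'W⟩ := exists_compact_between hK hWo hKW
  obtain ⟨c, hc0⟩ := hT.bounded_above_of_compact_support hTc
  rw [Metric.tendsto_nhds]
  intro ε hε
  have hden : 0 < 4 * (C.toReal + 1) := by have := ENNReal.toReal_nonneg (a := C); positivity
  set δ : ℝ := ε / (4 * (C.toReal + 1)) with hδ
  have hδ0 : 0 < δ := div_pos hε hden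
  have hδC : δ * C.toReal ≤ ε / 4 := by
    rw [hδ, div_mul_eq_mul_div, div_le_div_iff₀ hden (by norm_num)]
    have := ENNReal.toReal_nonneg (a := C)
    nlinarith
  obtain ⟨Tδ, hs, hcs, hsK', hd, -⟩ := gmt_exists_approx hK' hKK' hT subset_rfl hc0 hδ0
  have hTδ : GmtTest W Tδ := ⟨hs.of_le (by exact_mod_cast le_top), hcs, hsK'.trans hK'W⟩
  have hTK' : tsupport T ⊆ K' := hKK'.trans interior_subset
  have diff : ∀ Q : Set (E m), MeasurableSet Q → gmtP Q W ≤ C →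
      |∫ x, ⟪T x, gmtNu Q x⟫ ∂(gmtMu Q) - ∫ x in Q, gmtDiv Tδ x| ≤ δ * C.toReal := by
    intro Q hQ hQC
    have hQtop : gmtP Q W ≠ ⊤ := ne_top_of_le_ne_top hCtop hQC
    have hμK' : gmtMu Q K' ≤ C := by
      calc gmtMu Q K' ≤ gmtMu Q W := measure_mono hK'W
        _ = gmtP Q W := gmtMu_open Q hWo
        _ ≤ C := hQC
    have hμK'top : gmtMu Q K' ≠ ⊤ := ne_top_of_le_ne_top hCtop hμK'
    rw [gmt_gauss_green hWo (gmtLF_of_gmtP_ne_top hQ hQtop) hTδ]
    have hin : ∀ (R : E m → E m) (b : ℝ), Continuous R → tsupport R ⊆ K' → (∀ x, ‖R x‖ ≤ b) →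
        (∀ x, |⟪R x, gmtNu Q x⟫| ≤ b) ∧ (∀ x ∉ K', ⟪R x, gmtNu Q x⟫ = 0) ∧
          Measurable fun x => ⟪R x, gmtNu Q x⟫ := by
      intro R b hR hRK' hRb
      refine ⟨fun x => ?_, fun x hx => ?_, hR.measurable.inner (measurable_gmtNu Q)⟩
      · calc |⟪R x, gmtNu Q x⟫| ≤ ‖R x‖ * ‖gmtNu Q x‖ := abs_real_inner_le_norm _ _
          _ ≤ b * 1 := mul_le_mul (hRb x) (norm_gmtNu_le_one Q x) (norm_nonneg _)
              ((norm_nonneg _).trans (hRb x))
          _ = b := mul_one b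
      · rw [image_eq_zero_of_notMem_tsupport (fun h => hx (hRK' h)), inner_zero_left]
    obtain ⟨a1, a2, a3⟩ := hin T c hT hTK' hc0
    obtain ⟨cδ, hcδ⟩ := hs.continuous.bounded_above_of_compact_support hcs
    obtain ⟨b1, b2, b3⟩ := hin Tδ cδ hs.continuous hsK' hcδ
    rw [← integral_sub (gmt_integrable_of_bdd_supp a3 hμK'top a1 a2)
      (gmt_integrable_of_bdd_supp b3 hμK'top b1 b2)]
    have e : ∀ x, ⟪T x, gmtNu Q x⟫ - ⟪Tδ x, gmtNu Q x⟫ = ⟪T x - Tδ x, gmtNu Q x⟫ := fun x =>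
      (inner_sub_left _ _ _).symm
    simp only [e]
    have hsub : tsupport (fun x => T x - Tδ x) ⊆ K' := by
      refine closure_minimal (fun x hx => ?_) hK'.isClosed
      by_contra hxK
      exact hx (by
        show T x - Tδ x = 0
        rw [image_eq_zero_of_notMem_tsupport (fun h => hxK (hTK' h)),
          image_eq_zero_of_notMem_tsupport (fun h => hxK (hsK' h)), sub_zero])
    obtain ⟨d1, d2, -⟩ := hin (fun x => T x - Tδ x) δ (hT.sub hs.continuous) hsub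
      (fun x => by rw [norm_sub_rev]; exact hd x)
    refine (gmt_abs_integral_le_of_bdd_supp hμK'top d1 d2).trans ?_
    exact mul_le_mul_of_nonneg_left (ENNReal.toReal_mono hCtop hμK') hδ0.le
  obtain ⟨hdc, hdcs, hdW⟩ := continuous_gmtDiv hTδ
  have hconv := GmtConv.tendsto_setIntegral hS hS' hc hdc hdcs (hdW.trans hWU)
  rw [Metric.tendsto_nhds] at hconv
  filter_upwards [hev, hconv (ε / 2) (by positivity)] with i hi hi2
  have h1 := diff (S i) (hS i) hi
  have h2 := diff S' hS' hlim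
  rw [Real.dist_eq] at hi2 ⊢
  have h3 := abs_le.1 h1
  have h4 := abs_le.1 h2
  have h5 := abs_lt.1 hi2
  rw [abs_lt]
  constructor <;> linarith [h3.1, h3.2, h4.1, h4.2, h5.1, h5.2]

/-- uniform continuity of `F` on `K × closedBall 0 1` in quadratic form. -/
theorem gmt_resh_pointwise {F : E m → E m → ℝ} (hF : Continuous fun p : E m × E m => F p.1 p.2)
    {K : Set (E m)} (hK : IsCompact K) {η : ℝ} (hη : 0 < η) :
    ∃ c M : ℝ, 0 ≤ c ∧ (∀ x ∈ K, ∀ ξ : E m, ‖ξ‖ ≤ 1 → |F x ξ| ≤ M) ∧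
      ∀ x ∈ K, ∀ ξ ξ' : E m, ‖ξ‖ ≤ 1 → ‖ξ'‖ ≤ 1 → |F x ξ - F x ξ'| ≤ η + c * ‖ξ - ξ'‖ ^ 2 := by
  set P : Set (E m × E m) := K ×ˢ closedBall (0 : E m) 1 with hP
  have hPc : IsCompact P := hK.prod (isCompact_closedBall 0 1)
  have huc := hPc.uniformContinuousOn_of_continuous hF.continuousOn
  obtain ⟨δ, hδ, hd⟩ := Metric.uniformContinuousOn_iff.1 huc η hη
  obtain ⟨M, hM⟩ := hPc.exists_bound_of_continuousOn hF.continuousOn
  have hmem : ∀ x ∈ K, ∀ ξ : E m, ‖ξ‖ ≤ 1 → (x, ξ) ∈ P := fun x hx ξ hξ =>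
    ⟨hx, by rw [mem_closedBall, dist_zero_right]; exact hξ⟩
  have hM' : ∀ x ∈ K, ∀ ξ : E m, ‖ξ‖ ≤ 1 → |F x ξ| ≤ M := fun x hx ξ hξ => hM _ (hmem x hx ξ hξ)
  refine ⟨2 * |M| / δ ^ 2, M, by positivity, hM', fun x hx ξ ξ' hξ hξ' => ?_⟩
  by_cases hlt : ‖ξ - ξ'‖ < δ
  · have h1 := hd (x, ξ) (hmem x hx ξ hξ) (x, ξ') (hmem x hx ξ' hξ') (by
      rw [Prod.dist_eq, dist_self, dist_eq_norm]
      exact max_lt hδ hlt)
    rw [Real.dist_eq] at h1
    have : 0 ≤ 2 * |M| / δ ^ 2 * ‖ξ - ξ'‖ ^ 2 := by positivity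
    linarith
  · have hge : δ ≤ ‖ξ - ξ'‖ := not_lt.1 hlt
    have h1 : |F x ξ - F x ξ'| ≤ 2 * |M| := by
      have a1 := (hM' x hx ξ hξ).trans (le_abs_self M)
      have a2 := (hM' x hx ξ' hξ').trans (le_abs_self M)
      calc |F x ξ - F x ξ'| ≤ |F x ξ| + |F x ξ'| := abs_sub _ _
        _ ≤ 2 * |M| := by linarith
    have h2 : 2 * |M| ≤ 2 * |M| / δ ^ 2 * ‖ξ - ξ'‖ ^ 2 := by
      rw [div_mul_eq_mul_div, le_div_iff₀ (by positivity)]
      exact mul_le_mul_of_nonneg_left (pow_le_pow_left₀ hδ.le hge 2) (by positivity)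
    linarith

/-- data of the Reshetnyak argument: a cut-off `φ` and a continuous field `e` in the unit ball. -/
structure GmtResh (U : Set (E m)) (φ : E m → ℝ) (e : E m → E m) : Prop where
  φc : Continuous φ
  φs : HasCompactSupport φ
  φU : tsupport φ ⊆ U
  φ01 : ∀ x, φ x ∈ Icc (0 : ℝ) 1
  ec : Continuous e
  e1 : ∀ x, ‖e x‖ ≤ 1

theorem GmtResh.integrable {U : Set (E m)} (hU : IsOpen U) {φ : E m → ℝ} {e : E m → E m}
    (h : GmtResh U φ e) {Q : Set (E m)} (hQ : GmtLF Q U) {f : E m → ℝ} (hf : Measurable f)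
    {C : ℝ} (hC : ∀ x, |f x| ≤ C) : Integrable (fun x => φ x * f x) (gmtMu Q) := by
  refine gmt_integrable_of_bdd_supp (h.φc.measurable.mul hf) (K := tsupport φ)
    (gmtMu_compact_ne_top hU hQ h.φs.isCompact h.φU) (C := C) (fun x => ?_) fun x hx => ?_
  · rw [abs_mul, abs_of_nonneg (h.φ01 x).1]
    calc φ x * |f x| ≤ 1 * |f x| := mul_le_mul_of_nonneg_right (h.φ01 x).2 (abs_nonneg _)
      _ ≤ C := by rw [one_mul]; exact hC x
  · rw [image_eq_zero_of_notMem_tsupport hx, zero_mul]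

theorem GmtResh.norm_sub_le {U : Set (E m)} {φ : E m → ℝ} {e : E m → E m}
    (h : GmtResh U φ e) (Q : Set (E m)) (x : E m) : ‖gmtNu Q x - e x‖ ≤ 2 := by
  calc ‖gmtNu Q x - e x‖ ≤ ‖gmtNu Q x‖ + ‖e x‖ := _root_.norm_sub_le _ _
    _ ≤ 1 + 1 := add_le_add (norm_gmtNu_le_one Q x) (h.e1 x)
    _ = 2 := by norm_num

theorem GmtResh.integrable_sq {U : Set (E m)} (hU : IsOpen U) {φ : E m → ℝ} {e : E m → E m}
    (h : GmtResh U φ e) {Q : Set (E m)} (hQ : GmtLF Q U) :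
    Integrable (fun x => φ x * ‖gmtNu Q x - e x‖ ^ 2) (gmtMu Q) :=
  h.integrable hU hQ (f := fun x => ‖gmtNu Q x - e x‖ ^ 2)
    (((measurable_gmtNu Q).sub h.ec.measurable).norm.pow_const 2) (C := 4) fun x => by
      have := h.norm_sub_le Q x
      have h0 := norm_nonneg (gmtNu Q x - e x)
      rw [abs_of_nonneg (by positivity)]
      nlinarith

theorem GmtResh.expand {U : Set (E m)} (hU : IsOpen U) {φ : E m → ℝ} {e : E m → E m}
    (h : GmtResh U φ e) {Q : Set (E m)} (hQ : GmtLF Q U) :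
    ∫ x, φ x * ‖gmtNu Q x - e x‖ ^ 2 ∂(gmtMu Q) =
      ∫ x, φ x * (1 + ‖e x‖ ^ 2) ∂(gmtMu Q) - 2 * ∫ x, ⟪φ x • e x, gmtNu Q x⟫ ∂(gmtMu Q) := by
  have i1 : Integrable (fun x => φ x * (1 + ‖e x‖ ^ 2)) (gmtMu Q) :=
    h.integrable hU hQ (measurable_const.add (h.ec.measurable.norm.pow_const 2)) (C := 2)
      fun x => by
        have := h.e1 x
        have h0 := norm_nonneg (e x)
        rw [abs_of_nonneg (by positivity)]
        nlinarith
  have i2 : Integrable (fun x => φ x * ⟪e x, gmtNu Q x⟫) (gmtMu Q) :=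
    h.integrable hU hQ (h.ec.measurable.inner (measurable_gmtNu Q)) (C := 1) fun x => by
      calc |⟪e x, gmtNu Q x⟫| ≤ ‖e x‖ * ‖gmtNu Q x‖ := abs_real_inner_le_norm _ _
        _ ≤ 1 * 1 := mul_le_mul (h.e1 x) (norm_gmtNu_le_one Q x) (norm_nonneg _) zero_le_one
        _ = 1 := one_mul 1
  simp only [real_inner_smul_left]
  rw [← integral_const_mul, ← integral_sub i1 (i2.const_mul 2)]
  refine integral_congr_ae ?_
  filter_upwards [(ae_restrict_iff' hU.measurableSet).1 (norm_gmtNu_ae hU hQ)] with x hx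
  by_cases hxU : x ∈ U
  · rw [norm_sub_sq_real, hx hxU, real_inner_comm]
    ring
  · rw [image_eq_zero_of_notMem_tsupport (fun hx' => hxU (h.φU hx'))]
    ring

theorem GmtResh.single {U : Set (E m)} (hU : IsOpen U) {φ : E m → ℝ} {e : E m → E m}
    (h : GmtResh U φ e) {Q : Set (E m)} (hQ : GmtLF Q U) {F : E m → E m → ℝ}
    (hF : Continuous fun p : E m × E m => F p.1 p.2) {K : Set (E m)} (hK : IsCompact K)
    (hKU : K ⊆ U) (hFK : ∀ x ∉ K, ∀ ξ, F x ξ = 0) (hφ1 : ∀ x ∈ K, φ x = 1) {η c M : ℝ}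
    (hη : 0 ≤ η) (hc : 0 ≤ c) (hM : ∀ x ∈ K, ∀ ξ : E m, ‖ξ‖ ≤ 1 → |F x ξ| ≤ M)
    (hpt : ∀ x ∈ K, ∀ ξ ξ' : E m, ‖ξ‖ ≤ 1 → ‖ξ'‖ ≤ 1 →
      |F x ξ - F x ξ'| ≤ η + c * ‖ξ - ξ'‖ ^ 2) :
    |∫ x, F x (gmtNu Q x) ∂(gmtMu Q) - ∫ x, F x (e x) ∂(gmtMu Q)| ≤
      η * ∫ x, φ x ∂(gmtMu Q) + c * ∫ x, φ x * ‖gmtNu Q x - e x‖ ^ 2 ∂(gmtMu Q) := by
  have hμK : gmtMu Q K ≠ ⊤ := gmtMu_compact_ne_top hU hQ hK hKU
  have hint : ∀ v : E m → E m, Measurable v → (∀ x, ‖v x‖ ≤ 1) →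
      Integrable (fun x => F x (v x)) (gmtMu Q) := by
    intro v hv hv1
    refine gmt_integrable_of_bdd_supp (hF.measurable.comp (measurable_id.prodMk hv)) hμK
      (C := |M|) (fun x => ?_) fun x hx => hFK x hx _
    by_cases hx : x ∈ K
    · exact (hM x hx _ (hv1 x)).trans (le_abs_self M)
    · rw [hFK x hx, abs_zero]; exact abs_nonneg M
  have i1 := hint _ (measurable_gmtNu Q) (norm_gmtNu_le_one Q)
  have i2 := hint _ h.ec.measurable h.e1
  have i3 : Integrable (fun x => φ x * 1) (gmtMu Q) :=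
    h.integrable hU hQ measurable_const (C := 1) fun x => by simp
  have i4 := h.integrable_sq hU hQ
  simp only [mul_one] at i3
  rw [← integral_sub i1 i2, ← integral_const_mul, ← integral_const_mul,
    ← integral_add (i3.const_mul η) (i4.const_mul c)]
  refine (abs_integral_le_integral_abs).trans ?_
  refine integral_mono (i1.sub i2).abs ((i3.const_mul η).add (i4.const_mul c)) fun x => ?_
  show |F x (gmtNu Q x) - F x (e x)| ≤ η * φ x + c * (φ x * ‖gmtNu Q x - e x‖ ^ 2)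
  by_cases hx : x ∈ K
  · rw [hφ1 x hx, mul_one, one_mul]
    exact hpt x hx _ _ (norm_gmtNu_le_one Q x) (h.e1 x)
  · rw [hFK x hx, hFK x hx, sub_self, abs_zero]
    have := (h.φ01 x).1
    positivity

/-- weak convergence of the masses bounds the perimeters locally. -/
theorem GmtWk.bddPer {U : Set (E m)} (hU : IsOpen U) {S : ℕ → Set (E m)} {S' : Set (E m)}
    (hS : ∀ i, GmtLF (S i) U) (hS' : GmtLF S' U)
    (hw : GmtWk U (fun i => gmtMu (S i)) (gmtMu S')) : GmtBddPer U S := by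
  intro W hW
  have hfin := gmtMu_compact_ne_top hU hS' hW.2.1 hW.2.2
  refine ⟨gmtMu S' (closure W) + 1, ENNReal.add_ne_top.2 ⟨hfin, ENNReal.one_ne_top⟩, ?_⟩
  have h1 := hw.limsup_le hU (fun K hK hKU => gmtMu_compact_ne_top hU hS' hK hKU)
    (fun i K hK hKU => gmtMu_compact_ne_top hU (hS i) hK hKU) hW.2.1 hW.2.2
  filter_upwards [eventually_lt_of_limsup_lt
    (lt_of_le_of_lt h1 (ENNReal.lt_add_right hfin one_ne_zero))] with i hi
  calc gmtP (S i) W = gmtMu (S i) W := (gmtMu_open _ hW.1).symm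
    _ ≤ gmtMu (S i) (closure W) := measure_mono subset_closure
    _ ≤ _ := hi.le

/-- RESHETNYAK CONTINUITY: convergence of the masses implies convergence of all integrands. -/
theorem gmt_reshetnyak {U : Set (E m)} (hU : IsOpen U) {S : ℕ → Set (E m)} {S' : Set (E m)}
    (hS : ∀ i, GmtLF (S i) U) (hS' : GmtLF S' U) (hc : GmtConv U S S')
    (hw : GmtWk U (fun i => gmtMu (S i)) (gmtMu S')) {F : E m → E m → ℝ}
    (hF : Continuous fun p : E m × E m => F p.1 p.2) {K : Set (E m)} (hK : IsCompact K)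
    (hKU : K ⊆ U) (hFK : ∀ x ∉ K, ∀ ξ, F x ξ = 0) :
    Tendsto (fun i => ∫ x, F x (gmtNu (S i) x) ∂(gmtMu (S i))) atTop
      (𝓝 (∫ x, F x (gmtNu S' x) ∂(gmtMu S'))) := by
  have hb : GmtBddPer U S := hw.bddPer hU hS hS'
  obtain ⟨φ, hφs, hφc, hφU, hφ01, hφ1⟩ := gmt_exists_cutoff hK hU hKU
  have hφ1' : ∀ x ∈ K, φ x = 1 := fun x hx => hφ1.self_of_nhdsSet x hx
  rw [Metric.tendsto_nhds]
  intro ε hε
  set Φ : ℝ := ∫ x, φ x ∂(gmtMu S') with hΦ
  have hΦ0 : 0 ≤ Φ := integral_nonneg fun x => (hφ01 x).1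
  set η : ℝ := ε / (8 * (Φ + 1)) with hη
  have hη0 : 0 < η := by positivity
  obtain ⟨c, M, hc0, hM, hpt⟩ := gmt_resh_pointwise hF hK hη0
  set ε₁ : ℝ := ε / (16 * (c + 1)) with hε₁
  have hε₁0 : 0 < ε₁ := by positivity
  have hK₁fin : gmtMu S' (tsupport φ) ≠ ⊤ := gmtMu_compact_ne_top hU hS' hφc.isCompact hφU
  obtain ⟨e, he, he1, hee⟩ := gmt_exists_approx_field hU hφc.isCompact hφU hK₁fin
    (measurable_gmtNu S') (norm_gmtNu_le_one S') hε₁0
  have hR : GmtResh U φ e := ⟨hφs.continuous, hφc, hφU, hφ01, he.c1.continuous, he1⟩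
  -- the four convergent sequences
  have hp : Tendsto (fun i => ∫ x, φ x ∂(gmtMu (S i))) atTop (𝓝 Φ) :=
    hw φ hφs.continuous hφc hφU
  have hD : Tendsto (fun i => ∫ x, φ x * ‖gmtNu (S i) x - e x‖ ^ 2 ∂(gmtMu (S i))) atTop
      (𝓝 (∫ x, φ x * ‖gmtNu S' x - e x‖ ^ 2 ∂(gmtMu S'))) := by
    simp only [fun i => hR.expand hU (hS i), hR.expand hU hS']
    refine Tendsto.sub ?_ (Tendsto.const_mul 2 ?_)
    · exact hw _ (hφs.continuous.mul (continuous_const.add (he.c1.continuous.norm.pow 2)))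
        hφc.mul_right ((tsupport_mul_subset_left).trans hφU)
    · exact gmt_gg_tendsto hU (fun i => (hS i).1) hS'.1 hc hb
        (hφs.continuous.smul he.c1.continuous) hφc.smul_right
        ((gmt_tsupport_smul_subset_left φ e).trans hφU)
  have hGs : tsupport (fun x => F x (e x)) ⊆ K :=
    closure_minimal (fun x hx => by
      by_contra hxK
      exact hx (hFK x hxK _)) hK.isClosed
  have hGc : Continuous fun x => F x (e x) :=
    hF.comp (continuous_id.prodMk he.c1.continuous)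
  have hG : Tendsto (fun i => ∫ x, F x (e x) ∂(gmtMu (S i))) atTop
      (𝓝 (∫ x, F x (e x) ∂(gmtMu S'))) :=
    hw _ hGc (hK.of_isClosed_subset (isClosed_tsupport _) hGs) (hGs.trans hKU)
  -- the limit defect is small
  set D' : ℝ := ∫ x, φ x * ‖gmtNu S' x - e x‖ ^ 2 ∂(gmtMu S') with hD'
  have hD'le : D' ≤ 2 * ε₁ := by
    have e1 : D' = ∫ x in tsupport φ, φ x * ‖gmtNu S' x - e x‖ ^ 2 ∂(gmtMu S') :=
      (setIntegral_eq_integral_of_forall_compl_eq_zero fun x hx => by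
        rw [image_eq_zero_of_notMem_tsupport hx, zero_mul]).symm
    have hfinm : IsFiniteMeasure ((gmtMu S').restrict (tsupport φ)) := ⟨by
      rw [Measure.restrict_apply MeasurableSet.univ, univ_inter]; exact hK₁fin.lt_top⟩
    have hm1 : Measurable fun x => ‖e x - gmtNu S' x‖ :=
      (he.c1.continuous.measurable.sub (measurable_gmtNu S')).norm
    have j2 : Integrable (fun x => ‖e x - gmtNu S' x‖) ((gmtMu S').restrict (tsupport φ)) :=
      Integrable.of_bound hm1.aestronglyMeasurable 2 (Eventually.of_forall fun x => by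
        rw [norm_norm, norm_sub_rev]; exact hR.norm_sub_le S' x)
    have j1 : Integrable (fun x => φ x * ‖gmtNu S' x - e x‖ ^ 2)
        ((gmtMu S').restrict (tsupport φ)) :=
      (hR.integrable_sq hU hS').restrict
    rw [e1]
    calc ∫ x in tsupport φ, φ x * ‖gmtNu S' x - e x‖ ^ 2 ∂(gmtMu S')
        ≤ ∫ x in tsupport φ, 2 * ‖e x - gmtNu S' x‖ ∂(gmtMu S') := by
          refine integral_mono j1 (j2.const_mul 2) fun x => ?_
          show φ x * ‖gmtNu S' x - e x‖ ^ 2 ≤ 2 * ‖e x - gmtNu S' x‖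
          have a1 := hR.norm_sub_le S' x
          have a0 := norm_nonneg (gmtNu S' x - e x)
          rw [norm_sub_rev (e x)]
          have a2 := (hφ01 x).2
          have a3 := (hφ01 x).1
          calc φ x * ‖gmtNu S' x - e x‖ ^ 2 ≤ 1 * ‖gmtNu S' x - e x‖ ^ 2 :=
                mul_le_mul_of_nonneg_right a2 (by positivity)
            _ ≤ 2 * ‖gmtNu S' x - e x‖ := by nlinarith
      _ = 2 * ∫ x in tsupport φ, ‖e x - gmtNu S' x‖ ∂(gmtMu S') := integral_const_mul _ _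
      _ ≤ 2 * ε₁ := mul_le_mul_of_nonneg_left hee zero_le_two
  have hD'0 : 0 ≤ D' := integral_nonneg fun x => mul_nonneg (hφ01 x).1 (by positivity)
  have hsmall : (η * Φ + c * D') + 0 + (η * Φ + c * D') < ε := by
    have b1 : η * Φ ≤ ε / 8 := by
      rw [hη, div_mul_eq_mul_div, div_le_div_iff₀ (by positivity) (by norm_num)]
      nlinarith
    have b2 : c * D' ≤ ε / 8 := by
      have : c * D' ≤ c * (2 * ε₁) := mul_le_mul_of_nonneg_left hD'le hc0
      refine this.trans ?_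
      rw [hε₁, mul_div_assoc', mul_div_assoc', div_le_div_iff₀ (by positivity) (by norm_num)]
      nlinarith
    linarith
  have hlim : Tendsto (fun i => (η * ∫ x, φ x ∂(gmtMu (S i)) +
      c * ∫ x, φ x * ‖gmtNu (S i) x - e x‖ ^ 2 ∂(gmtMu (S i))) +
      |∫ x, F x (e x) ∂(gmtMu (S i)) - ∫ x, F x (e x) ∂(gmtMu S')| + (η * Φ + c * D')) atTop
      (𝓝 ((η * Φ + c * D') + 0 + (η * Φ + c * D'))) := by
    refine Tendsto.add (Tendsto.add ((hp.const_mul η).add (hD.const_mul c)) ?_) tendsto_const_nhds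
    have := (hG.sub_const (∫ x, F x (e x) ∂(gmtMu S'))).abs
    rwa [sub_self, abs_zero] at this
  filter_upwards [hlim.eventually_lt_const hsmall] with i hi
  have s1 := hR.single hU (hS i) hF hK hKU hFK hφ1' hη0.le hc0 hM hpt
  have s2 := hR.single hU hS' hF hK hKU hFK hφ1' hη0.le hc0 hM hpt
  rw [Real.dist_eq]
  refine lt_of_le_of_lt ?_ hi
  have t1 := abs_le.1 s1
  have t2 := abs_le.1 s2
  have t3 := neg_abs_le (∫ x, F x (e x) ∂(gmtMu (S i)) - ∫ x, F x (e x) ∂(gmtMu S'))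
  have t4 := le_abs_self (∫ x, F x (e x) ∂(gmtMu (S i)) - ∫ x, F x (e x) ∂(gmtMu S'))
  rw [abs_le]
  constructor <;> linarith [t1.1, t1.2, t2.1, t2.2]

end Claimed.Agent.Gmt
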