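import Claimed.Agent.Lib.Gmt.BvAniso

/-!
# Lib/Gmt [GgDGL] G0a: the De Giorgi - Letta criterion; comparison of measures on open sets.   (architect: helper75; PROVED: helper6)

STATEMENT CHANGE (helper6): `gmt_measure_le_of_local` needs `c ≠ ⊤` (counterexample for `c = ⊤`: `μ₁ = dirac 0`, `μ₂ = volume`).

PLAN
* `gmt_deGiorgiLetta`.  `μ* B = ⨅ (U ⊇ B open), α U`.
  (1) countable subadditivity of `α` on open sets: `α (⋃ k, U k) = ⨆ n, α (⋃ k < n, U k)` (`hinn`, monotone partial unions) `≤ ⨆ n ∑_{k<n} α (U k)` (`hsub`, induction) `≤ ∑' k, α (U k)`.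
  (2) `μ*` is an outer measure: use `MeasureTheory.OuterMeasure.ofFunction`-free direct construction `{ measureOf := .., empty, mono, iUnion_nat }` (for `iUnion_nat` choose `U k ⊇ B k` open with `α (U k) ≤ μ* (B k) + ε 2^{-k}`: `ENNReal.exists_pos_sum_of_countable`), or
      `OuterMeasure.boundedBy`/`inducedOuterMeasure (fun U (_ : IsOpen U) => α U)` (`MeasureTheory.inducedOuterMeasure_eq'`-family: needs exactly `α ∅ = 0`, countable subadditivity and monotonicity on open sets).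
  (3) `μ*` is a METRIC outer measure (`MeasureTheory.OuterMeasure.IsMetric`): if `Metric.AreSeparated s t` (positive distance `r`) and `O ⊇ s ∪ t` is open, then `O₁ = O ∩ thickening (r/2) s`, `O₂ = O ∩ thickening (r/2) t` are disjoint open, so
      `μ* s + μ* t ≤ α O₁ + α O₂ ≤ α (O₁ ∪ O₂) ≤ α O` (`hsup`, `hmono`).
  (4) `IsMetric.borel_le_caratheodory`, `OuterMeasure.toMeasure`, `toMeasure_apply`; `μ U = μ* U = α U` for open `U` (`hmono`); outer regularity is the definition of `μ*`.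
* `gmt_measure_le_of_local`: Lindelöf: countably many balls `B_k = ball x_k r_k` cover `U`.  For a measurable `B ⊆ U` write `B = ⊔ B'_k`, `B'_k = B ∩ B_k \\ ⋃_{j<k} B_j` (`disjointed`); for `B' ⊆ B_k` measurable:
  `μ₁ B' ≤ μ₁ O ≤ c μ₂ O` for all open `O` with `B' ⊆ O ⊆ B_k`; infimum over `O` (`Set.measure_eq_iInf_isOpen`/`Measure.OuterRegular.measure_eq_iInf_isOpen` for `μ₂`, intersect `O` with `B_k`).
-/

set_option autoImplicit false
open scoped ContDiff ENNReal RealInnerProductSpace Topology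
open MeasureTheory Metric Set Filter

namespace Claimed.Agent.Gmt

variable {m : ℕ}

/-- countable subadditivity on open sets. -/
theorem gmt_dgl_iUnion_le (α : Set (E m) → ℝ≥0∞) (h0 : α ∅ = 0)
    (hsub : ∀ U V, IsOpen U → IsOpen V → α (U ∪ V) ≤ α U + α V)
    (hinn : ∀ U : ℕ → Set (E m), (∀ k, IsOpen (U k)) → Monotone U → α (⋃ k, U k) = ⨆ k, α (U k))
    (U : ℕ → Set (E m)) (hU : ∀ k, IsOpen (U k)) : α (⋃ k, U k) ≤ ∑' k, α (U k) := by
  set V : ℕ → Set (E m) := fun n => ⋃ k ∈ Finset.range n, U k with hV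
  have hVo : ∀ n, IsOpen (V n) := fun n => isOpen_biUnion fun k _ => hU k
  have hVm : Monotone V := by
    intro a b hab
    exact biUnion_subset_biUnion_left (fun k hk => Finset.range_subset_range.2 hab hk)
  have hVu : ⋃ n, V n = ⋃ k, U k := by
    ext x
    simp only [hV, mem_iUnion, Finset.mem_range]
    constructor
    · rintro ⟨n, k, _, hx⟩
      exact ⟨k, hx⟩
    · rintro ⟨k, hx⟩
      exact ⟨k + 1, k, Nat.lt_succ_self k, hx⟩
  have hVs : ∀ n, α (V n) ≤ ∑ k ∈ Finset.range n, α (U k) := by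
    intro n
    induction n with
    | zero => simp [hV, h0]
    | succ n ih =>
      have : V (n + 1) = V n ∪ U n := by
        simp only [hV, Finset.range_add_one]
        rw [Finset.set_biUnion_insert, union_comm]
      rw [this, Finset.sum_range_succ]
      exact (hsub _ _ (hVo n) (hU n)).trans (by gcongr)
  rw [← hVu, hinn V hVo hVm, ENNReal.tsum_eq_iSup_nat]
  exact iSup_mono hVs

/-- DE GIORGI - LETTA. -/
theorem gmt_deGiorgiLetta (α : Set (E m) → ℝ≥0∞) (h0 : α ∅ = 0)
    (hmono : ∀ U V, IsOpen U → IsOpen V → U ⊆ V → α U ≤ α V)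
    (hsub : ∀ U V, IsOpen U → IsOpen V → α (U ∪ V) ≤ α U + α V)
    (hsup : ∀ U V, IsOpen U → IsOpen V → Disjoint U V → α U + α V ≤ α (U ∪ V))
    (hinn : ∀ U : ℕ → Set (E m), (∀ k, IsOpen (U k)) → Monotone U → α (⋃ k, U k) = ⨆ k, α (U k)) :
    ∃ μ : Measure (E m), μ.OuterRegular ∧ ∀ U, IsOpen U → μ U = α U := by
  have hcs := gmt_dgl_iUnion_le α h0 hsub hinn
  let mo : OuterMeasure (E m) :=
    inducedOuterMeasure (P := IsOpen) (fun U _ => α U) isOpen_empty h0
  have hPU : ∀ ⦃f : ℕ → Set (E m)⦄ (_ : ∀ i, IsOpen (f i)), IsOpen (⋃ i, f i) :=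
    fun f hf => isOpen_iUnion hf
  have hopen : ∀ U, IsOpen U → mo U = α U := fun U hU =>
    inducedOuterMeasure_eq' (m := fun U _ => α U) (P0 := isOpen_empty) (m0 := h0) hPU
      (fun f hf => hcs f hf) (fun s₁ s₂ h₁ h₂ h => hmono _ _ h₁ h₂ h) hU
  have hinf : ∀ s, mo s = ⨅ (t : Set (E m)) (_ : IsOpen t) (_ : s ⊆ t), α t := fun s =>
    inducedOuterMeasure_eq_iInf (m := fun U _ => α U) (P0 := isOpen_empty) (m0 := h0) hPU
      (fun f hf => hcs f hf) (fun s₁ s₂ h₁ h₂ h => hmono _ _ h₁ h₂ h) s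
  have hle : ∀ s t, IsOpen t → s ⊆ t → mo s ≤ α t := by
    intro s t ht hst
    rw [hinf s]
    exact iInf_le_of_le t (iInf_le_of_le ht (iInf_le_of_le hst le_rfl))
  have hmet : mo.IsMetric := by
    intro s t hst
    refine le_antisymm (measure_union_le s t) ?_
    rw [hinf (s ∪ t)]
    refine le_iInf fun O => le_iInf fun hO => le_iInf fun hsO => ?_
    obtain ⟨r, hr0, hr⟩ := hst
    have hr0' : 0 < r := pos_iff_ne_zero.2 hr0
    set O₁ := O ∩ {x | infEDist x s < infEDist x t} with hO₁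
    set O₂ := O ∩ {x | infEDist x t < infEDist x s} with hO₂
    have ho₁ : IsOpen O₁ := hO.inter (isOpen_lt continuous_infEDist continuous_infEDist)
    have ho₂ : IsOpen O₂ := hO.inter (isOpen_lt continuous_infEDist continuous_infEDist)
    have hd : Disjoint O₁ O₂ := by
      rw [disjoint_left]
      rintro x ⟨_, h1⟩ ⟨_, h2⟩
      have h1' : infEDist x s < infEDist x t := h1
      have h2' : infEDist x t < infEDist x s := h2
      exact lt_asymm h1' h2'
    have hs₁ : s ⊆ O₁ := by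
      intro x hx
      refine ⟨hsO (Or.inl hx), ?_⟩
      show infEDist x s < infEDist x t
      rw [infEDist_zero_of_mem hx]
      exact hr0'.trans_le (le_infEDist.2 fun y hy => hr x hx y hy)
    have ht₂ : t ⊆ O₂ := by
      intro y hy
      refine ⟨hsO (Or.inr hy), ?_⟩
      show infEDist y t < infEDist y s
      rw [infEDist_zero_of_mem hy]
      exact hr0'.trans_le (le_infEDist.2 fun x hx => by
        rw [edist_comm]
        exact hr x hx y hy)
    calc mo s + mo t ≤ α O₁ + α O₂ := add_le_add (hle s O₁ ho₁ hs₁) (hle t O₂ ho₂ ht₂)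
      _ ≤ α (O₁ ∪ O₂) := hsup _ _ ho₁ ho₂ hd
      _ ≤ α O := hmono _ _ (ho₁.union ho₂) hO (union_subset inter_subset_left inter_subset_left)
  refine ⟨mo.toMeasure hmet.le_caratheodory, ⟨?_⟩, ?_⟩
  · intro B hB r hr
    rw [toMeasure_apply _ _ hB, hinf B] at hr
    simp only [iInf_lt_iff] at hr
    obtain ⟨O, hO, hBO, hlt⟩ := hr
    refine ⟨O, hBO, hO, ?_⟩
    rw [toMeasure_apply _ _ hO.measurableSet, hopen O hO]
    exact hlt
  · intro U hU
    rw [toMeasure_apply _ _ hU.measurableSet, hopen U hU]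

/-- comparison on subsets of a good ball. -/
theorem gmt_measure_le_of_ball {μ₁ μ₂ : Measure (E m)} [μ₂.OuterRegular] {c : ℝ≥0∞} (hc : c ≠ ⊤)
    {V : Set (E m)} (hV : IsOpen V) (h : ∀ W, IsOpen W → W ⊆ V → μ₁ W ≤ c * μ₂ W)
    {B : Set (E m)} (hB : B ⊆ V) : μ₁ B ≤ c * μ₂ B := by
  rcases eq_or_ne c 0 with rfl | h0
  · have := h V hV le_rfl
    exact (measure_mono hB).trans (this.trans (by simp))
  rw [B.measure_eq_iInf_isOpen μ₂]
  simp_rw [ENNReal.mul_iInf_of_ne h0 hc]
  refine le_iInf fun O => le_iInf fun hBO => le_iInf fun hO => ?_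
  calc μ₁ B ≤ μ₁ (O ∩ V) := measure_mono (subset_inter hBO hB)
    _ ≤ c * μ₂ (O ∩ V) := h _ (hO.inter hV) inter_subset_right
    _ ≤ c * μ₂ O := by gcongr; exact inter_subset_left

/-- comparison of measures from a local comparison on open sets. -/
theorem gmt_measure_le_of_local {U : Set (E m)} (hU : IsOpen U) {μ₁ μ₂ : Measure (E m)}
    [μ₂.OuterRegular] {c : ℝ≥0∞} (hc : c ≠ ⊤)
    (h : ∀ x ∈ U, ∃ r > 0, ∀ W, IsOpen W → W ⊆ ball x r → μ₁ W ≤ c * μ₂ W) :
    μ₁.restrict U ≤ c • μ₂.restrict U := by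
  rcases U.eq_empty_or_nonempty with rfl | hne
  · simp
  choose! r hr0 hr using h
  obtain ⟨t, htU, htc, hcov⟩ := TopologicalSpace.countable_cover_nhdsWithin
    (f := fun x => ball x (r x)) (s := U)
    (fun x hx => mem_nhdsWithin_of_mem_nhds (ball_mem_nhds x (hr0 x hx)))
  have htne : t.Nonempty := by
    obtain ⟨x, hx⟩ := hne
    obtain ⟨y, hy, _⟩ := mem_iUnion₂.1 (hcov hx)
    exact ⟨y, hy⟩
  obtain ⟨g, rfl⟩ := htc.exists_eq_range htne
  set s : ℕ → Set (E m) := fun n => ball (g n) (r (g n)) with hs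
  have hcov' : U ⊆ ⋃ n, s n := by
    intro x hx
    obtain ⟨y, ⟨n, rfl⟩, hy⟩ := mem_iUnion₂.1 (hcov hx)
    exact mem_iUnion.2 ⟨n, hy⟩
  have hsm : ∀ n, MeasurableSet (s n) := fun n => measurableSet_ball
  rw [Measure.le_iff]
  intro B hB
  rw [Measure.restrict_apply hB, Measure.smul_apply, Measure.restrict_apply hB, smul_eq_mul]
  have hBU : MeasurableSet (B ∩ U) := hB.inter hU.measurableSet
  have hdec : B ∩ U = ⋃ n, (B ∩ U) ∩ disjointed s n := by
    rw [← inter_iUnion, iUnion_disjointed]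
    exact (inter_eq_left.2 (inter_subset_right.trans hcov')).symm
  have hdisj : Pairwise (Function.onFun Disjoint fun n => (B ∩ U) ∩ disjointed s n) :=
    fun i j hij => ((disjoint_disjointed s) hij).mono inter_subset_right inter_subset_right
  have hmeas : ∀ n, MeasurableSet ((B ∩ U) ∩ disjointed s n) := fun n =>
    hBU.inter (MeasurableSet.disjointed hsm n)
  have e1 : μ₁ (B ∩ U) = ∑' n, μ₁ ((B ∩ U) ∩ disjointed s n) := by
    conv_lhs => rw [hdec]
    exact measure_iUnion hdisj hmeas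
  have e2 : μ₂ (B ∩ U) = ∑' n, μ₂ ((B ∩ U) ∩ disjointed s n) := by
    conv_lhs => rw [hdec]
    exact measure_iUnion hdisj hmeas
  rw [e1, e2, ← ENNReal.tsum_mul_left]
  refine ENNReal.tsum_le_tsum fun n => ?_
  exact gmt_measure_le_of_ball hc isOpen_ball (hr (g n) (htU ⟨n, rfl⟩))
    (inter_subset_right.trans (disjointed_subset s n))

end Claimed.Agent.Gmt
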