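import Claimed.Agent.Lib.Gmt.GgWeight
import Claimed.Agent.Lib.Gmt.IFb

/-!
# Lib/Gmt [GgDef] G0e: smooth domains `{φ < 0}` in an open set `U` (globalisation of `gmt_reg_mu` from balls to `U`).
(architect: helper75; PROVED: helper6)        Consumers: `R315/Ct/BvF`.   DO NOT import this file from `Fl*`, `Hr*`, `Fr*`, `Fv*`, `Bv*`, `Qm*`, `Lam*` (it imports `IFb`).

PLAN
* `gmt_def_mu`: every `x ∈ U` has a ball `ball x r ⊆ U`; `gmt_reg_mu x r` applies there (`hSφ` restricted to the ball: intersect the a.e. equality with the ball).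
  `GmtLF S U`: `gmtLF_iff_local` (`gmtP S (ball x (r/2)) ≠ ⊤` from `GmtLF S (ball x r)`, `GmtCC (ball x (r/2)) (ball x r)`).
  The two a.e./null statements: cover `U` by countably many such balls (`TopologicalSpace.isOpen_iUnion_countable` / Lindelöf), `measure_iUnion_null`, `ae_restrict_iUnion_iff`-type argument.
* `gmt_def_gg`: `gmt_gauss_green` + `ν = ∇φ/|∇φ|` a.e. + `gmtPerM_eq_withDensity`: `∫ T·ν dμ = ∫ (T·∇φ/√(A∇φ∇φ)) √(A ν ν) dμ` because `√(A ν ν) = √(A∇φ∇φ)/|∇φ|`, `> 0`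
  (`integral_withDensity_eq_integral_smul`/`integral_withDensity_eq_integral_toReal_smul`; the integrand vanishes off `tsupport T ⊆ U`).
-/

set_option autoImplicit false
open scoped ContDiff ENNReal RealInnerProductSpace Topology
open MeasureTheory Metric Set Filter

namespace Claimed.Agent.Gmt

variable {m : ℕ}

/-- smooth domains: locally finite perimeter, the perimeter measure lives on `{φ = 0}`, normal. -/
theorem gmt_def_mu {U : Set (E m)} (hU : IsOpen U) {φ : E m → ℝ} (hφ : ContDiffOn ℝ ∞ φ U)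
    (hφ' : ∀ y ∈ U, fderiv ℝ φ y ≠ 0) {S : Set (E m)} (hS : MeasurableSet S)
    (hSφ : (S ∩ U : Set (E m)) =ᵐ[volume] ({y | y ∈ U ∧ φ y < 0} : Set (E m))) :
    GmtLF S U ∧ gmtMu S (U \ {y | φ y = 0}) = 0 ∧
      ∀ᵐ y ∂((gmtMu S).restrict U), gmtNu S y = ‖gradient φ y‖⁻¹ • gradient φ y := by
  have hball : ∀ x ∈ U, ∃ r > 0, ball x r ⊆ U := fun x hx => Metric.isOpen_iff.1 hU x hx
  choose! r hr0 hrU using hball
  have hloc : ∀ x ∈ U, GmtLF S (ball x (r x)) ∧ gmtMu S (ball x (r x) \ {y | φ y = 0}) = 0 ∧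
      (∀ᵐ y ∂((gmtMu S).restrict (ball x (r x))),
        gmtNu S y = ‖gradient φ y‖⁻¹ • gradient φ y) := by
    intro x hx
    have hsub := hrU x hx
    have e1 : S ∩ ball x (r x) = (S ∩ U) ∩ ball x (r x) := by
      rw [inter_assoc, inter_eq_right.2 hsub]
    have e2 : {y | y ∈ ball x (r x) ∧ φ y < 0} = {y | y ∈ U ∧ φ y < 0} ∩ ball x (r x) := by
      ext y
      simp only [mem_setOf_eq, mem_inter_iff]
      constructor
      · rintro ⟨h1, h2⟩
        exact ⟨⟨hsub h1, h2⟩, h1⟩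
      · rintro ⟨⟨_, h2⟩, h1⟩
        exact ⟨h1, h2⟩
    have h := gmt_reg_mu x (r x) (hr0 x hx) φ (hφ.mono hsub) (fun y hy => hφ' y (hsub hy)) hS
      (by rw [e1, e2]; exact hSφ.inter (ae_eq_refl _))
    exact ⟨h.1, h.2.1, h.2.2.1⟩
  obtain ⟨t, htU, htc, hcov⟩ := TopologicalSpace.countable_cover_nhdsWithin
    (f := fun x => ball x (r x)) (s := U)
    (fun x hx => mem_nhdsWithin_of_mem_nhds (ball_mem_nhds x (hr0 x hx)))
  refine ⟨(gmtLF_iff_local hU hS).2 fun x hx => ⟨r x / 2, half_pos (hr0 x hx), ?_⟩, ?_, ?_⟩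
  · refine (hloc x hx).1.2 _ ⟨isOpen_ball, ?_, ?_⟩
    · exact (isCompact_closedBall x (r x / 2)).of_isClosed_subset isClosed_closure
        closure_ball_subset_closedBall
    · exact closure_ball_subset_closedBall.trans
        (closedBall_subset_ball (half_lt_self (hr0 x hx)))
  · refine measure_mono_null (t := ⋃ x ∈ t, (ball x (r x) \ {y | φ y = 0})) ?_ ?_
    · rintro y ⟨hyU, hyZ⟩
      obtain ⟨x, hx, hy⟩ := mem_iUnion₂.1 (hcov hyU)
      exact mem_iUnion₂.2 ⟨x, hx, hy, hyZ⟩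
    · exact (measure_biUnion_null_iff htc).2 fun x hx => (hloc x (htU hx)).2.1
  · refine ae_restrict_of_ae_restrict_of_subset hcov ?_
    exact (ae_restrict_biUnion_iff _ htc _).2 fun x hx => (hloc x (htU hx)).2.2

theorem gmt_def_perM_null {U : Set (E m)} {A : E m → Bil m} (hU : IsOpen U) (hA : GmtInt U A)
    {φ : E m → ℝ} (hφ : ContDiffOn ℝ ∞ φ U) (hφ' : ∀ y ∈ U, fderiv ℝ φ y ≠ 0) {S : Set (E m)}
    (hS : MeasurableSet S)
    (hSφ : (S ∩ U : Set (E m)) =ᵐ[volume] ({y | y ∈ U ∧ φ y < 0} : Set (E m))) :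
    gmtPerM A S (U \ {y | φ y = 0}) = 0 := by
  obtain ⟨hLF, h0, -⟩ := gmt_def_mu hU hφ hφ' hS hSφ
  have ho : IsOpen (U \ {y | φ y = 0}) := by
    have : U \ {y | φ y = 0} = U ∩ φ ⁻¹' {0}ᶜ := by
      ext y
      simp
    rw [this]
    exact hφ.continuousOn.isOpen_inter_preimage hU isOpen_compl_singleton
  have e : gmtPerM A S (U \ {y | φ y = 0}) = (gmtPerM A S).restrict U (U \ {y | φ y = 0}) := by
    rw [Measure.restrict_apply ho.measurableSet, inter_eq_left.2 sdiff_subset]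
  rw [e, gmtPerM_eq_withDensity hU hA hLF]
  refine withDensity_absolutelyContinuous _ _ ?_
  rw [Measure.restrict_apply ho.measurableSet, inter_eq_left.2 sdiff_subset]
  exact h0

/-- Gauss-Green for a smooth domain, written with the `A`-perimeter measure. -/
theorem gmt_def_gg {U : Set (E m)} {A : E m → Bil m} (hU : IsOpen U) (hA : GmtInt U A)
    {φ : E m → ℝ} (hφ : ContDiffOn ℝ ∞ φ U) (hφ' : ∀ y ∈ U, fderiv ℝ φ y ≠ 0) {S : Set (E m)}
    (hS : MeasurableSet S)
    (hSφ : (S ∩ U : Set (E m)) =ᵐ[volume] ({y | y ∈ U ∧ φ y < 0} : Set (E m)))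
    {T : E m → E m} (hT : GmtTest U T) :
    ∫ x in S, gmtDiv T x = ∫ x in U, ⟪T x, gradient φ x⟫ / gmtDens A φ x ∂(gmtPerM A S) := by
  obtain ⟨hLF, -, hν⟩ := gmt_def_mu hU hφ hφ' hS hSφ
  rw [gmtPerM_eq_withDensity hU hA hLF,
    integral_withDensity_eq_integral_toReal_smul₀ (gmt_aemeasurable_dens hU hA S _)
      (ae_of_all _ fun x => ENNReal.ofReal_lt_top), gmt_gauss_green_restrict hU hLF hT]
  refine integral_congr_ae ?_
  filter_upwards [hν, ae_restrict_mem hU.measurableSet] with x hx hxU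
  have hg : gradient φ x ≠ 0 := by
    intro h
    apply hφ' x hxU
    have := norm_gradient φ x
    rw [h, norm_zero] at this
    exact norm_eq_zero.1 this.symm
  have hgn : 0 < ‖gradient φ x‖ := norm_pos_iff.2 hg
  have hd : 0 < gmtDens A φ x := Real.sqrt_pos.2 (hA.pos x hxU _ hg)
  rw [ENNReal.toReal_ofReal (Real.sqrt_nonneg _), hx,
    gmtInt_sqrt_smul x (inv_nonneg.2 hgn.le), real_inner_smul_right, smul_eq_mul]
  have e : Real.sqrt (A x (gradient φ x) (gradient φ x)) = gmtDens A φ x := rfl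
  rw [e]
  field_simp

end Claimed.Agent.Gmt
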