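import Claimed.Agent.Lib.Gmt.GgMeasA

/-!
# Lib/Gmt [GgMeas2 part A] [GgMeas part B] G0b: the perimeter measures `gmtPerM A S`, `gmtMu S` and the normal `gmtNu S`.
(architect: helper75; PROVED: helper6)          These are the proofs of section 1 of `IF.lean`.

CHAIN
1. `gmt_deGiorgiLetta`: an increasing, subadditive, superadditive (on disjoint sets), inner regular set function `α` on open sets is the
   restriction of an outer regular Borel measure.  Proof: `μ* B = ⨅ U ⊇ B open, α U` is an outer measure (countable subadditivity on open sets: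
   inner regularity + compactness reduce to finite unions); it is a METRIC outer measure (`MeasureTheory.OuterMeasure.IsMetric`: sets at positive distance have
   disjoint open neighbourhoods; superadditivity), so Borel sets are Carathéodory measurable (`IsMetric.borel_le_caratheodory`); `toMeasure`.
2. `gmtPerM_spec`: the four properties for `U ↦ gmtPer A S U` are `gmtPer_mono`, `gmtPer_union_le`, `gmtPer_add_le_union`, `gmtPer_iUnion_mono` (for non measurable `S` replace
   `S` by `toMeasurable volume S`: `Measure.restrict_toMeasurable_of_sFinite`).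
3. `gmtNu_spec`: let `U₀ = {x | ∃ r > 0, gmtP S (ball x r) ≠ ⊤}` (open; contains every open `U` with `GmtLF S U`; `GmtLF S U₀` by `gmtLF_iff_local` if `S` is measurable; if `S` is not measurable no `U` satisfies `GmtLF S U` and `ν = 0` works).
   Apply `gmtRiesz_of_measure` (`GgRieszC.lean`) on `U₀` to `L T = ∫_S div T` and `μ = gmtMu S` (outer regular by `gmtPerM_spec`; `μ W = gmtP S W = sup L T` by `gmtMu_open` and `gmtAdm_eu_iff`; `GmtTestK` with `k = m` is `GmtTest`; finite on compact sets: `gmtMu_compact_ne_top`).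
4. `gmtPerM_eq_withDensity`: NOW IN `GgDens.lean` (freezing of the coefficients + `gmt_polar_open_gen`).
-/

set_option autoImplicit false
open scoped ContDiff ENNReal RealInnerProductSpace Topology
open MeasureTheory Metric Set Filter

namespace Claimed.Agent.Gmt

variable {m : ℕ}

theorem GmtTest.toK {U : Set (E m)} {T : E m → E m} (h : GmtTest U T) : GmtTestK U T :=
  ⟨h.c1, h.cpt, h.sub⟩

theorem GmtTestK.toTest {U : Set (E m)} {T : E m → E m} (h : GmtTestK U T) : GmtTest U T :=
  ⟨h.c1, h.cpt, h.sub⟩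

theorem gmtDiv_integrable {U : Set (E m)} {T : E m → E m} (hT : GmtTest U T) :
    Integrable (gmtDiv T) :=
  (continuous_gmtDiv hT).1.integrable_of_hasCompactSupport (continuous_gmtDiv hT).2.1

/-- the functional `T ↦ ∫_S div T`. -/
theorem gmtFunl_div (S U : Set (E m)) : GmtFunl U (fun T : E m → E m => ∫ x in S, gmtDiv T x) := by
  refine ⟨fun T T' hT hT' => ?_, fun c T hT => ?_⟩
  · have e : ∀ x, gmtDiv (fun x => T x + T' x) x = gmtDiv T x + gmtDiv T' x := fun x =>
      gmtDiv_add (hT.toTest.differentiable x) (hT'.toTest.differentiable x)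
    simp only [e]
    exact integral_add (gmtDiv_integrable hT.toTest).integrableOn
      (gmtDiv_integrable hT'.toTest).integrableOn
  · have e : ∀ x, gmtDiv (fun x => c • T x) x = c * gmtDiv T x := fun x =>
      gmtDiv_const_smul c (hT.toTest.differentiable x)
    simp only [e]
    exact integral_const_mul _ _

/-- `gmtP` as a supremum over `GmtTestK`. -/
theorem gmtP_eq_iSup_testK (S W : Set (E m)) :
    gmtP S W = ⨆ (T : E m → E m) (_ : GmtTestK W T) (_ : ∀ x, ‖T x‖ ≤ 1),
      ENNReal.ofReal (∫ x in S, gmtDiv T x) := by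
  unfold gmtP gmtPer
  refine iSup_congr fun T => ?_
  refine iSup_congr_Prop ⟨fun h => h.toK, fun h => h.toTest⟩ fun _ => ?_
  exact iSup_congr_Prop (gmtAdm_eu_iff T) fun _ => rfl

/-- the largest open set in which `S` has locally finite perimeter. -/
def gmtLFSet (S : Set (E m)) : Set (E m) := {x | ∃ r > 0, gmtP S (ball x r) ≠ ⊤}

theorem isOpen_gmtLFSet (S : Set (E m)) : IsOpen (gmtLFSet S) := by
  rw [Metric.isOpen_iff]
  rintro x ⟨r, hr, hfin⟩
  refine ⟨r, hr, fun y hy => ⟨r - dist y x, sub_pos.2 hy, ?_⟩⟩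
  refine ne_top_of_le_ne_top hfin (gmtPer_mono _ S ?_)
  intro z hz
  rw [mem_ball] at *
  calc dist z x ≤ dist z y + dist y x := dist_triangle _ _ _
    _ < r := by linarith

theorem gmtLF_gmtLFSet {S : Set (E m)} (hS : MeasurableSet S) : GmtLF S (gmtLFSet S) :=
  (gmtLF_iff_local (isOpen_gmtLFSet S) hS).2 fun _ hx => hx

theorem GmtLF.subset_gmtLFSet {U S : Set (E m)} (hU : IsOpen U) (hS : GmtLF S U) :
    U ⊆ gmtLFSet S := fun x hx => (gmtLF_iff_local hU hS.1).1 hS x hx

theorem gmtNu_exists (S : Set (E m)) : ∃ ν : E m → E m, GmtNuSpec S ν := by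
  by_cases hS : MeasurableSet S
  · have hU₀ := isOpen_gmtLFSet S
    have hLF := gmtLF_gmtLFSet hS
    have hreg : (gmtMu S).OuterRegular := (gmtPerM_spec _ S).1
    obtain ⟨ν, hm, hu, hae, hgg⟩ := gmtRiesz_of_measure hU₀ (gmtFunl_div S (gmtLFSet S))
      (μ := gmtMu S) (fun W hW _ => by rw [gmtMu_open S hW, gmtP_eq_iSup_testK])
      (fun K hK hKU => gmtMu_compact_ne_top hU₀ hLF hK hKU)
    refine ⟨ν, hm, hu, fun U hU hSU => ?_, fun U hU hSU T hT => ?_⟩
    · exact ae_restrict_of_ae_restrict_of_subset (hSU.subset_gmtLFSet hU) hae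
    · exact hgg T (hT.mono (hSU.subset_gmtLFSet hU)).toK
  · exact ⟨fun _ => 0, measurable_const, fun _ => Or.inr rfl, fun U _ h => absurd h.1 hS,
      fun U _ h => absurd h.1 hS⟩

theorem gmtNu_spec (S : Set (E m)) : GmtNuSpec S (gmtNu S) := by
  have h := gmtNu_exists S
  unfold gmtNu
  rw [dif_pos h]
  exact h.choose_spec

/-- GAUSS-GREEN FORMULA. -/
theorem gmt_gauss_green {U S : Set (E m)} (hU : IsOpen U) (hS : GmtLF S U) {T : E m → E m}
    (hT : GmtTest U T) : ∫ x in S, gmtDiv T x = ∫ x, ⟪T x, gmtNu S x⟫ ∂(gmtMu S) :=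
  (gmtNu_spec S).gg U hU hS T hT

theorem norm_gmtNu_le_one (S : Set (E m)) (x : E m) : ‖gmtNu S x‖ ≤ 1 := by
  rcases (gmtNu_spec S).unit x with h | h
  · exact h.le
  · rw [h, norm_zero]
    exact zero_le_one

theorem measurable_gmtNu (S : Set (E m)) : Measurable (gmtNu S) := (gmtNu_spec S).meas

theorem norm_gmtNu_ae {U S : Set (E m)} (hU : IsOpen U) (hS : GmtLF S U) :
    ∀ᵐ x ∂((gmtMu S).restrict U), ‖gmtNu S x‖ = 1 := (gmtNu_spec S).unit_ae U hU hS

/-- Gauss-Green with the restricted measure. -/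
theorem gmt_gauss_green_restrict {U S : Set (E m)} (hU : IsOpen U) (hS : GmtLF S U)
    {T : E m → E m} (hT : GmtTest U T) :
    ∫ x in S, gmtDiv T x = ∫ x, ⟪T x, gmtNu S x⟫ ∂((gmtMu S).restrict U) := by
  rw [gmt_gauss_green hU hS hT]
  refine (gmt_integral_restrict_of_tsupport _ fun x hx => ?_).symm
  rw [image_eq_zero_of_notMem_tsupport fun h => hx (hT.sub h), inner_zero_left]

/-- characterisation of the pair `(gmtMu S, gmtNu S)` in `U`. -/
theorem gmtMu_gmtNu_unique {U S : Set (E m)} (hU : IsOpen U) (hS : MeasurableSet S)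
    {μ : Measure (E m)} {ν : E m → E m} (hν : Measurable ν) (h1 : ∀ᵐ x ∂μ, ‖ν x‖ = 1)
    (hc : μ Uᶜ = 0) (hf : ∀ K, IsCompact K → K ⊆ U → μ K ≠ ⊤)
    (hgg : ∀ T, GmtTest U T → ∫ x in S, gmtDiv T x = ∫ x, ⟪T x, ν x⟫ ∂μ) :
    GmtLF S U ∧ μ = (gmtMu S).restrict U ∧ ν =ᵐ[μ] gmtNu S := by
  have hopen : ∀ W, IsOpen W → W ⊆ U → μ W = gmtP S W := by
    intro W hW hWU
    rw [gmt_polar_open hU hν h1 hf hW hWU, gmtP_eq_iSup_testK]
    refine iSup_congr fun T => iSup_congr fun hT => ?_
    rw [hgg T (hT.toTest.mono hWU)]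
  have hLF : GmtLF S U := by
    refine ⟨hS, fun W hW => ?_⟩
    rw [← hopen W hW.1 (subset_closure.trans hW.2.2)]
    exact ne_top_of_le_ne_top (hf _ hW.2.1 hW.2.2) (measure_mono subset_closure)
  refine ⟨hLF, ?_⟩
  refine gmtRiesz_unique hU hν (measurable_gmtNu S) h1 (norm_gmtNu_ae hU hLF) hc ?_ hf ?_ ?_
  · rw [Measure.restrict_apply hU.measurableSet.compl, compl_inter_self, measure_empty]
  · intro K hK hKU
    exact ne_top_of_le_ne_top (gmtMu_compact_ne_top hU hLF hK hKU) (Measure.restrict_apply_le _ _)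
  · intro T hT
    rw [← hgg T hT.toTest, gmt_gauss_green_restrict hU hLF hT.toTest]

theorem gmtPerM_restrict_le (A : E m → Bil m) {U S S' : Set (E m)} (hU : IsOpen U)
    (hS : MeasurableSet S) (hS' : MeasurableSet S')
    (h : (S ∩ U : Set (E m)) =ᵐ[volume] (S' ∩ U : Set (E m))) :
    (gmtPerM A S).restrict U ≤ (gmtPerM A S').restrict U := by
  have hreg : (gmtPerM A S').OuterRegular := (gmtPerM_spec A S').1
  have := gmt_measure_le_of_local hU (μ₁ := gmtPerM A S) (μ₂ := gmtPerM A S') (c := 1)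
    ENNReal.one_ne_top (fun x hx => by
      obtain ⟨r, hr, hrU⟩ := Metric.isOpen_iff.1 hU x hx
      refine ⟨r, hr, fun W hW hWr => ?_⟩
      have hWU : W ⊆ U := hWr.trans hrU
      rw [one_mul, gmtPerM_open A S hW, gmtPerM_open A S' hW]
      refine (gmtPer_congr A hS hS' ?_).le
      have e1 : S ∩ W = (S ∩ U) ∩ W := by
        rw [inter_assoc, inter_eq_right.2 hWU]
      have e2 : S' ∩ W = (S' ∩ U) ∩ W := by
        rw [inter_assoc, inter_eq_right.2 hWU]
      rw [e1, e2]
      exact h.inter (ae_eq_refl _))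
  simpa using this

theorem gmtPerM_restrict_congr (A : E m → Bil m) {U S S' : Set (E m)} (hU : IsOpen U)
    (hS : MeasurableSet S) (hS' : MeasurableSet S')
    (h : (S ∩ U : Set (E m)) =ᵐ[volume] (S' ∩ U : Set (E m))) :
    (gmtPerM A S).restrict U = (gmtPerM A S').restrict U :=
  le_antisymm (gmtPerM_restrict_le A hU hS hS' h) (gmtPerM_restrict_le A hU hS' hS h.symm)

/-- locality. -/
theorem gmtMu_restrict_congr {U S S' : Set (E m)} (hU : IsOpen U) (hS : MeasurableSet S)
    (hS' : MeasurableSet S') (h : (S ∩ U : Set (E m)) =ᵐ[volume] (S' ∩ U : Set (E m))) :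
    (gmtMu S).restrict U = (gmtMu S').restrict U := gmtPerM_restrict_congr _ hU hS hS' h

/-- `∫_S div T` only depends on `S ∩ U` up to null sets. -/
theorem gmt_setIntegral_div_congr {U S S' : Set (E m)} (hS : MeasurableSet S)
    (hS' : MeasurableSet S') (h : (S ∩ U : Set (E m)) =ᵐ[volume] (S' ∩ U : Set (E m)))
    {T : E m → E m} (hT : GmtTest U T) : ∫ x in S, gmtDiv T x = ∫ x in S', gmtDiv T x := by
  rw [← integral_indicator hS, ← integral_indicator hS']
  apply integral_congr_ae
  filter_upwards [h] with x hx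
  by_cases hxU : x ∈ U
  · have hx' : x ∈ S ↔ x ∈ S' := by
      have : (x ∈ S ∩ U) ↔ (x ∈ S' ∩ U) := Iff.of_eq hx
      simpa [hxU] using this
    by_cases hxS : x ∈ S
    · simp [hxS, hx'.1 hxS]
    · have hxS' : x ∉ S' := fun h' => hxS (hx'.2 h')
      simp [hxS, hxS']
  · have : gmtDiv T x = 0 := gmtDiv_eq_zero_of_notMem fun h' => hxU (hT.sub h')
    simp [indicator, this]

theorem gmtMu_restrict_compl_eq_zero (S U : Set (E m)) (hU : IsOpen U) :
    (gmtMu S).restrict U Uᶜ = 0 := by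
  rw [Measure.restrict_apply hU.measurableSet.compl, compl_inter_self, measure_empty]

theorem gmtNu_congr {U S S' : Set (E m)} (hU : IsOpen U) (hS : GmtLF S U)
    (hS' : MeasurableSet S') (h : (S ∩ U : Set (E m)) =ᵐ[volume] (S' ∩ U : Set (E m))) :
    gmtNu S =ᵐ[(gmtMu S).restrict U] gmtNu S' := by
  refine (gmtMu_gmtNu_unique hU hS' (measurable_gmtNu S) (norm_gmtNu_ae hU hS)
    (gmtMu_restrict_compl_eq_zero S U hU) (fun K hK hKU => ?_) (fun T hT => ?_)).2.2
  · exact ne_top_of_le_ne_top (gmtMu_compact_ne_top hU hS hK hKU) (Measure.restrict_apply_le _ _)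
  · rw [← gmt_gauss_green_restrict hU hS hT]
    exact (gmt_setIntegral_div_congr hS.1 hS' h hT).symm

theorem gmtMu_compl {S : Set (E m)} (hS : MeasurableSet S) : gmtMu Sᶜ = gmtMu S := by
  refine gmtPerM_unique ⟨(gmtPerM_spec _ Sᶜ).1, fun U hU => ?_⟩
  rw [← gmtPer_compl _ hS U]
  exact gmtPerM_open _ Sᶜ hU

theorem gmtNu_compl {U S : Set (E m)} (hU : IsOpen U) (hS : GmtLF S U) :
    gmtNu Sᶜ =ᵐ[(gmtMu S).restrict U] fun x => - gmtNu S x := by
  have hm : Measurable fun x => - gmtNu S x := (measurable_gmtNu S).neg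
  refine (gmtMu_gmtNu_unique hU hS.1.compl hm ?_
    (gmtMu_restrict_compl_eq_zero S U hU) (fun K hK hKU => ?_) (fun T hT => ?_)).2.2.symm
  · filter_upwards [norm_gmtNu_ae hU hS] with x hx
    rw [norm_neg, hx]
  · exact ne_top_of_le_ne_top (gmtMu_compact_ne_top hU hS hK hKU) (Measure.restrict_apply_le _ _)
  · have h1 := integral_add_compl hS.1 (gmtDiv_integrable hT)
    rw [integral_gmtDiv_eq_zero hT] at h1
    simp only [inner_neg_right]
    rw [integral_neg, ← gmt_gauss_green_restrict hU hS hT]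
    linarith

end Claimed.Agent.Gmt
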