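import Claimed.Agent.Lib.Gmt.GgRieszAuxE

/-!
# Lib/Gmt [GgRiesz] G0a: total variation of `σ μ` on open sets (approximation of measurable fields by test fields); uniqueness of polar pairs.
(architect: helper75)          The existence part of the Riesz theorem is in `GgRieszA/B/C` (`gmtRiesz_of_measure`).

PLAN
* `gmt_exists_approx_field`: `μ' = μ.restrict K` is a finite Borel measure on `E m`, hence regular.  Componentwise (or directly for `E k`-valued functions) `MeasureTheory.MemLp.exists_hasCompactSupport_eLpNorm_sub_le` (`p = 1`) gives a continuous compactly supported `T₁` with `∫ ‖T₁ - τ‖ dμ' ≤ ε/3`.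
  Truncate: `T₂ = T₁ / max 1 ‖T₁‖` (the projection onto the unit ball is 1-Lipschitz and fixes `τ x`: `‖T₂ - τ‖ ≤ ‖T₁ - τ‖`; elementary alternative: `‖T₂ - τ‖ ≤ 2 ‖T₁ - τ‖`, since `‖T₁ - T₂‖ = (‖T₁‖ - 1)⁺ ≤ ‖T₁ - τ‖`).
  Cut off: `T₃ = χ T₂`, `χ` = `gmt_exists_cutoff hK hW hKW` (`χ = 1` on `K`: nothing changes on `K`).
  Smooth: apply `gmt_exists_section`-technique (`exists_contMDiffMap_forall_mem_convex_of_local_const`) to the convex sets `t x = {v | ‖v‖ ≤ 1 ∧ ‖v - T₃ x‖ ≤ η}` for `x ∈ tsupport χ`..., or mollify componentwise (`gmtMol_tendsto_of_continuous`: uniform convergence, supports in a fixed compact subset of `W`) and divide by `1 + η`.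
* `gmt_polar_open_gen`.  `≥`: `⟪T,σ⟫ ≤ ‖σ‖ 1_W` (`T` vanishes off `W`, `‖T‖ ≤ 1`).
  `≤`: inner regularity: `∫⁻_W ‖σ‖ₑ dμ = sup_n ∫⁻_{K n} ‖σ‖ₑ dμ` for the compact exhaustion `K n` of `W` (`gmt_exists_exhaustion hW`, monotone convergence).  Fix a compact `K ⊆ W`, `ε > 0`.
  Choose an open `W₁`, `K ⊆ W₁ ⊆ W`, with `μ (W₁ \ K) ≤ ε` (`W₁ = thickening (1/n) K`, `n` large: the closed thickenings are compact subsets of `W` of finite measure and decrease to `K`: `tendsto_measure_cthickening_of_isCompact`/`tendsto_measure_iInter_atTop`).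
  `τ = ‖σ‖⁻¹ • σ` (`‖τ‖ ≤ 1`, `⟪τ,σ⟫ = ‖σ‖`); `T` from `gmt_exists_approx_field` with `W := W₁`.  Then
  `∫ ⟪T,σ⟫ dμ = ∫_K ⟪τ,σ⟫ + ∫_K ⟪T-τ,σ⟫ + ∫_{W₁ \ K} ⟪T,σ⟫ ≥ ∫_K ‖σ‖ - C ε - C ε`.
* `gmt_polar_open`: replace `ν` by `ν' x = if ‖ν x‖ = 1 then ν x else 0` (a.e. equal, bounded by `1`); `∫⁻_W ‖ν'‖ₑ dμ = μ W`.
* `gmtRiesz_unique`: `gmt_polar_open` for both pairs: `μ W = μ' W` for all open `W ⊆ U`; both measures vanish off `U` and are finite on the compact exhaustion: `Measure.ext_of_generateFrom_of_iUnion` (π-system of open subsets of `U`... or `gmt_measure_le_of_local` twice after noting that locally finite measures on `E m` restricted to `W ⋐ U` are outer regular).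
  Then `∫ φ ⟪e_j, ν - ν'⟫ dμ = 0` for all test `φ`: `IsOpen.ae_eq_zero_of_integral_contDiff_smul_eq_zero` (Mathlib, `Analysis/Distribution/AEEqOfIntegralContDiff`) or `gmt_ae_nonneg_of_test` twice.
-/

set_option autoImplicit false
open scoped ContDiff ENNReal RealInnerProductSpace Topology
open MeasureTheory Metric Set Filter

namespace Claimed.Agent.Gmt

variable {m k : ℕ}

/-- approximation in `L¹(μ|_K)` of a measurable field with values in the unit ball by test fields. -/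
theorem gmt_exists_approx_field {W K : Set (E m)} (hW : IsOpen W) (hK : IsCompact K) (hKW : K ⊆ W)
    {μ : Measure (E m)} (hμ : μ K ≠ ⊤) {τ : E m → E k} (hτ : Measurable τ) (h1 : ∀ x, ‖τ x‖ ≤ 1)
    {ε : ℝ} (hε : 0 < ε) :
    ∃ T : E m → E k, GmtTestK W T ∧ (∀ x, ‖T x‖ ≤ 1) ∧ ∫ x in K, ‖T x - τ x‖ ∂μ ≤ ε := by
  have hfin : IsFiniteMeasure (μ.restrict K) := ⟨by
    rw [Measure.restrict_apply MeasurableSet.univ, univ_inter]; exact hμ.lt_top⟩
  have hτi : Integrable τ (μ.restrict K) :=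
    Integrable.of_bound hτ.aestronglyMeasurable 1 (Eventually.of_forall h1)
  obtain ⟨T₁, -, hT₁, hT₁c, hT₁i⟩ :=
    hτi.exists_hasCompactSupport_integral_sub_le (ε := ε / 4) (by positivity)
  -- truncation
  have hmax : ∀ x, 0 < max 1 ‖T₁ x‖ := fun x => lt_of_lt_of_le one_pos (le_max_left _ _)
  set T₂ : E m → E k := fun x => (max 1 ‖T₁ x‖)⁻¹ • T₁ x with hT₂
  have hT₂c : Continuous T₂ :=
    (Continuous.inv₀ (continuous_const.max hT₁c.norm) fun x => (hmax x).ne').smul hT₁c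
  have hT₂1 : ∀ x, ‖T₂ x‖ ≤ 1 := fun x => by
    rw [hT₂]
    simp only
    rw [norm_smul, norm_inv, Real.norm_of_nonneg (hmax x).le, inv_mul_le_iff₀ (hmax x), mul_one]
    exact le_max_right _ _
  have hT₂d : ∀ x, ‖T₂ x - τ x‖ ≤ 2 * ‖τ x - T₁ x‖ := fun x => by
    have a1 : ‖T₂ x - T₁ x‖ ≤ ‖τ x - T₁ x‖ := by
      have e : T₂ x - T₁ x = ((max 1 ‖T₁ x‖)⁻¹ - 1) • T₁ x := by
        rw [sub_smul, one_smul]
      rw [e, norm_smul]
      rcases le_total ‖T₁ x‖ 1 with h | h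
      · rw [max_eq_left h, inv_one, sub_self, norm_zero, zero_mul]
        exact norm_nonneg _
      · rw [max_eq_right h]
        have hpos : 0 < ‖T₁ x‖ := lt_of_lt_of_le one_pos h
        have hle : ‖T₁ x‖⁻¹ ≤ 1 := inv_le_one_of_one_le₀ h
        rw [Real.norm_eq_abs, abs_of_nonpos (by linarith)]
        have e2 : -(‖T₁ x‖⁻¹ - 1) * ‖T₁ x‖ = ‖T₁ x‖ - 1 := by field_simp; ring
        rw [e2]
        have := norm_sub_norm_le (T₁ x) (τ x)
        rw [norm_sub_rev] at this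
        linarith [h1 x]
    calc ‖T₂ x - τ x‖ = ‖(T₂ x - T₁ x) - (τ x - T₁ x)‖ := by congr 1; abel
      _ ≤ ‖T₂ x - T₁ x‖ + ‖τ x - T₁ x‖ := norm_sub_le _ _
      _ ≤ 2 * ‖τ x - T₁ x‖ := by linarith
  -- cut-off
  obtain ⟨χ, hχs, hχc, hχW, hχ01, hχ1⟩ := gmt_exists_cutoff hK hW hKW
  set T₃ : E m → E k := fun x => χ x • T₂ x with hT₃
  have hT₃c : Continuous T₃ := hχs.continuous.smul hT₂c
  have hT₃s : tsupport T₃ ⊆ tsupport χ := gmt_tsupport_smul_subset_left χ T₂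
  have hT₃1 : ∀ x, ‖T₃ x‖ ≤ 1 := fun x => by
    rw [hT₃]
    simp only
    rw [norm_smul, Real.norm_of_nonneg (hχ01 x).1]
    calc χ x * ‖T₂ x‖ ≤ 1 * 1 := mul_le_mul (hχ01 x).2 (hT₂1 x) (norm_nonneg _) zero_le_one
      _ = 1 := one_mul 1
  obtain ⟨K', hK', hKK', hK'W⟩ := exists_compact_between hχc.isCompact hW hχW
  -- smoothing
  have hden : 0 < 2 * (μ.real K + 1) := by have := measureReal_nonneg (μ := μ) (s := K); positivity
  set δ : ℝ := ε / (2 * (μ.real K + 1)) with hδ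
  have hδ0 : 0 < δ := div_pos hε hden
  obtain ⟨S, hS, hSc, hSK', hSd, hS1⟩ := gmt_exists_approx hK' hKK' hT₃c hT₃s hT₃1 hδ0
  refine ⟨S, ⟨hS.of_le (by exact_mod_cast le_top), hSc, hSK'.trans hK'W⟩, hS1, ?_⟩
  have hpt : ∀ x ∈ K, ‖S x - τ x‖ ≤ δ + 2 * ‖τ x - T₁ x‖ := fun x hx => by
    have e : T₃ x = T₂ x := by
      rw [hT₃]
      simp only
      rw [hχ1.self_of_nhdsSet x hx, one_smul]
    calc ‖S x - τ x‖ = ‖(S x - T₃ x) + (T₂ x - τ x)‖ := by rw [e]; congr 1; abel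
      _ ≤ ‖S x - T₃ x‖ + ‖T₂ x - τ x‖ := norm_add_le _ _
      _ ≤ δ + 2 * ‖τ x - T₁ x‖ := add_le_add (hSd x) (hT₂d x)
  have i1 : IntegrableOn (fun x => ‖S x - τ x‖) K μ :=
    Integrable.of_bound (hS.continuous.measurable.sub hτ).norm.aestronglyMeasurable (1 + 1)
      (Eventually.of_forall fun x => by
        rw [norm_norm]
        exact (norm_sub_le _ _).trans (add_le_add (hS1 x) (h1 x)))
  have i2 : Integrable (fun x => ‖τ x - T₁ x‖) (μ.restrict K) := (hτi.sub hT₁i).norm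
  have i3 : IntegrableOn (fun x => δ + 2 * ‖τ x - T₁ x‖) K μ :=
    (integrable_const δ).add (i2.const_mul 2)
  calc ∫ x in K, ‖S x - τ x‖ ∂μ ≤ ∫ x in K, (δ + 2 * ‖τ x - T₁ x‖) ∂μ :=
        setIntegral_mono_on i1 i3 hK.measurableSet hpt
    _ = δ * μ.real K + 2 * ∫ x in K, ‖τ x - T₁ x‖ ∂μ := by
        rw [integral_add (integrable_const δ) (i2.const_mul 2), integral_const_mul,
          integral_const, smul_eq_mul, measureReal_restrict_apply MeasurableSet.univ, univ_inter,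
          mul_comm]
    _ ≤ ε / 2 + 2 * (ε / 4) := by
        refine add_le_add ?_ (mul_le_mul_of_nonneg_left hT₁ zero_le_two)
        rw [hδ, div_mul_eq_mul_div, div_le_div_iff₀ hden zero_lt_two]
        have := measureReal_nonneg (μ := μ) (s := K)
        nlinarith
    _ = ε := by ring

/-- total variation of `σ μ` on open sets. -/
theorem gmt_polar_open_gen {U : Set (E m)} (hU : IsOpen U) {μ : Measure (E m)} {σ : E m → E k}
    (hσ : Measurable σ) {C : ℝ} (hC : ∀ x, ‖σ x‖ ≤ C) (hf : ∀ K, IsCompact K → K ⊆ U → μ K ≠ ⊤)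
    {W : Set (E m)} (hW : IsOpen W) (hWU : W ⊆ U) :
    ∫⁻ x in W, ‖σ x‖ₑ ∂μ = ⨆ (T : E m → E k) (_ : GmtTestK W T) (_ : ∀ x, ‖T x‖ ≤ 1),
      ENNReal.ofReal (∫ x, ⟪T x, σ x⟫ ∂μ) := by
  have hfW : ∀ K, IsCompact K → K ⊆ W → μ K ≠ ⊤ := fun K hK hKW => hf K hK (hKW.trans hWU)
  set L : (E m → E k) → ℝ := fun T => ∫ x, ⟪T x, σ x⟫ ∂μ with hLdef
  have hL : GmtFunlB W L := by
    refine ⟨fun T T' hT hT' => ?_, fun c T hT => ?_,
      fun K hK hKW => ⟨C * μ.real K, fun T hT hTK h1 => ?_⟩⟩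
    · show ∫ x, ⟪T x + T' x, σ x⟫ ∂μ = _
      simp only [inner_add_left]
      exact integral_add (gmt_integrable_inner_test hfW hσ (Eventually.of_forall hC) hT)
        (gmt_integrable_inner_test hfW hσ (Eventually.of_forall hC) hT')
    · show ∫ x, ⟪c • T x, σ x⟫ ∂μ = c * _
      simp only [real_inner_smul_left]
      exact integral_const_mul _ _
    · have e : ∫ x in K, ⟪T x, σ x⟫ ∂μ = ∫ x, ⟪T x, σ x⟫ ∂μ :=
        setIntegral_eq_integral_of_forall_compl_eq_zero fun x hx => by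
          rw [image_eq_zero_of_notMem_tsupport (fun h => hx (hTK h)), inner_zero_left]
      show ∫ x, ⟪T x, σ x⟫ ∂μ ≤ _
      rw [← e]
      refine (le_abs_self _).trans ?_
      rw [← Real.norm_eq_abs]
      refine norm_setIntegral_le_of_norm_le_const (hfW K hK hKW).lt_top fun x _ => ?_
      calc ‖⟪T x, σ x⟫‖ ≤ ‖T x‖ * ‖σ x‖ := norm_inner_le_norm _ _
        _ ≤ 1 * C := mul_le_mul (h1 x) (hC x) (norm_nonneg _) zero_le_one
        _ = C := one_mul C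
  obtain ⟨μ₁, ν₁, hνm, hν01, hν1, hc, hf₁, hrep, hopen⟩ := gmtRieszB hW hL
  have hν1b : ∀ x, ‖ν₁ x‖ ≤ 1 := fun x => by
    rcases hν01 x with h | h
    · exact h.le
    · rw [h, norm_zero]; exact zero_le_one
  have key := gmt_withDensity_enorm_eq hW hfW hf₁ hσ hνm hC hν1b hrep
  have key2 := congrArg (fun ρ : Measure (E m) => ρ univ) key
  simp only [withDensity_apply _ MeasurableSet.univ, Measure.restrict_univ] at key2
  rw [key2, ← hopen W hW subset_rfl]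
  have : ∀ᵐ x ∂(μ₁.restrict W), ‖ν₁ x‖ₑ = 1 := by
    refine ae_restrict_of_ae ?_
    filter_upwards [hν1] with x hx
    rw [← ofReal_norm_eq_enorm, hx, ENNReal.ofReal_one]
  rw [lintegral_congr_ae this, lintegral_one, Measure.restrict_apply MeasurableSet.univ, univ_inter]

/-- normalisation of an a.e. unit field. -/
theorem gmt_exists_unit_repr {μ : Measure (E m)} {ν : E m → E k} (hν : Measurable ν)
    (h1 : ∀ᵐ x ∂μ, ‖ν x‖ = 1) :
    ∃ ν₀ : E m → E k, Measurable ν₀ ∧ (∀ x, ‖ν₀ x‖ ≤ 1) ∧ ν₀ =ᵐ[μ] ν ∧ ∀ᵐ x ∂μ, ‖ν₀ x‖ₑ = 1 := by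
  classical
  refine ⟨fun x => if ‖ν x‖ = 1 then ν x else 0,
    Measurable.ite (measurableSet_eq_fun hν.norm measurable_const) hν measurable_const,
    fun x => ?_, ?_, ?_⟩
  · by_cases hx : ‖ν x‖ = 1
    · simp only [if_pos hx]; exact hx.le
    · simp only [if_neg hx, norm_zero]; exact zero_le_one
  · filter_upwards [h1] with x hx
    simp only [if_pos hx]
  · filter_upwards [h1] with x hx
    simp only [if_pos hx]
    rw [← ofReal_norm_eq_enorm, hx, ENNReal.ofReal_one]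

/-- total variation of a polar pair on open sets. -/
theorem gmt_polar_open {U : Set (E m)} (hU : IsOpen U) {μ : Measure (E m)} {ν : E m → E k}
    (hν : Measurable ν) (h1 : ∀ᵐ x ∂μ, ‖ν x‖ = 1) (hf : ∀ K, IsCompact K → K ⊆ U → μ K ≠ ⊤)
    {W : Set (E m)} (hW : IsOpen W) (hWU : W ⊆ U) :
    μ W = ⨆ (T : E m → E k) (_ : GmtTestK W T) (_ : ∀ x, ‖T x‖ ≤ 1),
      ENNReal.ofReal (∫ x, ⟪T x, ν x⟫ ∂μ) := by
  obtain ⟨ν₀, hm, hb, hae, hn⟩ := gmt_exists_unit_repr hν h1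
  have e : ∀ T : E m → E k, ∫ x, ⟪T x, ν x⟫ ∂μ = ∫ x, ⟪T x, ν₀ x⟫ ∂μ := fun T => by
    refine integral_congr_ae ?_
    filter_upwards [hae] with x hx
    rw [hx]
  simp only [e]
  rw [← gmt_polar_open_gen hU hm hb hf hW hWU, lintegral_congr_ae (ae_restrict_of_ae hn),
    lintegral_one, Measure.restrict_apply MeasurableSet.univ, univ_inter]

-- `gmt_measure_ext_open` is proved in `GgRieszB.lean`.

/-- uniqueness in the Riesz theorem. -/
theorem gmtRiesz_unique {U : Set (E m)} (hU : IsOpen U) {μ μ' : Measure (E m)} {ν ν' : E m → E k}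
    (hν : Measurable ν) (hν' : Measurable ν') (h1 : ∀ᵐ x ∂μ, ‖ν x‖ = 1)
    (h1' : ∀ᵐ x ∂μ', ‖ν' x‖ = 1) (hc : μ Uᶜ = 0) (hc' : μ' Uᶜ = 0)
    (hf : ∀ K, IsCompact K → K ⊆ U → μ K ≠ ⊤) (hf' : ∀ K, IsCompact K → K ⊆ U → μ' K ≠ ⊤)
    (h : ∀ T, GmtTestK U T → ∫ x, ⟪T x, ν x⟫ ∂μ = ∫ x, ⟪T x, ν' x⟫ ∂μ') :
    μ = μ' ∧ ν =ᵐ[μ] ν' := by
  obtain ⟨ν₀, hm, hb, hae, hn⟩ := gmt_exists_unit_repr hν h1
  obtain ⟨ν₀', hm', hb', hae', hn'⟩ := gmt_exists_unit_repr hν' h1'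
  have hUae : ∀ᵐ x ∂μ, x ∈ U := by rw [ae_iff]; exact hc
  have hUae' : ∀ᵐ x ∂μ', x ∈ U := by rw [ae_iff]; exact hc'
  have h0 : ∀ T, GmtTestK U T → ∫ x, ⟪T x, ν₀ x⟫ ∂μ = ∫ x, ⟪T x, ν₀' x⟫ ∂μ' := fun T hT => by
    have e1 : ∫ x, ⟪T x, ν₀ x⟫ ∂μ = ∫ x, ⟪T x, ν x⟫ ∂μ := by
      refine integral_congr_ae ?_
      filter_upwards [hae] with x hx
      rw [hx]
    have e2 : ∫ x, ⟪T x, ν₀' x⟫ ∂μ' = ∫ x, ⟪T x, ν' x⟫ ∂μ' := by
      refine integral_congr_ae ?_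
      filter_upwards [hae'] with x hx
      rw [hx]
    rw [e1, e2, h T hT]
  have key := gmt_withDensity_enorm_eq hU hf hf' hm hm' hb hb' h0
  rw [Measure.restrict_eq_self_of_ae_mem hUae, Measure.restrict_eq_self_of_ae_mem hUae',
    withDensity_congr_ae (g := fun _ => 1) hn, withDensity_congr_ae (g := fun _ => 1) hn',
    withDensity_const, withDensity_const, one_smul, one_smul] at key
  refine ⟨key, ?_⟩
  subst key
  have hz : ∀ᵐ x ∂μ, x ∈ U → ν₀ x - ν₀' x = 0 := by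
    refine gmt_ae_eq_zero_of_test (C := 1 + 1) hU hf (hm.sub hm')
      (Eventually.of_forall fun x => (norm_sub_le _ _).trans (add_le_add (hb x) (hb' x)))
      fun T hT => ?_
    simp only [inner_sub_right]
    rw [integral_sub (gmt_integrable_inner_test hf hm (Eventually.of_forall hb) hT)
      (gmt_integrable_inner_test hf hm' (Eventually.of_forall hb') hT), h0 T hT, sub_self]
  filter_upwards [hz, hUae, hae, hae'] with x hx hxU e1 e2
  rw [← e1, ← e2]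
  exact sub_eq_zero.1 (hx hxU)

end Claimed.Agent.Gmt
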