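import Claimed.Agent.Lib.Gmt.GgDGL

/-!
# Lib/Gmt [GgRieszA] G0a: Riesz representation: the definitions.   (architect: helper75; prover: helper106)

ROUTE OF THE EXISTENCE PART (files `GgRieszAuxA-D`, `GgRieszB`, `GgRieszC`), all proved:
 AuxA. a functional on `C¹_c(U; E k)` which is bounded on fields supported in a fixed compact set (`GmtFunlB`) extends to `C⁰_c(U; E k)` (`gmtExt`);
 AuxB. the variation functional `gmtLam g = sup { L T : |T| ≤ g }` on nonnegative `g ∈ C_c(U)` is additive;
 AuxC. Riesz-Markov-Kakutani of Mathlib on the locally compact subtype `↥U` (`gmt_rmk`), comparison of regular measures through test functions;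
 AuxD. Radon-Nikodym for the directional functionals, the polar field, `|ν| = 1`;
 B.    `gmtRieszB` (existence of the pair `(μ, ν)`), `gmt_measure_ext_open`;
 C.    `gmtRiesz_of_measure` (the variation measure is given).
-/

set_option autoImplicit false
open scoped ContDiff ENNReal RealInnerProductSpace Topology
open MeasureTheory Metric Set Filter

namespace Claimed.Agent.Gmt

variable {m k : ℕ}

/-- `C¹_c(U; E k)`. -/
structure GmtTestK (U : Set (E m)) (T : E m → E k) : Prop where
  c1 : ContDiff ℝ 1 T
  cpt : HasCompactSupport T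
  sub : tsupport T ⊆ U

/-- a linear functional on `C¹_c(U; E k)`. -/
structure GmtFunl (U : Set (E m)) (L : (E m → E k) → ℝ) : Prop where
  add : ∀ T T', GmtTestK U T → GmtTestK U T' → L (fun x => T x + T' x) = L T + L T'
  smul : ∀ (c : ℝ) T, GmtTestK U T → L (fun x => c • T x) = c * L T

/-- `μ` dominates `L` on open subsets of `U`. -/
def GmtDom (U : Set (E m)) (L : (E m → E k) → ℝ) (μ : Measure (E m)) : Prop :=
  ∀ W, IsOpen W → W ⊆ U → ∀ T, GmtTestK W T → (∀ x, ‖T x‖ ≤ 1) → ENNReal.ofReal (L T) ≤ μ W

theorem GmtTestK.mono {U V : Set (E m)} {T : E m → E k} (h : GmtTestK U T) (hUV : U ⊆ V) :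
    GmtTestK V T := ⟨h.c1, h.cpt, h.sub.trans hUV⟩

end Claimed.Agent.Gmt
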