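import Claimed.Agent.Lib.Gmt.GgRieszA

/-!
# Lib/Gmt G0a, auxiliary file A: test fields, two sided bounds, uniform approximation, extension to continuous fields.
(prover: helper106)
-/

set_option autoImplicit false
open scoped ContDiff ENNReal RealInnerProductSpace Topology Manifold
open MeasureTheory Metric Set Filter

namespace Claimed.Agent.Gmt

variable {m k : ℕ}

/-- `C⁰_c(U; E k)`. -/
structure GmtTestC (U : Set (E m)) (T : E m → E k) : Prop where
  cont : Continuous T
  cpt : HasCompactSupport T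
  sub : tsupport T ⊆ U

/-- a linear functional on `C¹_c(U; E k)`, bounded on fields supported in a fixed compact set. -/
structure GmtFunlB (U : Set (E m)) (L : (E m → E k) → ℝ) : Prop where
  add : ∀ T T', GmtTestK U T → GmtTestK U T' → L (fun x => T x + T' x) = L T + L T'
  smul : ∀ (c : ℝ) T, GmtTestK U T → L (fun x => c • T x) = c * L T
  bdd : ∀ K, IsCompact K → K ⊆ U → ∃ C : ℝ, ∀ T, GmtTestK U T → tsupport T ⊆ K →
    (∀ x, ‖T x‖ ≤ 1) → L T ≤ C

/-! ### closure properties -/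

theorem GmtTestK.toC {U : Set (E m)} {T : E m → E k} (h : GmtTestK U T) : GmtTestC U T :=
  ⟨h.c1.continuous, h.cpt, h.sub⟩

theorem GmtTestC.mono {U V : Set (E m)} {T : E m → E k} (h : GmtTestC U T) (hUV : U ⊆ V) :
    GmtTestC V T := ⟨h.cont, h.cpt, h.sub.trans hUV⟩

theorem gmt_tsupport_add_subset (T T' : E m → E k) :
    tsupport (fun x => T x + T' x) ⊆ tsupport T ∪ tsupport T' := by
  refine closure_minimal (fun x hx => ?_) ((isClosed_tsupport T).union (isClosed_tsupport T'))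
  by_contra hc
  rw [mem_union, not_or] at hc
  exact hx (by
    show T x + T' x = 0
    rw [image_eq_zero_of_notMem_tsupport hc.1, image_eq_zero_of_notMem_tsupport hc.2, add_zero])

theorem gmt_tsupport_smul_subset (φ : E m → ℝ) (T : E m → E k) :
    tsupport (fun x => φ x • T x) ⊆ tsupport T := by
  refine closure_minimal (fun x hx => ?_) (isClosed_tsupport T)
  by_contra hc
  exact hx (by
    show φ x • T x = 0
    rw [image_eq_zero_of_notMem_tsupport hc, smul_zero])

theorem gmt_tsupport_smul_subset_left (φ : E m → ℝ) (T : E m → E k) :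
    tsupport (fun x => φ x • T x) ⊆ tsupport φ := by
  refine closure_minimal (fun x hx => ?_) (isClosed_tsupport φ)
  by_contra hc
  exact hx (by
    show φ x • T x = 0
    rw [image_eq_zero_of_notMem_tsupport hc, zero_smul])

theorem GmtTestK.add {U : Set (E m)} {T T' : E m → E k} (h : GmtTestK U T) (h' : GmtTestK U T') :
    GmtTestK U (fun x => T x + T' x) :=
  ⟨h.c1.add h'.c1, h.cpt.add h'.cpt,
    (gmt_tsupport_add_subset T T').trans (union_subset h.sub h'.sub)⟩

theorem GmtTestC.add {U : Set (E m)} {T T' : E m → E k} (h : GmtTestC U T) (h' : GmtTestC U T') :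
    GmtTestC U (fun x => T x + T' x) :=
  ⟨h.cont.add h'.cont, h.cpt.add h'.cpt,
    (gmt_tsupport_add_subset T T').trans (union_subset h.sub h'.sub)⟩

theorem GmtTestK.const_smul {U : Set (E m)} {T : E m → E k} (h : GmtTestK U T) (c : ℝ) :
    GmtTestK U (fun x => c • T x) :=
  ⟨h.c1.const_smul c, h.cpt.of_isClosed_subset (isClosed_tsupport _)
    (gmt_tsupport_smul_subset (fun _ => c) T), (gmt_tsupport_smul_subset (fun _ => c) T).trans h.sub⟩

theorem GmtTestC.smul {U : Set (E m)} {T : E m → E k} (h : GmtTestC U T) {φ : E m → ℝ}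
    (hφ : Continuous φ) : GmtTestC U (fun x => φ x • T x) :=
  ⟨hφ.smul h.cont, h.cpt.of_isClosed_subset (isClosed_tsupport _) (gmt_tsupport_smul_subset φ T),
    (gmt_tsupport_smul_subset φ T).trans h.sub⟩

theorem GmtTestC.const_smul {U : Set (E m)} {T : E m → E k} (h : GmtTestC U T) (c : ℝ) :
    GmtTestC U (fun x => c • T x) := h.smul continuous_const

theorem gmtTestK_zero (U : Set (E m)) : GmtTestK U (fun _ => (0 : E k)) :=
  ⟨contDiff_const, HasCompactSupport.zero, by
    have : tsupport (fun _ : E m => (0 : E k)) = ∅ := by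
      rw [tsupport_eq_empty_iff]; rfl
    rw [this]; exact empty_subset _⟩

theorem GmtTestK.sub' {U : Set (E m)} {T T' : E m → E k} (h : GmtTestK U T) (h' : GmtTestK U T') :
    GmtTestK U (fun x => T x + (-1 : ℝ) • T' x) := h.add (h'.const_smul (-1))

/-! ### the functional on `C¹_c` -/

theorem GmtFunlB.zero {U : Set (E m)} {L : (E m → E k) → ℝ} (hL : GmtFunlB U L) :
    L (fun _ => (0 : E k)) = 0 := by
  have h := hL.smul 0 (fun _ => (0 : E k)) (gmtTestK_zero U)
  simpa using h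

/-- two sided bound. -/
theorem GmtFunlB.abs_le {U : Set (E m)} {L : (E m → E k) → ℝ} (hL : GmtFunlB U L) {K : Set (E m)}
    (hK : IsCompact K) (hKU : K ⊆ U) :
    ∃ C : ℝ, 0 ≤ C ∧ ∀ T, GmtTestK U T → tsupport T ⊆ K → ∀ c : ℝ, (∀ x, ‖T x‖ ≤ c) → |L T| ≤ C * c := by
  obtain ⟨C, hC⟩ := hL.bdd K hK hKU
  have hC0 : 0 ≤ C := by
    have := hC (fun _ => 0) (gmtTestK_zero U) (by
      have : tsupport (fun _ : E m => (0 : E k)) = ∅ := by
        rw [tsupport_eq_empty_iff]; rfl
      rw [this]; exact empty_subset _) (fun x => by simp)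
    rwa [hL.zero] at this
  refine ⟨C, hC0, fun T hT hTK c hc => ?_⟩
  have hc0 : 0 ≤ c := (norm_nonneg _).trans (hc 0)
  rcases hc0.eq_or_lt with h0 | h0
  · have hT0 : T = fun _ => 0 := by
      funext x
      have := hc x
      rw [← h0] at this
      exact norm_le_zero_iff.1 this
    rw [hT0, hL.zero, ← h0]
    simp
  · have key : ∀ s : ℝ, |s| = c⁻¹ → s * L T ≤ C := fun s hs => by
      rw [← hL.smul s T hT]
      refine hC _ (hT.const_smul s) ((gmt_tsupport_smul_subset (fun _ => s) T).trans hTK) fun x => ?_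
      rw [norm_smul, Real.norm_eq_abs, hs]
      calc c⁻¹ * ‖T x‖ ≤ c⁻¹ * c := by gcongr; exact hc x
        _ = 1 := inv_mul_cancel₀ h0.ne'
    have h1 := key c⁻¹ (abs_of_pos (inv_pos.2 h0))
    have h2 := key (-c⁻¹) (by rw [abs_neg, abs_of_pos (inv_pos.2 h0)])
    rw [_root_.abs_le]
    constructor
    · have : -(c⁻¹ * L T) * c ≤ C * c := by
        have := mul_le_mul_of_nonneg_right h2 h0.le
        linarith
      have e : c⁻¹ * L T * c = L T := by field_simp
      linarith
    · have := mul_le_mul_of_nonneg_right h1 h0.le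
      have e : c⁻¹ * L T * c = L T := by field_simp
      linarith

/-! ### uniform approximation of continuous fields -/

/-- smooth approximation with control of the support and of the norm. -/
theorem gmt_exists_approx {K K' : Set (E m)} (hK' : IsCompact K') (hKK' : K ⊆ interior K')
    {T : E m → E k} (hT : Continuous T) (hTK : tsupport T ⊆ K) {c δ : ℝ} (hc : ∀ x, ‖T x‖ ≤ c)
    (hδ : 0 < δ) :
    ∃ S : E m → E k, ContDiff ℝ ∞ S ∧ HasCompactSupport S ∧ tsupport S ⊆ K' ∧
      (∀ x, ‖S x - T x‖ ≤ δ) ∧ ∀ x, ‖S x‖ ≤ c := by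
  classical
  have hc0 : 0 ≤ c := (norm_nonneg _).trans (hc 0)
  set t : E m → Set (E k) := fun x => if x ∈ K' then ball (T x) δ ∩ closedBall 0 c else {0} with ht
  have hconv : ∀ x, Convex ℝ (t x) := fun x => by
    by_cases hx : x ∈ K'
    · simp only [ht, if_pos hx]
      exact (convex_ball _ _).inter (convex_closedBall _ _)
    · simp only [ht, if_neg hx]
      exact convex_singleton 0
  have Hloc : ∀ x, ∃ v : E k, ∀ᶠ y in 𝓝 x, v ∈ t y := fun x => by
    by_cases hx : x ∈ interior K'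
    · refine ⟨T x, ?_⟩
      have h1 : ∀ᶠ y in 𝓝 x, y ∈ K' := mem_interior_iff_mem_nhds.1 hx
      have h2 : ∀ᶠ y in 𝓝 x, dist (T y) (T x) < δ := hT.continuousAt.eventually (ball_mem_nhds _ hδ)
      filter_upwards [h1, h2] with y hy1 hy2
      simp only [ht, if_pos hy1]
      exact ⟨by rw [mem_ball, dist_comm]; exact hy2, by rw [mem_closedBall_zero_iff]; exact hc x⟩
    · refine ⟨0, ?_⟩
      have hx' : x ∉ tsupport T := fun h => hx (hKK' (hTK h))
      have h1 : ∀ᶠ y in 𝓝 x, y ∉ tsupport T := (isClosed_tsupport T).isOpen_compl.mem_nhds hx'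
      filter_upwards [h1] with y hy
      by_cases hy' : y ∈ K'
      · simp only [ht, if_pos hy']
        rw [image_eq_zero_of_notMem_tsupport hy]
        exact ⟨mem_ball_self hδ, by rw [mem_closedBall_zero_iff, norm_zero]; exact hc0⟩
      · simp only [ht, if_neg hy']
        exact mem_singleton 0
  obtain ⟨g, hg⟩ := exists_contMDiffMap_forall_mem_convex_of_local_const (n := (⊤ : ℕ∞))
    𝓘(ℝ, E m) hconv Hloc
  have hs : Function.support g ⊆ K' := by
    intro x hx
    by_contra h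
    have := hg x
    simp only [ht, if_neg h] at this
    exact hx this
  have hts : tsupport g ⊆ K' := closure_minimal hs hK'.isClosed
  refine ⟨g, g.contMDiff.contDiff, hK'.of_isClosed_subset (isClosed_tsupport _) hts, hts,
    fun x => ?_, fun x => ?_⟩
  · by_cases hx : x ∈ K'
    · have := hg x
      simp only [ht, if_pos hx] at this
      have h1 := this.1
      rw [mem_ball, dist_eq_norm] at h1
      exact h1.le
    · have := hg x
      simp only [ht, if_neg hx] at this
      have hx' : x ∉ tsupport T := fun h => hx (interior_subset (hKK' (hTK h)))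
      rw [mem_singleton_iff.1 this, image_eq_zero_of_notMem_tsupport hx', sub_zero, norm_zero]
      exact hδ.le
  · by_cases hx : x ∈ K'
    · have := hg x
      simp only [ht, if_pos hx] at this
      exact mem_closedBall_zero_iff.1 this.2
    · have := hg x
      simp only [ht, if_neg hx] at this
      rw [mem_singleton_iff.1 this, norm_zero]
      exact hc0

/-! ### approximating sequences and the extension -/

/-- `S n → T` uniformly, `S n ∈ C¹_c(U)` with supports in a fixed compact subset of `U`. -/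
structure GmtApx (U : Set (E m)) (T : E m → E k) (S : ℕ → E m → E k) : Prop where
  test : ∀ n, GmtTestK U (S n)
  supp : ∃ K, IsCompact K ∧ K ⊆ U ∧ ∀ n, tsupport (S n) ⊆ K
  conv : ∀ δ > 0, ∀ᶠ n in atTop, ∀ x, ‖S n x - T x‖ ≤ δ

theorem GmtFunlB.sub_eq {U : Set (E m)} {L : (E m → E k) → ℝ} (hL : GmtFunlB U L) {T T' : E m → E k}
    (h : GmtTestK U T) (h' : GmtTestK U T') : L (fun x => T x + (-1 : ℝ) • T' x) = L T - L T' := by
  rw [hL.add T _ h (h'.const_smul (-1)), hL.smul (-1) T' h']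
  ring

/-- comparison of the values of `L` on two fields which are uniformly close. -/
theorem GmtFunlB.abs_sub_le {U : Set (E m)} {L : (E m → E k) → ℝ} (hL : GmtFunlB U L) {K : Set (E m)}
    (hK : IsCompact K) (hKU : K ⊆ U) :
    ∃ C : ℝ, 0 ≤ C ∧ ∀ T T', GmtTestK U T → GmtTestK U T' → tsupport T ⊆ K → tsupport T' ⊆ K →
      ∀ c : ℝ, (∀ x, ‖T x - T' x‖ ≤ c) → |L T - L T'| ≤ C * c := by
  obtain ⟨C, hC0, hC⟩ := hL.abs_le hK hKU
  refine ⟨C, hC0, fun T T' hT hT' hTK hTK' c hc => ?_⟩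
  rw [← hL.sub_eq hT hT']
  refine hC _ (hT.sub' hT') ((gmt_tsupport_add_subset _ _).trans (union_subset hTK
    ((gmt_tsupport_smul_subset (fun _ => (-1 : ℝ)) T').trans hTK'))) c fun x => ?_
  have : T x + (-1 : ℝ) • T' x = T x - T' x := by rw [neg_one_smul, sub_eq_add_neg]
  rw [this]
  exact hc x

theorem GmtApx.tendsto_sub {U : Set (E m)} {L : (E m → E k) → ℝ} (hL : GmtFunlB U L) {T : E m → E k}
    {S S' : ℕ → E m → E k} (h : GmtApx U T S) (h' : GmtApx U T S') :
    Tendsto (fun n => L (S n) - L (S' n)) atTop (𝓝 0) := by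
  obtain ⟨K, hK, hKU, hS⟩ := h.supp
  obtain ⟨K', hK', hKU', hS'⟩ := h'.supp
  obtain ⟨C, hC0, hC⟩ := hL.abs_sub_le (hK.union hK') (union_subset hKU hKU')
  rw [Metric.tendsto_atTop]
  intro ε hε
  have hδ : 0 < ε / (2 * (C + 1)) / 2 := by positivity
  obtain ⟨N, hN⟩ := eventually_atTop.1 ((h.conv _ hδ).and (h'.conv _ hδ))
  refine ⟨N, fun n hn => ?_⟩
  rw [Real.dist_eq, sub_zero]
  have h1 := hC (S n) (S' n) (h.test n) (h'.test n) ((hS n).trans subset_union_left)
    ((hS' n).trans subset_union_right) (ε / (2 * (C + 1))) fun x => by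
      have a1 := (hN n hn).1 x
      have a2 := (hN n hn).2 x
      have : S n x - S' n x = (S n x - T x) - (S' n x - T x) := by abel
      rw [this]
      refine (norm_sub_le _ _).trans ?_
      linarith
  refine h1.trans_lt ?_
  have : C * (ε / (2 * (C + 1))) = ε * (C / (2 * (C + 1))) := by ring
  rw [this]
  have h2 : C / (2 * (C + 1)) < 1 := by
    rw [div_lt_one (by positivity)]
    linarith
  nlinarith

theorem GmtApx.cauchy {U : Set (E m)} {L : (E m → E k) → ℝ} (hL : GmtFunlB U L) {T : E m → E k}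
    {S : ℕ → E m → E k} (h : GmtApx U T S) : CauchySeq fun n => L (S n) := by
  obtain ⟨K, hK, hKU, hS⟩ := h.supp
  obtain ⟨C, hC0, hC⟩ := hL.abs_sub_le hK hKU
  rw [Metric.cauchySeq_iff]
  intro ε hε
  have hδ : 0 < ε / (2 * (C + 1)) / 2 := by positivity
  obtain ⟨N, hN⟩ := eventually_atTop.1 (h.conv _ hδ)
  refine ⟨N, fun n hn p hp => ?_⟩
  rw [Real.dist_eq]
  have h1 := hC (S n) (S p) (h.test n) (h.test p) (hS n) (hS p) (ε / (2 * (C + 1))) fun x => by
      have a1 := hN n hn x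
      have a2 := hN p hp x
      have : S n x - S p x = (S n x - T x) - (S p x - T x) := by abel
      rw [this]
      refine (norm_sub_le _ _).trans ?_
      linarith
  refine h1.trans_lt ?_
  have : C * (ε / (2 * (C + 1))) = ε * (C / (2 * (C + 1))) := by ring
  rw [this]
  have h2 : C / (2 * (C + 1)) < 1 := by
    rw [div_lt_one (by positivity)]
    linarith
  nlinarith

/-- existence of approximating sequences, with control of supports and norms. -/
theorem gmt_exists_apx {K K' W : Set (E m)} (hK' : IsCompact K') (hKK' : K ⊆ interior K')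
    (hK'W : K' ⊆ W) {T : E m → E k} (hT : Continuous T) (hTK : tsupport T ⊆ K) {c : ℝ}
    (hc : ∀ x, ‖T x‖ ≤ c) :
    ∃ S : ℕ → E m → E k, GmtApx W T S ∧ (∀ n, tsupport (S n) ⊆ K') ∧ ∀ n x, ‖S n x‖ ≤ c := by
  have h := fun n : ℕ => gmt_exists_approx hK' hKK' hT hTK hc (δ := 1 / ((n : ℝ) + 1)) (by positivity)
  choose S h1 h2 h3 h4 h5 using h
  refine ⟨S, ⟨fun n => ⟨(h1 n).of_le (by exact_mod_cast le_top), h2 n, (h3 n).trans hK'W⟩,
    ⟨K', hK', hK'W, h3⟩, fun δ hδ => ?_⟩, h3, h5⟩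
  obtain ⟨N, hN⟩ := exists_nat_one_div_lt hδ
  refine eventually_atTop.2 ⟨N, fun n hn x => (h4 n x).trans (le_trans ?_ hN.le)⟩
  have : (N : ℝ) ≤ n := by exact_mod_cast hn
  exact one_div_le_one_div_of_le (by positivity) (by linarith)

theorem GmtTestC.exists_apx {W : Set (E m)} (hW : IsOpen W) {T : E m → E k} (hT : GmtTestC W T) {c : ℝ}
    (hc : ∀ x, ‖T x‖ ≤ c) : ∃ S : ℕ → E m → E k, GmtApx W T S ∧ ∀ n x, ‖S n x‖ ≤ c := by
  obtain ⟨K', hK', h1, h2⟩ := exists_compact_between hT.cpt.isCompact hW hT.sub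
  obtain ⟨S, hS, -, hS'⟩ := gmt_exists_apx hK' h1 h2 hT.cont le_rfl hc
  exact ⟨S, hS, hS'⟩

theorem GmtTestC.exists_bound {W : Set (E m)} {T : E m → E k} (hT : GmtTestC W T) :
    ∃ c : ℝ, ∀ x, ‖T x‖ ≤ c :=
  hT.cont.bounded_above_of_compact_support hT.cpt

open Classical in
/-- the extension of `L` to continuous fields. -/
noncomputable def gmtExt (U : Set (E m)) (L : (E m → E k) → ℝ) (T : E m → E k) : ℝ :=
  if h : ∃ ℓ : ℝ, ∀ S, GmtApx U T S → Tendsto (fun n => L (S n)) atTop (𝓝 ℓ) then h.choose else 0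

theorem gmtExt_spec {U : Set (E m)} (_hU : IsOpen U) {L : (E m → E k) → ℝ} (hL : GmtFunlB U L)
    {T : E m → E k} (_hT : GmtTestC U T) {S : ℕ → E m → E k} (hS : GmtApx U T S) :
    Tendsto (fun n => L (S n)) atTop (𝓝 (gmtExt U L T)) := by
  have hex : ∃ ℓ : ℝ, ∀ S, GmtApx U T S → Tendsto (fun n => L (S n)) atTop (𝓝 ℓ) := by
    obtain ⟨ℓ, hℓ⟩ := cauchySeq_tendsto_of_complete (hS.cauchy hL)
    refine ⟨ℓ, fun S' hS' => ?_⟩
    have := (hS'.tendsto_sub hL hS).add hℓ
    simpa using this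
  unfold gmtExt
  rw [dif_pos hex]
  exact hex.choose_spec S hS

theorem GmtApx.const {U : Set (E m)} {T : E m → E k} (hT : GmtTestK U T) : GmtApx U T fun _ => T :=
  ⟨fun _ => hT, ⟨tsupport T, hT.cpt.isCompact, hT.sub, fun _ => le_rfl⟩, fun δ hδ =>
    Eventually.of_forall fun _ x => by rw [sub_self, norm_zero]; exact hδ.le⟩

theorem GmtApx.mono {U V : Set (E m)} {T : E m → E k} {S : ℕ → E m → E k} (h : GmtApx U T S)
    (hUV : U ⊆ V) : GmtApx V T S := by
  obtain ⟨K, hK, hKU, hS⟩ := h.supp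
  exact ⟨fun n => (h.test n).mono hUV, ⟨K, hK, hKU.trans hUV, hS⟩, h.conv⟩

theorem GmtApx.add {U : Set (E m)} {T T' : E m → E k} {S S' : ℕ → E m → E k} (h : GmtApx U T S)
    (h' : GmtApx U T' S') : GmtApx U (fun x => T x + T' x) fun n x => S n x + S' n x := by
  obtain ⟨K, hK, hKU, hS⟩ := h.supp
  obtain ⟨K', hK', hKU', hS'⟩ := h'.supp
  refine ⟨fun n => (h.test n).add (h'.test n), ⟨K ∪ K', hK.union hK', union_subset hKU hKU', fun n =>
    (gmt_tsupport_add_subset _ _).trans (union_subset_union (hS n) (hS' n))⟩, fun δ hδ => ?_⟩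
  filter_upwards [h.conv (δ / 2) (by positivity), h'.conv (δ / 2) (by positivity)] with n h1 h2 x
  have : S n x + S' n x - (T x + T' x) = (S n x - T x) + (S' n x - T' x) := by abel
  rw [this]
  refine (norm_add_le _ _).trans ?_
  linarith [h1 x, h2 x]

theorem GmtApx.const_smul {U : Set (E m)} {T : E m → E k} {S : ℕ → E m → E k} (h : GmtApx U T S)
    (c : ℝ) : GmtApx U (fun x => c • T x) fun n x => c • S n x := by
  obtain ⟨K, hK, hKU, hS⟩ := h.supp
  refine ⟨fun n => (h.test n).const_smul c, ⟨K, hK, hKU, fun n =>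
    (gmt_tsupport_smul_subset (fun _ => c) _).trans (hS n)⟩, fun δ hδ => ?_⟩
  filter_upwards [h.conv (δ / (|c| + 1)) (by positivity)] with n h1 x
  rw [← smul_sub, norm_smul, Real.norm_eq_abs]
  calc |c| * ‖S n x - T x‖ ≤ |c| * (δ / (|c| + 1)) := by gcongr; exact h1 x
    _ = δ * (|c| / (|c| + 1)) := by ring
    _ ≤ δ * 1 := by
        gcongr
        rw [div_le_one (by positivity)]
        linarith
    _ = δ := mul_one δ

theorem gmtExt_eq {U : Set (E m)} (hU : IsOpen U) {L : (E m → E k) → ℝ} (hL : GmtFunlB U L)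
    {T : E m → E k} (hT : GmtTestK U T) : gmtExt U L T = L T :=
  tendsto_nhds_unique (gmtExt_spec hU hL hT.toC (GmtApx.const hT)) tendsto_const_nhds

theorem gmtExt_add {U : Set (E m)} (hU : IsOpen U) {L : (E m → E k) → ℝ} (hL : GmtFunlB U L)
    {T T' : E m → E k} (hT : GmtTestC U T) (hT' : GmtTestC U T') :
    gmtExt U L (fun x => T x + T' x) = gmtExt U L T + gmtExt U L T' := by
  obtain ⟨c, hc⟩ := hT.exists_bound
  obtain ⟨c', hc'⟩ := hT'.exists_bound
  obtain ⟨S, hS, -⟩ := hT.exists_apx hU hc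
  obtain ⟨S', hS', -⟩ := hT'.exists_apx hU hc'
  have h1 := gmtExt_spec hU hL (hT.add hT') (hS.add hS')
  have h2 := (gmtExt_spec hU hL hT hS).add (gmtExt_spec hU hL hT' hS')
  refine tendsto_nhds_unique h1 (h2.congr fun n => ?_)
  exact (hL.add _ _ (hS.test n) (hS'.test n)).symm

theorem gmtExt_smul {U : Set (E m)} (hU : IsOpen U) {L : (E m → E k) → ℝ} (hL : GmtFunlB U L)
    (c : ℝ) {T : E m → E k} (hT : GmtTestC U T) :
    gmtExt U L (fun x => c • T x) = c * gmtExt U L T := by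
  obtain ⟨b, hb⟩ := hT.exists_bound
  obtain ⟨S, hS, -⟩ := hT.exists_apx hU hb
  have h1 := gmtExt_spec hU hL (hT.const_smul c) (hS.const_smul c)
  have h2 := (gmtExt_spec hU hL hT hS).const_mul c
  refine tendsto_nhds_unique h1 (h2.congr fun n => ?_)
  exact (hL.smul c _ (hS.test n)).symm

theorem gmtExt_abs_le {U : Set (E m)} (hU : IsOpen U) {L : (E m → E k) → ℝ} (hL : GmtFunlB U L)
    {K : Set (E m)} (hK : IsCompact K) (hKU : K ⊆ U) :
    ∃ C : ℝ, 0 ≤ C ∧ ∀ T, GmtTestC U T → tsupport T ⊆ K → ∀ c : ℝ, (∀ x, ‖T x‖ ≤ c) →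
      |gmtExt U L T| ≤ C * c := by
  obtain ⟨K', hK', h1, h2⟩ := exists_compact_between hK hU hKU
  obtain ⟨C, hC0, hC⟩ := hL.abs_le hK' h2
  refine ⟨C, hC0, fun T hT hTK c hc => ?_⟩
  obtain ⟨S, hS, hSK, hSc⟩ := gmt_exists_apx hK' h1 h2 hT.cont hTK hc
  refine le_of_tendsto (gmtExt_spec hU hL hT hS).abs (Eventually.of_forall fun n => ?_)
  exact hC _ (hS.test n) (hSK n) c (hSc n)

theorem gmtExt_le_iSup {U : Set (E m)} (hU : IsOpen U) {L : (E m → E k) → ℝ} (hL : GmtFunlB U L)
    {W : Set (E m)} (hW : IsOpen W) (hWU : W ⊆ U) {T : E m → E k} (hT : GmtTestC W T)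
    (h1 : ∀ x, ‖T x‖ ≤ 1) :
    ENNReal.ofReal (gmtExt U L T) ≤
      ⨆ (T' : E m → E k) (_ : GmtTestK W T') (_ : ∀ x, ‖T' x‖ ≤ 1), ENNReal.ofReal (L T') := by
  obtain ⟨S, hS, hS1⟩ := hT.exists_apx hW h1
  have h2 := gmtExt_spec hU hL (hT.mono hWU) (hS.mono hWU)
  refine le_of_tendsto ((ENNReal.continuous_ofReal.tendsto _).comp h2) (Eventually.of_forall fun n => ?_)
  exact le_iSup_of_le (S n) (le_iSup_of_le (hS.test n) (le_iSup_of_le (hS1 n) le_rfl))

end Claimed.Agent.Gmt
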