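import Claimed.Agent.Lib.Gmt.GgRieszAuxA

/-!
# Lib/Gmt G0a, auxiliary file B: the variation functional `gmtLam` and its additivity.
(prover: helper106)
-/

set_option autoImplicit false
open scoped ContDiff ENNReal RealInnerProductSpace Topology
open MeasureTheory Metric Set Filter

namespace Claimed.Agent.Gmt

variable {m k : ℕ}

/-- nonnegative continuous functions with compact support in `U`. -/
structure GmtCc0 (U : Set (E m)) (g : E m → ℝ) : Prop where
  cont : Continuous g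
  cpt : HasCompactSupport g
  sub : tsupport g ⊆ U
  nonneg : ∀ x, 0 ≤ g x

theorem GmtCc0.add {U : Set (E m)} {g g' : E m → ℝ} (h : GmtCc0 U g) (h' : GmtCc0 U g') :
    GmtCc0 U (fun x => g x + g' x) := by
  refine ⟨h.cont.add h'.cont, h.cpt.add h'.cpt, ?_, fun x => add_nonneg (h.nonneg x) (h'.nonneg x)⟩
  refine (closure_minimal (fun x hx => ?_) ((isClosed_tsupport g).union (isClosed_tsupport g'))).trans
    (union_subset h.sub h'.sub)
  by_contra hc
  rw [mem_union, not_or] at hc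
  exact hx (by
    show g x + g' x = 0
    rw [image_eq_zero_of_notMem_tsupport hc.1, image_eq_zero_of_notMem_tsupport hc.2, add_zero])

theorem gmt_tsupport_mul_subset (φ g : E m → ℝ) : tsupport (fun x => φ x * g x) ⊆ tsupport g := by
  refine closure_minimal (fun x hx => ?_) (isClosed_tsupport g)
  by_contra hc
  exact hx (by
    show φ x * g x = 0
    rw [image_eq_zero_of_notMem_tsupport hc, mul_zero])

theorem GmtCc0.mul_left {U : Set (E m)} {g φ : E m → ℝ} (h : GmtCc0 U g) (hφ : Continuous φ)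
    (h0 : ∀ x, 0 ≤ φ x) : GmtCc0 U (fun x => φ x * g x) :=
  ⟨hφ.mul h.cont, h.cpt.of_isClosed_subset (isClosed_tsupport _) (gmt_tsupport_mul_subset φ g),
    (gmt_tsupport_mul_subset φ g).trans h.sub, fun x => mul_nonneg (h0 x) (h.nonneg x)⟩

theorem GmtCc0.const_mul {U : Set (E m)} {g : E m → ℝ} (h : GmtCc0 U g) {c : ℝ} (hc : 0 ≤ c) :
    GmtCc0 U (fun x => c * g x) := h.mul_left continuous_const fun _ => hc

theorem GmtCc0.mono {U V : Set (E m)} {g : E m → ℝ} (h : GmtCc0 U g) (hUV : U ⊆ V) : GmtCc0 V g :=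
  ⟨h.cont, h.cpt, h.sub.trans hUV, h.nonneg⟩

theorem GmtCc0.exists_bound {U : Set (E m)} {g : E m → ℝ} (h : GmtCc0 U g) : ∃ c : ℝ, ∀ x, g x ≤ c := by
  obtain ⟨c, hc⟩ := h.cont.bounded_above_of_compact_support h.cpt
  exact ⟨c, fun x => (le_abs_self _).trans (hc x)⟩

theorem GmtTestC.norm_cc0 {U : Set (E m)} {T : E m → E k} (h : GmtTestC U T) :
    GmtCc0 U (fun x => ‖T x‖) := by
  have hs : tsupport (fun x => ‖T x‖) ⊆ tsupport T := by
    refine closure_minimal (fun x hx => ?_) (isClosed_tsupport T)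
    by_contra hc
    exact hx (by
      show ‖T x‖ = 0
      rw [image_eq_zero_of_notMem_tsupport hc, norm_zero])
  exact ⟨h.cont.norm, h.cpt.of_isClosed_subset (isClosed_tsupport _) hs, hs.trans h.sub,
    fun x => norm_nonneg _⟩

theorem GmtCc0.smul_const {U : Set (E m)} {g : E m → ℝ} (h : GmtCc0 U g) (e : E k) :
    GmtTestC U (fun x => g x • e) :=
  ⟨h.cont.smul continuous_const, h.cpt.of_isClosed_subset (isClosed_tsupport _)
    (gmt_tsupport_smul_subset_left g fun _ => e), (gmt_tsupport_smul_subset_left g fun _ => e).trans h.sub⟩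

theorem gmt_tsupport_subset_of_norm_le {T : E m → E k} {g : E m → ℝ} (h : ∀ x, ‖T x‖ ≤ g x) :
    tsupport T ⊆ tsupport g := by
  refine closure_mono fun x hx => ?_
  intro h0
  have h1 := h x
  rw [h0] at h1
  exact hx (norm_le_zero_iff.1 h1)

/-- the variation functional `λ g = sup { L' T : |T| ≤ g }`. -/
noncomputable def gmtLam (U : Set (E m)) (L : (E m → E k) → ℝ) (g : E m → ℝ) : ℝ :=
  sSup {t | ∃ T : E m → E k, GmtTestC U T ∧ (∀ x, ‖T x‖ ≤ g x) ∧ t = gmtExt U L T}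

section

variable {U : Set (E m)} {L : (E m → E k) → ℝ}

theorem gmtExt_zero (hU : IsOpen U) (hL : GmtFunlB U L) : gmtExt U L (fun _ => (0 : E k)) = 0 := by
  rw [gmtExt_eq hU hL (gmtTestK_zero U), hL.zero]

theorem gmtLam_bddAbove (hU : IsOpen U) (hL : GmtFunlB U L) {g : E m → ℝ} (hg : GmtCc0 U g) :
    BddAbove {t | ∃ T : E m → E k, GmtTestC U T ∧ (∀ x, ‖T x‖ ≤ g x) ∧ t = gmtExt U L T} := by
  obtain ⟨C, -, hC⟩ := gmtExt_abs_le hU hL hg.cpt.isCompact hg.sub
  obtain ⟨c, hc⟩ := hg.exists_bound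
  refine ⟨C * c, ?_⟩
  rintro t ⟨T, hT, hTg, rfl⟩
  exact (le_abs_self _).trans (hC T hT (gmt_tsupport_subset_of_norm_le hTg) c fun x => (hTg x).trans (hc x))

theorem gmtExt_le_gmtLam (hU : IsOpen U) (hL : GmtFunlB U L) {g : E m → ℝ} (hg : GmtCc0 U g)
    {T : E m → E k} (hT : GmtTestC U T) (hTg : ∀ x, ‖T x‖ ≤ g x) : gmtExt U L T ≤ gmtLam U L g :=
  le_csSup (gmtLam_bddAbove hU hL hg) ⟨T, hT, hTg, rfl⟩

theorem gmtLam_nonneg (hU : IsOpen U) (hL : GmtFunlB U L) {g : E m → ℝ} (hg : GmtCc0 U g) :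
    0 ≤ gmtLam U L g := by
  rw [← gmtExt_zero hU hL]
  exact gmtExt_le_gmtLam hU hL hg (gmtTestK_zero U).toC fun x => by rw [norm_zero]; exact hg.nonneg x

theorem gmtLam_le (_hU : IsOpen U) (_hL : GmtFunlB U L) {g : E m → ℝ} (hg : GmtCc0 U g) {b : ℝ}
    (h : ∀ T : E m → E k, GmtTestC U T → (∀ x, ‖T x‖ ≤ g x) → gmtExt U L T ≤ b) : gmtLam U L g ≤ b := by
  refine csSup_le ⟨_, (fun _ => 0), (gmtTestK_zero U).toC, fun x => by rw [norm_zero]; exact hg.nonneg x,
    rfl⟩ ?_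
  rintro t ⟨T, hT, hTg, rfl⟩
  exact h T hT hTg

theorem abs_gmtExt_le_gmtLam (hU : IsOpen U) (hL : GmtFunlB U L) {g : E m → ℝ} (hg : GmtCc0 U g)
    {T : E m → E k} (hT : GmtTestC U T) (hTg : ∀ x, ‖T x‖ ≤ g x) : |gmtExt U L T| ≤ gmtLam U L g := by
  rw [abs_le]
  refine ⟨?_, gmtExt_le_gmtLam hU hL hg hT hTg⟩
  have h1 := gmtExt_le_gmtLam hU hL hg (hT.const_smul (-1)) fun x => by
    rw [norm_smul, norm_neg, norm_one, one_mul]; exact hTg x
  rw [gmtExt_smul hU hL (-1) hT] at h1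
  linarith

/-- continuity of the pieces `g₁/(g₁+g₂) T`. -/
theorem gmt_split_continuous {g₁ g₂ : E m → ℝ} (h₁ : Continuous g₁) (h₂ : Continuous g₂)
    (n₁ : ∀ x, 0 ≤ g₁ x) (n₂ : ∀ x, 0 ≤ g₂ x) {T : E m → E k} (hT : Continuous T)
    (h : ∀ x, ‖T x‖ ≤ g₁ x + g₂ x) : Continuous fun x => (g₁ x / (g₁ x + g₂ x)) • T x := by
  rw [continuous_iff_continuousAt]
  intro x
  by_cases hx : g₁ x + g₂ x = 0
  · have hTx : T x = 0 := by
      have := h x
      rw [hx] at this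
      exact norm_le_zero_iff.1 this
    unfold ContinuousAt
    simp only [hTx, smul_zero]
    rw [tendsto_zero_iff_norm_tendsto_zero]
    have h0 : Tendsto (fun y => ‖T y‖) (𝓝 x) (𝓝 0) := by
      have := (hT.norm.tendsto x)
      rwa [hTx, norm_zero] at this
    refine squeeze_zero (fun y => norm_nonneg _) (fun y => ?_) h0
    rw [norm_smul, Real.norm_eq_abs, abs_of_nonneg (div_nonneg (n₁ y) (add_nonneg (n₁ y) (n₂ y)))]
    have : g₁ y / (g₁ y + g₂ y) ≤ 1 := div_le_one_of_le₀ (by linarith [n₂ y]) (add_nonneg (n₁ y) (n₂ y))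
    nlinarith [norm_nonneg (T y)]
  · exact (h₁.continuousAt.div (h₁.add h₂).continuousAt hx).smul hT.continuousAt

theorem gmt_split_norm_le {g₁ g₂ : E m → ℝ} (n₁ : ∀ x, 0 ≤ g₁ x) (n₂ : ∀ x, 0 ≤ g₂ x) {T : E m → E k}
    (h : ∀ x, ‖T x‖ ≤ g₁ x + g₂ x) (x : E m) : ‖(g₁ x / (g₁ x + g₂ x)) • T x‖ ≤ g₁ x := by
  rw [norm_smul, Real.norm_eq_abs, abs_of_nonneg (div_nonneg (n₁ x) (add_nonneg (n₁ x) (n₂ x)))]
  by_cases hx : g₁ x + g₂ x = 0
  · rw [hx, div_zero, zero_mul]; exact n₁ x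
  · calc g₁ x / (g₁ x + g₂ x) * ‖T x‖ ≤ g₁ x / (g₁ x + g₂ x) * (g₁ x + g₂ x) := by
          gcongr
          · exact div_nonneg (n₁ x) (add_nonneg (n₁ x) (n₂ x))
          · exact h x
      _ = g₁ x := div_mul_cancel₀ _ hx

theorem gmtLam_add (hU : IsOpen U) (hL : GmtFunlB U L) {g₁ g₂ : E m → ℝ} (h₁ : GmtCc0 U g₁)
    (h₂ : GmtCc0 U g₂) : gmtLam U L (fun x => g₁ x + g₂ x) = gmtLam U L g₁ + gmtLam U L g₂ := by
  refine le_antisymm ?_ ?_
  · refine gmtLam_le hU hL (h₁.add h₂) fun T hT hTg => ?_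
    have c₁ := gmt_split_continuous h₁.cont h₂.cont h₁.nonneg h₂.nonneg hT.cont hTg
    have hTg' : ∀ x, ‖T x‖ ≤ g₂ x + g₁ x := fun x => by rw [add_comm]; exact hTg x
    have c₂ := gmt_split_continuous h₂.cont h₁.cont h₂.nonneg h₁.nonneg hT.cont hTg'
    have t₁ : GmtTestC U fun x => (g₁ x / (g₁ x + g₂ x)) • T x :=
      ⟨c₁, hT.cpt.of_isClosed_subset (isClosed_tsupport _) (gmt_tsupport_smul_subset _ T),
        (gmt_tsupport_smul_subset _ T).trans hT.sub⟩
    have t₂ : GmtTestC U fun x => (g₂ x / (g₂ x + g₁ x)) • T x :=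
      ⟨c₂, hT.cpt.of_isClosed_subset (isClosed_tsupport _) (gmt_tsupport_smul_subset _ T),
        (gmt_tsupport_smul_subset _ T).trans hT.sub⟩
    have e : T = fun x => (g₁ x / (g₁ x + g₂ x)) • T x + (g₂ x / (g₂ x + g₁ x)) • T x := by
      funext x
      by_cases hx : g₁ x + g₂ x = 0
      · have hTx : T x = 0 := by
          have := hTg x
          rw [hx] at this
          exact norm_le_zero_iff.1 this
        rw [hTx, smul_zero, smul_zero, add_zero]
      · rw [← add_smul, add_comm (g₂ x) (g₁ x), ← add_div, div_self hx, one_smul]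
    have a₁ := gmtExt_le_gmtLam hU hL h₁ t₁ (gmt_split_norm_le h₁.nonneg h₂.nonneg hTg)
    have a₂ := gmtExt_le_gmtLam hU hL h₂ t₂ (gmt_split_norm_le h₂.nonneg h₁.nonneg hTg')
    have a₃ := gmtExt_add hU hL t₁ t₂
    rw [← e] at a₃
    linarith
  · have key : ∀ T₁ : E m → E k, GmtTestC U T₁ → (∀ x, ‖T₁ x‖ ≤ g₁ x) →
        gmtLam U L g₂ ≤ gmtLam U L (fun x => g₁ x + g₂ x) - gmtExt U L T₁ := fun T₁ t₁ b₁ => by
      refine gmtLam_le hU hL h₂ fun T₂ t₂ b₂ => ?_
      have := gmtExt_le_gmtLam hU hL (h₁.add h₂) (t₁.add t₂) fun x =>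
        (norm_add_le _ _).trans (add_le_add (b₁ x) (b₂ x))
      rw [gmtExt_add hU hL t₁ t₂] at this
      linarith
    have : gmtLam U L g₁ ≤ gmtLam U L (fun x => g₁ x + g₂ x) - gmtLam U L g₂ :=
      gmtLam_le hU hL h₁ fun T₁ t₁ b₁ => by linarith [key T₁ t₁ b₁]
    linarith

theorem gmtLam_smul (hU : IsOpen U) (hL : GmtFunlB U L) {c : ℝ} (hc : 0 ≤ c) {g : E m → ℝ}
    (hg : GmtCc0 U g) : gmtLam U L (fun x => c * g x) = c * gmtLam U L g := by
  rcases hc.eq_or_lt with h0 | h0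
  · subst h0
    simp only [zero_mul]
    refine le_antisymm ?_ ?_
    · have hz : GmtCc0 U (fun _ : E m => (0 : ℝ)) := by
        have := hg.const_mul (le_refl (0 : ℝ))
        simpa using this
      refine gmtLam_le hU hL hz fun T hT hT0 => ?_
      have : T = fun _ => 0 := funext fun x => norm_le_zero_iff.1 (hT0 x)
      rw [this, gmtExt_zero hU hL]
    · have hz : GmtCc0 U (fun _ : E m => (0 : ℝ)) := by
        have := hg.const_mul (le_refl (0 : ℝ))
        simpa using this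
      exact gmtLam_nonneg hU hL hz
  · refine le_antisymm ?_ ?_
    · refine gmtLam_le hU hL (hg.const_mul hc) fun T hT hTg => ?_
      have h1 := gmtExt_le_gmtLam hU hL hg (hT.const_smul c⁻¹) fun x => by
        rw [norm_smul, norm_inv, Real.norm_of_nonneg hc, inv_mul_le_iff₀ h0]
        exact hTg x
      rw [gmtExt_smul hU hL c⁻¹ hT, inv_mul_le_iff₀ h0] at h1
      exact h1
    · rw [← le_div_iff₀' h0]
      refine gmtLam_le hU hL hg fun T hT hTg => ?_
      rw [le_div_iff₀' h0, ← gmtExt_smul hU hL c hT]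
      refine gmtExt_le_gmtLam hU hL (hg.const_mul hc) (hT.const_smul c) fun x => ?_
      rw [norm_smul, Real.norm_of_nonneg hc]
      exact mul_le_mul_of_nonneg_left (hTg x) hc

end

end Claimed.Agent.Gmt
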