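import Claimed.Agent.Lib.Gmt.GgRieszAuxB

/-!
# Lib/Gmt G0a, auxiliary file C: Riesz-Markov-Kakutani on an open subset of `E m`; comparison of measures.
(prover: helper106)
-/

set_option autoImplicit false
open scoped ContDiff ENNReal RealInnerProductSpace Topology CompactlySupported NNReal
open MeasureTheory Metric Set Filter

namespace Claimed.Agent.Gmt

variable {m k : ℕ}

/-- positive additive functionals on `C_c(U)⁺`. -/
structure GmtPosF (U : Set (E m)) (P : (E m → ℝ) → ℝ) : Prop where
  nonneg : ∀ g, GmtCc0 U g → 0 ≤ P g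
  add : ∀ g g', GmtCc0 U g → GmtCc0 U g' → P (fun x => g x + g' x) = P g + P g'
  smul : ∀ (c : ℝ) g, 0 ≤ c → GmtCc0 U g → P (fun x => c * g x) = c * P g

/-- extension by zero. -/
noncomputable def gmtEx {U : Set (E m)} (f : C_c(U, ℝ≥0)) : E m → ℝ :=
  Subtype.val.extend (fun x : U => (f x : ℝ)) 0

theorem gmtEx_apply {U : Set (E m)} (f : C_c(U, ℝ≥0)) (x : U) : gmtEx f x = f x :=
  Subtype.val_injective.extend_apply _ _ x

theorem gmtEx_of_notMem {U : Set (E m)} (f : C_c(U, ℝ≥0)) {x : E m} (hx : x ∉ U) : gmtEx f x = 0 :=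
  Function.extend_apply' _ _ _ (by rintro ⟨a, rfl⟩; exact hx a.2)

theorem gmtEx_cc0 {U : Set (E m)} (hU : IsOpen U) (f : C_c(U, ℝ≥0)) : GmtCc0 U (gmtEx f) := by
  have hc : Continuous fun x : U => (f x : ℝ) := NNReal.continuous_coe.comp f.continuous
  have hs : HasCompactSupport fun x : U => (f x : ℝ) :=
    f.hasCompactSupport.comp_left (g := NNReal.toReal) rfl
  refine ⟨hs.continuous_extend_zero hU hc, hs.extend_zero continuous_subtype_val,
    (hs.tsupport_extend_zero_subset continuous_subtype_val).trans (Subtype.coe_image_subset _ _),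
    fun x => ?_⟩
  by_cases hx : x ∈ U
  · have := gmtEx_apply f ⟨x, hx⟩
    simp only at this
    rw [this]
    exact NNReal.coe_nonneg _
  · rw [gmtEx_of_notMem f hx]

theorem gmtEx_add {U : Set (E m)} (f g : C_c(U, ℝ≥0)) :
    gmtEx (f + g) = fun x => gmtEx f x + gmtEx g x := by
  funext x
  by_cases hx : x ∈ U
  · have h1 := gmtEx_apply f ⟨x, hx⟩
    have h2 := gmtEx_apply g ⟨x, hx⟩
    have h3 := gmtEx_apply (f + g) ⟨x, hx⟩
    simp only at h1 h2 h3
    rw [h1, h2, h3]
    simp
  · rw [gmtEx_of_notMem f hx, gmtEx_of_notMem g hx, gmtEx_of_notMem _ hx, add_zero]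

theorem gmtEx_smul {U : Set (E m)} (c : ℝ≥0) (f : C_c(U, ℝ≥0)) :
    gmtEx (c • f) = fun x => (c : ℝ) * gmtEx f x := by
  funext x
  by_cases hx : x ∈ U
  · have h1 := gmtEx_apply f ⟨x, hx⟩
    have h3 := gmtEx_apply (c • f) ⟨x, hx⟩
    simp only at h1 h3
    rw [h1, h3]
    simp
  · rw [gmtEx_of_notMem f hx, gmtEx_of_notMem _ hx, mul_zero]

/-- the linear functional on `C_c(U, ℝ≥0)`. -/
noncomputable def gmtPosLin {U : Set (E m)} (hU : IsOpen U) {P : (E m → ℝ) → ℝ} (hP : GmtPosF U P) :
    C_c(U, ℝ≥0) →ₗ[ℝ≥0] ℝ≥0 where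
  toFun f := ⟨P (gmtEx f), hP.nonneg _ (gmtEx_cc0 hU f)⟩
  map_add' f g := by
    apply NNReal.eq
    change P (gmtEx (f + g)) = P (gmtEx f) + P (gmtEx g)
    rw [gmtEx_add, hP.add _ _ (gmtEx_cc0 hU f) (gmtEx_cc0 hU g)]
  map_smul' c f := by
    apply NNReal.eq
    change P (gmtEx (c • f)) = (c : ℝ) * P (gmtEx f)
    rw [gmtEx_smul]
    exact hP.smul (c : ℝ) _ c.2 (gmtEx_cc0 hU f)

/-- restriction of a function of `C_c(U)⁺` to the subtype. -/
theorem GmtCc0.exists_restr {U : Set (E m)} {g : E m → ℝ} (hg : GmtCc0 U g) :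
    ∃ f : C_c(U, ℝ≥0), gmtEx f = g ∧ ∀ x : U, (f x : ℝ) = g x := by
  have hc : Continuous fun x : U => (⟨g x, hg.nonneg x⟩ : ℝ≥0) :=
    (hg.cont.comp continuous_subtype_val).subtype_mk _
  have hK : IsCompact ((Subtype.val : U → E m) ⁻¹' tsupport g) :=
    (Topology.IsInducing.subtypeVal.isCompact_preimage_iff
      (by rw [Subtype.range_coe]; exact hg.sub)).2 hg.cpt.isCompact
  have hs : HasCompactSupport fun x : U => (⟨g x, hg.nonneg x⟩ : ℝ≥0) :=
    HasCompactSupport.intro hK fun x hx => by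
      apply NNReal.eq
      change g x = 0
      exact image_eq_zero_of_notMem_tsupport hx
  refine ⟨⟨⟨_, hc⟩, hs⟩, ?_, fun x => rfl⟩
  funext x
  by_cases hx : x ∈ U
  · exact gmtEx_apply _ ⟨x, hx⟩
  · rw [gmtEx_of_notMem _ hx]
    exact (image_eq_zero_of_notMem_tsupport fun h => hx (hg.sub h)).symm

/-- RIESZ-MARKOV-KAKUTANI on an open subset of `E m`. -/
theorem gmt_rmk {U : Set (E m)} (hU : IsOpen U) {P : (E m → ℝ) → ℝ} (hP : GmtPosF U P) :
    ∃ μX : Measure U, μX.Regular ∧ ∀ g, GmtCc0 U g → ∫ x : U, g x ∂μX = P g := by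
  have : LocallyCompactSpace U := hU.locallyCompactSpace
  refine ⟨NNRealRMK.rieszMeasure (gmtPosLin hU hP), inferInstance, fun g hg => ?_⟩
  obtain ⟨f, hf, hfx⟩ := hg.exists_restr
  have h1 := NNRealRMK.integral_rieszMeasure (gmtPosLin hU hP) f
  simp only [hfx] at h1
  rw [h1]
  show P (gmtEx f) = P g
  rw [hf]

/-! ### functions on the subtype -/

theorem gmt_hasCompactSupport_val {F : Type*} [Zero F] {U : Set (E m)} {T : E m → F}
    (hc : HasCompactSupport T) (hs : tsupport T ⊆ U) : HasCompactSupport fun x : U => T x := by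
  have hK : IsCompact ((Subtype.val : U → E m) ⁻¹' tsupport T) :=
    (Topology.IsInducing.subtypeVal.isCompact_preimage_iff
      (by rw [Subtype.range_coe]; exact hs)).2 hc.isCompact
  exact HasCompactSupport.intro hK fun x hx => image_eq_zero_of_notMem_tsupport hx

theorem GmtCc0.integrable_val {U : Set (E m)} {g : E m → ℝ} (hg : GmtCc0 U g) (σ : Measure U)
    [IsFiniteMeasureOnCompacts σ] : Integrable (fun x : U => g x) σ :=
  (hg.cont.comp continuous_subtype_val).integrable_of_hasCompactSupport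
    (gmt_hasCompactSupport_val hg.cpt hg.sub)

theorem GmtTestC.integrable_val {U : Set (E m)} {T : E m → E k} (hT : GmtTestC U T) (σ : Measure U)
    [IsFiniteMeasureOnCompacts σ] : Integrable (fun x : U => T x) σ :=
  (hT.cont.comp continuous_subtype_val).integrable_of_hasCompactSupport
    (gmt_hasCompactSupport_val hT.cpt hT.sub)

/-- compact inside open: comparison through a cut-off. -/
theorem gmt_compact_le_open {U : Set (E m)} (hU : IsOpen U) {σ τ : Measure U}
    [IsFiniteMeasureOnCompacts σ] [IsFiniteMeasureOnCompacts τ]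
    (h : ∀ g, GmtCc0 U g → ∫ x : U, g x ∂σ ≤ ∫ x : U, g x ∂τ) {K O : Set U} (hK : IsCompact K)
    (hO : IsOpen O) (hKO : K ⊆ O) : σ K ≤ τ O := by
  obtain ⟨χ, hχ1, hχ2, hχ3, hχ4, hχ5⟩ := gmt_exists_cutoff (hK.image continuous_subtype_val)
    (hU.isOpenMap_subtype_val O hO) (image_mono hKO)
  have hg : GmtCc0 U χ := ⟨hχ1.continuous, hχ2, hχ3.trans (Subtype.coe_image_subset _ _),
    fun x => (hχ4 x).1⟩
  have h0 : ∀ x : U, 0 ≤ χ x := fun x => (hχ4 x).1
  calc σ K = ∫⁻ x, K.indicator 1 x ∂σ := (lintegral_indicator_one hK.measurableSet).symm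
    _ ≤ ∫⁻ x : U, ENNReal.ofReal (χ x) ∂σ := by
        refine lintegral_mono fun x => ?_
        by_cases hx : x ∈ K
        · rw [indicator_of_mem hx, Pi.one_apply, hχ5.self_of_nhdsSet _ (mem_image_of_mem _ hx),
            ENNReal.ofReal_one]
        · rw [indicator_of_notMem hx]; exact zero_le
    _ = ENNReal.ofReal (∫ x : U, χ x ∂σ) :=
        (ofReal_integral_eq_lintegral_ofReal (hg.integrable_val σ) (Eventually.of_forall h0)).symm
    _ ≤ ENNReal.ofReal (∫ x : U, χ x ∂τ) := ENNReal.ofReal_le_ofReal (h χ hg)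
    _ = ∫⁻ x : U, ENNReal.ofReal (χ x) ∂τ :=
        ofReal_integral_eq_lintegral_ofReal (hg.integrable_val τ) (Eventually.of_forall h0)
    _ ≤ ∫⁻ x, O.indicator 1 x ∂τ := by
        refine lintegral_mono fun x => ?_
        by_cases hx : x ∈ O
        · rw [indicator_of_mem hx, Pi.one_apply, ← ENNReal.ofReal_one]
          exact ENNReal.ofReal_le_ofReal (hχ4 x).2
        · rw [indicator_of_notMem hx]
          have : (x : E m) ∉ tsupport χ := fun hc => by
            obtain ⟨y, hy, hyx⟩ := hχ3 hc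
            rw [Subtype.val_injective hyx] at hy
            exact hx hy
          rw [image_eq_zero_of_notMem_tsupport this, ENNReal.ofReal_zero]
    _ = τ O := lintegral_indicator_one hO.measurableSet

/-- comparison of regular measures on `U` through test functions. -/
theorem gmt_measure_le {U : Set (E m)} (hU : IsOpen U) {σ τ : Measure U} [σ.Regular] [τ.Regular]
    (h : ∀ g, GmtCc0 U g → ∫ x : U, g x ∂σ ≤ ∫ x : U, g x ∂τ) : σ ≤ τ := by
  have : LocallyCompactSpace U := hU.locallyCompactSpace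
  refine Measure.le_iff.2 fun A hA => ?_
  rw [hA.measure_eq_iSup_isCompact σ, A.measure_eq_iInf_isOpen τ]
  refine iSup₂_le fun K hKA => iSup_le fun hK => le_iInf₂ fun O hAO => le_iInf fun hO => ?_
  exact gmt_compact_le_open hU h hK hO (hKA.trans hAO)

/-- a bounded density gives a regular measure. -/
theorem gmt_regular_withDensity {U : Set (E m)} (hU : IsOpen U) (μX : Measure U) [μX.Regular]
    {f : U → ℝ} {B : ℝ} (hB : ∀ x, f x ≤ B) :
    (μX.withDensity fun x => ENNReal.ofReal (f x)).Regular := by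
  have : LocallyCompactSpace U := hU.locallyCompactSpace
  have : IsFiniteMeasureOnCompacts (μX.withDensity fun x => ENNReal.ofReal (f x)) := ⟨fun K hK => by
    rw [withDensity_apply _ hK.measurableSet]
    calc ∫⁻ x in K, ENNReal.ofReal (f x) ∂μX ≤ ∫⁻ _x in K, ENNReal.ofReal B ∂μX :=
          lintegral_mono fun x => ENNReal.ofReal_le_ofReal (hB x)
      _ = ENNReal.ofReal B * μX K := by rw [lintegral_const, Measure.restrict_apply_univ]
      _ < ⊤ := ENNReal.mul_lt_top ENNReal.ofReal_lt_top hK.measure_lt_top⟩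
  infer_instance

/-- a bounded function whose integral against all nonnegative test functions is nonnegative is nonnegative
almost everywhere. -/
theorem gmt_ae_nonneg {U : Set (E m)} (hU : IsOpen U) (μX : Measure U) [μX.Regular] {h : U → ℝ}
    (hm : Measurable h) {B : ℝ} (hB : ∀ x, |h x| ≤ B)
    (H : ∀ g, GmtCc0 U g → 0 ≤ ∫ x : U, g x * h x ∂μX) : ∀ᵐ x ∂μX, 0 ≤ h x := by
  have r1 := gmt_regular_withDensity hU μX (f := fun x => -h x) (B := B) fun x =>
    (neg_le_abs _).trans (hB x)
  have r2 := gmt_regular_withDensity hU μX (f := h) (B := B) fun x => (le_abs_self _).trans (hB x)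
  have m1 : Measurable fun x => ENNReal.ofReal (-h x) := hm.neg.ennreal_ofReal
  have m2 : Measurable fun x => ENNReal.ofReal (h x) := hm.ennreal_ofReal
  have hle : (μX.withDensity fun x => ENNReal.ofReal (-h x)) ≤ μX.withDensity fun x => ENNReal.ofReal (h x) := by
    refine gmt_measure_le hU fun g hg => ?_
    rw [integral_withDensity_eq_integral_toReal_smul m1 (Eventually.of_forall fun _ => ENNReal.ofReal_lt_top),
      integral_withDensity_eq_integral_toReal_smul m2 (Eventually.of_forall fun _ => ENNReal.ofReal_lt_top)]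
    have hgi := hg.integrable_val μX
    have i1 : Integrable (fun x : U => (ENNReal.ofReal (-h x)).toReal • g x) μX :=
      hgi.bdd_mul (c := B) m1.ennreal_toReal.aestronglyMeasurable (Eventually.of_forall fun x => by
        rw [ENNReal.toReal_ofReal', Real.norm_of_nonneg (le_max_right _ _)]
        exact max_le ((neg_le_abs _).trans (hB x)) ((abs_nonneg _).trans (hB x)))
    have i2 : Integrable (fun x : U => (ENNReal.ofReal (h x)).toReal • g x) μX :=
      hgi.bdd_mul (c := B) m2.ennreal_toReal.aestronglyMeasurable (Eventually.of_forall fun x => by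
        rw [ENNReal.toReal_ofReal', Real.norm_of_nonneg (le_max_right _ _)]
        exact max_le ((le_abs_self _).trans (hB x)) ((abs_nonneg _).trans (hB x)))
    rw [← sub_nonneg, ← integral_sub i2 i1]
    refine le_of_le_of_eq (H g hg) (integral_congr_ae (Eventually.of_forall fun x => ?_))
    simp only [smul_eq_mul, ENNReal.toReal_ofReal']
    rcases le_total 0 (h x) with h0 | h0
    · rw [max_eq_left h0, max_eq_right (by linarith)]; ring
    · rw [max_eq_right h0, max_eq_left (by linarith)]; ring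
  set Nn : Set U := {x | h x < 0} with hN
  have hNm : MeasurableSet Nn := measurableSet_lt hm measurable_const
  have h1 : (μX.withDensity fun x => ENNReal.ofReal (h x)) Nn = 0 := by
    rw [withDensity_apply_eq_zero' m2.aemeasurable]
    convert measure_empty (μ := μX)
    ext x
    simp only [mem_inter_iff, mem_ofPred_eq, mem_empty_iff_false, iff_false, not_and, hN]
    intro hx hx'
    exact hx (ENNReal.ofReal_of_nonpos hx'.le)
  have h2 : (μX.withDensity fun x => ENNReal.ofReal (-h x)) Nn = 0 :=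
    le_antisymm ((hle Nn).trans h1.le) zero_le
  rw [withDensity_apply_eq_zero' m1.aemeasurable] at h2
  rw [ae_iff]
  refine measure_mono_null (fun x hx => ?_) h2
  have hx' : h x < 0 := not_le.1 hx
  exact ⟨by
    show ENNReal.ofReal (-h x) ≠ 0
    rw [Ne, ENNReal.ofReal_eq_zero, not_le]
    linarith, hx'⟩

/-! ### push-forward to `E m` -/

/-- push-forward of a measure on the subtype. -/
noncomputable def gmtPush {U : Set (E m)} (μX : Measure U) : Measure (E m) := μX.map Subtype.val

theorem gmtPush_apply {U : Set (E m)} (hU : IsOpen U) (μX : Measure U) (A : Set (E m)) :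
    gmtPush μX A = μX (Subtype.val ⁻¹' A) :=
  (MeasurableEmbedding.subtype_coe hU.measurableSet).map_apply μX A

theorem gmtPush_compl {U : Set (E m)} (hU : IsOpen U) (μX : Measure U) : gmtPush μX Uᶜ = 0 := by
  rw [gmtPush_apply hU]
  convert measure_empty (μ := μX)
  ext x
  simp

theorem gmtPush_compact {U : Set (E m)} (hU : IsOpen U) (μX : Measure U) [IsFiniteMeasureOnCompacts μX]
    {K : Set (E m)} (hK : IsCompact K) (hKU : K ⊆ U) : gmtPush μX K ≠ ⊤ := by
  rw [gmtPush_apply hU]
  exact ((Topology.IsInducing.subtypeVal.isCompact_preimage_iff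
    (by rw [Subtype.range_coe]; exact hKU)).2 hK).measure_lt_top.ne

theorem integral_gmtPush {F : Type*} [NormedAddCommGroup F] [NormedSpace ℝ F] {U : Set (E m)}
    (hU : IsOpen U) (μX : Measure U) (g : E m → F) : ∫ x, g x ∂gmtPush μX = ∫ x : U, g x ∂μX :=
  (MeasurableEmbedding.subtype_coe hU.measurableSet).integral_map g

theorem ae_gmtPush_iff {U : Set (E m)} (hU : IsOpen U) (μX : Measure U) {p : E m → Prop} :
    (∀ᵐ x ∂gmtPush μX, p x) ↔ ∀ᵐ x : U ∂μX, p x :=
  (MeasurableEmbedding.subtype_coe hU.measurableSet).ae_map_iff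

/-- for any measure: the integral of a function `≤ 1` with support in `W` is at most the measure of `W`. -/
theorem GmtCc0.ofReal_integral_le {W : Set (E m)} {g : E m → ℝ} (hg : GmtCc0 W g) (h1 : ∀ x, g x ≤ 1)
    (μ : Measure (E m)) : ENNReal.ofReal (∫ x, g x ∂μ) ≤ μ W := by
  rw [integral_eq_lintegral_of_nonneg_ae (Eventually.of_forall hg.nonneg) hg.cont.aestronglyMeasurable]
  refine ENNReal.ofReal_toReal_le.trans ?_
  refine le_trans (lintegral_mono fun x => ?_) (lintegral_indicator_one_le W)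
  by_cases hx : x ∈ W
  · rw [indicator_of_mem hx, Pi.one_apply, ← ENNReal.ofReal_one]
    exact ENNReal.ofReal_le_ofReal (h1 x)
  · rw [indicator_of_notMem hx, image_eq_zero_of_notMem_tsupport fun h => hx (hg.sub h),
      ENNReal.ofReal_zero]

/-- inner approximation of open sets by test functions. -/
theorem gmtPush_open_le {U : Set (E m)} (hU : IsOpen U) (μX : Measure U) [μX.Regular] {W : Set (E m)}
    (hW : IsOpen W) :
    gmtPush μX W ≤ ⨆ (g : E m → ℝ) (_ : GmtCc0 W g) (_ : ∀ x, g x ≤ 1),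
      ENNReal.ofReal (∫ x : U, g x ∂μX) := by
  rw [gmtPush_apply hU, (hW.preimage continuous_subtype_val).measure_eq_iSup_isCompact μX]
  refine iSup₂_le fun K hKW => iSup_le fun hK => ?_
  obtain ⟨χ, hχ1, hχ2, hχ3, hχ4, hχ5⟩ := gmt_exists_cutoff (hK.image continuous_subtype_val)
    (hW.inter hU) (by
      rintro _ ⟨x, hx, rfl⟩
      exact ⟨hKW hx, x.2⟩)
  have hg : GmtCc0 W χ := ⟨hχ1.continuous, hχ2, hχ3.trans inter_subset_left, fun x => (hχ4 x).1⟩
  have hg' : GmtCc0 U χ := ⟨hχ1.continuous, hχ2, hχ3.trans inter_subset_right, fun x => (hχ4 x).1⟩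
  refine le_iSup_of_le χ (le_iSup_of_le hg (le_iSup_of_le (fun x => (hχ4 x).2) ?_))
  rw [ofReal_integral_eq_lintegral_ofReal (hg'.integrable_val μX) (Eventually.of_forall fun x => (hχ4 x).1),
    ← lintegral_indicator_one hK.measurableSet]
  refine lintegral_mono fun x => ?_
  by_cases hx : x ∈ K
  · rw [indicator_of_mem hx, Pi.one_apply, hχ5.self_of_nhdsSet _ (mem_image_of_mem _ hx),
      ENNReal.ofReal_one]
  · rw [indicator_of_notMem hx]; exact zero_le

end Claimed.Agent.Gmt
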