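import Claimed.Agent.Lib.Gmt.GgRieszAuxC

/-!
# Lib/Gmt G0a, auxiliary file D: the variation measure and the polar decomposition.
(prover: helper106)
-/

set_option autoImplicit false
open scoped ContDiff ENNReal RealInnerProductSpace Topology CompactlySupported NNReal
open MeasureTheory Metric Set Filter

namespace Claimed.Agent.Gmt

variable {m k : ℕ} {U : Set (E m)} {L : (E m → E k) → ℝ}

theorem gmtLam_posF (hU : IsOpen U) (hL : GmtFunlB U L) : GmtPosF U (gmtLam U L) :=
  ⟨fun _ hg => gmtLam_nonneg hU hL hg, fun _ _ hg hg' => gmtLam_add hU hL hg hg',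
    fun _ _ hc hg => gmtLam_smul hU hL hc hg⟩

/-- `μX` represents the variation functional. -/
def GmtVarM (U : Set (E m)) (L : (E m → E k) → ℝ) (μX : Measure U) : Prop :=
  ∀ g, GmtCc0 U g → ∫ x : U, g x ∂μX = gmtLam U L g

theorem gmt_exists_varM (hU : IsOpen U) (hL : GmtFunlB U L) :
    ∃ μX : Measure U, μX.Regular ∧ GmtVarM U L μX := gmt_rmk hU (gmtLam_posF hU hL)

theorem GmtVarM.abs_le (hU : IsOpen U) (hL : GmtFunlB U L) {μX : Measure U} (h : GmtVarM U L μX)
    {T : E m → E k} (hT : GmtTestC U T) : |gmtExt U L T| ≤ ∫ x : U, ‖T x‖ ∂μX := by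
  rw [h _ hT.norm_cc0]
  exact abs_gmtExt_le_gmtLam hU hL hT.norm_cc0 hT fun _ => le_rfl

theorem GmtVarM.open_eq (hU : IsOpen U) (hL : GmtFunlB U L) {μX : Measure U} [μX.Regular]
    (h : GmtVarM U L μX) {W : Set (E m)} (hW : IsOpen W) (hWU : W ⊆ U) :
    gmtPush μX W = ⨆ (T : E m → E k) (_ : GmtTestK W T) (_ : ∀ x, ‖T x‖ ≤ 1), ENNReal.ofReal (L T) := by
  refine le_antisymm ?_ ?_
  · refine (gmtPush_open_le hU μX hW).trans ?_
    refine iSup_le fun g => iSup_le fun hg => iSup_le fun hg1 => ?_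
    rw [h g (hg.mono hWU)]
    set R : ℝ≥0∞ := ⨆ (T : E m → E k) (_ : GmtTestK W T) (_ : ∀ x, ‖T x‖ ≤ 1), ENNReal.ofReal (L T)
      with hR
    by_cases hRt : R = ⊤
    · rw [hRt]; exact le_top
    · rw [← ENNReal.ofReal_toReal hRt]
      refine ENNReal.ofReal_le_ofReal (gmtLam_le hU hL (hg.mono hWU) fun T hT hTg => ?_)
      have hTW : GmtTestC W T := ⟨hT.cont, hT.cpt, (gmt_tsupport_subset_of_norm_le hTg).trans hg.sub⟩
      have := gmtExt_le_iSup hU hL hW hWU hTW fun x => (hTg x).trans (hg1 x)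
      exact (ENNReal.ofReal_le_iff_le_toReal hRt).1 this
  · refine iSup_le fun T => iSup_le fun hT => iSup_le fun hT1 => ?_
    have h1 : L T ≤ ∫ x, ‖T x‖ ∂gmtPush μX := by
      rw [integral_gmtPush hU, ← gmtExt_eq hU hL (hT.mono hWU)]
      exact (le_abs_self _).trans (h.abs_le hU hL (hT.mono hWU).toC)
    exact (ENNReal.ofReal_le_ofReal h1).trans (hT.toC.norm_cc0.ofReal_integral_le hT1 _)

/-! ### densities in a fixed direction -/

theorem gmt_norm_smul_le {g : E m → ℝ} (h0 : ∀ x, 0 ≤ g x) {e : E k} (he : ‖e‖ ≤ 1) (x : E m) :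
    ‖g x • e‖ ≤ g x := by
  rw [norm_smul, Real.norm_of_nonneg (h0 x)]
  exact mul_le_of_le_one_right (h0 x) he

theorem gmt_posF_dir (hU : IsOpen U) (hL : GmtFunlB U L) {e : E k} (he : ‖e‖ ≤ 1) :
    GmtPosF U (fun g => (gmtLam U L g + gmtExt U L (fun x => g x • e)) / 2) := by
  refine ⟨fun g hg => ?_, fun g g' hg hg' => ?_, fun c g hc hg => ?_⟩
  · have := abs_gmtExt_le_gmtLam hU hL hg (hg.smul_const e) (gmt_norm_smul_le hg.nonneg he)
    have := (abs_le.1 this).1
    linarith
  · simp only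
    have e1 : (fun x => (g x + g' x) • e) = fun x => g x • e + g' x • e := funext fun x => add_smul _ _ _
    rw [gmtLam_add hU hL hg hg', e1, gmtExt_add hU hL (hg.smul_const e) (hg'.smul_const e)]
    ring
  · simp only
    have e1 : (fun x => (c * g x) • e) = fun x => c • (g x • e) := funext fun x => mul_smul _ _ _
    rw [gmtLam_smul hU hL hc hg, e1, gmtExt_smul hU hL c (hg.smul_const e)]
    ring

theorem gmt_exists_density (hU : IsOpen U) (hL : GmtFunlB U L) {μX : Measure U} [μX.Regular]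
    (h : GmtVarM U L μX) {e : E k} (he : ‖e‖ ≤ 1) :
    ∃ n : U → ℝ, Measurable n ∧ (∀ x, |n x| ≤ 1) ∧
      ∀ g, GmtCc0 U g → gmtExt U L (fun x => g x • e) = ∫ x : U, g x * n x ∂μX := by
  have : LocallyCompactSpace U := hU.locallyCompactSpace
  obtain ⟨σ, hσr, hσ⟩ := gmt_rmk hU (gmt_posF_dir hU hL he)
  have hle : σ ≤ μX := gmt_measure_le hU fun g hg => by
    rw [hσ g hg, h g hg]
    have := abs_gmtExt_le_gmtLam hU hL hg (hg.smul_const e) (gmt_norm_smul_le hg.nonneg he)
    have := (abs_le.1 this).2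
    linarith
  have hac : σ ≪ μX := Measure.absolutelyContinuous_of_le hle
  have hρ1 : σ.rnDeriv μX ≤ᵐ[μX] 1 := Measure.rnDeriv_le_one_of_le hle
  have hρm : Measurable (σ.rnDeriv μX) := Measure.measurable_rnDeriv _ _
  have hmin : ∀ x, (min (σ.rnDeriv μX x) 1).toReal ∈ Icc (0 : ℝ) 1 := fun x =>
    ⟨ENNReal.toReal_nonneg, by
      have := ENNReal.toReal_mono ENNReal.one_ne_top (min_le_right (σ.rnDeriv μX x) 1)
      rwa [ENNReal.toReal_one] at this⟩
  refine ⟨fun x => 2 * (min (σ.rnDeriv μX x) 1).toReal - 1,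
    ((hρm.min measurable_const).ennreal_toReal.const_mul 2).sub_const 1, fun x => ?_, fun g hg => ?_⟩
  · rw [abs_le]
    constructor <;> linarith [(hmin x).1, (hmin x).2]
  · have hgi := hg.integrable_val μX
    have i1 : Integrable (fun x : U => (σ.rnDeriv μX x).toReal • g x) μX :=
      hgi.bdd_mul (c := 1) hρm.ennreal_toReal.aestronglyMeasurable (by
        filter_upwards [hρ1] with x hx
        rw [Real.norm_of_nonneg ENNReal.toReal_nonneg]
        have hx' : σ.rnDeriv μX x ≤ 1 := hx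
        have := ENNReal.toReal_mono ENNReal.one_ne_top hx'
        rwa [ENNReal.toReal_one] at this)
    have e1 : ∫ x : U, g x * (2 * (min (σ.rnDeriv μX x) 1).toReal - 1) ∂μX
        = ∫ x : U, (2 * ((σ.rnDeriv μX x).toReal • g x) - g x) ∂μX := by
      refine integral_congr_ae ?_
      filter_upwards [hρ1] with x hx
      have hx' : σ.rnDeriv μX x ≤ 1 := hx
      rw [min_eq_left hx', smul_eq_mul]
      ring
    rw [e1, integral_sub (i1.const_mul 2) hgi, integral_const_mul, integral_rnDeriv_smul hac, hσ g hg, h g hg]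
    ring

/-! ### signed test functions, finite sums -/

theorem gmt_cc0_pos {φ : E m → ℝ} (hc : Continuous φ) (hs : HasCompactSupport φ) (hsub : tsupport φ ⊆ U) :
    GmtCc0 U (fun x => max (φ x) 0) := by
  have h1 : tsupport (fun x => max (φ x) 0) ⊆ tsupport φ := by
    refine closure_minimal (fun x hx => ?_) (isClosed_tsupport φ)
    by_contra hcn
    exact hx (by
      show max (φ x) 0 = 0
      rw [image_eq_zero_of_notMem_tsupport hcn, max_self])
  exact ⟨hc.max continuous_const, hs.of_isClosed_subset (isClosed_tsupport _) h1, h1.trans hsub,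
    fun x => le_max_right _ _⟩

theorem gmt_density_signed (hU : IsOpen U) (hL : GmtFunlB U L) {μX : Measure U} [μX.Regular] {e : E k}
    {n : U → ℝ} (hn : Measurable n) (hn1 : ∀ x, |n x| ≤ 1)
    (H : ∀ g, GmtCc0 U g → gmtExt U L (fun x => g x • e) = ∫ x : U, g x * n x ∂μX)
    {φ : E m → ℝ} (hc : Continuous φ) (hs : HasCompactSupport φ) (hsub : tsupport φ ⊆ U) :
    gmtExt U L (fun x => φ x • e) = ∫ x : U, φ x * n x ∂μX := by
  have p1 := gmt_cc0_pos hc hs hsub
  have hs' : HasCompactSupport fun x => -φ x := hs.neg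
  have hsub' : tsupport (fun x => -φ x) ⊆ U := by
    have : tsupport (fun x => -φ x) = tsupport φ := by
      unfold tsupport
      congr 1
      ext x
      simp
    rw [this]; exact hsub
  have p2 : GmtCc0 U (fun x => max (-φ x) 0) := gmt_cc0_pos hc.neg hs' hsub'
  have e1 : (fun x => φ x • e) = fun x => max (φ x) 0 • e + (-1 : ℝ) • (max (-φ x) 0 • e) := by
    funext x
    rw [smul_smul, ← add_smul]
    congr 1
    rcases le_total 0 (φ x) with h0 | h0
    · rw [max_eq_left h0, max_eq_right (by linarith)]; ring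
    · rw [max_eq_right h0, max_eq_left (by linarith)]; ring
  have i : ∀ {g : E m → ℝ}, GmtCc0 U g → Integrable (fun x : U => g x * n x) μX := fun hg =>
    ((hg.integrable_val μX).bdd_mul (c := 1) hn.aestronglyMeasurable
      (Eventually.of_forall fun x => by rw [Real.norm_eq_abs]; exact hn1 x)).congr
      (Eventually.of_forall fun x => mul_comm _ _)
  rw [e1, gmtExt_add hU hL (p1.smul_const e) ((p2.smul_const e).const_smul (-1)),
    gmtExt_smul hU hL (-1) (p2.smul_const e), H _ p1, H _ p2, neg_one_mul, ← sub_eq_add_neg,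
    ← integral_sub (i p1) (i p2)]
  refine integral_congr_ae (Eventually.of_forall fun x => ?_)
  simp only
  rcases le_total 0 (φ x) with h0 | h0
  · rw [max_eq_left h0, max_eq_right (by linarith)]; ring
  · rw [max_eq_right h0, max_eq_left (by linarith)]; ring

theorem gmtExt_sum (hU : IsOpen U) (hL : GmtFunlB U L) {ι : Type*} (s : Finset ι) (T : ι → E m → E k)
    (hT : ∀ i ∈ s, GmtTestC U (T i)) :
    GmtTestC U (fun x => ∑ i ∈ s, T i x) ∧
      gmtExt U L (fun x => ∑ i ∈ s, T i x) = ∑ i ∈ s, gmtExt U L (T i) := by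
  classical
  induction s using Finset.induction_on with
  | empty =>
    simp only [Finset.sum_empty]
    exact ⟨(gmtTestK_zero U).toC, gmtExt_zero hU hL⟩
  | insert a s ha ih =>
    have ih' := ih fun i hi => hT i (Finset.mem_insert_of_mem hi)
    have ha' := hT a (Finset.mem_insert_self a s)
    simp only [Finset.sum_insert ha]
    exact ⟨ha'.add ih'.1, by rw [gmtExt_add hU hL ha' ih'.1, ih'.2]⟩

/-! ### the vector density -/

theorem gmt_inner_eb (v : E k) (j : Fin k) : ⟪v, (eb j : E k)⟫ = v j := by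
  rw [EuclideanSpace.inner_single_right]
  simp

theorem gmt_norm_eb (j : Fin k) : ‖(eb j : E k)‖ ≤ 1 := by
  simp [eb]

theorem gmt_integrable_val {φ : E m → ℝ} (hc : Continuous φ) (hs : HasCompactSupport φ)
    (hsub : tsupport φ ⊆ U) (σ : Measure U) [IsFiniteMeasureOnCompacts σ] :
    Integrable (fun x : U => φ x) σ :=
  (hc.comp continuous_subtype_val).integrable_of_hasCompactSupport (gmt_hasCompactSupport_val hs hsub)

theorem gmt_exists_vec (hU : IsOpen U) (hL : GmtFunlB U L) {μX : Measure U} [μX.Regular]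
    (h : GmtVarM U L μX) :
    ∃ ν₀ : U → E k, Measurable ν₀ ∧ (∀ x, ‖ν₀ x‖ ≤ k) ∧
      ∀ T, GmtTestC U T → gmtExt U L T = ∫ x : U, ⟪T x, ν₀ x⟫ ∂μX := by
  have H := fun j : Fin k => gmt_exists_density hU hL h (gmt_norm_eb j)
  choose n hn hn1 hnr using H
  refine ⟨fun x => ∑ j, n j x • (eb j : E k),
    Finset.measurable_sum _ fun j _ => (hn j).smul_const _, fun x => ?_, fun T hT => ?_⟩
  · refine (norm_sum_le _ _).trans ?_
    calc ∑ j : Fin k, ‖n j x • (eb j : E k)‖ ≤ ∑ _j : Fin k, (1 : ℝ) := by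
          refine Finset.sum_le_sum fun j _ => ?_
          rw [norm_smul, Real.norm_eq_abs]
          exact mul_le_one₀ (hn1 j x) (norm_nonneg _) (gmt_norm_eb j)
      _ = k := by simp
  · have hφc : ∀ j : Fin k, Continuous fun x => ⟪T x, (eb j : E k)⟫ := fun j =>
      hT.cont.inner continuous_const
    have hφs : ∀ j : Fin k, tsupport (fun x => ⟪T x, (eb j : E k)⟫) ⊆ tsupport T := fun j => by
      refine closure_minimal (fun x hx => ?_) (isClosed_tsupport T)
      by_contra hcn
      exact hx (by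
        show ⟪T x, (eb j : E k)⟫ = 0
        rw [image_eq_zero_of_notMem_tsupport hcn, inner_zero_left])
    have hφk : ∀ j : Fin k, HasCompactSupport fun x => ⟪T x, (eb j : E k)⟫ := fun j =>
      hT.cpt.of_isClosed_subset (isClosed_tsupport _) (hφs j)
    have hTj : ∀ j : Fin k, GmtTestC U fun x => ⟪T x, (eb j : E k)⟫ • (eb j : E k) := fun j =>
      ⟨(hφc j).smul continuous_const, (hφk j).of_isClosed_subset (isClosed_tsupport _)
        (gmt_tsupport_smul_subset_left _ _),
        ((gmt_tsupport_smul_subset_left _ _).trans (hφs j)).trans hT.sub⟩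
    have e1 : T = fun x => ∑ j : Fin k, ⟪T x, (eb j : E k)⟫ • (eb j : E k) := by
      funext x
      simp only [gmt_inner_eb]
      exact (gmt_sum_eb (T x)).symm
    have e2 := (gmtExt_sum hU hL Finset.univ (fun (j : Fin k) x => ⟪T x, (eb j : E k)⟫ • (eb j : E k))
      fun j _ => hTj j).2
    rw [← e1] at e2
    rw [e2]
    have i : ∀ j : Fin k, Integrable (fun x : U => ⟪T x, (eb j : E k)⟫ * n j x) μX := fun j => by
      have h1 : Integrable (fun x : U => ⟪T x, (eb j : E k)⟫) μX :=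
        gmt_integrable_val (φ := fun x => ⟪T x, (eb j : E k)⟫) (hφc j) (hφk j) ((hφs j).trans hT.sub) μX
      exact (h1.bdd_mul (c := 1) (hn j).aestronglyMeasurable
        (Eventually.of_forall fun x => by rw [Real.norm_eq_abs]; exact hn1 j x)).congr
        (Eventually.of_forall fun x => mul_comm _ _)
    have e3 : ∀ j : Fin k, gmtExt U L (fun x => ⟪T x, (eb j : E k)⟫ • (eb j : E k))
        = ∫ x : U, ⟪T x, (eb j : E k)⟫ * n j x ∂μX := fun j =>
      gmt_density_signed hU hL (hn j) (hn1 j) (hnr j) (hφc j) (hφk j) ((hφs j).trans hT.sub)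
    simp only [e3]
    rw [← integral_finsetSum _ fun j _ => i j]
    refine integral_congr_ae (Eventually.of_forall fun x => ?_)
    simp only
    rw [inner_sum]
    refine Finset.sum_congr rfl fun j _ => ?_
    rw [inner_smul_right, mul_comm]

/-! ### the density has norm one -/

theorem gmt_integrable_inner {μX : Measure U} [IsFiniteMeasureOnCompacts μX] {ν₀ : U → E k}
    (hm : Measurable ν₀) {B : ℝ} (hB : ∀ x, ‖ν₀ x‖ ≤ B) {T : E m → E k} (hT : GmtTestC U T) :
    Integrable (fun x : U => ⟪T x, ν₀ x⟫) μX := by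
  refine Integrable.mono' ((hT.norm_cc0.integrable_val μX).mul_const B)
    ((hT.cont.comp continuous_subtype_val).aestronglyMeasurable.inner hm.aestronglyMeasurable)
    (Eventually.of_forall fun x => ?_)
  rw [Real.norm_eq_abs]
  exact (abs_real_inner_le_norm _ _).trans (mul_le_mul_of_nonneg_left (hB x) (norm_nonneg _))

theorem gmt_vec_norm_le (hU : IsOpen U) (hL : GmtFunlB U L) {μX : Measure U} [μX.Regular]
    (h : GmtVarM U L μX) {ν₀ : U → E k} (hm : Measurable ν₀) {B : ℝ} (hB : ∀ x, ‖ν₀ x‖ ≤ B)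
    (H : ∀ T, GmtTestC U T → gmtExt U L T = ∫ x : U, ⟪T x, ν₀ x⟫ ∂μX) : ∀ᵐ x ∂μX, ‖ν₀ x‖ ≤ 1 := by
  have key : ∀ e : E k, ∀ᵐ x ∂μX, 0 ≤ ‖e‖ - ⟪e, ν₀ x⟫ := fun e => by
    refine gmt_ae_nonneg hU μX (measurable_const.sub (measurable_const.inner hm)) (B := ‖e‖ + ‖e‖ * B)
      (fun x => ?_) fun g hg => ?_
    · refine (abs_sub _ _).trans (add_le_add (abs_norm e).le ?_)
      exact (abs_real_inner_le_norm _ _).trans (mul_le_mul_of_nonneg_left (hB x) (norm_nonneg _))
    · have hgi := hg.integrable_val μX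
      have i2 := gmt_integrable_inner (μX := μX) hm hB (hg.smul_const e)
      have e1 : ∫ x : U, g x * (‖e‖ - ⟪e, ν₀ x⟫) ∂μX
          = ‖e‖ * ∫ x : U, g x ∂μX - ∫ x : U, ⟪g x • e, ν₀ x⟫ ∂μX := by
        rw [← integral_const_mul, ← integral_sub (hgi.const_mul _) i2]
        refine integral_congr_ae (Eventually.of_forall fun x => ?_)
        simp only
        rw [real_inner_smul_left]
        ring
      rw [e1, ← H _ (hg.smul_const e), h g hg, ← gmtLam_smul hU hL (norm_nonneg e) hg, sub_nonneg]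
      refine gmtExt_le_gmtLam hU hL (hg.const_mul (norm_nonneg e)) (hg.smul_const e) fun x => ?_
      rw [norm_smul, Real.norm_of_nonneg (hg.nonneg x), mul_comm]
  obtain ⟨D, hDc, hDd⟩ := TopologicalSpace.exists_countable_dense (E k)
  have hall : ∀ᵐ x ∂μX, ∀ e ∈ D, 0 ≤ ‖e‖ - ⟪e, ν₀ x⟫ := (ae_ball_iff hDc).2 fun e _ => key e
  filter_upwards [hall] with x hx
  have hcl : IsClosed {e : E k | 0 ≤ ‖e‖ - ⟪e, ν₀ x⟫} :=
    isClosed_le continuous_const (continuous_norm.sub (continuous_id.inner continuous_const))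
  have h1 : ν₀ x ∈ {e : E k | 0 ≤ ‖e‖ - ⟪e, ν₀ x⟫} := (hcl.closure_subset_iff.2 hx) (hDd (ν₀ x))
  have h2 : 0 ≤ ‖ν₀ x‖ - ⟪ν₀ x, ν₀ x⟫ := h1
  rw [real_inner_self_eq_norm_sq] at h2
  by_contra hc
  have hc' : 1 < ‖ν₀ x‖ := not_le.1 hc
  nlinarith

theorem gmt_vec_norm_eq (hU : IsOpen U) (hL : GmtFunlB U L) {μX : Measure U} [μX.Regular]
    (h : GmtVarM U L μX) {ν₀ : U → E k} (hm : Measurable ν₀) {B : ℝ} (hB : ∀ x, ‖ν₀ x‖ ≤ B)
    (H : ∀ T, GmtTestC U T → gmtExt U L T = ∫ x : U, ⟪T x, ν₀ x⟫ ∂μX) : ∀ᵐ x ∂μX, ‖ν₀ x‖ = 1 := by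
  have hle := gmt_vec_norm_le hU hL h hm hB H
  obtain ⟨W, hWcc, -, hun⟩ := gmt_exists_open_exhaustion hU
  have hn : ∀ n, ∀ᵐ x : U ∂μX, (x : E m) ∈ W n → ‖ν₀ x‖ = 1 := fun n => by
    obtain ⟨hWo, hWc, hWU⟩ := hWcc n
    set W' : Set U := Subtype.val ⁻¹' W n with hW'
    have hW'm : MeasurableSet W' := (hWo.preimage continuous_subtype_val).measurableSet
    have hfin : μX W' ≠ ⊤ := by
      rw [hW', ← gmtPush_apply hU]
      exact ((measure_mono subset_closure).trans_lt (gmtPush_compact hU μX hWc hWU).lt_top).ne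
    have : IsFiniteMeasure (μX.restrict W') := ⟨by rw [Measure.restrict_apply_univ]; exact hfin.lt_top⟩
    have iν : IntegrableOn (fun x => ‖ν₀ x‖) W' μX :=
      Integrable.of_bound hm.norm.aestronglyMeasurable B (Eventually.of_forall fun x => by
        rw [norm_norm]; exact hB x)
    have h1 : μX W' ≤ ENNReal.ofReal (∫ x in W', ‖ν₀ x‖ ∂μX) := by
      rw [hW', ← gmtPush_apply hU, h.open_eq hU hL hWo (subset_closure.trans hWU)]
      refine iSup_le fun T => iSup_le fun hT => iSup_le fun hT1 => ENNReal.ofReal_le_ofReal ?_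
      have hTU : GmtTestK U T := hT.mono (subset_closure.trans hWU)
      rw [← gmtExt_eq hU hL hTU, H T hTU.toC, ← integral_indicator hW'm]
      refine integral_mono (gmt_integrable_inner hm hB hTU.toC) (iν.integrable_indicator hW'm) fun x => ?_
      by_cases hx : x ∈ W'
      · simp only [indicator_of_mem hx]
        refine (real_inner_le_norm _ _).trans ?_
        exact mul_le_of_le_one_left (norm_nonneg _) (hT1 x)
      · simp only [indicator_of_notMem hx]
        rw [image_eq_zero_of_notMem_tsupport fun hc => hx (hT.sub hc), inner_zero_left]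
    have h2 : μX.real W' ≤ ∫ x in W', ‖ν₀ x‖ ∂μX :=
      ENNReal.toReal_le_of_le_ofReal (integral_nonneg fun _ => norm_nonneg _) h1
    have i1 : IntegrableOn (fun x => 1 - ‖ν₀ x‖) W' μX := (integrable_const 1).sub iν
    have h0 : 0 ≤ᵐ[μX.restrict W'] fun x => 1 - ‖ν₀ x‖ := by
      filter_upwards [ae_restrict_of_ae hle] with x hx
      simp only [Pi.zero_apply]
      linarith
    have h3 : ∫ x in W', (1 - ‖ν₀ x‖) ∂μX = 0 := by
      refine le_antisymm ?_ (integral_nonneg_of_ae h0)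
      rw [integral_sub (integrable_const 1) iν, setIntegral_const, smul_eq_mul, mul_one]
      linarith
    have h4 := (setIntegral_eq_zero_iff_of_nonneg_ae h0 i1).1 h3
    rw [Filter.EventuallyEq, ae_restrict_iff' hW'm] at h4
    filter_upwards [h4] with x hx hxW
    have := hx hxW
    simp only [Pi.zero_apply] at this
    linarith
  filter_upwards [ae_all_iff.2 hn] with x hx
  have hxU : (x : E m) ∈ ⋃ n, W n := by rw [hun]; exact x.2
  obtain ⟨n, hxn⟩ := mem_iUnion.1 hxU
  exact hx n hxn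

end Claimed.Agent.Gmt
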