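import Claimed.Agent.Lib.Gmt.GgRieszC

/-!
# Lib/Gmt G0a, auxiliary file E: uniqueness of the total variation of `σ μ`.   (prover: helper106)

If `∫ ⟪T,σ⟫ dμ = ∫ ⟪T,σ'⟫ dμ'` for all test fields in `U` then `‖σ‖ μ = ‖σ'‖ μ'` on `U`:
both measures have densities `f, f'` with respect to `μ + μ'`; `f σ = f' σ'` a.e. by the fundamental lemma
(`IsOpen.ae_eq_zero_of_integral_contDiff_smul_eq_zero`, valid for arbitrary Borel measures).
-/

set_option autoImplicit false
open scoped ContDiff ENNReal RealInnerProductSpace Topology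
open MeasureTheory Metric Set Filter

namespace Claimed.Agent.Gmt

variable {m k : ℕ}

/-- `⟪T,σ⟫` is integrable for a test field `T` and an essentially bounded measurable field `σ`. -/
theorem gmt_integrable_inner_test {U : Set (E m)} {μ : Measure (E m)}
    (hf : ∀ K, IsCompact K → K ⊆ U → μ K ≠ ⊤) {σ : E m → E k} (hσ : Measurable σ) {C : ℝ}
    (hC : ∀ᵐ x ∂μ, ‖σ x‖ ≤ C) {T : E m → E k} (hT : GmtTestK U T) :
    Integrable (fun x => ⟪T x, σ x⟫) μ := by
  obtain ⟨c, hc⟩ := hT.toC.exists_bound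
  have hsupp : Function.support (fun x => ⟪T x, σ x⟫) ⊆ tsupport T := by
    intro x hx
    by_contra h
    exact hx (by
      show ⟪T x, σ x⟫ = 0
      rw [image_eq_zero_of_notMem_tsupport h, inner_zero_left])
  rw [← integrableOn_iff_integrable_of_support_subset hsupp]
  refine Measure.integrableOn_of_bounded (M := |c| * C) (hf _ hT.cpt hT.sub)
    ((hT.c1.continuous.measurable.inner hσ).aestronglyMeasurable) ?_
  refine ae_restrict_of_ae ?_
  filter_upwards [hC] with x hx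
  calc ‖⟪T x, σ x⟫‖ ≤ ‖T x‖ * ‖σ x‖ := norm_inner_le_norm _ _
    _ ≤ |c| * C := mul_le_mul ((hc x).trans (le_abs_self c)) hx (norm_nonneg _) (abs_nonneg _)

/-- the test field `g e`. -/
theorem gmtTestK_smul_const {U : Set (E m)} {g : E m → ℝ} (hg : ContDiff ℝ ∞ g)
    (hc : HasCompactSupport g) (hs : tsupport g ⊆ U) (e : E k) : GmtTestK U fun x => g x • e :=
  ⟨(hg.of_le (by exact_mod_cast le_top)).smul contDiff_const, hc.smul_right,
    (gmt_tsupport_smul_subset_left g fun _ => e).trans hs⟩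

/-- the fundamental lemma for essentially bounded fields and arbitrary measures. -/
theorem gmt_ae_eq_zero_of_test {U : Set (E m)} (hU : IsOpen U) {μ : Measure (E m)}
    (hf : ∀ K, IsCompact K → K ⊆ U → μ K ≠ ⊤) {F : E m → E k} (hF : Measurable F) {C : ℝ}
    (hC : ∀ᵐ x ∂μ, ‖F x‖ ≤ C) (h : ∀ T, GmtTestK U T → ∫ x, ⟪T x, F x⟫ ∂μ = 0) :
    ∀ᵐ x ∂μ, x ∈ U → F x = 0 := by
  have key : ∀ j : Fin k, ∀ᵐ x ∂μ, x ∈ U → F x j = 0 := by
    intro j
    have hm : Measurable fun x => F x j := by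
      have : (fun x => F x j) = fun x => ⟪F x, (eb j : E k)⟫ := by
        funext x; rw [gmt_inner_eb]
      rw [this]
      exact hF.inner measurable_const
    refine hU.ae_eq_zero_of_integral_contDiff_smul_eq_zero ?_ fun g hg hc hs => ?_
    · rw [locallyIntegrableOn_iff hU.isLocallyClosed]
      intro K hKU hK
      refine Measure.integrableOn_of_bounded (M := C) (hf K hK hKU) hm.aestronglyMeasurable ?_
      refine ae_restrict_of_ae ?_
      filter_upwards [hC] with x hx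
      exact (PiLp.norm_apply_le (F x) j).trans hx
    · rw [← h _ (gmtTestK_smul_const hg hc hs (eb j))]
      refine integral_congr_ae (Eventually.of_forall fun x => ?_)
      show g x • F x j = ⟪g x • (eb j : E k), F x⟫
      rw [real_inner_smul_left, real_inner_comm, gmt_inner_eb, smul_eq_mul]
  have := ae_all_iff.2 key
  filter_upwards [this] with x hx hxU
  ext j
  exact hx j hxU

theorem gmt_sigmaFinite_restrict {U : Set (E m)} (hU : IsOpen U) {μ : Measure (E m)}
    (hf : ∀ K, IsCompact K → K ⊆ U → μ K ≠ ⊤) : SigmaFinite (μ.restrict U) := by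
  obtain ⟨K, hK, hKU, -, hun⟩ := gmt_exists_exhaustion hU
  refine ⟨⟨⟨fun n => K n ∪ Uᶜ, fun _ => trivial, fun n => ?_, ?_⟩⟩⟩
  · calc μ.restrict U (K n ∪ Uᶜ) ≤ μ.restrict U (K n) + μ.restrict U Uᶜ := measure_union_le _ _
      _ ≤ μ (K n) + 0 := add_le_add (Measure.restrict_apply_le _ _) (by
          rw [Measure.restrict_apply hU.measurableSet.compl]; simp)
      _ < ⊤ := by rw [add_zero]; exact (hf _ (hK n) (hKU n)).lt_top
  · rw [← iUnion_union, hun, union_compl_self]

/-- UNIQUENESS OF THE TOTAL VARIATION. -/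
theorem gmt_withDensity_enorm_eq {U : Set (E m)} (hU : IsOpen U) {μ μ' : Measure (E m)}
    (hf : ∀ K, IsCompact K → K ⊆ U → μ K ≠ ⊤) (hf' : ∀ K, IsCompact K → K ⊆ U → μ' K ≠ ⊤)
    {σ σ' : E m → E k} (hσ : Measurable σ) (hσ' : Measurable σ') {C C' : ℝ}
    (hC : ∀ x, ‖σ x‖ ≤ C) (hC' : ∀ x, ‖σ' x‖ ≤ C')
    (h : ∀ T, GmtTestK U T → ∫ x, ⟪T x, σ x⟫ ∂μ = ∫ x, ⟪T x, σ' x⟫ ∂μ') :
    (μ.restrict U).withDensity (fun x => ‖σ x‖ₑ) =
      (μ'.restrict U).withDensity (fun x => ‖σ' x‖ₑ) := by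
  set a := μ.restrict U with ha
  set b := μ'.restrict U with hb
  set lam := a + b with hlam
  have sa : SigmaFinite a := gmt_sigmaFinite_restrict hU hf
  have sb : SigmaFinite b := gmt_sigmaFinite_restrict hU hf'
  have hale : a ≤ lam := Measure.le_add_right le_rfl
  have hble : b ≤ lam := Measure.le_add_left le_rfl
  have hal : a ≪ lam := hale.absolutelyContinuous
  have hbl : b ≪ lam := hble.absolutelyContinuous
  set f := a.rnDeriv lam with hfdef
  set f' := b.rnDeriv lam with hfdef'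
  have hfm : Measurable f := Measure.measurable_rnDeriv _ _
  have hfm' : Measurable f' := Measure.measurable_rnDeriv _ _
  have hf1 : f ≤ᵐ[lam] 1 := Measure.rnDeriv_le_one_of_le hale
  have hf1' : f' ≤ᵐ[lam] 1 := Measure.rnDeriv_le_one_of_le hble
  set F : E m → E k := fun x => (f x).toReal • σ x - (f' x).toReal • σ' x with hF
  have hFm : Measurable F := (hfm.ennreal_toReal.smul hσ).sub (hfm'.ennreal_toReal.smul hσ')
  have hFb : ∀ᵐ x ∂lam, ‖F x‖ ≤ C + C' := by
    filter_upwards [hf1, hf1'] with x h1 h2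
    have t1 : (f x).toReal ≤ 1 := ENNReal.toReal_le_of_le_ofReal zero_le_one (by simpa using h1)
    have t2 : (f' x).toReal ≤ 1 := ENNReal.toReal_le_of_le_ofReal zero_le_one (by simpa using h2)
    have n1 : ‖(f x).toReal • σ x‖ ≤ C := by
      rw [norm_smul, Real.norm_of_nonneg ENNReal.toReal_nonneg]
      calc (f x).toReal * ‖σ x‖ ≤ 1 * ‖σ x‖ := mul_le_mul_of_nonneg_right t1 (norm_nonneg _)
        _ ≤ C := by rw [one_mul]; exact hC x
    have n2 : ‖(f' x).toReal • σ' x‖ ≤ C' := by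
      rw [norm_smul, Real.norm_of_nonneg ENNReal.toReal_nonneg]
      calc (f' x).toReal * ‖σ' x‖ ≤ 1 * ‖σ' x‖ := mul_le_mul_of_nonneg_right t2 (norm_nonneg _)
        _ ≤ C' := by rw [one_mul]; exact hC' x
    exact (norm_sub_le _ _).trans (add_le_add n1 n2)
  have hlamfin : ∀ K, IsCompact K → K ⊆ U → lam K ≠ ⊤ := by
    intro K hK hKU
    rw [hlam, Measure.add_apply]
    exact ENNReal.add_ne_top.2
      ⟨ne_top_of_le_ne_top (hf K hK hKU) (Measure.restrict_apply_le _ _),
        ne_top_of_le_ne_top (hf' K hK hKU) (Measure.restrict_apply_le _ _)⟩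
  have hF0 : ∀ᵐ x ∂lam, x ∈ U → F x = 0 := by
    refine gmt_ae_eq_zero_of_test hU hlamfin hFm hFb fun T hT => ?_
    have i1 : Integrable (fun x => ⟪T x, σ x⟫) a :=
      (gmt_integrable_inner_test hf hσ (Eventually.of_forall hC) hT).restrict
    have i2 : Integrable (fun x => ⟪T x, σ' x⟫) b :=
      (gmt_integrable_inner_test hf' hσ' (Eventually.of_forall hC') hT).restrict
    have z : ∀ (τ : E m → E k), ∀ x ∉ U, ⟪T x, τ x⟫ = 0 := fun τ x hx => by
      rw [image_eq_zero_of_notMem_tsupport (fun h => hx (hT.sub h)), inner_zero_left]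
    calc ∫ x, ⟪T x, F x⟫ ∂lam
        = ∫ x, ((f x).toReal • ⟪T x, σ x⟫ - (f' x).toReal • ⟪T x, σ' x⟫) ∂lam := by
          refine integral_congr_ae (Eventually.of_forall fun x => ?_)
          show ⟪T x, (f x).toReal • σ x - (f' x).toReal • σ' x⟫ =
            (f x).toReal * ⟪T x, σ x⟫ - (f' x).toReal * ⟪T x, σ' x⟫
          rw [inner_sub_right, real_inner_smul_right, real_inner_smul_right]
      _ = ∫ x, (f x).toReal • ⟪T x, σ x⟫ ∂lam - ∫ x, (f' x).toReal • ⟪T x, σ' x⟫ ∂lam :=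
          integral_sub ((integrable_rnDeriv_smul_iff hal).2 i1)
            ((integrable_rnDeriv_smul_iff hbl).2 i2)
      _ = ∫ x, ⟪T x, σ x⟫ ∂a - ∫ x, ⟪T x, σ' x⟫ ∂b := by
          rw [integral_rnDeriv_smul hal, integral_rnDeriv_smul hbl]
      _ = ∫ x, ⟪T x, σ x⟫ ∂μ - ∫ x, ⟪T x, σ' x⟫ ∂μ' := by
          rw [ha, hb, gmt_integral_restrict_of_tsupport μ (z σ),
            gmt_integral_restrict_of_tsupport μ' (z σ')]
      _ = 0 := by rw [h T hT, sub_self]
  have hUae : ∀ᵐ x ∂lam, x ∈ U := by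
    rw [hlam, ae_add_measure_iff]
    exact ⟨ae_restrict_mem hU.measurableSet, ae_restrict_mem hU.measurableSet⟩
  have hE : (f * fun x => ‖σ x‖ₑ) =ᵐ[lam] (f' * fun x => ‖σ' x‖ₑ) := by
    filter_upwards [hF0, hUae, a.rnDeriv_lt_top lam, b.rnDeriv_lt_top lam] with x hx hxU h1 h2
    have e : (f x).toReal • σ x = (f' x).toReal • σ' x := sub_eq_zero.1 (hx hxU)
    have e2 := congrArg (fun v => ‖v‖ₑ) e
    simp only [enorm_smul, Real.enorm_eq_ofReal ENNReal.toReal_nonneg] at e2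
    rw [ENNReal.ofReal_toReal h1.ne, ENNReal.ofReal_toReal h2.ne] at e2
    exact e2
  calc a.withDensity (fun x => ‖σ x‖ₑ)
      = (lam.withDensity f).withDensity (fun x => ‖σ x‖ₑ) := by
        rw [hfdef, Measure.withDensity_rnDeriv_eq _ _ hal]
    _ = lam.withDensity (f * fun x => ‖σ x‖ₑ) := (withDensity_mul _ hfm hσ.enorm).symm
    _ = lam.withDensity (f' * fun x => ‖σ' x‖ₑ) := withDensity_congr_ae hE
    _ = (lam.withDensity f').withDensity (fun x => ‖σ' x‖ₑ) := withDensity_mul _ hfm' hσ'.enorm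
    _ = b.withDensity (fun x => ‖σ' x‖ₑ) := by
        rw [hfdef', Measure.withDensity_rnDeriv_eq _ _ hbl]

end Claimed.Agent.Gmt
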