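import Claimed.Agent.Lib.Gmt.GgRieszAuxD

/-!
# Lib/Gmt [GgRieszB] G0a: Riesz representation: existence of the polar pair; measures which agree on open sets.
(architect: helper75; prover: helper106)          Route: header of `GgRieszA.lean`.
-/

set_option autoImplicit false
open scoped ContDiff ENNReal RealInnerProductSpace Topology
open MeasureTheory Metric Set Filter

namespace Claimed.Agent.Gmt

variable {m k : ℕ}

/-- RIESZ REPRESENTATION THEOREM (vector valued, local), for locally bounded functionals. -/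
theorem gmtRieszB {U : Set (E m)} (hU : IsOpen U) {L : (E m → E k) → ℝ} (hL : GmtFunlB U L) :
    ∃ (μ : Measure (E m)) (ν : E m → E k), Measurable ν ∧ (∀ x, ‖ν x‖ = 1 ∨ ν x = 0) ∧
      (∀ᵐ x ∂μ, ‖ν x‖ = 1) ∧ μ Uᶜ = 0 ∧ (∀ K, IsCompact K → K ⊆ U → μ K ≠ ⊤) ∧
      (∀ T, GmtTestK U T → L T = ∫ x, ⟪T x, ν x⟫ ∂μ) ∧
      ∀ W, IsOpen W → W ⊆ U → μ W =
        ⨆ (T : E m → E k) (_ : GmtTestK W T) (_ : ∀ x, ‖T x‖ ≤ 1), ENNReal.ofReal (L T) := by
  classical
  obtain ⟨μX, hreg, hvar⟩ := gmt_exists_varM hU hL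
  obtain ⟨ν₀, hm, hB, H⟩ := gmt_exists_vec hU hL hvar
  have h1 := gmt_vec_norm_eq hU hL hvar hm hB H
  set ν₁ : E m → E k := Subtype.val.extend ν₀ 0 with hν₁
  have hν₁m : Measurable ν₁ :=
    (MeasurableEmbedding.subtype_coe hU.measurableSet).measurable_extend hm measurable_const
  set ν : E m → E k := fun x => if ‖ν₁ x‖ = 1 then ν₁ x else 0 with hν
  have hνm : Measurable ν :=
    Measurable.ite (measurableSet_eq_fun hν₁m.norm measurable_const) hν₁m measurable_const
  have hνx : ∀ᵐ x : U ∂μX, ν x = ν₀ x := by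
    filter_upwards [h1] with x hx
    have e : ν₁ x = ν₀ x := Subtype.val_injective.extend_apply _ _ x
    simp only [hν, e, hx, if_true]
  refine ⟨gmtPush μX, ν, hνm, fun x => ?_, ?_, gmtPush_compl hU μX,
    fun K hK hKU => gmtPush_compact hU μX hK hKU, fun T hT => ?_,
    fun W hW hWU => hvar.open_eq hU hL hW hWU⟩
  · by_cases hx : ‖ν₁ x‖ = 1
    · left; simp only [hν, if_pos hx]; exact hx
    · right; simp only [hν, if_neg hx]
  · rw [ae_gmtPush_iff hU]
    filter_upwards [h1, hνx] with x hx hx'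
    rw [hx']; exact hx
  · rw [integral_gmtPush hU, ← gmtExt_eq hU hL hT, H T hT.toC]
    refine integral_congr_ae ?_
    filter_upwards [hνx] with x hx
    rw [hx]

/-- two measures which are finite on compact subsets of `U` and agree on open subsets of `U`
have the same restriction to `U`. -/
theorem gmt_restrict_ext_open {U : Set (E m)} (hU : IsOpen U) {μ μ' : Measure (E m)}
    (hf : ∀ K, IsCompact K → K ⊆ U → μ K ≠ ⊤)
    (h : ∀ W, IsOpen W → W ⊆ U → μ W = μ' W) : μ.restrict U = μ'.restrict U := by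
  obtain ⟨V, hV, -, hun⟩ := gmt_exists_open_exhaustion hU
  rw [← hun, Measure.restrict_iUnion_congr]
  intro n
  obtain ⟨hVo, hVc, hVU⟩ := hV n
  have hVU' : V n ⊆ U := subset_closure.trans hVU
  have hfin : μ (V n) ≠ ⊤ := ne_top_of_le_ne_top (hf _ hVc hVU) (measure_mono subset_closure)
  have : IsFiniteMeasure (μ.restrict (V n)) := ⟨by
    rw [Measure.restrict_apply MeasurableSet.univ, univ_inter]; exact hfin.lt_top⟩
  refine ext_of_generate_finite {s : Set (E m) | IsOpen s} (BorelSpace.measurable_eq)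
    isPiSystem_isOpen (fun s hs => ?_) ?_
  · have hs : IsOpen s := hs
    rw [Measure.restrict_apply (IsOpen.measurableSet hs),
      Measure.restrict_apply (IsOpen.measurableSet hs)]
    exact h _ (IsOpen.inter hs hVo) (inter_subset_right.trans hVU')
  · rw [Measure.restrict_apply MeasurableSet.univ, Measure.restrict_apply MeasurableSet.univ,
      univ_inter]
    exact h _ hVo hVU'

/-- two measures which vanish off `U`, are finite on compact subsets of `U` and agree on open
subsets of `U` are equal. -/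
theorem gmt_measure_ext_open {U : Set (E m)} (hU : IsOpen U) {μ μ' : Measure (E m)}
    (hc : μ Uᶜ = 0) (hc' : μ' Uᶜ = 0) (hf : ∀ K, IsCompact K → K ⊆ U → μ K ≠ ⊤)
    (h : ∀ W, IsOpen W → W ⊆ U → μ W = μ' W) : μ = μ' := by
  have e := gmt_restrict_ext_open hU hf h
  rwa [Measure.restrict_eq_self_of_ae_mem (show ∀ᵐ x ∂μ, x ∈ U from by
      rw [ae_iff]; exact hc),
    Measure.restrict_eq_self_of_ae_mem (show ∀ᵐ x ∂μ', x ∈ U from by
      rw [ae_iff]; exact hc')] at e

end Claimed.Agent.Gmt
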