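import Claimed.Agent.Lib.Gmt.GgRieszB

/-!
# Lib/Gmt [GgRieszC] G0a: Riesz representation when the variation measure is given.
(architect: helper75; prover: helper106)          Route: header of `GgRieszA.lean`.
-/

set_option autoImplicit false
open scoped ContDiff ENNReal RealInnerProductSpace Topology
open MeasureTheory Metric Set Filter

namespace Claimed.Agent.Gmt

variable {m k : ℕ}

/-- a functional dominated by a measure which is finite on compact subsets is locally bounded. -/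
theorem GmtFunl.toB {U : Set (E m)} (hU : IsOpen U) {L : (E m → E k) → ℝ} (hL : GmtFunl U L)
    {μ : Measure (E m)} (hμ : GmtDom U L μ) (hfin : ∀ K, IsCompact K → K ⊆ U → μ K ≠ ⊤) :
    GmtFunlB U L := by
  refine ⟨hL.add, hL.smul, fun K hK hKU => ?_⟩
  obtain ⟨W, ⟨hWo, hWc, hWU⟩, hKW⟩ := gmt_exists_cc hK hU hKU
  have hW : μ W ≠ ⊤ := ne_top_of_le_ne_top (hfin _ hWc hWU) (measure_mono subset_closure)
  refine ⟨(μ W).toReal, fun T hT hTK h1 => ?_⟩
  have := hμ W hWo (subset_closure.trans hWU) T ⟨hT.c1, hT.cpt, hTK.trans hKW⟩ h1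
  exact (ENNReal.ofReal_le_iff_le_toReal hW).1 this

/-- the integral of a function which vanishes off `U`. -/
theorem gmt_integral_restrict_of_tsupport {U : Set (E m)} (μ : Measure (E m)) {f : E m → ℝ}
    (hf : ∀ x ∉ U, f x = 0) : ∫ x in U, f x ∂μ = ∫ x, f x ∂μ :=
  setIntegral_eq_integral_of_forall_compl_eq_zero hf

/-- RIESZ REPRESENTATION THEOREM (vector valued, local; the variation measure is given). -/
theorem gmtRiesz_of_measure {U : Set (E m)} (hU : IsOpen U) {L : (E m → E k) → ℝ}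
    (hL : GmtFunl U L) {μ : Measure (E m)} [μ.OuterRegular]
    (hμ : ∀ W, IsOpen W → W ⊆ U → μ W =
      ⨆ (T : E m → E k) (_ : GmtTestK W T) (_ : ∀ x, ‖T x‖ ≤ 1), ENNReal.ofReal (L T))
    (hfin : ∀ K, IsCompact K → K ⊆ U → μ K ≠ ⊤) :
    ∃ ν : E m → E k, Measurable ν ∧ (∀ x, ‖ν x‖ = 1 ∨ ν x = 0) ∧
      (∀ᵐ x ∂(μ.restrict U), ‖ν x‖ = 1) ∧
      ∀ T, GmtTestK U T → L T = ∫ x, ⟪T x, ν x⟫ ∂μ := by
  have hdom : GmtDom U L μ := by
    intro W hW hWU T hT h1
    rw [hμ W hW hWU]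
    exact le_iSup₂_of_le T hT (le_iSup_of_le h1 le_rfl)
  obtain ⟨μ₁, ν, hνm, hν01, hν1, hc, hf₁, hrep, hopen⟩ := gmtRieszB hU (hL.toB hU hdom hfin)
  have e : μ.restrict U = μ₁ := by
    have e1 := gmt_restrict_ext_open hU hfin (μ' := μ₁) fun W hW hWU => by
      rw [hμ W hW hWU, hopen W hW hWU]
    rwa [Measure.restrict_eq_self_of_ae_mem (show ∀ᵐ x ∂μ₁, x ∈ U from by
      rw [ae_iff]; exact hc)] at e1
  refine ⟨ν, hνm, hν01, by rw [e]; exact hν1, fun T hT => ?_⟩
  rw [hrep T hT, ← e]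
  refine gmt_integral_restrict_of_tsupport μ fun x hx => ?_
  rw [image_eq_zero_of_notMem_tsupport (fun h => hx (hT.sub h)), inner_zero_left]

end Claimed.Agent.Gmt
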