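import Claimed.Agent.Lib.Gmt.GgMeas
import Claimed.Agent.Lib.Gmt.BvGlueL

/-!
# Lib/Gmt [GgWeight] G0d: WEIGHTED statements for the perimeter measure (the chart lemmas behind `R315/Ct/BvC..BvF`).
(architect: helper75; PROVED: helper6)

`μ = gmtPerM A S`; `w ≥ 0` a continuous weight on `U` (in the applications `w = (χ g) ∘ ψ`, `χ` a member of a partition of unity).

PLAN
* `gmtPerM_lsc_weight`: layer cake `∫⁻ ofReal w dμ|_U = ∫⁻ t in Ioi 0, μ (U ∩ {t < w})` (`MeasureTheory.lintegral_eq_lintegral_meas_lt` for the measure `μ.restrict U`; `w` is a.e. measurable for it because it is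
  continuous on the open set `U`: `ContinuousOn.aemeasurable hU.measurableSet`); `U ∩ {t < w}` is open (`ContinuousOn.isOpen_inter_preimage`), so `μ (..) = gmtPer A S (..)` (`gmtPerM_open`),
  `gmtPer_lsc` on each of these sets (`GmtConv.mono`), Fatou `lintegral_liminf_le'` (measurability in `t`: antitone functions are measurable, `Antitone.measurable`).
* `lintegral_gmtPerM_le_gmtPer_sq`: for `N`, `δ > 0` put `W_j = W ∩ {jδ < w}` (`1 ≤ j ≤ N`, open).  For `T_j` admissible for `A` with support in `W_j` the field `T = ∑_j δ T_j` is a test field in `W`, admissible for `w² • A`: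
  `T x·ξ = ∑_{j : x ∈ W_j} δ T_j x·ξ ≤ #{j ≥ 1 : jδ < w x} δ √(A ξ ξ) ≤ w x √(A ξ ξ) = √(w² A ξ ξ)`.  Hence `∑_j δ gmtPer A S W_j ≤ gmtPer (w² • A) S W`
  (finite induction with `ENNReal.biSup_add_biSup_le'` as in `gmtVarA_add_le_union`; it is convenient to prove by induction on `N` the statement for the integrand `(s_N)² • A`, `s_N x = ∑_{j ≤ N} δ 1_{W_j} x`, i.e. `gmtAdmW` below).
  Finally `∑_{j=1}^{N} δ μ(W_j) = ∫⁻_W s_N dμ` and `s_N ↑ w` along `δ = 2^{-n}`, `N = n 2^n` (or: `s ≥ w - δ` on `{w ≤ Nδ}`); monotone convergence / `lintegral_iSup`; alternatively Fatou.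
* `gmt_div_le_lintegral`: Gauss-Green `∫_S div T = ∫ T·ν dμ_S`, `T·ν ≤ w √(A ν ν)`, `gmtPerM_eq_withDensity`, `lintegral_withDensity_eq_lintegral_mul_non_measurable`, `gmt_ofReal_integral_le`.
* `gmtPer_sq_le_lintegral`: sup over `T` of the previous lemma in `W` (`√(w² A ξ ξ) = w √(A ξ ξ)`).
* `gmtPerM_glue_weight`: with `B = w² • A`, `c = w · gmtDens A f` (`gmtDens B f = w gmtDens A f`): `gmtPer_glue_level_w` for `B`; `lintegral_gmtPerM_le_gmtPer_sq` for `G_t`, `gmtPer_sq_le_lintegral` for `S₁`, `S₂`;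
  locality `gmtPerM_restrict_congr` (`G_t = S₁` on `U ∩ {f<t}`, `= S₂` on `U ∩ {t<f}`); split `U = {f<t} ⊔ {f=t} ⊔ {t<f}` and cancel the finite terms (`w` has compact support in `U`, `gmtPerM A S_i` is finite on compact subsets of `U`).
-/

set_option autoImplicit false
open scoped ContDiff ENNReal RealInnerProductSpace Topology
open MeasureTheory Metric Set Filter

namespace Claimed.Agent.Gmt

variable {m : ℕ}

theorem GmtConv.mono_set {U V : Set (E m)} {S : ℕ → Set (E m)} {S' : Set (E m)}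
    (h : GmtConv U S S') (hVU : V ⊆ U) : GmtConv V S S' :=
  fun K hK hKV => h K hK (hKV.trans hVU)

/-- layer cake formula for the perimeter measure and a continuous weight. -/
theorem gmtPerM_layercake {U : Set (E m)} (hU : IsOpen U) (A : E m → Bil m) (S : Set (E m))
    {w : E m → ℝ} (hw : ContinuousOn w U) (hw0 : ∀ x ∈ U, 0 ≤ w x) :
    ∫⁻ x in U, ENNReal.ofReal (w x) ∂(gmtPerM A S) =
      ∫⁻ t in Ioi (0 : ℝ), gmtPer A S (U ∩ w ⁻¹' Ioi t) := by
  rw [lintegral_eq_lintegral_meas_lt ((gmtPerM A S).restrict U)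
    ((ae_restrict_iff' hU.measurableSet).2 (Eventually.of_forall hw0))
    (hw.aemeasurable hU.measurableSet)]
  refine lintegral_congr fun t => ?_
  rw [Measure.restrict_apply' hU.measurableSet]
  have e : {a | t < w a} ∩ U = U ∩ w ⁻¹' Ioi t := by
    rw [inter_comm]
    rfl
  rw [e, gmtPerM_open A S (hw.isOpen_inter_preimage hU isOpen_Ioi)]

/-- weighted lower semicontinuity. -/
theorem gmtPerM_lsc_weight {U : Set (E m)} (hU : IsOpen U) (A : E m → Bil m) {S : ℕ → Set (E m)}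
    {S' : Set (E m)} (hS : ∀ i, MeasurableSet (S i)) (hS' : MeasurableSet S')
    (hc : GmtConv U S S') {w : E m → ℝ} (hw : ContinuousOn w U) (hw0 : ∀ x ∈ U, 0 ≤ w x) :
    ∫⁻ x in U, ENNReal.ofReal (w x) ∂(gmtPerM A S') ≤
      liminf (fun i => ∫⁻ x in U, ENNReal.ofReal (w x) ∂(gmtPerM A (S i))) atTop := by
  simp only [gmtPerM_layercake hU A _ hw hw0]
  have hmeas : ∀ i, Measurable fun t : ℝ => gmtPer A (S i) (U ∩ w ⁻¹' Ioi t) := by
    intro i
    apply Antitone.measurable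
    intro s t hst
    exact gmtPer_mono A (S i) (inter_subset_inter_right _ (preimage_mono (Ioi_subset_Ioi hst)))
  refine le_trans (lintegral_mono fun t => ?_) (lintegral_liminf_le fun i => hmeas i)
  exact gmtPer_lsc A (hw.isOpen_inter_preimage hU isOpen_Ioi) hS hS' (hc.mono_set inter_subset_left)

/-- `T` is admissible with the weight `s`: `T x·ξ ≤ s x √(A x ξ ξ)`. -/
def GmtAdmW (s : E m → ℝ) (A : E m → Bil m) (T : E m → E m) : Prop :=
  ∀ x ξ : E m, ⟪T x, ξ⟫ ≤ s x * Real.sqrt (A x ξ ξ)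

theorem gmt_sqrt_sq_smul {c : ℝ} (hc : 0 ≤ c) (B : Bil m) (ξ : E m) :
    Real.sqrt ((c ^ 2 • B) ξ ξ) = c * Real.sqrt (B ξ ξ) := by
  have e : (c ^ 2 • B) ξ ξ = c ^ 2 * B ξ ξ := by simp
  rw [e, Real.sqrt_mul (sq_nonneg c), Real.sqrt_sq hc]

theorem gmtAdm_sq_iff {w : E m → ℝ} (hw : ∀ x, 0 ≤ w x) (A : E m → Bil m) (T : E m → E m) :
    GmtAdm (fun x => (w x) ^ 2 • A x) T ↔ GmtAdmW w A T := by
  unfold GmtAdm GmtAdmW
  simp only [gmt_sqrt_sq_smul (hw _)]

theorem gmtDens_sq {w : E m → ℝ} (A : E m → Bil m) (f : E m → ℝ) {x : E m} (hw : 0 ≤ w x) :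
    gmtDens (fun x => (w x) ^ 2 • A x) f x = w x * gmtDens A f x := by
  unfold gmtDens
  exact gmt_sqrt_sq_smul hw _ _

/-- the `A`-perimeter measure is finite on compact subsets of `U`. -/
theorem gmtPerM_compact_ne_top {U : Set (E m)} {A : E m → Bil m} (hU : IsOpen U) (hA : GmtInt U A)
    {S : Set (E m)} (hS : GmtLF S U) {K : Set (E m)} (hK : IsCompact K) (hKU : K ⊆ U) :
    gmtPerM A S K ≠ ⊤ := by
  obtain ⟨W, hWcc, hKW⟩ := gmt_exists_cc hK hU hKU
  obtain ⟨c, C, hc, hcC, hb⟩ := gmtInt_bounds hU hA hWcc.2.1 hWcc.2.2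
  have h1 : gmtPer A S W ≤ ENNReal.ofReal C * gmtP S W :=
    gmtPer_le_mul_gmtP (hc.le.trans hcC) (fun x hx ξ => (hb x (subset_closure hx) ξ).2) S
  have h2 : ENNReal.ofReal C * gmtP S W ≠ ⊤ :=
    ENNReal.mul_ne_top ENNReal.ofReal_ne_top (hS.2 W hWcc)
  refine ne_top_of_le_ne_top h2 ?_
  calc gmtPerM A S K ≤ gmtPerM A S W := measure_mono hKW
    _ = gmtPer A S W := gmtPerM_open A S hWcc.1
    _ ≤ ENNReal.ofReal C * gmtP S W := h1

/-- conversely. -/
theorem gmtLF_of_gmtPerM {U : Set (E m)} {A : E m → Bil m} (hU : IsOpen U) (hA : GmtInt U A)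
    {S : Set (E m)} (hS : MeasurableSet S)
    (h : ∀ K, IsCompact K → K ⊆ U → gmtPerM A S K ≠ ⊤) : GmtLF S U := by
  refine ⟨hS, fun W hW => ?_⟩
  obtain ⟨c, C, hc, hcC, hb⟩ := gmtInt_bounds hU hA hW.2.1 hW.2.2
  have h1 : ENNReal.ofReal c * gmtP S W ≤ gmtPer A S W :=
    mul_gmtP_le_gmtPer hc.le (fun x hx ξ => (hb x (subset_closure hx) ξ).1) S
  have h2 : gmtPer A S W ≠ ⊤ := by
    rw [← gmtPerM_open A S hW.1]
    exact ne_top_of_le_ne_top (h _ hW.2.1 hW.2.2) (measure_mono subset_closure)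
  intro htop
  rw [htop, ENNReal.mul_top (by simpa using hc)] at h1
  exact h2 (top_le_iff.1 h1)

theorem GmtAdmW.mono {s s' : E m → ℝ} {A : E m → Bil m} {T : E m → E m} (h : GmtAdmW s A T)
    (hs : ∀ x, s x ≤ s' x) : GmtAdmW s' A T := fun x ξ =>
  (h x ξ).trans (mul_le_mul_of_nonneg_right (hs x) (Real.sqrt_nonneg _))

theorem GmtAdmW.add {s s' : E m → ℝ} {A : E m → Bil m} {T T' : E m → E m} (h : GmtAdmW s A T)
    (h' : GmtAdmW s' A T') : GmtAdmW (fun x => s x + s' x) A (fun x => T x + T' x) := by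
  intro x ξ
  rw [inner_add_left, add_mul]
  exact add_le_add (h x ξ) (h' x ξ)

theorem gmtAdmW_zero {s : E m → ℝ} (hs : ∀ x, 0 ≤ s x) (A : E m → Bil m) :
    GmtAdmW s A (fun _ => (0 : E m)) := by
  intro x ξ
  rw [inner_zero_left]
  exact mul_nonneg (hs x) (Real.sqrt_nonneg _)

theorem gmtAdmW_indicator {V : Set (E m)} {A : E m → Bil m} {T : E m → E m} (hT : GmtTest V T)
    (h : GmtAdm A T) {δ : ℝ} (hδ : 0 ≤ δ) :
    GmtAdmW (V.indicator fun _ => δ) A (fun x => δ • T x) := by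
  intro x ξ
  by_cases hx : x ∈ V
  · rw [indicator_of_mem hx, real_inner_smul_left]
    exact mul_le_mul_of_nonneg_left (h x ξ) hδ
  · have : T x = 0 := image_eq_zero_of_notMem_tsupport fun h' => hx (hT.sub h')
    simp [this, indicator_of_notMem hx]

/-- one step of the induction. -/
theorem gmt_sum_gmtPer_step (A : E m → Bil m) (S : Set (E m)) {W V : Set (E m)}
    (hVW : V ⊆ W) {δ : ℝ} (hδ : 0 ≤ δ) {s : E m → ℝ} (hs : ∀ x, 0 ≤ s x) :
    (⨆ (T : E m → E m) (_ : GmtTest W T) (_ : GmtAdmW s A T),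
        ENNReal.ofReal (∫ x in S, gmtDiv T x)) + ENNReal.ofReal δ * gmtPer A S V ≤
      ⨆ (T : E m → E m) (_ : GmtTest W T)
        (_ : GmtAdmW (fun x => s x + V.indicator (fun _ => δ) x) A T),
        ENNReal.ofReal (∫ x in S, gmtDiv T x) := by
  have hi0 : ∀ x, 0 ≤ V.indicator (fun _ => δ) x := fun x => indicator_nonneg (fun _ _ => hδ) x
  have hle : ∀ T, GmtTest W T → GmtAdmW (fun x => s x + V.indicator (fun _ => δ) x) A T →
      ENNReal.ofReal (∫ x in S, gmtDiv T x) ≤ ⨆ (T : E m → E m) (_ : GmtTest W T)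
        (_ : GmtAdmW (fun x => s x + V.indicator (fun _ => δ) x) A T),
        ENNReal.ofReal (∫ x in S, gmtDiv T x) := fun T h1 h2 =>
    le_iSup_of_le T (le_iSup_of_le h1 (le_iSup_of_le h2 le_rfl))
  have e1 : (⨆ (T : E m → E m) (_ : GmtTest W T) (_ : GmtAdmW s A T),
      ENNReal.ofReal (∫ x in S, gmtDiv T x)) = ⨆ (T : E m → E m) (_ : GmtTest W T ∧ GmtAdmW s A T),
      ENNReal.ofReal (∫ x in S, gmtDiv T x) := by
    simp_rw [iSup_and]
  have e2 : ENNReal.ofReal δ * gmtPer A S V = ⨆ (T : E m → E m) (_ : GmtTest V T ∧ GmtAdm A T),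
      ENNReal.ofReal δ * ENNReal.ofReal (∫ x in S, gmtDiv T x) := by
    unfold gmtPer
    simp_rw [ENNReal.mul_iSup, iSup_and]
  rw [e1, e2]
  refine ENNReal.biSup_add_biSup_le' ⟨_, gmtTest_zero W, gmtAdmW_zero hs A⟩
    ⟨_, gmtTest_zero V, gmtAdm_zero A⟩ ?_
  rintro T ⟨hT, hTa⟩ T' ⟨hT', hTa'⟩
  have hT'W : GmtTest W (fun x => δ • T' x) := (hT'.mono hVW).const_smul δ
  have hTa'' := gmtAdmW_indicator hT' hTa' hδ
  have e : δ * ∫ x in S, gmtDiv T' x = ∫ x in S, gmtDiv (fun x => δ • T' x) x := by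
    rw [← integral_const_mul]
    refine integral_congr_ae (Eventually.of_forall fun x => ?_)
    exact (gmtDiv_const_smul δ (hT'.differentiable x)).symm
  rw [← ENNReal.ofReal_mul hδ, e]
  rcases le_total (∫ x in S, gmtDiv T x) 0 with h0 | h0
  · rw [ENNReal.ofReal_of_nonpos h0, zero_add]
    exact hle _ hT'W (hTa''.mono fun x => le_add_of_nonneg_left (hs x))
  rcases le_total (∫ x in S, gmtDiv (fun x => δ • T' x) x) 0 with h0' | h0'
  · rw [ENNReal.ofReal_of_nonpos h0', add_zero]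
    exact hle _ hT (hTa.mono fun x => le_add_of_nonneg_right (hi0 x))
  rw [← ENNReal.ofReal_add h0 h0',
    ← integral_add (gmtDiv_integrable hT).integrableOn (gmtDiv_integrable hT'W).integrableOn]
  have e2 : ∀ x, gmtDiv T x + gmtDiv (fun x => δ • T' x) x =
      gmtDiv (fun x => T x + δ • T' x) x := fun x =>
    (gmtDiv_add (hT.differentiable x) (hT'W.differentiable x)).symm
  simp only [e2]
  exact hle _ (hT.add hT'W) (hTa.add hTa'')

/-- finite step weights: `∑_j δ Per_A(S; W_j) ≤ sup { ∫_S div T : T ∈ C¹_c(W), T·ξ ≤ (∑_j δ 1_{W_j}) √(A ξ ξ) }`. -/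
theorem gmt_sum_gmtPer_le (A : E m → Bil m) {S : Set (E m)} (hS : MeasurableSet S) {W : Set (E m)}
    (N : ℕ) (Wj : ℕ → Set (E m)) (hWj : ∀ j, IsOpen (Wj j)) (hsub : ∀ j, Wj j ⊆ W) {δ : ℝ}
    (hδ : 0 ≤ δ) :
    ∑ j ∈ Finset.range N, ENNReal.ofReal δ * gmtPer A S (Wj j) ≤
      ⨆ (T : E m → E m) (_ : GmtTest W T)
        (_ : GmtAdmW (fun x => ∑ j ∈ Finset.range N, (Wj j).indicator (fun _ => δ) x) A T),
        ENNReal.ofReal (∫ x in S, gmtDiv T x) := by
  induction N with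
  | zero => simp
  | succ N ih =>
    rw [Finset.sum_range_succ]
    simp only [Finset.sum_range_succ]
    refine le_trans (add_le_add ih le_rfl) ?_
    exact gmt_sum_gmtPer_step A S (hsub N) hδ fun x =>
      Finset.sum_nonneg fun j _ => indicator_nonneg (fun _ _ => hδ) x

theorem gmt_step_bounds {δ : ℝ} (hδ : 0 ≤ δ) {y : ℝ} (hy : 0 ≤ y) (N : ℕ) :
    (∑ j ∈ Finset.range N, if ((j : ℝ) + 1) * δ < y then δ else 0) ≤ min y (N * δ) ∧
    min (y - δ) (N * δ) ≤ ∑ j ∈ Finset.range N, if ((j : ℝ) + 1) * δ < y then δ else 0 := by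
  induction N with
  | zero => simp [hy]
  | succ N ih =>
    rw [Finset.sum_range_succ]
    obtain ⟨h1, h2⟩ := ih
    have h1r := h1.trans (min_le_right _ _)
    have h1l := h1.trans (min_le_left _ _)
    push_cast
    by_cases h : ((N : ℝ) + 1) * δ < y
    · rw [if_pos h]
      constructor
      · apply le_min
        · nlinarith
        · nlinarith
      · have : min (y - δ) (N * δ) = N * δ := min_eq_right (by nlinarith)
        rw [this] at h2
        exact (min_le_right _ _).trans (by nlinarith)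
    · rw [if_neg h, add_zero]
      push Not at h
      constructor
      · exact le_min h1l (by nlinarith)
      · have : min (y - δ) (N * δ) = y - δ := min_eq_left (by nlinarith)
        rw [this] at h2
        exact (min_le_left _ _).trans h2

/-- the step weights. -/
noncomputable def gmtStepW (W : Set (E m)) (w : E m → ℝ) (δ : ℝ) (N : ℕ) (x : E m) : ℝ :=
  ∑ j ∈ Finset.range N, (W ∩ w ⁻¹' Ioi (((j : ℝ) + 1) * δ)).indicator (fun _ => δ) x

theorem gmtStepW_of_mem {W : Set (E m)} (w : E m → ℝ) (δ : ℝ) (N : ℕ) {x : E m} (hx : x ∈ W) :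
    gmtStepW W w δ N x = ∑ j ∈ Finset.range N, if ((j : ℝ) + 1) * δ < w x then δ else 0 := by
  unfold gmtStepW
  refine Finset.sum_congr rfl fun j _ => ?_
  by_cases h : ((j : ℝ) + 1) * δ < w x
  · have hm : x ∈ W ∩ w ⁻¹' Ioi (((j : ℝ) + 1) * δ) := ⟨hx, h⟩
    rw [indicator_of_mem hm, if_pos h]
  · have hm : x ∉ W ∩ w ⁻¹' Ioi (((j : ℝ) + 1) * δ) := fun h' => h h'.2
    rw [indicator_of_notMem hm, if_neg h]

theorem gmtStepW_of_notMem {W : Set (E m)} (w : E m → ℝ) (δ : ℝ) (N : ℕ) {x : E m} (hx : x ∉ W) :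
    gmtStepW W w δ N x = 0 := by
  unfold gmtStepW
  refine Finset.sum_eq_zero fun j _ => ?_
  have hm : x ∉ W ∩ w ⁻¹' Ioi (((j : ℝ) + 1) * δ) := fun h' => hx h'.1
  exact indicator_of_notMem hm _

theorem gmtStepW_le {W : Set (E m)} {w : E m → ℝ} (hw0 : ∀ x, 0 ≤ w x) {δ : ℝ} (hδ : 0 ≤ δ)
    (N : ℕ) (x : E m) : gmtStepW W w δ N x ≤ w x := by
  by_cases hx : x ∈ W
  · rw [gmtStepW_of_mem w δ N hx]
    exact ((gmt_step_bounds hδ (hw0 x) N).1).trans (min_le_left _ _)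
  · rw [gmtStepW_of_notMem w δ N hx]
    exact hw0 x

theorem gmtStepW_tendsto {W : Set (E m)} {w : E m → ℝ} (hw0 : ∀ x, 0 ≤ w x) {x : E m}
    (hx : x ∈ W) :
    Tendsto (fun n : ℕ => gmtStepW W w (1 / ((n : ℝ) + 1)) ((n + 1) ^ 2) x) atTop (𝓝 (w x)) := by
  have h1 : Tendsto (fun n : ℕ => w x - 1 / ((n : ℝ) + 1)) atTop (𝓝 (w x)) := by
    have := (tendsto_const_nhds (x := w x)).sub (tendsto_one_div_add_atTop_nhds_zero_nat (𝕜 := ℝ))
    simpa using this
  refine tendsto_of_tendsto_of_tendsto_of_le_of_le' h1 tendsto_const_nhds ?_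
    (Eventually.of_forall fun n => gmtStepW_le hw0 (by positivity) _ x)
  obtain ⟨n₀, hn₀⟩ := exists_nat_ge (w x)
  filter_upwards [eventually_ge_atTop n₀] with n hn
  have hn' : (n₀ : ℝ) ≤ n := by exact_mod_cast hn
  have hpos : (0 : ℝ) < (n : ℝ) + 1 := by positivity
  rw [gmtStepW_of_mem w _ _ hx]
  refine le_trans (le_of_eq ?_) (gmt_step_bounds (δ := 1 / ((n : ℝ) + 1)) (by positivity) (hw0 x)
    ((n + 1) ^ 2)).2
  symm
  apply min_eq_left
  have e : (((n + 1) ^ 2 : ℕ) : ℝ) * (1 / ((n : ℝ) + 1)) = (n : ℝ) + 1 := by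
    push_cast
    field_simp
  rw [e]
  have : 0 ≤ 1 / ((n : ℝ) + 1) := by positivity
  linarith

theorem gmtStepW_measurable {W : Set (E m)} (hW : IsOpen W) {w : E m → ℝ} (hw : ContinuousOn w W)
    (δ : ℝ) (N : ℕ) : Measurable (gmtStepW W w δ N) := by
  unfold gmtStepW
  refine Finset.measurable_sum _ fun j _ => ?_
  exact measurable_const.indicator (hw.isOpen_inter_preimage hW isOpen_Ioi).measurableSet

theorem gmtStepW_lintegral (A : E m → Bil m) (S : Set (E m)) {W : Set (E m)} (hW : IsOpen W)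
    {w : E m → ℝ} (hw : ContinuousOn w W) {δ : ℝ} (hδ : 0 ≤ δ) (N : ℕ) :
    ∫⁻ x in W, ENNReal.ofReal (gmtStepW W w δ N x) ∂(gmtPerM A S) =
      ∑ j ∈ Finset.range N, ENNReal.ofReal δ * gmtPer A S (W ∩ w ⁻¹' Ioi (((j : ℝ) + 1) * δ)) := by
  have ho : ∀ j : ℕ, IsOpen (W ∩ w ⁻¹' Ioi (((j : ℝ) + 1) * δ)) := fun j =>
    hw.isOpen_inter_preimage hW isOpen_Ioi
  have e : ∀ x, ENNReal.ofReal (gmtStepW W w δ N x) = ∑ j ∈ Finset.range N,
      (W ∩ w ⁻¹' Ioi (((j : ℝ) + 1) * δ)).indicator (fun _ => ENNReal.ofReal δ) x := by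
    intro x
    unfold gmtStepW
    rw [ENNReal.ofReal_sum_of_nonneg fun j _ => indicator_nonneg (fun _ _ => hδ) x]
    refine Finset.sum_congr rfl fun j _ => ?_
    by_cases hx : x ∈ W ∩ w ⁻¹' Ioi (((j : ℝ) + 1) * δ)
    · rw [indicator_of_mem hx, indicator_of_mem hx]
    · rw [indicator_of_notMem hx, indicator_of_notMem hx, ENNReal.ofReal_zero]
  simp only [e]
  rw [lintegral_finsetSum _ fun j _ => measurable_const.indicator (ho j).measurableSet]
  refine Finset.sum_congr rfl fun j _ => ?_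
  rw [lintegral_indicator_const (ho j).measurableSet, Measure.restrict_apply (ho j).measurableSet,
    inter_eq_left.2 inter_subset_left, gmtPerM_open A S (ho j)]

/-- `∫ w d Per_A(S) ≤ Per_{w² A}(S)` (any measurable `S`, any `A`). -/
theorem lintegral_gmtPerM_le_gmtPer_sq (A : E m → Bil m) {S : Set (E m)} (hS : MeasurableSet S)
    {W : Set (E m)} (hW : IsOpen W) {w : E m → ℝ} (hw : ContinuousOn w W) (hw0 : ∀ x, 0 ≤ w x) :
    ∫⁻ x in W, ENNReal.ofReal (w x) ∂(gmtPerM A S) ≤ gmtPer (fun x => (w x) ^ 2 • A x) S W := by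
  have ha : ∀ (δ : ℝ) (_ : 0 ≤ δ) (N : ℕ), ∫⁻ x in W, ENNReal.ofReal (gmtStepW W w δ N x)
      ∂(gmtPerM A S) ≤ gmtPer (fun x => (w x) ^ 2 • A x) S W := by
    intro δ hδ N
    rw [gmtStepW_lintegral A S hW hw hδ N]
    refine (gmt_sum_gmtPer_le A hS N (fun j => W ∩ w ⁻¹' Ioi (((j : ℝ) + 1) * δ))
      (fun j => hw.isOpen_inter_preimage hW isOpen_Ioi) (fun j => inter_subset_left) hδ).trans ?_
    refine iSup_le fun T => iSup_le fun hT => iSup_le fun hTa => ?_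
    have hTa' : GmtAdmW (gmtStepW W w δ N) A T := hTa
    exact integral_le_gmtPer hT ((gmtAdm_sq_iff hw0 A T).2 (hTa'.mono (gmtStepW_le hw0 hδ N)))
  have e : ∫⁻ x in W, ENNReal.ofReal (w x) ∂(gmtPerM A S) = ∫⁻ x in W,
      liminf (fun n : ℕ => ENNReal.ofReal (gmtStepW W w (1 / ((n : ℝ) + 1)) ((n + 1) ^ 2) x)) atTop
      ∂(gmtPerM A S) := by
    refine setLIntegral_congr_fun hW.measurableSet fun x hx => ?_
    exact (((ENNReal.continuous_ofReal.tendsto _).comp (gmtStepW_tendsto hw0 hx)).liminf_eq).symm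
  rw [e]
  refine (lintegral_liminf_le fun n =>
    ENNReal.measurable_ofReal.comp (gmtStepW_measurable hW hw _ _)).trans ?_
  refine (liminf_le_liminf (Eventually.of_forall fun n => ha _ (by positivity) _)).trans ?_
  rw [liminf_const]

theorem gmt_aemeasurable_dens {U : Set (E m)} {A : E m → Bil m} (hU : IsOpen U) (hA : GmtInt U A)
    (S : Set (E m)) (μ : Measure (E m)) :
    AEMeasurable (fun x => ENNReal.ofReal (Real.sqrt (A x (gmtNu S x) (gmtNu S x))))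
      (μ.restrict U) := by
  have hAm : AEMeasurable A (μ.restrict U) := hA.continuousOn.aemeasurable hU.measurableSet
  have hν : AEMeasurable (gmtNu S) (μ.restrict U) := (measurable_gmtNu S).aemeasurable
  have h1 : AEMeasurable (fun x => A x (gmtNu S x)) (μ.restrict U) :=
    ContinuousLinearMap.measurable_apply₂.comp_aemeasurable (hAm.prodMk hν)
  have h2 : AEMeasurable (fun x => A x (gmtNu S x) (gmtNu S x)) (μ.restrict U) :=
    ContinuousLinearMap.measurable_apply₂.comp_aemeasurable (h1.prodMk hν)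
  exact ENNReal.measurable_ofReal.comp_aemeasurable h2.sqrt

/-- weighted Gauss-Green inequality. -/
theorem gmt_div_le_lintegral {U : Set (E m)} {A : E m → Bil m} (hU : IsOpen U) (hA : GmtInt U A)
    {S : Set (E m)} (hS : GmtLF S U) {T : E m → E m} (hT : GmtTest U T) {w : E m → ℝ}
    (hw : ContinuousOn w U) (hTw : ∀ x ∈ U, ∀ ξ : E m, ⟪T x, ξ⟫ ≤ w x * Real.sqrt (A x ξ ξ)) :
    ENNReal.ofReal (∫ x in S, gmtDiv T x) ≤ ∫⁻ x in U, ENNReal.ofReal (w x) ∂(gmtPerM A S) := by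
  rw [gmtPerM_eq_withDensity hU hA hS,
    lintegral_withDensity_eq_lintegral_mul_non_measurable₀ _ (gmt_aemeasurable_dens hU hA S _)
      (ae_of_all _ fun x => ENNReal.ofReal_lt_top), gmt_gauss_green_restrict hU hS hT]
  have hint : Integrable (fun x => ⟪T x, gmtNu S x⟫) ((gmtMu S).restrict U) :=
    (gmt_integrable_inner_test (fun K hK hKU => gmtMu_compact_ne_top hU hS hK hKU)
      (measurable_gmtNu S) (Eventually.of_forall (norm_gmtNu_le_one S)) hT.toK).restrict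
  refine (gmt_ofReal_integral_le hint).trans ?_
  refine setLIntegral_mono' hU.measurableSet fun x hx => ?_
  show ENNReal.ofReal ⟪T x, gmtNu S x⟫ ≤
    ENNReal.ofReal (Real.sqrt (A x (gmtNu S x) (gmtNu S x))) * ENNReal.ofReal (w x)
  rw [mul_comm, ← ENNReal.ofReal_mul' (Real.sqrt_nonneg _)]
  exact ENNReal.ofReal_le_ofReal (hTw x hx _)

/-- `Per_{w² A}(S) ≤ ∫ w d Per_A(S)` (`S` of locally finite perimeter). -/
theorem gmtPer_sq_le_lintegral {U : Set (E m)} {A : E m → Bil m} (hU : IsOpen U) (hA : GmtInt U A)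
    {S : Set (E m)} (hS : GmtLF S U) {w : E m → ℝ} (hw : ContinuousOn w U) (hw0 : ∀ x, 0 ≤ w x) :
    gmtPer (fun x => (w x) ^ 2 • A x) S U ≤ ∫⁻ x in U, ENNReal.ofReal (w x) ∂(gmtPerM A S) := by
  conv_lhs => unfold gmtPer
  refine iSup_le fun T => iSup_le fun hT => iSup_le fun hTa => ?_
  exact gmt_div_le_lintegral hU hA hS hT hw fun x _ ξ => (gmtAdm_sq_iff hw0 A T).1 hTa x ξ

theorem gmt_lintegral_ne_top_of_le {μ : Measure (E m)} {K : Set (E m)} (hK : MeasurableSet K)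
    (hμ : μ K ≠ ⊤) {g : E m → ℝ} {C : ℝ} (h1 : ∀ x ∈ K, g x ≤ C) (h0 : ∀ x ∉ K, g x ≤ 0)
    (V : Set (E m)) : ∫⁻ x in V, ENNReal.ofReal (g x) ∂μ ≠ ⊤ := by
  have h2 : ∫⁻ x in V, ENNReal.ofReal (g x) ∂μ ≤ ENNReal.ofReal C * μ K := by
    calc ∫⁻ x in V, ENNReal.ofReal (g x) ∂μ ≤ ∫⁻ x, ENNReal.ofReal (g x) ∂μ :=
          setLIntegral_le_lintegral _ _
      _ ≤ ∫⁻ x, K.indicator (fun _ => ENNReal.ofReal C) x ∂μ := by
          refine lintegral_mono fun x => ?_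
          by_cases hx : x ∈ K
          · rw [indicator_of_mem hx]
            exact ENNReal.ofReal_le_ofReal (h1 x hx)
          · rw [indicator_of_notMem hx, ENNReal.ofReal_of_nonpos (h0 x hx)]
      _ = ENNReal.ofReal C * μ K := lintegral_indicator_const hK _
  exact ne_top_of_le_ne_top (ENNReal.mul_ne_top ENNReal.ofReal_ne_top hμ) h2

theorem gmtGlue_inter_lt (f : E m → ℝ) (t : ℝ) (S₁ S₂ U : Set (E m)) :
    gmtGlue f t S₁ S₂ ∩ (U ∩ {x | f x < t}) = S₁ ∩ (U ∩ {x | f x < t}) := by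
  ext x
  simp only [gmtGlue, mem_inter_iff, mem_union, mem_diff, mem_setOf_eq]
  tauto

theorem gmtGlue_inter_gt (f : E m → ℝ) (t : ℝ) (S₁ S₂ U : Set (E m)) :
    gmtGlue f t S₁ S₂ ∩ (U ∩ {x | t < f x}) = S₂ ∩ (U ∩ {x | t < f x}) := by
  ext x
  simp only [gmtGlue, mem_inter_iff, mem_union, mem_diff, mem_setOf_eq]
  constructor
  · rintro ⟨h | h, hU, ht⟩
    · exact absurd h.2 (not_lt.2 ht.le)
    · exact ⟨h.1, hU, ht⟩
  · rintro ⟨h, hU, ht⟩
    exact ⟨Or.inr ⟨h, not_lt.2 ht.le⟩, hU, ht⟩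

/-- SHARP WEIGHTED GLUING: for a.e. level `t` the level set carries at most the derivative of
`s ↦ ∫_{(S₁ △ S₂) ∩ U ∩ {a < f < s}} w √(A ∇f ∇f)`. -/
theorem gmtPerM_glue_weight {U : Set (E m)} {A : E m → Bil m} (hU : IsOpen U) (hA : GmtInt U A)
    {f : E m → ℝ} (hfm : Measurable f) (hf : ContDiffOn ℝ 1 f U) {a b : ℝ} {S₁ S₂ : Set (E m)}
    (h₁ : GmtLF S₁ U) (h₂ : GmtLF S₂ U) {w : E m → ℝ} (hw : Continuous w)
    (hwc : HasCompactSupport w) (hwU : tsupport w ⊆ U) (hw0 : ∀ x, 0 ≤ w x) :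
    ∀ᵐ t : ℝ, t ∈ Ioo a b →
      ∫⁻ x in U, ENNReal.ofReal (w x) ∂(gmtPerM A (gmtGlue f t S₁ S₂)) ≠ ⊤ ∧
      ∫⁻ x in U ∩ {x | f x = t}, ENNReal.ofReal (w x) ∂(gmtPerM A (gmtGlue f t S₁ S₂)) ≤
        ENNReal.ofReal (deriv (gmtIfaceW (fun x => w x * gmtDens A f x) f
          (symmDiff S₁ S₂ ∩ U) a) t) := by
  have hKm : MeasurableSet (tsupport w) := (isClosed_tsupport w).measurableSet
  have hKc : IsCompact (tsupport w) := hwc
  obtain ⟨M, hM⟩ := hwc.exists_bound_of_continuous hw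
  have hwM : ∀ x, w x ≤ M := fun x => (le_abs_self _).trans (hM x)
  have hw00 : ∀ x ∉ tsupport w, w x = 0 := fun x hx => image_eq_zero_of_notMem_tsupport hx
  -- finiteness of the cost
  obtain ⟨M₂, hM₂⟩ := hKc.exists_bound_of_continuousOn ((continuousOn_gmtDens hU hA hf).mono hwU)
  have hfin : ∫⁻ x in (symmDiff S₁ S₂ ∩ U) ∩ f ⁻¹' Ioo a b,
      ENNReal.ofReal (w x * gmtDens A f x) ≠ ⊤ := by
    refine gmt_lintegral_ne_top_of_le hKm hKc.measure_lt_top.ne (C := M * M₂) (fun x hx => ?_)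
      (fun x hx => ?_) _
    · exact mul_le_mul (hwM x) ((le_abs_self _).trans (hM₂ x hx)) (gmtDens_nonneg A f x)
        ((hw0 x).trans (hwM x))
    · rw [hw00 x hx, zero_mul]
  have glue := gmtPer_glue_level_w hU (A := fun x => (w x) ^ 2 • A x) hfm hf.continuousOn
    (a := a) (b := b) (hf.mono inter_subset_left) (c := fun x => w x * gmtDens A f x)
    (fun x _ => (gmtDens_sq A f (hw0 x)).le) h₁.1 h₂.1 hfin
  filter_upwards [glue] with t ht htab
  have hglue := ht htab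
  set G := gmtGlue f t S₁ S₂ with hG
  have hGm : MeasurableSet G := measurableSet_gmtGlue hfm t h₁.1 h₂.1
  set V₁ := U ∩ {x | f x < t} with hV₁
  set V₂ := U ∩ {x | t < f x} with hV₂
  set V₀ := U ∩ {x | f x = t} with hV₀
  set R := ENNReal.ofReal (deriv (gmtIfaceW (fun x => w x * gmtDens A f x) f
          (symmDiff S₁ S₂ ∩ U) a) t) with hR
  have hV₁o : IsOpen V₁ := hf.continuousOn.isOpen_inter_preimage hU isOpen_Iio
  have hV₂o : IsOpen V₂ := hf.continuousOn.isOpen_inter_preimage hU isOpen_Ioi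
  have hV₀m : MeasurableSet V₀ := hU.measurableSet.inter (hfm (measurableSet_singleton t))
  -- the three pieces
  have hsplit : U = (V₁ ∪ V₂) ∪ V₀ := by
    ext x
    simp only [hV₁, hV₂, hV₀, mem_union, mem_inter_iff, mem_setOf_eq]
    constructor
    · intro hx
      rcases lt_trichotomy (f x) t with h | h | h
      · exact Or.inl (Or.inl ⟨hx, h⟩)
      · exact Or.inr ⟨hx, h⟩
      · exact Or.inl (Or.inr ⟨hx, h⟩)
    · rintro ((h | h) | h) <;> exact h.1
  have hd12 : Disjoint V₁ V₂ := by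
    rw [disjoint_left]
    rintro x ⟨_, h1⟩ ⟨_, h2⟩
    have h1' : f x < t := h1
    have h2' : t < f x := h2
    exact lt_asymm h1' h2'
  have hd0 : Disjoint (V₁ ∪ V₂) V₀ := by
    rw [disjoint_left]
    rintro x (⟨_, h1⟩ | ⟨_, h1⟩) ⟨_, h2⟩
    · exact absurd h2 (ne_of_lt h1)
    · exact absurd h2 (ne_of_gt h1)
  have hX : ∫⁻ x in U, ENNReal.ofReal (w x) ∂(gmtPerM A G) =
      (∫⁻ x in V₁, ENNReal.ofReal (w x) ∂(gmtPerM A G)) +
        (∫⁻ x in V₂, ENNReal.ofReal (w x) ∂(gmtPerM A G)) +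
        ∫⁻ x in V₀, ENNReal.ofReal (w x) ∂(gmtPerM A G) := by
    conv_lhs => rw [hsplit]
    rw [lintegral_union hV₀m hd0, lintegral_union hV₂o.measurableSet hd12]
  have hle : ∫⁻ x in U, ENNReal.ofReal (w x) ∂(gmtPerM A G) ≤
      gmtPer (fun x => (w x) ^ 2 • A x) G U :=
    lintegral_gmtPerM_le_gmtPer_sq A hGm hU hw.continuousOn hw0
  have e₁ : (gmtPerM A S₁).restrict V₁ = (gmtPerM A G).restrict V₁ :=
    gmtPerM_restrict_congr A hV₁o h₁.1 hGm
      (Filter.EventuallyEq.of_eq (gmtGlue_inter_lt f t S₁ S₂ U).symm)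
  have e₂ : (gmtPerM A S₂).restrict V₂ = (gmtPerM A G).restrict V₂ :=
    gmtPerM_restrict_congr A hV₂o h₂.1 hGm
      (Filter.EventuallyEq.of_eq (gmtGlue_inter_gt f t S₁ S₂ U).symm)
  have hp₁ : gmtPer (fun x => (w x) ^ 2 • A x) S₁ V₁ ≤
      ∫⁻ x in V₁, ENNReal.ofReal (w x) ∂(gmtPerM A G) := by
    rw [← e₁]
    exact gmtPer_sq_le_lintegral hV₁o (hA.mono inter_subset_left) (h₁.mono inter_subset_left)
      hw.continuousOn hw0
  have hp₂ : gmtPer (fun x => (w x) ^ 2 • A x) S₂ V₂ ≤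
      ∫⁻ x in V₂, ENNReal.ofReal (w x) ∂(gmtPerM A G) := by
    rw [← e₂]
    exact gmtPer_sq_le_lintegral hV₂o (hA.mono inter_subset_left) (h₂.mono inter_subset_left)
      hw.continuousOn hw0
  have hf₁ : ∫⁻ x in V₁, ENNReal.ofReal (w x) ∂(gmtPerM A G) ≠ ⊤ := by
    rw [← e₁]
    exact gmt_lintegral_ne_top_of_le hKm (gmtPerM_compact_ne_top hU hA h₁ hKc hwU)
      (fun x _ => hwM x) (fun x hx => (hw00 x hx).le) _
  have hf₂ : ∫⁻ x in V₂, ENNReal.ofReal (w x) ∂(gmtPerM A G) ≠ ⊤ := by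
    rw [← e₂]
    exact gmt_lintegral_ne_top_of_le hKm (gmtPerM_compact_ne_top hU hA h₂ hKc hwU)
      (fun x _ => hwM x) (fun x hx => (hw00 x hx).le) _
  have hmain : ∫⁻ x in U, ENNReal.ofReal (w x) ∂(gmtPerM A G) ≤
      (∫⁻ x in V₁, ENNReal.ofReal (w x) ∂(gmtPerM A G)) +
        (∫⁻ x in V₂, ENNReal.ofReal (w x) ∂(gmtPerM A G)) + R :=
    hle.trans (hglue.trans (add_le_add (add_le_add hp₁ hp₂) le_rfl))
  refine ⟨ne_top_of_le_ne_top (ENNReal.add_ne_top.2 ⟨ENNReal.add_ne_top.2 ⟨hf₁, hf₂⟩,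
    ENNReal.ofReal_ne_top⟩) hmain, ?_⟩
  rw [hX] at hmain
  exact ENNReal.le_of_add_le_add_left (ENNReal.add_ne_top.2 ⟨hf₁, hf₂⟩) hmain

end Claimed.Agent.Gmt
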