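import Claimed.Agent.Lib.Gmt.LamCompactB

/-!
# Lib/Gmt [LamCompact = part 3/3 of the former LamCompact] G3e: compactness and closure of local absolute minimisers with varying data.
(architect: helper75; these are the tops of `IF.lean` §2 (`cut:bv-compactness`) under the weaker hypothesis `GmtCvg`: locally uniform convergence of the data)

PLAN OF PROOFS.  Fix `W ⋐ U'`.
* `GmtCvg.bounds`, `GmtCvg.ratio`: `gmtInt_bounds` for `A'` on the compact set `closure W`: `c²|ξ|² ≤ A' x ξ ξ ≤ C²|ξ|²`; uniform convergence: `|A i x ξ ξ - A' x ξ ξ| ≤ ‖A i x - A' x‖ |ξ|² ≤ η c² |ξ|² ≤ η A' x ξ ξ`.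
* `gmtLAM_eventually_QM`: `GmtLAM.mono` to `W`, `GmtLAM.toQM` with the uniform bounds.   `gmtLAM_bddPer`: `gmtQM_bddPer` (constant domains `V`, `W ⋐ V ⋐ U'`), after a shift of the sequence.
* `gmtLAM_compact`: `gmtP_compactness` (eventual local bounds).
* `gmtLAM_liminf`: `Per_{A'}(S';V) ≤ liminf Per_{A'}(S i;V) ≤ liminf (1+η) Per_{A i}(S i;V)` for `V ⋐ U'` (`gmtPer_lsc`, `gmtPer_le_mul_gmtPer`, `GmtCvg.ratio`); general open `V ⊆ U'` by `gmtPer_iUnion_mono`.
* `gmtLAM_compare` (KEY).  `S''` measurable, `S' △ S'' ⊆ K₀` compact `⊆ U'`, `O ⊇ K₀` open, `O ⋐ U'`.  Take `g` smooth, `g = 0` on `K₀`, `g = 1` off a compact subset of `O`, `0 ≤ g ≤ 1`.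
  `gmtPer_glue_seq` in `O` with `S₁ i = S''`, `S₂ i = S i`, levels `(0,1)` [on `{0 < g}` one has `S'' = S'`, so the interface integrals are `≤ sup|∇g| |(S' △ S i) ∩ closure O| → 0`]:
  subsequence `φ`, a.e. level `t`, `κ_i → 0`.  Minimality of `S (φ i)` in `O` against `F_i = gmtGlue g t S'' (S (φ i))` (`F_i △ S_i ⊆ {g ≤ t}` compact in `O`), superadditivity `gmtPer_add_le_union`
  for `{g<t}`, `O ∩ {t<g}`, cancel the finite number `Per_{A_i}(S_i; O ∩ {t<g})`:
  `Per_{A_i}(S_i;{g<t}) - ∫_{S_i ∩ {g<t}} f_i ≤ Per_{A_i}(S'';{g<t}) + κ_i - ∫_{S'' ∩ {g<t}} f_i`     (here `{g<t}` means `O ∩ {g<t}`).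
  Let `i → ∞` (`GmtCvg.ratio` for the fixed set `S''`; uniform convergence of `f_i` and `L¹` convergence of `S_i` for the volume terms).
* `gmtLAM_closure`: `gmtLAM_compare` + `gmtLAM_liminf` + `gmtLAM_of_cofinal`.
* `gmtLAM_limsup`: `gmtLAM_compare` with `S'' = S'` applied to subsequences realising the `limsup`; `K ⊆ {g<t} ⊆ O`, `Per_{A'}(S';O) ↓ gmtPerM A' S' K` by outer regularity.
* `gmtLAM_wk`: `gmt_portmanteau`.
* boundaries: `gmtLAM_eventually_QM` + `gmtQM_bd_lim`, `gmt_bd_approx`, `gmtQM_bd_hausdorff` (constant domains, shifted sequences).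
-/

set_option autoImplicit false
open scoped ContDiff ENNReal RealInnerProductSpace Topology
open MeasureTheory Metric Set Filter

namespace Claimed.Agent.Gmt

variable {m : ℕ}

variable {U : ℕ → Set (E m)} {A : ℕ → E m → Bil m} {f : ℕ → E m → ℝ} {U' : Set (E m)}
  {A' : E m → Bil m} {f' : E m → ℝ}

variable {S : ℕ → Set (E m)}

/-- NO LOSS OF PERIMETER (`IF.gmt_lam_per_conv`). -/
theorem gmtLAM_wk (h : GmtCvg U A f U' A' f') (hS : ∀ i, GmtLAM (A i) (f i) (U i) (S i))
    {S' : Set (E m)} (hS' : MeasurableSet S') (hc : GmtConv U' S S') :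
    GmtWk U' (fun i => gmtPerM (A i) (S i)) (gmtPerM A' S') := by
  refine gmt_portmanteau h.exh.1 (fun K hK hKU => ?_) (fun W hW hWU => ?_)
    (fun K hK hKU => gmtLAM_limsup h hS hS' hc hK hKU)
  · obtain ⟨W, hW, hKW⟩ := gmt_exists_cc hK h.exh.1 hKU
    refine ne_top_of_le_ne_top ((gmtLAM_closure h hS hS' hc).fin W hW) ?_
    rw [← gmtPerM_open A' S' hW.1]
    exact measure_mono hKW
  · simp only [gmtPerM_open _ _ hW]
    exact gmtLAM_liminf h (fun i => (hS i).meas) hS' hc hW hWU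

/-- if the limit integrand is Euclidean, the Euclidean perimeter measures converge. -/
theorem gmtLAM_wk_eu (h : GmtCvg U A f U' (fun _ => gmtEu m) f')
    (hS : ∀ i, GmtLAM (A i) (f i) (U i) (S i)) {S' : Set (E m)} (hS' : MeasurableSet S')
    (hc : GmtConv U' S S') : GmtWk U' (fun i => gmtMu (S i)) (gmtMu S') := by
  have hreg : (gmtMu S').OuterRegular := (gmtPerM_spec (fun _ => gmtEu m) S').1
  refine gmt_portmanteau h.exh.1 (fun K hK hKU => ?_) (fun W hW hWU => ?_)
    (fun K hK hKU => ?_)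
  · obtain ⟨W, hW, hKW⟩ := gmt_exists_cc hK h.exh.1 hKU
    refine ne_top_of_le_ne_top ((gmtLAM_closure h hS hS' hc).fin W hW) ?_
    rw [← gmtPerM_open (fun _ => gmtEu m) S' hW.1]
    exact measure_mono hKW
  · simp only [gmtMu_open _ hW]
    exact gmtP_lsc hW (fun i => (hS i).meas) hS' (hc.mono hWU)
  · by_contra hlt
    rw [not_le] at hlt
    obtain ⟨r, hr1, hr2⟩ := exists_between hlt
    obtain ⟨O', hKO', hO'o, hO'r⟩ := K.exists_isOpen_lt_of_lt r hr1
    obtain ⟨O, hO, hKO⟩ := gmt_exists_cc hK (hO'o.inter h.exh.1) (subset_inter hKO' hKU)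
    have hOU : GmtCC O U' := ⟨hO.1, hO.2.1, hO.2.2.trans inter_subset_right⟩
    have hcl : gmtMu S' (closure O) < r :=
      (measure_mono (hO.2.2.trans inter_subset_left)).trans_lt hO'r
    obtain ⟨η, hη, h1⟩ := gmt_exists_mul_lt hcl
    have h2 : limsup (fun i => gmtMu (S i) K) atTop ≤
        limsup (fun i => ENNReal.ofReal (1 + η) * gmtPerM (A i) (S i) (closure O)) atTop := by
      refine limsup_le_limsup ?_
      filter_upwards [h.ratio hOU hη] with i hi
      calc gmtMu (S i) K ≤ gmtMu (S i) O := measure_mono hKO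
        _ = gmtP (S i) O := gmtMu_open _ hO.1
        _ ≤ ENNReal.ofReal (1 + η) * gmtPer (A i) (S i) O :=
            gmtPer_le_mul_gmtPer (by linarith)
              (fun x hx ξ => (hi x (subset_closure hx) ξ).2) (S i)
        _ = ENNReal.ofReal (1 + η) * gmtPerM (A i) (S i) O := by rw [gmtPerM_open _ _ hO.1]
        _ ≤ ENNReal.ofReal (1 + η) * gmtPerM (A i) (S i) (closure O) :=
            mul_le_mul' le_rfl (measure_mono subset_closure)
    rw [ENNReal.limsup_const_mul_of_ne_top ENNReal.ofReal_ne_top] at h2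
    have h3 := gmtLAM_limsup h hS hS' hc hO.2.1 hOU.2.2
    have h4 : limsup (fun i => gmtMu (S i) K) atTop ≤
        ENNReal.ofReal (1 + η) * gmtMu S' (closure O) := h2.trans (mul_le_mul' le_rfl h3)
    exact absurd (hr2.trans_le h4) (not_lt.2 h1.le)

/-- in dimension zero there are no boundary points. -/
theorem gmtBd_dim_zero (S : Set (E 0)) : gmtBd S = ∅ := by
  ext x
  simp only [mem_empty_iff_false, iff_false]
  intro hx
  obtain ⟨h1, h2⟩ := hx 1 one_pos
  by_cases hxS : x ∈ S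
  · have : ball x 1 \ S = ∅ := by
      ext y
      simp only [Set.mem_sdiff, mem_empty_iff_false, iff_false, not_and, not_not]
      intro _
      rw [Subsingleton.elim y x]
      exact hxS
    rw [this, measure_empty] at h2
    exact lt_irrefl _ h2
  · have : S ∩ ball x 1 = ∅ := by
      ext y
      simp only [mem_inter_iff, mem_empty_iff_false, iff_false, not_and]
      intro hy
      rw [Subsingleton.elim y x] at hy
      exact absurd hy hxS
    rw [this, measure_empty] at h1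
    exact lt_irrefl _ h1

/-- limits of boundary points are boundary points (`IF.gmt_lam_bd_lim`); `m = 0` is trivial. -/
theorem gmtLAM_bd_lim (h : GmtCvg U A f U' A' f')
    (hS : ∀ i, GmtLAM (A i) (f i) (U i) (S i)) {S' : Set (E m)} (hc : GmtConv U' S S')
    {x : ℕ → E m} {x' : E m} (hx' : x' ∈ U') (hx : ∀ i, x i ∈ gmtBd (S i))
    (hlim : Tendsto x atTop (𝓝 x')) : x' ∈ gmtBd S' := by
  rcases Nat.eq_zero_or_pos m with rfl | hm
  · have := hx 0
    rw [gmtBd_dim_zero] at this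
    exact absurd this (notMem_empty _)
  obtain ⟨W, hW, hxW⟩ := gmt_exists_cc (isCompact_singleton (x := x')) h.exh.1
    (singleton_subset_iff.2 hx')
  obtain ⟨δ, Λ, hδ, hΛ, hQ⟩ := gmtLAM_eventually_QM h hS hW
  obtain ⟨N, hN⟩ := eventually_atTop.1 hQ
  have hψ : StrictMono (fun i : ℕ => i + N) := fun a b hab => Nat.add_lt_add_right hab N
  exact gmtQM_bd_lim hm (U := fun _ => W) (U' := W)
    ⟨hW.1, fun _ => hW.1, fun _ _ hKU => Eventually.of_forall fun _ => hKU⟩
    (δ := fun _ => δ) (Λ := fun _ => Λ) (S := fun i => S (i + N))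
    (fun i => hN (i + N) (Nat.le_add_left _ _)) (δ₀ := δ) (Λ₀ := Λ)
    (fun _ => ⟨hδ, le_rfl⟩) (fun _ => ⟨hΛ, le_rfl⟩)
    ((hc.comp hψ).mono (subset_closure.trans hW.2.2)) (x := fun i => x (i + N))
    (singleton_subset_iff.1 hxW) (fun i => hx (i + N)) (hlim.comp hψ.tendsto_atTop)

/-- Hausdorff convergence of the boundaries on compact sets. -/
theorem gmtLAM_bd_hausdorff (h : GmtCvg U A f U' A' f')
    (hS : ∀ i, GmtLAM (A i) (f i) (U i) (S i)) {S' : Set (E m)} (hc : GmtConv U' S S')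
    {K : Set (E m)} (hK : IsCompact K) (hKU : K ⊆ U') {η : ℝ} (hη : 0 < η) :
    ∀ᶠ i in atTop, (gmtBd (S i) ∩ K ⊆ thickening η (gmtBd S')) ∧
      (gmtBd S' ∩ K ⊆ thickening η (gmtBd (S i))) := by
  rcases Nat.eq_zero_or_pos m with rfl | hm
  · refine Eventually.of_forall fun i => ?_
    simp [gmtBd_dim_zero]
  obtain ⟨W, hW, hKW⟩ := gmt_exists_cc hK h.exh.1 hKU
  obtain ⟨δ, Λ, hδ, hΛ, hQ⟩ := gmtLAM_eventually_QM h hS hW
  obtain ⟨N, hN⟩ := eventually_atTop.1 hQ
  have hψ : StrictMono (fun i : ℕ => i + N) := fun a b hab => Nat.add_lt_add_right hab N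
  have key := gmtQM_bd_hausdorff hm (U := fun _ => W) (U' := W)
    ⟨hW.1, fun _ => hW.1, fun _ _ hKU => Eventually.of_forall fun _ => hKU⟩
    (δ := fun _ => δ) (Λ := fun _ => Λ) (S := fun i => S (i + N))
    (fun i => hN (i + N) (Nat.le_add_left _ _)) (δ₀ := δ) (Λ₀ := Λ)
    (fun _ => ⟨hδ, le_rfl⟩) (fun _ => ⟨hΛ, le_rfl⟩)
    ((hc.comp hψ).mono (subset_closure.trans hW.2.2)) hK hKW hη
  obtain ⟨M, hM⟩ := eventually_atTop.1 key
  refine eventually_atTop.2 ⟨M + N, fun j hj => ?_⟩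
  have := hM (j - N) (by omega)
  rwa [Nat.sub_add_cancel (by omega)] at this

end Claimed.Agent.Gmt
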