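import Claimed.Agent.Lib.Gmt.Data
import Claimed.Agent.Lib.Gmt.LamCompact

/-!
# Lib/Gmt: THE INTERFACE, part a = sections 1-3 (measures, compactness, area bounds; owner of the proofs: helper75) (consumers: import `Claimed.Agent.Lib.Gmt.IF`).  Sub-captain: helper184.

Every statement here is a TOP of the library.  REDIRECTED (helper75, 09:20Z): each top is now a one line
consequence of `GgMeas*.lean`, `LamBase.lean`, `LamCompact.lean`, `QmCompact.lean` (no `sorry` in this file).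
Source: paper P, App. B (`cut:bv-compactness`, `cut:gmt`), App. C.2 (`local:flat-pieces`);
textbook: Maggi, *Sets of finite perimeter and geometric variational problems*, Parts II-III.

Dictionary.  In a chart with metric matrix `G`, weight `ω`, pressure `p`:
`A = ω² det G · G⁻¹` (as a bilinear form on covectors `ξ`), `f = p ω √(det G)`.  Then
`gmtPerM A S = ω H^{m-1}_g ⌞ ∂*S`, and `GmtLAM A f U S` is (B.5) of the paper in the chart.
-/

set_option autoImplicit false
open scoped ContDiff ENNReal RealInnerProductSpace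
open MeasureTheory Metric Set Filter

namespace Claimed.Agent.Gmt

variable {m : ℕ}

/-- `C^∞_loc` convergence implies locally uniform convergence. -/
theorem GmtSmoothConv.tendstoUniformlyOn {F : Type} [NormedAddCommGroup F] [NormedSpace ℝ F]
    {U : Set (E m)} {a : ℕ → E m → F} {a' : E m → F} (h : GmtSmoothConv U a a') {K : Set (E m)}
    (hK : IsCompact K) (hKU : K ⊆ U) : TendstoUniformlyOn a a' atTop K := by
  have h0 := h K hK hKU 0
  rw [Metric.tendstoUniformlyOn_iff] at h0 ⊢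
  intro ε hε
  filter_upwards [h0 ε hε] with i hi x hx
  have := hi x hx
  rw [dist_eq_norm] at this ⊢
  have e : ‖a' x - a i x‖ = ‖iteratedFDeriv ℝ 0 a' x - iteratedFDeriv ℝ 0 (a i) x‖ := by
    have h1 : iteratedFDeriv ℝ 0 a' x - iteratedFDeriv ℝ 0 (a i) x
        = (continuousMultilinearCurryFin0 ℝ (E m) F).symm (a' x - a i x) := by
      ext v
      simp
    rw [h1, LinearIsometryEquiv.norm_map]
  rw [e]
  exact this

theorem GmtDataConv.toCvg {U : ℕ → Set (E m)} {A : ℕ → E m → Bil m} {f : ℕ → E m → ℝ}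
    {U' : Set (E m)} {A' : E m → Bil m} {f' : E m → ℝ} (h : GmtDataConv U A f U' A' f') :
    GmtCvg U A f U' A' f' where
  exh := ⟨h.data'.opn, fun i => (h.data i).opn, h.exh⟩
  int := fun i => (h.data i).int
  int' := h.data'.int
  cf := fun i => (h.data i).f.continuousOn
  cf' := h.data'.f.continuousOn
  convA := fun _ hK hKU => h.convA.tendstoUniformlyOn hK hKU
  convf := fun _ hK hKU => h.convf.tendstoUniformlyOn hK hKU

/-! ### 1. perimeter measure and normal -/

theorem gmt_perM_spec (A : E m → Bil m) (S : Set (E m)) : GmtPerMSpec A S (gmtPerM A S) :=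
  gmtPerM_spec A S

theorem gmt_nu_spec (S : Set (E m)) : GmtNuSpec S (gmtNu S) :=
  gmtNu_spec S

/-- `Per_A = ∫ √(A ν ν) d|Dχ_S|`. -/
theorem gmt_perM_eq {U : Set (E m)} {A : E m → Bil m} {S : Set (E m)} (hU : IsOpen U)
    (hA : GmtInt U A) (hS : GmtLF S U) :
    (gmtPerM A S).restrict U = ((gmtMu S).restrict U).withDensity
      fun x => ENNReal.ofReal (Real.sqrt (A x (gmtNu S x) (gmtNu S x))) :=
  gmtPerM_eq_withDensity hU hA hS

/-- `gmtBd S = spt |Dχ_S|`. -/
theorem gmt_bd_iff {U : Set (E m)} {S : Set (E m)} (hU : IsOpen U) (hS : GmtLF S U) {x : E m}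
    (hx : x ∈ U) : x ∈ gmtBd S ↔ ∀ r > 0, 0 < gmtMu S (ball x r) :=
  gmtBd_iff_gmtMu hS.1 x

theorem gmt_lam_lf {U : Set (E m)} {A : E m → Bil m} {f : E m → ℝ} {S : Set (E m)}
    (hd : GmtData U A f) (hS : GmtLAM A f U S) : GmtLF S U :=
  hS.lf hd.opn hd.int

/-- restriction to a smaller open set. -/
theorem gmt_lam_mono {U V : Set (E m)} {A : E m → Bil m} {f : E m → ℝ} {S : Set (E m)}
    (hS : GmtLAM A f U S) (hV : V ⊆ U) : GmtLAM A f V S :=
  hS.mono hV

/-- the complement minimises with the opposite pressure. -/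
theorem gmt_lam_compl {U : Set (E m)} {A : E m → Bil m} {f : E m → ℝ} {S : Set (E m)}
    (hd : GmtData U A f) (hS : GmtLAM A f U S) : GmtLAM A (fun x => -f x) U Sᶜ :=
  hS.compl hd.opn hd.f.continuousOn

/-! ### 2. compactness and closure (`cut:bv-compactness`) -/

theorem gmt_lam_compact {U : ℕ → Set (E m)} {A : ℕ → E m → Bil m} {f : ℕ → E m → ℝ}
    {U' : Set (E m)} {A' : E m → Bil m} {f' : E m → ℝ} (h : GmtDataConv U A f U' A' f')
    (S : ℕ → Set (E m)) (hS : ∀ i, GmtLAM (A i) (f i) (U i) (S i)) :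
    ∃ φ : ℕ → ℕ, StrictMono φ ∧ ∃ S' : Set (E m), MeasurableSet S' ∧
      GmtConv U' (fun i => S (φ i)) S' :=
  gmtLAM_compact h.toCvg hS

theorem gmt_lam_closure {U : ℕ → Set (E m)} {A : ℕ → E m → Bil m} {f : ℕ → E m → ℝ}
    {U' : Set (E m)} {A' : E m → Bil m} {f' : E m → ℝ} (h : GmtDataConv U A f U' A' f')
    (S : ℕ → Set (E m)) (hS : ∀ i, GmtLAM (A i) (f i) (U i) (S i)) (S' : Set (E m))
    (hm : MeasurableSet S') (hc : GmtConv U' S S') : GmtLAM A' f' U' S' :=
  gmtLAM_closure h.toCvg hS hm hc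

/-- no loss of perimeter. -/
theorem gmt_lam_per_conv {U : ℕ → Set (E m)} {A : ℕ → E m → Bil m} {f : ℕ → E m → ℝ}
    {U' : Set (E m)} {A' : E m → Bil m} {f' : E m → ℝ} (h : GmtDataConv U A f U' A' f')
    (S : ℕ → Set (E m)) (hS : ∀ i, GmtLAM (A i) (f i) (U i) (S i)) (S' : Set (E m))
    (hm : MeasurableSet S') (hc : GmtConv U' S S') (g : E m → ℝ) (hg : Continuous g)
    (hg' : HasCompactSupport g) (hg'' : tsupport g ⊆ U') :
    Tendsto (fun i => ∫ x, g x ∂(gmtPerM (A i) (S i))) atTop (nhds (∫ x, g x ∂(gmtPerM A' S'))) :=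
  gmtLAM_wk h.toCvg hS hm hc g hg hg' hg''

/-- limits of boundary points are boundary points. -/
theorem gmt_lam_bd_lim {U : ℕ → Set (E m)} {A : ℕ → E m → Bil m} {f : ℕ → E m → ℝ}
    {U' : Set (E m)} {A' : E m → Bil m} {f' : E m → ℝ} (h : GmtDataConv U A f U' A' f')
    (S : ℕ → Set (E m)) (hS : ∀ i, GmtLAM (A i) (f i) (U i) (S i)) (S' : Set (E m))
    (hm : MeasurableSet S') (hc : GmtConv U' S S') (x : ℕ → E m) (x' : E m) (hx' : x' ∈ U')
    (hx : ∀ i, x i ∈ gmtBd (S i)) (hlim : Tendsto x atTop (nhds x')) : x' ∈ gmtBd S' :=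
  gmtLAM_bd_lim h.toCvg hS hc hx' hx hlim

/-- every boundary point of the limit is a limit of boundary points. -/
theorem gmt_lam_bd_approx {U : ℕ → Set (E m)} {A : ℕ → E m → Bil m} {f : ℕ → E m → ℝ}
    {U' : Set (E m)} {A' : E m → Bil m} {f' : E m → ℝ} (h : GmtDataConv U A f U' A' f')
    (S : ℕ → Set (E m)) (hS : ∀ i, GmtLAM (A i) (f i) (U i) (S i)) (S' : Set (E m))
    (hm : MeasurableSet S') (hc : GmtConv U' S S') (x' : E m) (hx' : x' ∈ U')
    (hb : x' ∈ gmtBd S') :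
    ∃ x : ℕ → E m, (∀ᶠ i in atTop, x i ∈ gmtBd (S i)) ∧ Tendsto x atTop (nhds x') :=
  gmt_bd_approx h.data'.opn (fun i => (hS i).meas) hc hx' hb

/-! ### 3. area bounds -/

theorem gmt_lam_area {U : Set (E m)} {A : E m → Bil m} {f : E m → ℝ} {S : Set (E m)} (hm : 2 ≤ m)
    (hd : GmtData U A f) (hS : GmtLAM A f U S) (K : Set (E m)) (hK : IsCompact K) (hKU : K ⊆ U) :
    ∃ c C r₀ : ℝ, 0 < c ∧ 0 < C ∧ 0 < r₀ ∧ ∀ x ∈ K, ∀ r, 0 < r → r < r₀ →
      gmtMu S (ball x r) ≤ ENNReal.ofReal (C * r ^ (m - 1)) ∧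
      (x ∈ gmtBd S → ENNReal.ofReal (c * r ^ (m - 1)) ≤ gmtMu S (ball x r) ∧
        ENNReal.ofReal (c * r ^ m) ≤ volume (S ∩ ball x r) ∧
        ENNReal.ofReal (c * r ^ m) ≤ volume (ball x r \ S)) :=
  gmtLAM_area (by omega) hd.opn hd.int hd.f.continuousOn hS hK hKU

end Claimed.Agent.Gmt
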