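import Claimed.Agent.Lib.Gmt.HrEll
import Claimed.Agent.Lib.Gmt.FlTop
import Claimed.Agent.Lib.Gmt.FrE
import Claimed.Agent.Lib.Gmt.IFa

/-!
THIS FILE = PACKAGE L-GMT-HrConv1 (part 1 of 4 of the former `HrConv.lean`, which now only imports the parts; the text below is the plan of the whole former file).
# Lib/Gmt G5.4 (architect: helper190): sequences of minimisers near a flat point of the limit: uniform graphs, smooth convergence.
PACKAGES L-GMT-HrConvA (`hr_reg_bd`, `hr_reg_flat`, `hr_reg_open`, `hr_flat_conv`, `hr_sub_conv`), L-GMT-HrConvB (`hr_dat_unif`, `hr_fam`, `hr_core`).   `hr_amk_unif`: PROVED (from FrE).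

* `hr_reg_bd`: `φ x = 0`, `∇φ(x) ≠ 0`: in every small ball both `{φ<0}` and `{φ>0}` contain small balls (move along `∓∇φ(x)`): positive measure.  Conversely (`hr_reg_zero`) if `φ y ≠ 0`, then near `y` the set `S` is a.e. full or a.e. empty.
* `hr_reg_flat`: `e = ∇φ(x)/|∇φ(x)|`.  `φ` is differentiable at `x`: `|φ y - ⟪∇φ x, y - x⟫| ≤ η |∇φ x| ‖y - x‖` for `‖y - x‖ ≤ r₀(η)`; so `⟪y-x,e⟫ < -η r` and `‖y-x‖ < r ≤ r₀` give `φ y < 0`.
* `hr_reg_open`: for `y ∈ ball x r ∩ gmtBd S`: `φ y = 0` (`hr_reg_zero`); the same `φ` on `ball y (r - dist y x)`.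
* `hr_flat_conv`: `gmtLAM_bd_hausdorff` with `K = closedBall x (r/2)` and thickening radius `η r/2`: for `y ∈ gmtBd (S i) ∩ ball x (r/2)` there is `y' ∈ gmtBd S'`, `‖y-y'‖ < η r/2`, `y' ∈ ball x r`, `|⟪y'-x,e⟫| ≤ η r` (`FlFlat.bd_slab`):
  `|⟪y-x,e⟫| ≤ 2 η r = 4η (r/2)`.  Orientation (`fl_flat_of_bd_vol`): the cap `W⁻ = ball x (r/2) ∩ {⟪y-x,e⟫ < -2ηr}` has positive volume (`4η < 1`), is a.e. contained in `S'`, and `|(S i △ S') ∩ closedBall x (r/2)| → 0`: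
  eventually `|W⁻ \ S i| < |W⁻|`.  Same for `W⁺`.
* `hr_sub_conv`: if `|u i z₀ - u' z₀| = d > 0`, `z₀ ∈ ball 0 ρ'`, then (both functions are `K`-Lipschitz on the convex ball, `K ≤ 1`) `|u i - u'| ≥ d/2` on `ball z₀ (min (d/4) (ρ-ρ'))`, so
  `|(S i △ S') ∩ Cyl| ≥ (d/2) ω_n (min (d/4) (ρ-ρ'))^n` (Fubini `fl_lintegral_join`).  Hence `sup_{ball 0 ρ'} |u i - u'| → 0`.
* `hr_dat_unif`: `closure (hrCyl ρ)` is compact in `U'`; `GmtCvg.bounds` (ellipticity, eventually); for each `k`: `iteratedFDeriv k (A i) → iteratedFDeriv k A'` uniformly on the compact closure, the limit is bounded there; the finitely many remaining indices `i₀ ≤ i < i_k` are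
  bounded one by one (`A i` is smooth on `U i ⊇ closure (hrCyl ρ)`: continuous `iteratedFDeriv` on a compact set).
* `hr_core`.  `η` small (below), `r ≤ r₀(η)` with `closedBall 0 r ⊆ U'`, `r ≤ R`, `(κ+Λ) r ≤ c₁ (4η)²`.  `hr_flat_conv`: eventually `FlFlat (S i) 0 (r/2) (4η) e`; `hr_amk_unif` on `K = closedBall 0 r`; `fl_c1a` with `L = refl`
  (`gmtBlow refl 0 1 S = S`): `u i` with `FlGr (S i) (u i) (r/8) (4Cη)`; the same for the constant sequence `S'` (`gmt_lam_closure`).  `ρ = r/8`, `P = 1`, `4Cη ≤ 1/2`.   For the finitely many bad indices put `u i = u'`, and replace `(A i, f i)` by `(A', f')` in the family.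
  `hr_sub_of_gr`, `hr_el_weak`, `hr_struct_*` ⇒ `HrFam`; `hr_quasi_smooth`, `hr_quasi_bdd`, `hr_sub_conv`, `hr_interp`.
-/

set_option autoImplicit false
open scoped ContDiff ENNReal RealInnerProductSpace Topology
open MeasureTheory Metric Set Filter

namespace Claimed.Agent.Gmt

variable {m n : ℕ}

/-! ### regular points -/

theorem hrc_loc {x : E m} {r : ℝ} {φ : E m → ℝ} (hφ : ContinuousOn φ (ball x r)) {y : E m}
    (hy : y ∈ ball x r) {P : Set ℝ} (hP : IsOpen P) (h : φ y ∈ P) :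
    ∃ t > 0, ball y t ⊆ ball x r ∧ ∀ z ∈ ball y t, φ z ∈ P := by
  have hc := hφ.continuousAt (isOpen_ball.mem_nhds hy)
  have h1 : ∀ᶠ z in 𝓝 y, φ z ∈ P := hc.eventually (hP.mem_nhds h)
  have h2 : ∀ᶠ z in 𝓝 y, z ∈ ball x r := isOpen_ball.mem_nhds hy
  obtain ⟨t, ht, hsub⟩ := Metric.eventually_nhds_iff_ball.1 (h1.and h2)
  exact ⟨t, ht, fun z hz => (hsub z hz).2, fun z hz => (hsub z hz).1⟩

theorem hrc_est {x : E m} {φ : E m → ℝ} (hd : DifferentiableAt ℝ φ x) (h0 : φ x = 0) {c : ℝ}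
    (hc : 0 < c) :
    ∃ r₀ > 0, ∀ y, ‖y - x‖ < r₀ → |φ y - fderiv ℝ φ x (y - x)| ≤ c * ‖y - x‖ := by
  have h1 := hd.hasFDerivAt.isLittleO.def hc
  obtain ⟨r₀, hr₀, hb⟩ := Metric.eventually_nhds_iff_ball.1 h1
  refine ⟨r₀, hr₀, fun y hy => ?_⟩
  have := hb y (by simpa [dist_eq_norm] using hy)
  rwa [h0, sub_zero, Real.norm_eq_abs] at this

/-- a regular point is flat at all small scales (first version, used for `hr_reg_bd`). -/
theorem hrc_flat {S : Set (E m)} {x : E m} (h : GmtReg S x) :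
    ∃ e : E m, ‖e‖ = 1 ∧ ∀ η > 0, ∃ r₀ > 0, ∀ r, 0 < r → r ≤ r₀ → FlFlat S x r η e := by
  obtain ⟨R, hR, φ, hφ, h0, hφ', hS⟩ := h
  have hx : x ∈ ball x R := mem_ball_self hR
  have hd : DifferentiableAt ℝ φ x :=
    (hφ.differentiableOn (by simp)).differentiableAt (isOpen_ball.mem_nhds hx)
  obtain ⟨G, hG⟩ : ∃ G : E m, ∀ v, fderiv ℝ φ x v = ⟪G, v⟫ :=
    ⟨(InnerProductSpace.toDual ℝ (E m)).symm (fderiv ℝ φ x), fun v =>
      (InnerProductSpace.toDual_symm_apply).symm⟩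
  have hG0 : G ≠ 0 := by
    intro hG0
    apply hφ' x hx
    ext v
    rw [hG, hG0, inner_zero_left]
    rfl
  have hGn : 0 < ‖G‖ := norm_pos_iff.2 hG0
  have hin : ∀ v : E m, ⟪G, v⟫ = ‖G‖ * ⟪v, ‖G‖⁻¹ • G⟫ := fun v => by
    rw [inner_smul_right, real_inner_comm]
    field_simp
  refine ⟨‖G‖⁻¹ • G, by rw [norm_smul, norm_inv, norm_norm]; exact inv_mul_cancel₀ hGn.ne',
    fun η hη => ?_⟩
  obtain ⟨r₁, hr₁, hest⟩ := hrc_est hd h0 (mul_pos hη hGn)
  refine ⟨min r₁ R, lt_min hr₁ hR, fun r hr0 hr => ⟨by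
    rw [norm_smul, norm_inv, norm_norm]; exact inv_mul_cancel₀ hGn.ne', ?_, ?_⟩⟩
  · filter_upwards [hS.mem_iff] with y hy hyb hlt
    have hyn : ‖y - x‖ < r := by simpa [dist_eq_norm] using hyb
    have hyR : y ∈ ball x R := ball_subset_ball (hr.trans (min_le_right _ _)) hyb
    have he := (abs_le.1 (hest y (lt_of_lt_of_le hyn (hr.trans (min_le_left _ _))))).2
    rw [hG, hin] at he
    have h1 : η * ‖G‖ * ‖y - x‖ ≤ η * ‖G‖ * r :=
      mul_le_mul_of_nonneg_left hyn.le (mul_pos hη hGn).le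
    have h2 : ‖G‖ * ⟪y - x, ‖G‖⁻¹ • G⟫ < ‖G‖ * (-(η * r)) := mul_lt_mul_of_pos_left hlt hGn
    have hneg : φ y < 0 := by nlinarith
    exact (hy.2 ⟨hyR, hneg⟩).1
  · filter_upwards [hS.mem_iff] with y hy hyb hlt hyS
    have hyn : ‖y - x‖ < r := by simpa [dist_eq_norm] using hyb
    have hyR : y ∈ ball x R := ball_subset_ball (hr.trans (min_le_right _ _)) hyb
    have he := (abs_le.1 (hest y (lt_of_lt_of_le hyn (hr.trans (min_le_left _ _))))).1
    rw [hG, hin] at he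
    have h1 : η * ‖G‖ * ‖y - x‖ ≤ η * ‖G‖ * r :=
      mul_le_mul_of_nonneg_left hyn.le (mul_pos hη hGn).le
    have h2 : ‖G‖ * (η * r) < ‖G‖ * ⟪y - x, ‖G‖⁻¹ • G⟫ := mul_lt_mul_of_pos_left hlt hGn
    have hpos : 0 < φ y := by nlinarith
    exact absurd (hy.1 ⟨hyS, hyR⟩).2 (not_lt.2 hpos.le)

/-- the caps of a ball have positive volume. -/
theorem hrc_cap_pos {x e : E m} (he : ‖e‖ = 1) {r c : ℝ} (hc0 : 0 ≤ c) (hc : c < r) (σ : ℝ)
    (hσ : |σ| = 1) : 0 < volume (ball x r ∩ {y | c < σ * ⟪y - x, e⟫}) := by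
  have ho : IsOpen (ball x r ∩ {y : E m | c < σ * ⟪y - x, e⟫}) :=
    isOpen_ball.inter (isOpen_lt continuous_const
      (continuous_const.mul ((continuous_id.sub continuous_const).inner continuous_const)))
  refine ho.measure_pos volume ⟨x + (σ * ((c + r) / 2)) • e, ?_, ?_⟩
  · rw [mem_ball, dist_eq_norm, add_sub_cancel_left, norm_smul, he, mul_one, Real.norm_eq_abs,
      abs_mul, hσ, one_mul, abs_of_nonneg (by linarith)]
    linarith
  · show c < σ * ⟪x + (σ * ((c + r) / 2)) • e - x, e⟫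
    rw [add_sub_cancel_left, inner_smul_left, real_inner_self_eq_norm_sq, he]
    have hs : σ * σ = 1 := by
      rw [← abs_mul_abs_self, hσ, one_mul]
    simp only [conj_trivial]
    nlinarith

theorem hr_reg_bd {S : Set (E m)} {x : E m} (h : GmtReg S x) : x ∈ gmtBd S := by
  obtain ⟨e, he, hfl⟩ := hrc_flat h
  obtain ⟨r₀, hr₀, hf⟩ := hfl (1 / 2) (by norm_num)
  intro s hs
  have hr : 0 < min s r₀ := lt_min hs hr₀
  have hF := hf (min s r₀) hr (min_le_right _ _)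
  obtain ⟨r, hrdef⟩ : ∃ r, r = min s r₀ := ⟨_, rfl⟩
  rw [← hrdef] at hr hF
  have hrs : r ≤ s := by rw [hrdef]; exact min_le_left _ _
  constructor
  · refine lt_of_lt_of_le (hrc_cap_pos (x := x) he (r := r) (c := r / 2) (by linarith) (by linarith) (-1) (by simp)) (measure_mono_ae ?_)
    filter_upwards [hF.below] with y hy hyW
    exact ⟨hy hyW.1 (by have := hyW.2; simp only [mem_ofPred_eq] at this; linarith),
      ball_subset_ball hrs hyW.1⟩
  · refine lt_of_lt_of_le (hrc_cap_pos (x := x) he (r := r) (c := r / 2) (by linarith) (by linarith) 1 (by simp)) (measure_mono_ae ?_)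
    filter_upwards [hF.above] with y hy hyW
    exact ⟨ball_subset_ball hrs hyW.1,
      hy hyW.1 (by have := hyW.2; simp only [mem_ofPred_eq] at this; linarith)⟩

/-- boundary points in the domain of a defining function are zeros of it. -/
theorem hr_reg_zero {S : Set (E m)} {x : E m} {r : ℝ} {φ : E m → ℝ}
    (hφ : ContinuousOn φ (ball x r))
    (hS : (S ∩ ball x r : Set (E m)) =ᵐ[volume] ({y | y ∈ ball x r ∧ φ y < 0} : Set (E m)))
    {y : E m} (hy : y ∈ ball x r) (hb : y ∈ gmtBd S) : φ y = 0 := by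
  have hS' := ae_eq_set.1 hS
  rcases lt_trichotomy (φ y) 0 with hlt | heq | hgt
  · exfalso
    obtain ⟨t, ht, hsub, hneg⟩ := hrc_loc hφ hy isOpen_Iio (show φ y ∈ Iio (0 : ℝ) from hlt)
    have h1 := (hb t ht).2
    have h2 : volume (ball y t \ S) ≤ 0 := by
      rw [← hS'.2]
      refine measure_mono fun z hz => ⟨⟨hsub hz.1, hneg z hz.1⟩, fun hc => hz.2 hc.1⟩
    exact absurd h1 (not_lt.2 h2)
  · exact heq
  · exfalso
    obtain ⟨t, ht, hsub, hpos⟩ := hrc_loc hφ hy isOpen_Ioi (show φ y ∈ Ioi (0 : ℝ) from hgt)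
    have h1 := (hb t ht).1
    have h2 : volume (S ∩ ball y t) ≤ 0 := by
      rw [← hS'.1]
      refine measure_mono fun z hz => ⟨⟨hz.1, hsub hz.2⟩, fun hc =>
        absurd hc.2 (not_lt.2 (le_of_lt (hpos z hz.2)))⟩
    exact absurd h1 (not_lt.2 h2)

/-- a regular point is flat at all small scales. -/
theorem hr_reg_flat {S : Set (E m)} {x : E m} (h : GmtReg S x) :
    ∃ e : E m, ‖e‖ = 1 ∧ ∀ η > 0, ∃ r₀ > 0, ∀ r, 0 < r → r ≤ r₀ → FlFlat S x r η e :=
  hrc_flat h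

theorem hrc_of_def {S : Set (E m)} {x : E m} {r : ℝ} {φ : E m → ℝ}
    (hφ : ContDiffOn ℝ ∞ φ (ball x r)) (hφ' : ∀ y ∈ ball x r, fderiv ℝ φ y ≠ 0)
    (hS : (S ∩ ball x r : Set (E m)) =ᵐ[volume] ({y | y ∈ ball x r ∧ φ y < 0} : Set (E m)))
    {y : E m} (hy : y ∈ ball x r) (hb : y ∈ gmtBd S) : GmtReg S y := by
  have h0 := hr_reg_zero hφ.continuousOn hS hy hb
  have hr' : 0 < r - dist y x := by
    have : dist y x < r := hy
    linarith
  have hsub : ball y (r - dist y x) ⊆ ball x r := ball_subset_ball' (by linarith)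
  refine ⟨r - dist y x, hr', φ, hφ.mono hsub, h0, fun z hz => hφ' z (hsub hz), ?_⟩
  refine Filter.eventuallyEq_set.2 ?_
  filter_upwards [hS.mem_iff] with z hz
  constructor
  · intro hzS
    exact ⟨hzS.2, (hz.1 ⟨hzS.1, hsub hzS.2⟩).2⟩
  · intro hzS
    exact ⟨(hz.2 ⟨hsub hzS.1, hzS.2⟩).1, hzS.1⟩

/-- boundary points near a regular point are regular. -/
theorem hr_reg_open {S : Set (E m)} {x : E m} (h : GmtReg S x) :
    ∃ r > 0, ∀ y ∈ ball x r, y ∈ gmtBd S → GmtReg S y := by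
  obtain ⟨R, hR, φ, hφ, -, hφ', hS⟩ := h
  exact ⟨R, hR, fun y hy hb => hrc_of_def hφ hφ' hS hy hb⟩

/-- a defining function gives regular points. -/
theorem hr_reg_of_def {S : Set (E m)} {x : E m} {r : ℝ} {φ : E m → ℝ}
    (hφ : ContDiffOn ℝ ∞ φ (ball x r)) (hφ' : ∀ y ∈ ball x r, fderiv ℝ φ y ≠ 0)
    (hS : (S ∩ ball x r : Set (E m)) =ᵐ[volume] ({y | y ∈ ball x r ∧ φ y < 0} : Set (E m)))
    {y : E m} (hy : y ∈ ball x r) (hb : y ∈ gmtBd S) : GmtReg S y :=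
  hrc_of_def hφ hφ' hS hy hb

/-! ### sequences -/

variable {U : ℕ → Set (E m)} {A : ℕ → E m → Bil m} {f : ℕ → E m → ℝ} {U' : Set (E m)}
  {A' : E m → Bil m} {f' : E m → ℝ}

end Claimed.Agent.Gmt
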