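import Claimed.Agent.Lib.Gmt.HrConv1

/-!
THIS FILE = PACKAGE L-GMT-HrConv2 (part 2 of 4 of the former `HrConv.lean`, which now only imports the parts; the text below is the plan of the whole former file).
# Lib/Gmt G5.4 (architect: helper190): sequences of minimisers near a flat point of the limit: uniform graphs, smooth convergence.
PACKAGES L-GMT-HrConvA (`hr_reg_bd`, `hr_reg_flat`, `hr_reg_open`, `hr_flat_conv`, `hr_sub_conv`), L-GMT-HrConvB (`hr_dat_unif`, `hr_fam`, `hr_core`).   `hr_amk_unif`: PROVED (from FrE).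

* `hr_reg_bd`: `φ x = 0`, `∇φ(x) ≠ 0`: in every small ball both `{φ<0}` and `{φ>0}` contain small balls (move along `∓∇φ(x)`): positive measure.  Conversely (`hr_reg_zero`) if `φ y ≠ 0`, then near `y` the set `S` is a.e. full or a.e. empty.
* `hr_reg_flat`: `e = ∇φ(x)/|∇φ(x)|`.  `φ` is differentiable at `x`: `|φ y - ⟪∇φ x, y - x⟫| ≤ η |∇φ x| ‖y - x‖` for `‖y - x‖ ≤ r₀(η)`; so `⟪y-x,e⟫ < -η r` and `‖y-x‖ < r ≤ r₀` give `φ y < 0`.
* `hr_reg_open`: for `y ∈ ball x r ∩ gmtBd S`: `φ y = 0` (`hr_reg_zero`); the same `φ` on `ball y (r - dist y x)`.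
* `hr_flat_conv`: `gmtLAM_bd_hausdorff` with `K = closedBall x (r/2)` and thickening radius `η r/2`: for `y ∈ gmtBd (S i) ∩ ball x (r/2)` there is `y' ∈ gmtBd S'`, `‖y-y'‖ < η r/2`, `y' ∈ ball x r`, `|⟪y'-x,e⟫| ≤ η r` (`FlFlat.bd_slab`):
  `|⟪y-x,e⟫| ≤ 2 η r = 4η (r/2)`.  Orientation (`fl_flat_of_bd_vol`): the cap `W⁻ = ball x (r/2) ∩ {⟪y-x,e⟫ < -2ηr}` has positive volume (`4η < 1`), is a.e. contained in `S'`, and `|(S i △ S') ∩ closedBall x (r/2)| → 0`:
  eventually `|W⁻ \ S i| < |W⁻|`.  Same for `W⁺`.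
* `hr_sub_conv`: if `|u i z₀ - u' z₀| = d > 0`, `z₀ ∈ ball 0 ρ'`, then (both functions are `K`-Lipschitz on the convex ball, `K ≤ 1`) `|u i - u'| ≥ d/2` on `ball z₀ (min (d/4) (ρ-ρ'))`, so
  `|(S i △ S') ∩ Cyl| ≥ (d/2) ω_n (min (d/4) (ρ-ρ'))^n` (Fubini `fl_lintegral_join`).  Hence `sup_{ball 0 ρ'} |u i - u'| → 0`.
* `hr_dat_unif`: `closure (hrCyl ρ)` is compact in `U'`; `GmtCvg.bounds` (ellipticity, eventually); for each `k`: `iteratedFDeriv k (A i) → iteratedFDeriv k A'` uniformly on the compact closure, the limit is bounded there; the finitely many remaining indices `i₀ ≤ i < i_k` are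
  bounded one by one (`A i` is smooth on `U i ⊇ closure (hrCyl ρ)`: continuous `iteratedFDeriv` on a compact set).
* `hr_core`.  `η` small (below), `r ≤ r₀(η)` with `closedBall 0 r ⊆ U'`, `r ≤ R`, `(κ+Λ) r ≤ c₁ (4η)²`.  `hr_flat_conv`: eventually `FlFlat (S i) 0 (r/2) (4η) e`; `hr_amk_unif` on `K = closedBall 0 r`; `fl_c1a` with `L = refl`
  (`gmtBlow refl 0 1 S = S`): `u i` with `FlGr (S i) (u i) (r/8) (4Cη)`; the same for the constant sequence `S'` (`gmt_lam_closure`).  `ρ = r/8`, `P = 1`, `4Cη ≤ 1/2`.   For the finitely many bad indices put `u i = u'`, and replace `(A i, f i)` by `(A', f')` in the family.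
  `hr_sub_of_gr`, `hr_el_weak`, `hr_struct_*` ⇒ `HrFam`; `hr_quasi_smooth`, `hr_quasi_bdd`, `hr_sub_conv`, `hr_interp`.
-/

set_option autoImplicit false
open scoped ContDiff ENNReal RealInnerProductSpace Topology
open MeasureTheory Metric Set Filter

namespace Claimed.Agent.Gmt

variable {m n : ℕ}

variable {U : ℕ → Set (E m)} {A : ℕ → E m → Bil m} {f : ℕ → E m → ℝ} {U' : Set (E m)}
  {A' : E m → Bil m} {f' : E m → ℝ}

/-- flatness of the limit passes to the sequence. -/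
theorem hr_flat_conv (h : GmtDataConv U A f U' A' f') {S : ℕ → Set (E m)}
    (hS : ∀ i, GmtLAM (A i) (f i) (U i) (S i)) {S' : Set (E m)} (hm : MeasurableSet S')
    (hc : GmtConv U' S S') {x e : E m} {r η : ℝ} (hr : 0 < r) (hxr : closedBall x r ⊆ U')
    (hη : 0 < η) (hη' : η < 1 / 4) (hfl : FlFlat S' x r η e) :
    ∀ᶠ i in atTop, FlFlat (S i) x (r / 2) (4 * η) e := by
  have he := hfl.unit
  have hKU : closedBall x (r / 2) ⊆ U' := (closedBall_subset_closedBall (by linarith)).trans hxr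
  have hK : IsCompact (closedBall x (r / 2)) := isCompact_closedBall _ _
  have hηr : 0 < η * r := mul_pos hη hr
  have hH := gmtLAM_bd_hausdorff h.toCvg hS hc hK hKU (η := η * r / 2) (by positivity)
  have hc2 : 2 * (η * r) < r / 2 := by nlinarith
  have hWm := hrc_cap_pos (x := x) he (r := r / 2) (c := 2 * (η * r)) (by positivity) hc2 (-1)
    (by simp)
  have hWp := hrc_cap_pos (x := x) he (r := r / 2) (c := 2 * (η * r)) (by positivity) hc2 1
    (by simp)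
  have hT := hc _ hK hKU
  have hev1 := (tendsto_order.1 hT).2 _ hWm
  have hev2 := (tendsto_order.1 hT).2 _ hWp
  filter_upwards [hH, hev1, hev2] with i hi h1 h2
  refine fl_flat_of_bd_vol he (by positivity) ?_ ?_ ?_
  · intro y hy hyb
    obtain ⟨y', hy', hd⟩ := mem_thickening_iff.1 (hi.1 ⟨hy, ball_subset_closedBall hyb⟩)
    have hyn : dist y x < r / 2 := hyb
    have hy'b : y' ∈ ball x r := by
      rw [mem_ball]
      have := dist_triangle y' y x
      rw [dist_comm y' y] at this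
      nlinarith
    have hsl := hfl.bd_slab hy' hy'b
    have e1 : ⟪y - x, e⟫ = ⟪y' - x, e⟫ + ⟪y - y', e⟫ := by
      rw [← inner_add_left]; congr 1; abel
    have e2 : |⟪y - y', e⟫| ≤ η * r / 2 := by
      have := abs_real_inner_le_norm (y - y') e
      rw [he, mul_one, ← dist_eq_norm] at this
      linarith
    rw [e1]
    have := abs_add_le ⟪y' - x, e⟫ ⟪y - y', e⟫
    linarith
  · intro hcon
    have hle : volume (ball x (r / 2) ∩ {y | 2 * (η * r) < -1 * ⟪y - x, e⟫}) ≤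
        volume (symmDiff (S i) S' ∩ closedBall x (r / 2)) := by
      refine measure_mono_ae ?_
      filter_upwards [hcon, hfl.below] with y hy1 hy2 hyW
      have hW2 : 2 * (η * r) < -1 * ⟪y - x, e⟫ := hyW.2
      have n1 : y ∉ S i := hy1 hyW.1 (by linarith)
      have n2 : y ∈ S' := hy2 (ball_subset_ball (by linarith) hyW.1) (by linarith)
      exact ⟨Or.inr ⟨n2, n1⟩, ball_subset_closedBall hyW.1⟩
    exact absurd h1 (not_lt.2 hle)
  · intro hcon
    have hle : volume (ball x (r / 2) ∩ {y | 2 * (η * r) < 1 * ⟪y - x, e⟫}) ≤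
        volume (symmDiff (S i) S' ∩ closedBall x (r / 2)) := by
      refine measure_mono_ae ?_
      filter_upwards [hcon, hfl.above] with y hy1 hy2 hyW
      have hW2 : 2 * (η * r) < 1 * ⟪y - x, e⟫ := hyW.2
      have n1 : y ∈ S i := hy1 hyW.1 (by linarith)
      have n2 : y ∉ S' := hy2 (ball_subset_ball (by linarith) hyW.1) (by linarith)
      exact ⟨Or.inl ⟨n1, n2⟩, ball_subset_closedBall hyW.1⟩
    exact absurd h2 (not_lt.2 hle)

/-- frames give the rotation invariant class. -/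
theorem hr_amr_of_frames {κ Λ R : ℝ} {B : Bil m} {z : E m} {S : Set (E m)} {T : E m ≃L[ℝ] E m}
    (hT : GmtFrame B T)
    (h : ∀ T' : E m ≃L[ℝ] E m, GmtFrame B T' → GmtAM κ Λ 0 R (gmtBlow T' z 1 S)) :
    FlAMR κ Λ R (gmtBlow T z 1 S) := by
  intro O
  have h1 := h _ (hT.isometry O)
  have h2 : gmtBlow O.toContinuousLinearEquiv 0 1 (gmtBlow T z 1 S)
      = gmtBlow (T.trans O.toContinuousLinearEquiv) z 1 S := by
    rw [gmtBlow_gmtBlow]
    simp [gmtAff]
  rw [h2]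
  exact h1

theorem hr_amk_of_q (hm : 2 ≤ m) {κ Λ R M : ℝ} (hM : 1 ≤ M) {U K S : Set (E m)} {A : E m → Bil m}
    (hU : IsOpen U) (hA : GmtInt U A) (hKU : K ⊆ U)
    (h : ∀ z ∈ K, ∀ T : E m ≃L[ℝ] E m, GmtFrame (A z) T →
      GmtAM κ Λ 0 R (gmtBlow T z 1 S) ∧ (∀ v, ‖T v‖ ≤ M * ‖v‖) ∧ (∀ v, ‖T.symm v‖ ≤ M * ‖v‖)) :
    FlAMK κ Λ R M K S := by
  intro z hz
  obtain ⟨c, C, hc, -, hell⟩ := gmtInt_ell hU hA (isCompact_singleton (x := z))
    (by simpa using hKU hz)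
  obtain ⟨T, hT⟩ := gmt_frame_exists hm hc (hell z rfl)
  have hM0 : 0 ≤ M := le_trans zero_le_one hM
  refine ⟨T, ContinuousLinearMap.opNorm_le_bound _ hM0 (h z hz T hT).2.1,
    ContinuousLinearMap.opNorm_le_bound _ hM0 (h z hz T hT).2.2, ?_⟩
  exact hr_amr_of_frames hT (fun T' hT' => (h z hz T' hT').1)

theorem FlAMR.mono {κ Λ R κ' Λ' R' : ℝ} {S : Set (E m)} (h : FlAMR κ Λ R S) (hκ0 : 0 ≤ κ)
    (hκ : κ ≤ κ') (hΛ : Λ ≤ Λ') (hR : R' ≤ R) : FlAMR κ' Λ' R' S :=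
  fun O => (h O).mono hκ0 hκ hΛ hR

theorem FlAMK.mono_const {κ Λ R D κ' Λ' R' D' : ℝ} {K S : Set (E m)} (h : FlAMK κ Λ R D K S)
    (hκ0 : 0 ≤ κ) (hκ : κ ≤ κ') (hΛ : Λ ≤ Λ') (hR : R' ≤ R) (hD : D ≤ D') :
    FlAMK κ' Λ' R' D' K S := by
  intro z hz
  obtain ⟨T, h1, h2, h3⟩ := h z hz
  exact ⟨T, h1.trans hD, h2.trans hD, h3.mono hκ0 hκ hΛ hR⟩

/-- **uniform normalisation** (from helper184's `gmt_lam_am_seq`, `gmt_lam_am_q`). -/
theorem hr_amk_unif (hm : 2 ≤ m) (h : GmtDataConv U A f U' A' f') {K : Set (E m)}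
    (hK : IsCompact K) (hKU : K ⊆ U') :
    ∃ κ Λ R D : ℝ, 0 ≤ κ ∧ 0 ≤ Λ ∧ 0 < R ∧ 1 ≤ D ∧
      (∀ᶠ i in atTop, ∀ S, GmtLAM (A i) (f i) (U i) S → FlAMK κ Λ R D K S) ∧
      ∀ S, GmtLAM A' f' U' S → FlAMK κ Λ R D K S := by
  obtain ⟨κ, Λ, R, M, hκ, hΛ, hR, -, -, hM, hev⟩ := gmt_lam_am_seq hm h hK hKU
  obtain ⟨c, C, L₀, F₀, δ, hc, hcC, hL₀, hF₀, hδ, hctl⟩ := gmt_ctl_compact h.data' hK hKU
  obtain ⟨κ', Λ', R', M', hκ', hΛ', hR', -, -, hM', hq⟩ := gmt_lam_am_q hm hc hcC hL₀ hF₀ hδ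
  refine ⟨max κ κ', max Λ Λ', min R R', max M M', le_max_of_le_left hκ, le_max_of_le_left hΛ,
    lt_min hR hR', le_max_of_le_left hM, ?_, ?_⟩
  · filter_upwards [hev, h.exh K hK hKU] with i hi hKi S hS
    exact (hr_amk_of_q hm hM (h.data i).opn (h.data i).int hKi (hi S hS)).mono_const hκ
      (le_max_left _ _) (le_max_left _ _) (min_le_left _ _) (le_max_left _ _)
  · intro S hS
    exact (hr_amk_of_q hm hM' h.data'.opn h.data'.int hKU
      (fun z hz T hT => hq U' S A' f' z T h.data' hS (hctl z hz) hT)).mono_const hκ'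
      (le_max_right _ _) (le_max_right _ _) (min_le_right _ _) (le_max_right _ _)

end Claimed.Agent.Gmt
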