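import Claimed.Agent.Lib.Gmt.HrConv2

/-!
THIS FILE = PACKAGE L-GMT-HrConv3 (part 3 of 4 of the former `HrConv.lean`, which now only imports the parts; the text below is the plan of the whole former file).
# Lib/Gmt G5.4 (architect: helper190): sequences of minimisers near a flat point of the limit: uniform graphs, smooth convergence.
PACKAGES L-GMT-HrConvA (`hr_reg_bd`, `hr_reg_flat`, `hr_reg_open`, `hr_flat_conv`, `hr_sub_conv`), L-GMT-HrConvB (`hr_dat_unif`, `hr_fam`, `hr_core`).   `hr_amk_unif`: PROVED (from FrE).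

* `hr_reg_bd`: `φ x = 0`, `∇φ(x) ≠ 0`: in every small ball both `{φ<0}` and `{φ>0}` contain small balls (move along `∓∇φ(x)`): positive measure.  Conversely (`hr_reg_zero`) if `φ y ≠ 0`, then near `y` the set `S` is a.e. full or a.e. empty.
* `hr_reg_flat`: `e = ∇φ(x)/|∇φ(x)|`.  `φ` is differentiable at `x`: `|φ y - ⟪∇φ x, y - x⟫| ≤ η |∇φ x| ‖y - x‖` for `‖y - x‖ ≤ r₀(η)`; so `⟪y-x,e⟫ < -η r` and `‖y-x‖ < r ≤ r₀` give `φ y < 0`.
* `hr_reg_open`: for `y ∈ ball x r ∩ gmtBd S`: `φ y = 0` (`hr_reg_zero`); the same `φ` on `ball y (r - dist y x)`.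
* `hr_flat_conv`: `gmtLAM_bd_hausdorff` with `K = closedBall x (r/2)` and thickening radius `η r/2`: for `y ∈ gmtBd (S i) ∩ ball x (r/2)` there is `y' ∈ gmtBd S'`, `‖y-y'‖ < η r/2`, `y' ∈ ball x r`, `|⟪y'-x,e⟫| ≤ η r` (`FlFlat.bd_slab`):
  `|⟪y-x,e⟫| ≤ 2 η r = 4η (r/2)`.  Orientation (`fl_flat_of_bd_vol`): the cap `W⁻ = ball x (r/2) ∩ {⟪y-x,e⟫ < -2ηr}` has positive volume (`4η < 1`), is a.e. contained in `S'`, and `|(S i △ S') ∩ closedBall x (r/2)| → 0`: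
  eventually `|W⁻ \ S i| < |W⁻|`.  Same for `W⁺`.
* `hr_sub_conv`: if `|u i z₀ - u' z₀| = d > 0`, `z₀ ∈ ball 0 ρ'`, then (both functions are `K`-Lipschitz on the convex ball, `K ≤ 1`) `|u i - u'| ≥ d/2` on `ball z₀ (min (d/4) (ρ-ρ'))`, so
  `|(S i △ S') ∩ Cyl| ≥ (d/2) ω_n (min (d/4) (ρ-ρ'))^n` (Fubini `fl_lintegral_join`).  Hence `sup_{ball 0 ρ'} |u i - u'| → 0`.
* `hr_dat_unif`: `closure (hrCyl ρ)` is compact in `U'`; `GmtCvg.bounds` (ellipticity, eventually); for each `k`: `iteratedFDeriv k (A i) → iteratedFDeriv k A'` uniformly on the compact closure, the limit is bounded there; the finitely many remaining indices `i₀ ≤ i < i_k` are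
  bounded one by one (`A i` is smooth on `U i ⊇ closure (hrCyl ρ)`: continuous `iteratedFDeriv` on a compact set).
* `hr_core`.  `η` small (below), `r ≤ r₀(η)` with `closedBall 0 r ⊆ U'`, `r ≤ R`, `(κ+Λ) r ≤ c₁ (4η)²`.  `hr_flat_conv`: eventually `FlFlat (S i) 0 (r/2) (4η) e`; `hr_amk_unif` on `K = closedBall 0 r`; `fl_c1a` with `L = refl`
  (`gmtBlow refl 0 1 S = S`): `u i` with `FlGr (S i) (u i) (r/8) (4Cη)`; the same for the constant sequence `S'` (`gmt_lam_closure`).  `ρ = r/8`, `P = 1`, `4Cη ≤ 1/2`.   For the finitely many bad indices put `u i = u'`, and replace `(A i, f i)` by `(A', f')` in the family.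
  `hr_sub_of_gr`, `hr_el_weak`, `hr_struct_*` ⇒ `HrFam`; `hr_quasi_smooth`, `hr_quasi_bdd`, `hr_sub_conv`, `hr_interp`.
-/

set_option autoImplicit false
open scoped ContDiff ENNReal RealInnerProductSpace Topology
open MeasureTheory Metric Set Filter

namespace Claimed.Agent.Gmt

variable {m n : ℕ}

variable {U : ℕ → Set (E m)} {A : ℕ → E m → Bil m} {f : ℕ → E m → ℝ} {U' : Set (E m)}
  {A' : E m → Bil m} {f' : E m → ℝ}

theorem hrc_gr_lip {S : Set (E (n + 1))} {u : E n → ℝ} {ρ K : ℝ} (h : FlGr S u ρ K) (hK : K ≤ 1)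
    {z z₀ : E n} (hz : z ∈ ball (0 : E n) ρ) (hz₀ : z₀ ∈ ball (0 : E n) ρ) :
    |u z - u z₀| ≤ ‖z - z₀‖ := by
  have := Convex.norm_image_sub_le_of_norm_fderiv_le (𝕜 := ℝ) h.diff h.grad (convex_ball _ _) hz₀ hz
  rw [Real.norm_eq_abs] at this
  exact this.trans (by nlinarith [norm_nonneg (z - z₀)])

theorem hrc_box_vol (B : Set (E n)) (J : Set ℝ) (hB : MeasurableSet B) (hJ : MeasurableSet J) :
    volume {y : E (n + 1) | gmtHor y ∈ B ∧ gmtVer y ∈ J} = volume B * volume J := by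
  have h := fl_measurePreserving (n := n)
  have e : {y : E (n + 1) | gmtHor y ∈ B ∧ gmtVer y ∈ J} =
      (fun y : E (n + 1) => (gmtHor y, gmtVer y)) ⁻¹' (B ×ˢ J) := by
    ext y; rfl
  rw [e, h.measure_preimage (hB.prod hJ).nullMeasurableSet, Measure.prod_prod]

/-- two subgraphs whose functions differ by `ε` at one point differ on a box. -/
theorem hrc_box {S₁ S₂ : Set (E (n + 1))} {u₁ u₂ : E n → ℝ} {ρ K : ℝ} (hρ : 0 < ρ) (hK : K ≤ 1)
    (h₁ : FlGr S₁ u₁ ρ K) (h₂ : FlGr S₂ u₂ ρ K) {ρ' : ℝ} (hρ' : ρ' < ρ) {z₀ : E n}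
    (hz₀ : z₀ ∈ ball (0 : E n) ρ') {ε : ℝ} (hε : 0 < ε) (hd : u₁ z₀ + ε ≤ u₂ z₀) :
    volume (ball (0 : E n) (min (ε / 4) (ρ - ρ'))) * ENNReal.ofReal (ε / 2) ≤
      volume (symmDiff S₁ S₂ ∩ closure (hrCyl ρ)) := by
  obtain ⟨s, hsdef⟩ : ∃ s, s = min (ε / 4) (ρ - ρ') := ⟨_, rfl⟩
  rw [← hsdef]
  have hs1 : s ≤ ε / 4 := by rw [hsdef]; exact min_le_left _ _
  have hs2 : s ≤ ρ - ρ' := by rw [hsdef]; exact min_le_right _ _
  have hz₀n : ‖z₀‖ < ρ' := by simpa using hz₀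
  have hz₀ρ : z₀ ∈ ball (0 : E n) ρ := ball_subset_ball hρ'.le hz₀
  have hsub : ball z₀ s ⊆ ball (0 : E n) ρ := by
    refine ball_subset_ball' ?_
    rw [dist_zero_right]
    linarith
  have hKρ : K * ρ ≤ ρ := by nlinarith
  have hvol : volume (ball (0 : E n) s) * ENNReal.ofReal (ε / 2) ≤
      volume {y : E (n + 1) | gmtHor y ∈ ball z₀ s ∧
        gmtVer y ∈ Ioo (u₁ z₀ + ε / 4) (u₂ z₀ - ε / 4)} := by
    rw [hrc_box_vol _ _ measurableSet_ball measurableSet_Ioo,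
      Measure.addHaar_ball_center volume z₀ s, Real.volume_Ioo]
    exact mul_le_mul_right (ENNReal.ofReal_le_ofReal (by linarith)) _
  refine hvol.trans (measure_mono_ae ?_)
  filter_upwards [h₁.sub, h₂.sub] with y hy1 hy2 hyB
  have hzb : gmtHor y ∈ ball z₀ s := hyB.1
  have hzρ : gmtHor y ∈ ball (0 : E n) ρ := hsub hzb
  have hzn : ‖gmtHor y - z₀‖ < s := by simpa [dist_eq_norm] using hzb
  have ht : gmtVer y ∈ Ioo (u₁ z₀ + ε / 4) (u₂ z₀ - ε / 4) := hyB.2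
  have l1 := abs_le.1 (hrc_gr_lip h₁ hK hzρ hz₀ρ)
  have l2 := abs_le.1 (hrc_gr_lip h₂ hK hzρ hz₀ρ)
  have b1 := abs_le.1 (h₁.bound z₀ hz₀ρ)
  have b2 := abs_le.1 (h₂.bound z₀ hz₀ρ)
  have hH : ‖gmtHor y‖ < ρ := by simpa using hzρ
  have hV : |gmtVer y| < ρ := by
    rw [abs_lt]
    constructor <;> linarith [ht.1, ht.2]
  have n1 : y ∉ S₁ := fun hc => by
    have := (hy1 hH hV).1 hc
    linarith [ht.1]
  have n2 : y ∈ S₂ := (hy2 hH hV).2 (by linarith [ht.2])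
  exact ⟨Or.inr ⟨n2, n1⟩, subset_closure ⟨hH, hV⟩⟩

/-- `L¹` convergence of uniformly Lipschitz subgraphs ⇒ uniform convergence of the functions. -/
theorem hr_sub_conv {S : ℕ → Set (E (n + 1))} {S' : Set (E (n + 1))} {u : ℕ → E n → ℝ}
    {u' : E n → ℝ} {ρ K : ℝ} (hρ : 0 < ρ) (hK : K ≤ 1) (hu : ∀ᶠ i in atTop, FlGr (S i) (u i) ρ K)
    (hu' : FlGr S' u' ρ K)
    (hc : Tendsto (fun i => volume (symmDiff (S i) S' ∩ closure (hrCyl ρ))) atTop (𝓝 0))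
    {ρ' : ℝ} (hρ' : ρ' < ρ) : TendstoUniformlyOn u u' atTop (ball (0 : E n) ρ') := by
  rw [Metric.tendstoUniformlyOn_iff]
  intro ε hε
  have hpos : 0 < volume (ball (0 : E n) (min (ε / 4) (ρ - ρ'))) * ENNReal.ofReal (ε / 2) :=
    ENNReal.mul_pos (measure_ball_pos volume _ (lt_min (by positivity) (by linarith))).ne'
      (ENNReal.ofReal_pos.2 (by positivity)).ne'
  filter_upwards [hu, (tendsto_order.1 hc).2 _ hpos] with i hi hlt z₀ hz₀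
  by_contra hcon
  rw [not_lt, Real.dist_eq] at hcon
  rcases le_abs.1 hcon with h1 | h1
  · have := hrc_box hρ hK hi hu' hρ' hz₀ hε (by linarith)
    exact absurd hlt (not_lt.2 this)
  · have := hrc_box hρ hK hu' hi hρ' hz₀ hε (by linarith)
    rw [symmDiff_comm] at this
    exact absurd hlt (not_lt.2 this)

theorem hrc_unif_bdd {F X : Type*} [NormedAddCommGroup F] {K : Set X} {g : ℕ → X → F} {g' : X → F}
    (hu : TendstoUniformlyOn g g' atTop K) (hb' : ∃ M : ℝ, ∀ y ∈ K, ‖g' y‖ ≤ M) (i₀ : ℕ)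
    (hb : ∀ i ≥ i₀, ∃ M : ℝ, ∀ y ∈ K, ‖g i y‖ ≤ M) :
    ∃ M : ℝ, (∀ y ∈ K, ‖g' y‖ ≤ M) ∧ ∀ i ≥ i₀, ∀ y ∈ K, ‖g i y‖ ≤ M := by
  obtain ⟨M', hM'⟩ := hb'
  have hb2 : ∀ i, ∃ b : ℝ, 0 ≤ b ∧ (i₀ ≤ i → ∀ y ∈ K, ‖g i y‖ ≤ b) := fun i => by
    by_cases hi : i₀ ≤ i
    · obtain ⟨M, hM⟩ := hb i hi
      exact ⟨max M 0, le_max_right _ _, fun _ y hy => (hM y hy).trans (le_max_left _ _)⟩
    · exact ⟨0, le_refl _, fun h => absurd h hi⟩
  choose b hb0 hbb using hb2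
  obtain ⟨i₁, hi₁⟩ := Filter.eventually_atTop.1
    ((Metric.tendstoUniformlyOn_iff.1 hu) 1 one_pos)
  have hsum : 0 ≤ ∑ i ∈ Finset.range i₁, b i := Finset.sum_nonneg fun i _ => hb0 i
  refine ⟨M' + 1 + ∑ i ∈ Finset.range i₁, b i, fun y hy => by linarith [hM' y hy],
    fun i hi y hy => ?_⟩
  by_cases hlt : i < i₁
  · have h1 := hbb i hi y hy
    have h2 : b i ≤ ∑ i ∈ Finset.range i₁, b i :=
      Finset.single_le_sum (f := b) (fun j _ => hb0 j) (Finset.mem_range.2 hlt)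
    have h3 : 0 ≤ M' := (norm_nonneg _).trans (hM' y hy)
    linarith
  · have h1 := hi₁ i (not_lt.1 hlt) y hy
    rw [dist_eq_norm] at h1
    have h2 : ‖g i y‖ ≤ ‖g' y‖ + ‖g' y - g i y‖ := by
      have := norm_sub_le (g' y) (g' y - g i y)
      simpa using this
    linarith [hM' y hy]

theorem hrc_iter_bdd {F : Type*} [NormedAddCommGroup F] [NormedSpace ℝ F] {a : E m → F}
    {V K : Set (E m)} (hV : IsOpen V) (ha : ContDiffOn ℝ ∞ a V) (hK : IsCompact K) (hKV : K ⊆ V)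
    (k : ℕ) : ∃ M : ℝ, ∀ y ∈ K, ‖iteratedFDeriv ℝ k a y‖ ≤ M := by
  have h1 : ContinuousOn (iteratedFDerivWithin ℝ k a V) V :=
    ha.continuousOn_iteratedFDerivWithin (m := k) (by exact_mod_cast le_top) hV.uniqueDiffOn
  have h2 : ContinuousOn (iteratedFDeriv ℝ k a) V :=
    h1.congr fun y hy => (iteratedFDerivWithin_of_isOpen k hV hy).symm
  exact hK.exists_bound_of_continuousOn (h2.mono hKV)

/-- uniform quantitative control of convergent data in a small cylinder. -/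
theorem hr_dat_unif {U : ℕ → Set (E (n + 1))} {A : ℕ → E (n + 1) → Bil (n + 1)}
    {f : ℕ → E (n + 1) → ℝ} {U' : Set (E (n + 1))} {A' : E (n + 1) → Bil (n + 1)}
    {f' : E (n + 1) → ℝ} (h : GmtDataConv U A f U' A' f') {ρ : ℝ}
    (hρ : closure (hrCyl ρ : Set (E (n + 1))) ⊆ U') :
    ∃ (c C : ℝ) (i₀ : ℕ), 0 < c ∧ c ≤ C ∧ HrDat ρ c C A' f' ∧
      (∀ i ≥ i₀, closure (hrCyl ρ : Set (E (n + 1))) ⊆ U i ∧ HrDat ρ c C (A i) (f i)) ∧
      ∀ k : ℕ, ∃ M : ℝ, (∀ y ∈ (hrCyl ρ : Set (E (n + 1))),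
          ‖iteratedFDeriv ℝ k A' y‖ ≤ M ∧ ‖iteratedFDeriv ℝ k f' y‖ ≤ M) ∧
        ∀ i ≥ i₀, ∀ y ∈ (hrCyl ρ : Set (E (n + 1))),
          ‖iteratedFDeriv ℝ k (A i) y‖ ≤ M ∧ ‖iteratedFDeriv ℝ k (f i) y‖ ≤ M := by
  have hcpt : IsCompact (closure (hrCyl ρ : Set (E (n + 1)))) :=
    Metric.isCompact_of_isClosed_isBounded isClosed_closure
      ((Metric.isBounded_ball.subset (hr_cyl_subset_ball ρ)).closure)
  have hCC : GmtCC (hrCyl ρ : Set (E (n + 1))) U' := ⟨hr_isOpen_cyl ρ, hcpt, hρ⟩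
  obtain ⟨c, C, Λ₀, hc, hcC, -, hev⟩ := h.toCvg.bounds hCC
  obtain ⟨i₀, hi₀⟩ := Filter.eventually_atTop.1 hev
  have hsc : (hrCyl ρ : Set (E (n + 1))) ⊆ closure (hrCyl ρ) := subset_closure
  have hlim : ∀ y ∈ (hrCyl ρ : Set (E (n + 1))), ∀ ξ : E (n + 1),
      Tendsto (fun i => A i y ξ ξ) atTop (𝓝 (A' y ξ ξ)) := fun y hy ξ => by
    have h1 : Tendsto (fun i => A i y) atTop (𝓝 (A' y)) :=
      (h.toCvg.convA _ hcpt hρ).tendsto_at (hsc hy)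
    have h2 : Continuous fun B : Bil (n + 1) => B ξ ξ :=
      ((ContinuousLinearMap.apply ℝ ℝ ξ).continuous).comp
        ((ContinuousLinearMap.apply ℝ (E (n + 1) →L[ℝ] ℝ) ξ).continuous)
    exact (h2.tendsto _).comp h1
  refine ⟨c, C, i₀, hc, hcC, ⟨h.data'.int.smooth.mono (hsc.trans hρ), h.data'.f.mono (hsc.trans hρ),
    fun y hy => h.data'.int.symm y (hρ (hsc hy)), fun y hy ξ => ?_, fun y hy ξ => ?_⟩,
    fun i hi => ⟨(hi₀ i hi).1, ⟨(h.data i).int.smooth.mono (hsc.trans (hi₀ i hi).1),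
      (h.data i).f.mono (hsc.trans (hi₀ i hi).1),
      fun y hy => (h.data i).int.symm y ((hi₀ i hi).1 (hsc hy)),
      fun y hy ξ => (((hi₀ i hi).2 y (hsc hy)).2 ξ).1,
      fun y hy ξ => (((hi₀ i hi).2 y (hsc hy)).2 ξ).2⟩⟩, fun k => ?_⟩
  · exact ge_of_tendsto (hlim y hy ξ) (Filter.eventually_atTop.2
      ⟨i₀, fun i hi => (((hi₀ i hi).2 y (hsc hy)).2 ξ).1⟩)
  · exact le_of_tendsto (hlim y hy ξ) (Filter.eventually_atTop.2
      ⟨i₀, fun i hi => (((hi₀ i hi).2 y (hsc hy)).2 ξ).2⟩)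
  · obtain ⟨M₁, hM₁, hM₁'⟩ := hrc_unif_bdd (h.convA _ hcpt hρ k)
      (hrc_iter_bdd h.data'.opn h.data'.int.smooth hcpt hρ k) i₀
      (fun i hi => hrc_iter_bdd (h.data i).opn (h.data i).int.smooth hcpt (hi₀ i hi).1 k)
    obtain ⟨M₂, hM₂, hM₂'⟩ := hrc_unif_bdd (h.convf _ hcpt hρ k)
      (hrc_iter_bdd h.data'.opn h.data'.f hcpt hρ k) i₀
      (fun i hi => hrc_iter_bdd (h.data i).opn (h.data i).f hcpt (hi₀ i hi).1 k)
    exact ⟨max M₁ M₂, fun y hy => ⟨(hM₁ y (hsc hy)).trans (le_max_left _ _),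
      (hM₂ y (hsc hy)).trans (le_max_right _ _)⟩, fun i hi y hy =>
      ⟨(hM₁' i hi y (hsc hy)).trans (le_max_left _ _),
        (hM₂' i hi y (hsc hy)).trans (le_max_right _ _)⟩⟩

end Claimed.Agent.Gmt
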