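import Claimed.Agent.Lib.Gmt.HrConv3

/-!
THIS FILE = PACKAGE L-GMT-HrConv4 (part 4 of 4 of the former `HrConv.lean`, which now only imports the parts; the text below is the plan of the whole former file).
# Lib/Gmt G5.4 (architect: helper190): sequences of minimisers near a flat point of the limit: uniform graphs, smooth convergence.
PACKAGES L-GMT-HrConvA (`hr_reg_bd`, `hr_reg_flat`, `hr_reg_open`, `hr_flat_conv`, `hr_sub_conv`), L-GMT-HrConvB (`hr_dat_unif`, `hr_fam`, `hr_core`).   `hr_amk_unif`: PROVED (from FrE).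

* `hr_reg_bd`: `φ x = 0`, `∇φ(x) ≠ 0`: in every small ball both `{φ<0}` and `{φ>0}` contain small balls (move along `∓∇φ(x)`): positive measure.  Conversely (`hr_reg_zero`) if `φ y ≠ 0`, then near `y` the set `S` is a.e. full or a.e. empty.
* `hr_reg_flat`: `e = ∇φ(x)/|∇φ(x)|`.  `φ` is differentiable at `x`: `|φ y - ⟪∇φ x, y - x⟫| ≤ η |∇φ x| ‖y - x‖` for `‖y - x‖ ≤ r₀(η)`; so `⟪y-x,e⟫ < -η r` and `‖y-x‖ < r ≤ r₀` give `φ y < 0`.
* `hr_reg_open`: for `y ∈ ball x r ∩ gmtBd S`: `φ y = 0` (`hr_reg_zero`); the same `φ` on `ball y (r - dist y x)`.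
* `hr_flat_conv`: `gmtLAM_bd_hausdorff` with `K = closedBall x (r/2)` and thickening radius `η r/2`: for `y ∈ gmtBd (S i) ∩ ball x (r/2)` there is `y' ∈ gmtBd S'`, `‖y-y'‖ < η r/2`, `y' ∈ ball x r`, `|⟪y'-x,e⟫| ≤ η r` (`FlFlat.bd_slab`):
  `|⟪y-x,e⟫| ≤ 2 η r = 4η (r/2)`.  Orientation (`fl_flat_of_bd_vol`): the cap `W⁻ = ball x (r/2) ∩ {⟪y-x,e⟫ < -2ηr}` has positive volume (`4η < 1`), is a.e. contained in `S'`, and `|(S i △ S') ∩ closedBall x (r/2)| → 0`: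
  eventually `|W⁻ \ S i| < |W⁻|`.  Same for `W⁺`.
* `hr_sub_conv`: if `|u i z₀ - u' z₀| = d > 0`, `z₀ ∈ ball 0 ρ'`, then (both functions are `K`-Lipschitz on the convex ball, `K ≤ 1`) `|u i - u'| ≥ d/2` on `ball z₀ (min (d/4) (ρ-ρ'))`, so
  `|(S i △ S') ∩ Cyl| ≥ (d/2) ω_n (min (d/4) (ρ-ρ'))^n` (Fubini `fl_lintegral_join`).  Hence `sup_{ball 0 ρ'} |u i - u'| → 0`.
* `hr_dat_unif`: `closure (hrCyl ρ)` is compact in `U'`; `GmtCvg.bounds` (ellipticity, eventually); for each `k`: `iteratedFDeriv k (A i) → iteratedFDeriv k A'` uniformly on the compact closure, the limit is bounded there; the finitely many remaining indices `i₀ ≤ i < i_k` are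
  bounded one by one (`A i` is smooth on `U i ⊇ closure (hrCyl ρ)`: continuous `iteratedFDeriv` on a compact set).
* `hr_core`.  `η` small (below), `r ≤ r₀(η)` with `closedBall 0 r ⊆ U'`, `r ≤ R`, `(κ+Λ) r ≤ c₁ (4η)²`.  `hr_flat_conv`: eventually `FlFlat (S i) 0 (r/2) (4η) e`; `hr_amk_unif` on `K = closedBall 0 r`; `fl_c1a` with `L = refl`
  (`gmtBlow refl 0 1 S = S`): `u i` with `FlGr (S i) (u i) (r/8) (4Cη)`; the same for the constant sequence `S'` (`gmt_lam_closure`).  `ρ = r/8`, `P = 1`, `4Cη ≤ 1/2`.   For the finitely many bad indices put `u i = u'`, and replace `(A i, f i)` by `(A', f')` in the family.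
  `hr_sub_of_gr`, `hr_el_weak`, `hr_struct_*` ⇒ `HrFam`; `hr_quasi_smooth`, `hr_quasi_bdd`, `hr_sub_conv`, `hr_interp`.
-/

set_option autoImplicit false
open scoped ContDiff ENNReal RealInnerProductSpace Topology
open MeasureTheory Metric Set Filter

namespace Claimed.Agent.Gmt

variable {m n : ℕ}

variable {U : ℕ → Set (E m)} {A : ℕ → E m → Bil m} {f : ℕ → E m → ℝ} {U' : Set (E m)}
  {A' : E m → Bil m} {f' : E m → ℝ}

theorem hr_box_cyl {ρ P : ℝ} {w : E n × ℝ × E n} (hw : w ∈ hrBox ρ P) :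
    gmtJoin w.1 w.2.1 ∈ (hrCyl ρ : Set (E (n + 1))) := by
  refine ⟨?_, ?_⟩
  · rw [fl_hor_join]; exact hw.1
  · rw [fl_ver_join]; exact hw.2.1

/-- the family of Euler-Lagrange equations of a sequence of minimising `C^{1,1/2}` graphs. -/
theorem hr_fam_of {ρ c C K : ℝ} {U : ℕ → Set (E (n + 1))} {A : ℕ → E (n + 1) → Bil (n + 1)}
    {f : ℕ → E (n + 1) → ℝ} {S : ℕ → Set (E (n + 1))} {u : ℕ → E n → ℝ}
    (hρ : 0 < ρ) (hc : 0 < c) (hcC : c ≤ C) (hK : K ≤ 1 / 2)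
    (hd : ∀ i, GmtData (U i) (A i) (f i)) (hS : ∀ i, GmtLAM (A i) (f i) (U i) (S i))
    (hCU : ∀ i, hrCyl ρ ⊆ U i) (hdat : ∀ i, HrDat ρ c C (A i) (f i))
    (hA : ∀ k : ℕ, ∃ M : ℝ, ∀ i, ∀ y ∈ hrCyl ρ, ‖iteratedFDeriv ℝ k (A i) y‖ ≤ M)
    (hf : ∀ k : ℕ, ∃ M : ℝ, ∀ i, ∀ y ∈ hrCyl ρ, ‖iteratedFDeriv ℝ k (f i) y‖ ≤ M)
    (hgr : ∀ i, FlGr (S i) (u i) ρ K) :
    HrFam ρ 1 (c ^ 4 / (C * Real.sqrt (1 + 1 ^ 2)) ^ 3) (K / Real.sqrt ρ)
      (fun i => hrA (A i)) (fun i => hrB (A i) (f i)) u := by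
  have hC : 0 < C := lt_of_lt_of_le hc hcC
  refine ⟨⟨hρ, one_pos, by positivity⟩, fun i => (hr_struct_smooth hc (hdat i)).1,
    fun i => (hr_struct_smooth hc (hdat i)).2, fun k => hr_struct_bdd hc one_pos hdat hA hf k,
    fun i w hw q => hr_struct_ell hc hcC (hdat i) hw q, ?_, fun i => (hgr i).diff, ?_, ?_, ?_, ?_⟩
  · intro i w hw q q'
    rw [hr_A_fderiv hc (hdat i) hw q q', real_inner_comm, hr_A_fderiv hc (hdat i) hw q' q,
      (hdat i).symm _ (hr_box_cyl hw) (flInc n q) (flInc n q')]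
    ring
  · intro i z hz
    refine ((hgr i).bound z hz).trans ?_
    nlinarith
  · intro i z hz
    exact ((hgr i).grad z hz).trans (by linarith)
  · intro i z hz z' hz'
    refine ((hgr i).hol z hz z' hz').trans (le_of_eq ?_)
    rw [Real.sqrt_div (norm_nonneg _)]
    ring
  · intro i
    exact hr_el_weak (hd i) (hS i) (hCU i)
      (hr_sub_of_gr hρ (by linarith) (hS i).meas (hgr i))

theorem hr_blow_refl (S : Set (E m)) :
    gmtBlow (LinearIsometryEquiv.refl ℝ (E m)).toContinuousLinearEquiv 0 1 S = S := by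
  ext y
  simp [gmtBlow, gmtAff]

/-- **CORE of G5** (normalised position: centre `0`, vertical direction). -/
theorem hr_core (hn : 1 ≤ n) {U : ℕ → Set (E (n + 1))} {A : ℕ → E (n + 1) → Bil (n + 1)}
    {f : ℕ → E (n + 1) → ℝ} {U' : Set (E (n + 1))} {A' : E (n + 1) → Bil (n + 1)}
    {f' : E (n + 1) → ℝ} (h : GmtDataConv U A f U' A' f') {S : ℕ → Set (E (n + 1))}
    (hS : ∀ i, GmtLAM (A i) (f i) (U i) (S i)) {S' : Set (E (n + 1))} (hm : MeasurableSet S')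
    (hc : GmtConv U' S S') (h0 : (0 : E (n + 1)) ∈ U')
    (hfl : ∀ η > 0, ∃ r₀ > 0, ∀ r, 0 < r → r ≤ r₀ → FlFlat S' 0 r η (gmtEn n)) :
    ∃ ρ > 0, ∃ (u : ℕ → E n → ℝ) (u' : E n → ℝ), closure (hrCyl ρ : Set (E (n + 1))) ⊆ U' ∧
      ContDiffOn ℝ ∞ u' (ball 0 ρ) ∧ HrSub S' u' ρ ∧
      (∀ y ∈ (hrCyl ρ : Set (E (n + 1))), y ∈ gmtBd S' ↔ gmtVer y = u' (gmtHor y)) ∧
      GmtSmoothConv (ball (0 : E n) ρ) u u' ∧
      ∀ᶠ i in atTop, ContDiffOn ℝ ∞ (u i) (ball 0 ρ) ∧ HrSub (S i) (u i) ρ := by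
  classical
  have hS' : GmtLAM A' f' U' S' := gmt_lam_closure h S hS S' hm hc
  obtain ⟨r₁, hr₁, hr₁U⟩ := Metric.nhds_basis_closedBall.mem_iff.1 (h.data'.opn.mem_nhds h0)
  obtain ⟨κ, Λ, R, D, hκ, hΛ, hR, hD, hev, hlim⟩ :=
    hr_amk_unif (by omega) h (isCompact_closedBall (0 : E (n + 1)) r₁) hr₁U
  obtain ⟨η₀, c₁, C, hη₀, hc₁, hC, hc1a⟩ := fl_c1a n hn D hD
  -- the flatness
  obtain ⟨η, hη, hη4, hηη₀, hηC⟩ : ∃ η : ℝ, 0 < η ∧ η < 1 / 4 ∧ 4 * η ≤ η₀ ∧ C * (4 * η) ≤ 1 / 2 := by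
    refine ⟨min (1 / 8) (min (η₀ / 4) (1 / (8 * C))), by positivity, ?_, ?_, ?_⟩
    · exact lt_of_le_of_lt (min_le_left _ _) (by norm_num)
    · have := (min_le_right (1 / 8) (min (η₀ / 4) (1 / (8 * C)))).trans (min_le_left _ _)
      linarith
    · have := (min_le_right (1 / 8) (min (η₀ / 4) (1 / (8 * C)))).trans (min_le_right _ _)
      have h2 := mul_le_mul_of_nonneg_left this (by positivity : 0 ≤ 4 * C)
      have h3 : 4 * C * (1 / (8 * C)) = 1 / 2 := by field_simp; norm_num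
      linarith
  obtain ⟨r₀, hr₀, hflat⟩ := hfl η hη
  -- the radius
  obtain ⟨r, hr, hrr₀, hrr₁, hrR, hrκ⟩ : ∃ r : ℝ, 0 < r ∧ r ≤ r₀ ∧ r ≤ r₁ ∧ r / 2 ≤ R ∧
      (κ + Λ) * (r / 2) ≤ c₁ * (4 * η) ^ 2 := by
    refine ⟨min (min r₀ r₁) (min R (c₁ * (4 * η) ^ 2 / (κ + Λ + 1))), by positivity,
      (min_le_left _ _).trans (min_le_left _ _), (min_le_left _ _).trans (min_le_right _ _), ?_, ?_⟩
    · have := (min_le_right (min r₀ r₁) (min R (c₁ * (4 * η) ^ 2 / (κ + Λ + 1)))).trans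
        (min_le_left _ _)
      have h2 : 0 < min (min r₀ r₁) (min R (c₁ * (4 * η) ^ 2 / (κ + Λ + 1))) := by positivity
      linarith
    · have h1 := (min_le_right (min r₀ r₁) (min R (c₁ * (4 * η) ^ 2 / (κ + Λ + 1)))).trans
        (min_le_right _ _)
      have h2 : 0 < min (min r₀ r₁) (min R (c₁ * (4 * η) ^ 2 / (κ + Λ + 1))) := by positivity
      set r := min (min r₀ r₁) (min R (c₁ * (4 * η) ^ 2 / (κ + Λ + 1)))
      rw [le_div_iff₀ (by positivity)] at h1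
      nlinarith [mul_nonneg hκ h2.le, mul_nonneg hΛ h2.le]
  have hrU : closedBall (0 : E (n + 1)) r ⊆ U' := (closedBall_subset_closedBall hrr₁).trans hr₁U
  have hev2 := hr_flat_conv h hS hm hc hr hrU hη hη4 (hflat r hr hrr₀)
  have hbsub : ball (0 : E (n + 1)) (r / 2) ⊆ closedBall 0 r₁ :=
    ball_subset_closedBall.trans (closedBall_subset_closedBall (by linarith))
  have hr2 : 0 < r / 2 := by positivity
  have h4η : 0 < 4 * η := by positivity
  -- graphs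
  have hgraph : ∀ T : Set (E (n + 1)), FlAMK κ Λ R D (closedBall 0 r₁) T →
      FlFlat T 0 (r / 2) (4 * η) (gmtEn n) → ∃ u : E n → ℝ, FlGr T u (r / 8) (C * (4 * η)) := by
    intro T hT hTfl
    obtain ⟨u, hu⟩ := hc1a κ Λ R (r / 2) (4 * η) 0 (gmtEn n) T hκ hΛ (hT.mono hbsub) hr2 hrR h4η
      hηη₀ hrκ hTfl (LinearIsometryEquiv.refl ℝ _) rfl
    rw [hr_blow_refl] at hu
    have e1 : r / 2 / 4 = r / 8 := by ring
    rw [e1] at hu
    exact ⟨u, hu⟩
  have hfl' : FlFlat S' 0 (r / 2) (4 * η) (gmtEn n) :=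
    (hflat (r / 2) hr2 (by linarith)).mono hr2.le (by linarith)
  obtain ⟨u', hu'⟩ := hgraph S' (hlim S' hS') hfl'
  set ρ : ℝ := r / 8 with hρdef
  set K : ℝ := C * (4 * η) with hKdef
  have hρ : 0 < ρ := by positivity
  have hclU : closure (hrCyl ρ : Set (E (n + 1))) ⊆ U' := by
    refine Subset.trans ?_ hr₁U
    intro y hy
    have hy' := hr_closure_cyl ρ hy
    have h1 := fl_norm_sq y
    have h2 : gmtVer y ^ 2 ≤ ρ ^ 2 := by
      rw [← sq_abs]; exact pow_le_pow_left₀ (abs_nonneg _) hy'.2 2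
    have h3 : ‖gmtHor y‖ ^ 2 ≤ ρ ^ 2 := pow_le_pow_left₀ (norm_nonneg _) hy'.1 2
    simp only [mem_closedBall, dist_zero_right]
    have h4 : ‖y‖ ≤ 2 * ρ := by
      apply abs_le_of_sq_le_sq' _ (by positivity) |>.2
      nlinarith
    have : 2 * ρ ≤ r₁ := by rw [hρdef]; linarith
    linarith
  obtain ⟨c, C', i₀, hc0, hcC', hdat', hdati, hbds⟩ := hr_dat_unif h hclU
  -- a common index
  obtain ⟨N, hN⟩ : ∃ N : ℕ, ∀ i ≥ N, i₀ ≤ i ∧ (∀ T, GmtLAM (A i) (f i) (U i) T →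
      FlAMK κ Λ R D (closedBall 0 r₁) T) ∧ FlFlat (S i) 0 (r / 2) (4 * η) (gmtEn n) := by
    have := ((eventually_ge_atTop i₀).and (hev.and hev2))
    exact eventually_atTop.1 this
  have hex : ∀ i, N ≤ i → ∃ u : E n → ℝ, FlGr (S i) u ρ K := fun i hi =>
    hgraph (S i) ((hN i hi).2.1 (S i) (hS i)) (hN i hi).2.2
  -- modified sequences
  let u : ℕ → E n → ℝ := fun i => if hi : N ≤ i then (hex i hi).choose else u'
  let Sm : ℕ → Set (E (n + 1)) := fun i => if N ≤ i then S i else S'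
  let Um : ℕ → Set (E (n + 1)) := fun i => if N ≤ i then U i else U'
  let Am : ℕ → E (n + 1) → Bil (n + 1) := fun i => if N ≤ i then A i else A'
  let fm : ℕ → E (n + 1) → ℝ := fun i => if N ≤ i then f i else f'
  have hgr : ∀ i, FlGr (Sm i) (u i) ρ K := by
    intro i
    by_cases hi : N ≤ i
    · simp only [Sm, u, hi, if_true, dif_pos]; exact (hex i hi).choose_spec
    · simp only [Sm, u, hi, if_false, dif_neg, not_false_eq_true]; exact hu'
  have hdm : ∀ i, GmtData (Um i) (Am i) (fm i) := by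
    intro i
    by_cases hi : N ≤ i
    · simp only [Um, Am, fm, hi, if_true]; exact h.data i
    · simp only [Um, Am, fm, hi, if_false]; exact h.data'
  have hSm : ∀ i, GmtLAM (Am i) (fm i) (Um i) (Sm i) := by
    intro i
    by_cases hi : N ≤ i
    · simp only [Um, Am, fm, Sm, hi, if_true]; exact hS i
    · simp only [Um, Am, fm, Sm, hi, if_false]; exact hS'
  have hCUm : ∀ i, (hrCyl ρ : Set (E (n + 1))) ⊆ Um i := by
    intro i
    by_cases hi : N ≤ i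
    · simp only [Um, hi, if_true]; exact subset_closure.trans (hdati i (hN i hi).1).1
    · simp only [Um, hi, if_false]; exact subset_closure.trans hclU
  have hdatm : ∀ i, HrDat ρ c C' (Am i) (fm i) := by
    intro i
    by_cases hi : N ≤ i
    · simp only [Am, fm, hi, if_true]; exact (hdati i (hN i hi).1).2
    · simp only [Am, fm, hi, if_false]; exact hdat'
  have hAm : ∀ k : ℕ, ∃ M : ℝ, ∀ i, ∀ y ∈ (hrCyl ρ : Set (E (n + 1))),
      ‖iteratedFDeriv ℝ k (Am i) y‖ ≤ M := by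
    intro k
    obtain ⟨M, hM', hMi⟩ := hbds k
    refine ⟨M, fun i y hy => ?_⟩
    by_cases hi : N ≤ i
    · simp only [Am, hi, if_true]; exact (hMi i (hN i hi).1 y hy).1
    · simp only [Am, hi, if_false]; exact (hM' y hy).1
  have hfm : ∀ k : ℕ, ∃ M : ℝ, ∀ i, ∀ y ∈ (hrCyl ρ : Set (E (n + 1))),
      ‖iteratedFDeriv ℝ k (fm i) y‖ ≤ M := by
    intro k
    obtain ⟨M, hM', hMi⟩ := hbds k
    refine ⟨M, fun i y hy => ?_⟩
    by_cases hi : N ≤ i
    · simp only [fm, hi, if_true]; exact (hMi i (hN i hi).1 y hy).2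
    · simp only [fm, hi, if_false]; exact (hM' y hy).2
  have hfam := hr_fam_of hρ hc0 hcC' hηC hdm hSm hCUm hdatm hAm hfm hgr
  -- the constant family for the limit
  have hfam' := hr_fam_of (U := fun _ => U') (A := fun _ => A') (f := fun _ => f')
    (S := fun _ => S') (u := fun _ => u') hρ hc0 hcC' hηC (fun _ => h.data') (fun _ => hS')
    (fun _ => subset_closure.trans hclU) (fun _ => hdat')
    (fun k => by obtain ⟨M, hM', -⟩ := hbds k; exact ⟨M, fun _ y hy => (hM' y hy).1⟩)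
    (fun k => by obtain ⟨M, hM', -⟩ := hbds k; exact ⟨M, fun _ y hy => (hM' y hy).2⟩)
    (fun _ => hu')
  have hsm : ∀ i, ContDiffOn ℝ ∞ (u i) (ball 0 ρ) := fun i => hr_quasi_smooth hfam i
  have hsm' : ContDiffOn ℝ ∞ u' (ball 0 ρ) := hr_quasi_smooth hfam' 0
  have hK1 : K < 1 := by linarith
  -- convergence
  have hcpt : IsCompact (closure (hrCyl ρ : Set (E (n + 1)))) := by
    refine Metric.isCompact_of_isClosed_isBounded isClosed_closure ?_
    exact (Metric.isBounded_ball.subset (hr_cyl_subset_ball ρ)).closure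
  have hvol : Tendsto (fun i => volume (symmDiff (Sm i) S' ∩ closure (hrCyl ρ))) atTop (𝓝 0) := by
    refine (hc _ hcpt hclU).congr' ?_
    filter_upwards [eventually_ge_atTop N] with i hi
    simp only [Sm, hi, if_true]
  have hunif : ∀ ρ' < ρ, TendstoUniformlyOn u u' atTop (ball (0 : E n) ρ') := fun ρ' hρ' =>
    hr_sub_conv hρ hK1.le (Eventually.of_forall hgr) hu' hvol hρ'
  have hconv : GmtSmoothConv (ball (0 : E n) ρ) u u' :=
    hr_interp hsm (fun k ρ' hρ' => hr_quasi_bdd hfam k hρ') hunif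
  refine ⟨ρ, hρ, u, u', hclU, hsm', hr_sub_of_gr hρ hK1 hm hu', fun y hy => hu'.bd y hy.1 hy.2,
    hconv, ?_⟩
  filter_upwards [eventually_ge_atTop N] with i hi
  refine ⟨hsm i, ?_⟩
  have := hr_sub_of_gr hρ hK1 (hSm i).meas (hgr i)
  simpa only [Sm, hi, if_true] using this

end Claimed.Agent.Gmt
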