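import Claimed.Agent.Lib.Gmt.HrSub
import Claimed.Agent.Lib.Gmt.Fv
import Claimed.Agent.Lib.Gmt.Data
import Claimed.Agent.Lib.Ell.Defs

/-!
THIS FILE = PACKAGE L-GMT-HrEL1 (part 1 of 4 of the former `HrEL.lean`, which now only imports the parts; the text below is the plan of the whole former file).
# Lib/Gmt G5.2 (architect: helper190): the weak Euler-Lagrange equation of a minimising `C¹` graph; the structure functions.
PACKAGES L-GMT-HrEL (`hr_vert_*`, `hr_el_weak`), L-GMT-HrStruct (`hr_F_*`, `hr_A_*`, `hr_B_*`, `hr_gram`, `hr_struct_*`).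
Input: `gmt_lam_fv` (helper184), `HrSub`, `FlCoord`.

`y = (z,t)`, `N_p = (-p, 1)`, `F(z,t,p) = hrF A = √(A_y(N_p,N_p))`, `𝒜 = hrA A = ∇_p F`: `⟪𝒜, q⟫ = - A_y(N_p,(q,0))/F`,   `ℬ = hrB A f = ∂_t F - f = ∂_t A_y (N_p,N_p)/(2F) - f(y)`.
EQUATION: `∫ ⟪𝒜(z,u,∇u), ∇ψ⟫ + ∫ ℬ(z,u,∇u) ψ = 0` for `ψ ∈ C_c^∞(ball 0 ρ)`  (`Lib.Ell.WeakQuasi`).
PLAN of `hr_el_weak`.  `ψ` a test function, `b = max_{tsupport ψ} |u| < ρ`; `η̃` smooth, `= 1` on `[-b',b']`, `= 0` off `(-b'',b'')`, `b < b' < b'' < ρ` (`Real.smoothTransition`, as `flEta`); `X = flVert (flPr ψ η̃) ∈ GmtTestS (hrCyl ρ)`.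
 `gmt_lam_fv`: `∫ (gmtFv1 A X y ν_S - f ⟪X,ν_S⟫) dμ_S = 0`; the integrand vanishes off `tsupport X ⊆ hrCyl ρ`; `hr_sub_integral` with `g y ν = gmtFv1 A X y ν - f y ⟪X y, ν⟫` (continuous on `Cyl × sphere`: `A ∈ C¹`, `A_y(ν,ν) > 0`).
 `gmtFv1 A X y ν = √(A ν ν) div X + (D_X A(ν,ν)/2 - A(ν, (DX)ᵀν))/√(A ν ν)` is positively `1`-homogeneous in `ν`: `gmtFv1 A X y (N/‖N‖) ‖N‖ = gmtFv1 A X y N`.
 At `y = Γ(z)`: `η̃ = 1`, `η̃' = 0` near `t = u z` when `ψ z ≠ 0`...(and everything vanishes when `z ∉ tsupport ψ`): `div X = 0`, `X = ψ e`, `D_X A = ψ ∂_t A`, `DX v = ⟪∇ψ, v'⟫ e`, `(DX)ᵀ N = (∇ψ, 0)` (as `N_t = 1`), `⟪X,N⟫ = ψ`.   (`hr_vert_fv1`)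
STRUCTURE.  `hr_gram`: for a symmetric form `B` with `c²|ξ|² ≤ B(ξ,ξ)`: `B(v,v)B(N,N) - B(N,v)² ≥ c⁴ (|v|²|N|² - ⟪v,N⟫²)`:  `B(v - sN, v - sN) ≥ c²|v - sN|² ≥ c² (|v|² - ⟪v,N⟫²/|N|²)` with `s = B(N,v)/B(N,N)`.
 `∂_p 𝒜 [q] · q = (B(v,v)B(N,N) - B(N,v)²)/F³`, `v = (q,0)`, `|v|²|N|² - ⟪v,N⟫² = |q|²(1+|p|²) - ⟪q,p⟫² ≥ |q|²`, `F ≤ C √(1+P²)`.
 Smoothness: `hrF² = A_y(N_p,N_p)` is smooth and `≥ c² > 0` on the box, `Real.sqrt` is smooth on `(0,∞)`.
 Uniform bounds for families (`hr_struct_bdd`): Mathlib's quantitative chain/Leibniz rules `norm_iteratedFDerivWithin_comp_le` / `norm_iteratedFDeriv_comp_le`, `ContinuousLinearMap.norm_iteratedFDeriv_le_of_bilinear`: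
 (i) `w ↦ A (gmtJoin z t)` (composition with a continuous linear map: `ContinuousLinearMap.norm_iteratedFDeriv_comp_right`-type bound), (ii) evaluation at `(N_p,N_p)` (trilinear in `(A, N, N)`, `N_p` affine in `p`, bounded on the box),
 (iii) `s ↦ s^{-1/2}` on `[c², ∞)`: all derivatives bounded, (iv) products.
-/

set_option autoImplicit false
open scoped ContDiff ENNReal RealInnerProductSpace Topology
open MeasureTheory Metric Set Filter

namespace Claimed.Agent.Gmt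

variable {n : ℕ}

/-- `N_p = (-p, 1)`. -/
noncomputable def hrNp (p : E n) : E (n + 1) := gmtJoin (-p) 1

/-- the integrand in graph coordinates. -/
noncomputable def hrF (A : E (n + 1) → Bil (n + 1)) (w : E n × ℝ × E n) : ℝ :=
  Real.sqrt (A (gmtJoin w.1 w.2.1) (hrNp w.2.2) (hrNp w.2.2))

/-- `𝒜 = ∇_p F`. -/
noncomputable def hrA (A : E (n + 1) → Bil (n + 1)) (w : E n × ℝ × E n) : E n :=
  -((hrF A w)⁻¹ • gmtHor (gmtSharp (A (gmtJoin w.1 w.2.1)) (hrNp w.2.2)))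

/-- `ℬ = ∂_t F - f`. -/
noncomputable def hrB (A : E (n + 1) → Bil (n + 1)) (f : E (n + 1) → ℝ) (w : E n × ℝ × E n) : ℝ :=
  (2 * hrF A w)⁻¹ * fderiv ℝ A (gmtJoin w.1 w.2.1) (gmtEn n) (hrNp w.2.2) (hrNp w.2.2) -
    f (gmtJoin w.1 w.2.1)

/-- the jet box `{‖z‖ < ρ, |t| < ρ, ‖p‖ < P}`. -/
def hrBox (ρ P : ℝ) : Set (E n × ℝ × E n) := {w | ‖w.1‖ < ρ ∧ |w.2.1| < ρ ∧ ‖w.2.2‖ < P}

theorem hr_isOpen_box (ρ P : ℝ) : IsOpen (hrBox ρ P : Set (E n × ℝ × E n)) := by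
  have h1 : IsOpen {w : E n × ℝ × E n | ‖w.1‖ < ρ} :=
    isOpen_lt (continuous_fst.norm) continuous_const
  have h2 : IsOpen {w : E n × ℝ × E n | |w.2.1| < ρ} :=
    isOpen_lt (continuous_abs.comp (continuous_fst.comp continuous_snd)) continuous_const
  have h3 : IsOpen {w : E n × ℝ × E n | ‖w.2.2‖ < P} :=
    isOpen_lt ((continuous_snd.comp continuous_snd).norm) continuous_const
  exact h1.inter (h2.inter h3)

theorem hr_el_inner_inc (v : E (n + 1)) (q : E n) : ⟪gmtHor v, q⟫ = ⟪v, flInc n q⟫ := by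
  rw [fl_inner, fl_inc_apply, fl_hor_join, fl_ver_join, mul_zero, add_zero]

theorem hr_el_sharp_inner (B : Bil (n + 1)) (ξ η : E (n + 1)) : ⟪gmtSharp B ξ, η⟫ = B ξ η := by
  unfold gmtSharp
  rw [InnerProductSpace.toDual_symm_apply]

theorem hr_el_grad_inner (a : E (n + 1) → ℝ) (y x : E (n + 1)) : ⟪gradient a y, x⟫ = fderiv ℝ a y x := by
  unfold gradient
  rw [InnerProductSpace.toDual_symm_apply]

theorem hr_A_inner (A : E (n + 1) → Bil (n + 1)) (w : E n × ℝ × E n) (q : E n) :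
    ⟪hrA A w, q⟫ = -((hrF A w)⁻¹ * A (gmtJoin w.1 w.2.1) (hrNp w.2.2) (flInc n q)) := by
  unfold hrA
  rw [inner_neg_left, real_inner_smul_left, hr_el_inner_inc, hr_el_sharp_inner]

/-- homogeneity of the first variation integrand. -/
theorem hr_fv1_homog (A : E (n + 1) → Bil (n + 1)) (X : E (n + 1) → E (n + 1)) (y N : E (n + 1))
    {c : ℝ} (hc : 0 < c) : gmtFv1 A X y (c • N) = c * gmtFv1 A X y N := by
  unfold gmtFv1
  have h1 : A y (c • N) (c • N) = c ^ 2 * A y N N := by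
    simp only [map_smul, _root_.smul_apply, smul_eq_mul]; ring
  have h2 : Real.sqrt (A y (c • N) (c • N)) = c * Real.sqrt (A y N N) := by
    rw [h1, Real.sqrt_mul (sq_nonneg c), Real.sqrt_sq hc.le]
  have h3 : fderiv ℝ A y (X y) (c • N) (c • N) / 2 -
      A y (c • N) (ContinuousLinearMap.adjoint (fderiv ℝ X y) (c • N)) =
      c ^ 2 * (fderiv ℝ A y (X y) N N / 2 - A y N (ContinuousLinearMap.adjoint (fderiv ℝ X y) N)) := by
    simp only [map_smul, _root_.smul_apply, smul_eq_mul]; ring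
  rw [h2, h3]
  rcases eq_or_ne (Real.sqrt (A y N N)) 0 with h0 | h0
  · rw [h0]; simp
  · field_simp

/-- the first variation integrand of a vertical field `X = a e` at a point where `∂_t a = 0`. -/
theorem hr_vert_fv1 (A : E (n + 1) → Bil (n + 1)) {a : E (n + 1) → ℝ} {y : E (n + 1)}
    (ha : DifferentiableAt ℝ a y) (hat : fderiv ℝ a y (gmtEn n) = 0) (p : E n) :
    gmtFv1 A (flVert a) y (hrNp p) =
      (a y * fderiv ℝ A y (gmtEn n) (hrNp p) (hrNp p) / 2 -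
        A y (hrNp p) (flInc n (gmtHor (gradient a y)))) / Real.sqrt (A y (hrNp p) (hrNp p)) := by
  unfold gmtFv1
  have h1 : ContinuousLinearMap.adjoint (fderiv ℝ (flVert a) y) (hrNp p) = gradient a y := by
    refine ext_inner_right ℝ fun x => ?_
    rw [ContinuousLinearMap.adjoint_inner_left, fl_vert_fderiv ha, ContinuousLinearMap.smulRight_apply,
      real_inner_smul_right, ← fl_ver_eq_inner, hrNp, fl_ver_join, mul_one, hr_el_grad_inner]
  have h2 : flInc n (gmtHor (gradient a y)) = gradient a y := by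
    have hv : gmtVer (gradient a y) = 0 := by
      rw [fl_ver_eq_inner, hr_el_grad_inner, hat]
    conv_rhs => rw [← fl_join_hor_ver (gradient a y), hv]
    rfl
  have h3 : fderiv ℝ A y (flVert a y) (hrNp p) (hrNp p) = a y * fderiv ℝ A y (gmtEn n) (hrNp p) (hrNp p) := by
    unfold flVert
    simp only [map_smul, _root_.smul_apply, smul_eq_mul]
  rw [fl_vert_div ha, hat, mul_zero, zero_add, h1, h2, h3]

end Claimed.Agent.Gmt
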