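import Claimed.Agent.Lib.Gmt.HrEL1

/-!
THIS FILE = PACKAGE L-GMT-HrEL2 (part 2 of 4 of the former `HrEL.lean`, which now only imports the parts; the text below is the plan of the whole former file).
# Lib/Gmt G5.2 (architect: helper190): the weak Euler-Lagrange equation of a minimising `C¹` graph; the structure functions.
PACKAGES L-GMT-HrEL (`hr_vert_*`, `hr_el_weak`), L-GMT-HrStruct (`hr_F_*`, `hr_A_*`, `hr_B_*`, `hr_gram`, `hr_struct_*`).
Input: `gmt_lam_fv` (helper184), `HrSub`, `FlCoord`.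

`y = (z,t)`, `N_p = (-p, 1)`, `F(z,t,p) = hrF A = √(A_y(N_p,N_p))`, `𝒜 = hrA A = ∇_p F`: `⟪𝒜, q⟫ = - A_y(N_p,(q,0))/F`,   `ℬ = hrB A f = ∂_t F - f = ∂_t A_y (N_p,N_p)/(2F) - f(y)`.
EQUATION: `∫ ⟪𝒜(z,u,∇u), ∇ψ⟫ + ∫ ℬ(z,u,∇u) ψ = 0` for `ψ ∈ C_c^∞(ball 0 ρ)`  (`Lib.Ell.WeakQuasi`).
PLAN of `hr_el_weak`.  `ψ` a test function, `b = max_{tsupport ψ} |u| < ρ`; `η̃` smooth, `= 1` on `[-b',b']`, `= 0` off `(-b'',b'')`, `b < b' < b'' < ρ` (`Real.smoothTransition`, as `flEta`); `X = flVert (flPr ψ η̃) ∈ GmtTestS (hrCyl ρ)`.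
 `gmt_lam_fv`: `∫ (gmtFv1 A X y ν_S - f ⟪X,ν_S⟫) dμ_S = 0`; the integrand vanishes off `tsupport X ⊆ hrCyl ρ`; `hr_sub_integral` with `g y ν = gmtFv1 A X y ν - f y ⟪X y, ν⟫` (continuous on `Cyl × sphere`: `A ∈ C¹`, `A_y(ν,ν) > 0`).
 `gmtFv1 A X y ν = √(A ν ν) div X + (D_X A(ν,ν)/2 - A(ν, (DX)ᵀν))/√(A ν ν)` is positively `1`-homogeneous in `ν`: `gmtFv1 A X y (N/‖N‖) ‖N‖ = gmtFv1 A X y N`.
 At `y = Γ(z)`: `η̃ = 1`, `η̃' = 0` near `t = u z` when `ψ z ≠ 0`...(and everything vanishes when `z ∉ tsupport ψ`): `div X = 0`, `X = ψ e`, `D_X A = ψ ∂_t A`, `DX v = ⟪∇ψ, v'⟫ e`, `(DX)ᵀ N = (∇ψ, 0)` (as `N_t = 1`), `⟪X,N⟫ = ψ`.   (`hr_vert_fv1`)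
STRUCTURE.  `hr_gram`: for a symmetric form `B` with `c²|ξ|² ≤ B(ξ,ξ)`: `B(v,v)B(N,N) - B(N,v)² ≥ c⁴ (|v|²|N|² - ⟪v,N⟫²)`:  `B(v - sN, v - sN) ≥ c²|v - sN|² ≥ c² (|v|² - ⟪v,N⟫²/|N|²)` with `s = B(N,v)/B(N,N)`.
 `∂_p 𝒜 [q] · q = (B(v,v)B(N,N) - B(N,v)²)/F³`, `v = (q,0)`, `|v|²|N|² - ⟪v,N⟫² = |q|²(1+|p|²) - ⟪q,p⟫² ≥ |q|²`, `F ≤ C √(1+P²)`.
 Smoothness: `hrF² = A_y(N_p,N_p)` is smooth and `≥ c² > 0` on the box, `Real.sqrt` is smooth on `(0,∞)`.
 Uniform bounds for families (`hr_struct_bdd`): Mathlib's quantitative chain/Leibniz rules `norm_iteratedFDerivWithin_comp_le` / `norm_iteratedFDeriv_comp_le`, `ContinuousLinearMap.norm_iteratedFDeriv_le_of_bilinear`: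
 (i) `w ↦ A (gmtJoin z t)` (composition with a continuous linear map: `ContinuousLinearMap.norm_iteratedFDeriv_comp_right`-type bound), (ii) evaluation at `(N_p,N_p)` (trilinear in `(A, N, N)`, `N_p` affine in `p`, bounded on the box),
 (iii) `s ↦ s^{-1/2}` on `[c², ∞)`: all derivatives bounded, (iv) products.
-/

set_option autoImplicit false
open scoped ContDiff ENNReal RealInnerProductSpace Topology
open MeasureTheory Metric Set Filter

namespace Claimed.Agent.Gmt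

variable {n : ℕ}

/-- a smooth even cut-off on the line. -/
theorem hr_el_cut {b c : ℝ} (hb : 0 ≤ b) (hbc : b < c) :
    ∃ k : ℝ → ℝ, ContDiff ℝ ∞ k ∧ (∀ t, |t| ≤ b → k t = 1) ∧ (∀ t, c ≤ |t| → k t = 0) := by
  have hpos : 0 < c ^ 2 - b ^ 2 := by nlinarith
  refine ⟨fun t => Real.smoothTransition ((c ^ 2 - t ^ 2) / (c ^ 2 - b ^ 2)),
    Real.smoothTransition.contDiff.comp (by fun_prop), ?_, ?_⟩
  · intro t ht
    apply Real.smoothTransition.one_of_one_le
    rw [le_div_iff₀ hpos]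
    have : t ^ 2 ≤ b ^ 2 := by
      rw [← sq_abs t]
      exact pow_le_pow_left₀ (abs_nonneg t) ht 2
    linarith
  · intro t ht
    apply Real.smoothTransition.zero_of_nonpos
    apply div_nonpos_of_nonpos_of_nonneg _ hpos.le
    have : c ^ 2 ≤ t ^ 2 := by
      rw [← sq_abs t]
      exact pow_le_pow_left₀ (hb.trans hbc.le) ht 2
    linarith

/-- the vertical test field. -/
theorem hr_el_testS {ψ : E n → ℝ} {k : ℝ → ℝ} {ρ c : ℝ} (hψ : Lib.Ell.IsTest (ball (0 : E n) ρ) ψ)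
    (hk : ContDiff ℝ ∞ k) (hk0 : ∀ t, c ≤ |t| → k t = 0) (hc : c < ρ) :
    GmtTestS (hrCyl ρ) (flVert (flPr ψ k)) := by
  have hcl : IsClosed ((gmtHor ⁻¹' tsupport ψ : Set (E (n + 1))) ∩ {y | |gmtVer y| ≤ c}) :=
    ((isClosed_tsupport ψ).preimage fl_continuous_hor).inter
      (isClosed_le (continuous_abs.comp fl_continuous_ver) continuous_const)
  have hsub : tsupport (flVert (flPr ψ k)) ⊆
      (gmtHor ⁻¹' tsupport ψ : Set (E (n + 1))) ∩ {y | |gmtVer y| ≤ c} := by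
    refine (flv_tsupport _).trans (closure_minimal (fun y hy => ?_) hcl)
    constructor
    · apply subset_tsupport
      intro h0
      apply hy
      show ψ (gmtHor y) * k (gmtVer y) = 0
      rw [h0, zero_mul]
    · by_contra h1
      apply hy
      show ψ (gmtHor y) * k (gmtVer y) = 0
      rw [hk0 _ (not_le.1 h1).le, mul_zero]
  have hcpt : IsCompact ((gmtHor ⁻¹' tsupport ψ : Set (E (n + 1))) ∩ {y | |gmtVer y| ≤ c}) := by
    have h1 : IsCompact ((fun p : E n × ℝ => gmtJoin p.1 p.2) '' (tsupport ψ ×ˢ Icc (-c) c)) :=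
      (hψ.2.1.isCompact.prod isCompact_Icc).image fl_continuous_join
    refine h1.of_isClosed_subset hcl ?_
    intro y hy
    exact ⟨(gmtHor y, gmtVer y), ⟨hy.1, abs_le.1 hy.2⟩, fl_join_hor_ver y⟩
  refine ⟨(fl_pr_contDiff hψ.1 hk).smul contDiff_const, hcpt.of_isClosed_subset (isClosed_tsupport _) hsub,
    hsub.trans ?_⟩
  intro y hy
  have h1 : gmtHor y ∈ ball (0 : E n) ρ := hψ.2.2 hy.1
  rw [mem_ball_zero_iff] at h1
  exact ⟨h1, lt_of_le_of_lt hy.2 hc⟩

/-- continuity of the first variation integrand on `U × sphere`. -/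
theorem hr_el_cont {U : Set (E (n + 1))} {A : E (n + 1) → Bil (n + 1)} {f : E (n + 1) → ℝ}
    (hd : GmtData U A f) {X : E (n + 1) → E (n + 1)} (hX : GmtTestS U X) :
    ContinuousOn (Function.uncurry fun y ν => gmtFv1 A X y ν - f y * ⟪X y, ν⟫)
      (U ×ˢ sphere (0 : E (n + 1)) 1) := by
  have hsub : U ×ˢ sphere (0 : E (n + 1)) 1 ⊆ U ×ˢ ({0}ᶜ : Set (E (n + 1))) := by
    intro p hp
    refine ⟨hp.1, fun h0 => ?_⟩
    have h1 : ‖p.2‖ = 1 := by simpa using hp.2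
    rw [mem_singleton_iff.1 h0, norm_zero] at h1
    exact zero_ne_one h1
  have h1 := (gmtFv1_continuousOn hd.opn hd.int hX.test).mono hsub
  have hf : ContinuousOn (fun p : E (n + 1) × E (n + 1) => f p.1) (U ×ˢ sphere (0 : E (n + 1)) 1) :=
    hd.f.continuousOn.comp continuousOn_fst fun p hp => hp.1
  have hXc : ContinuousOn (fun p : E (n + 1) × E (n + 1) => X p.1) (U ×ˢ sphere (0 : E (n + 1)) 1) :=
    (hX.smooth.continuous.comp continuous_fst).continuousOn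
  exact h1.sub (hf.mul (hXc.inner continuousOn_snd))

/-- the horizontal part of the gradient of a product function. -/
theorem hr_el_hor_grad {ψ : E n → ℝ} {k : ℝ → ℝ} {y : E (n + 1)}
    (hψ : DifferentiableAt ℝ ψ (gmtHor y)) (hk : DifferentiableAt ℝ k (gmtVer y)) :
    gmtHor (gradient (flPr ψ k) y) = k (gmtVer y) • gradient ψ (gmtHor y) := by
  refine ext_inner_right ℝ fun q => ?_
  have h1 : ⟪gradient (flPr ψ k) y, flInc n q⟫ = ⟪gmtHor (gradient (flPr ψ k) y), q⟫ := by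
    rw [fl_inner, fl_inc_apply, fl_hor_join, fl_ver_join, mul_zero, add_zero]
  rw [← h1, gmt_inner_gradient, fl_pr_fderiv hψ hk, fl_inc_apply, fl_hor_join, fl_ver_join,
    real_inner_smul_left, gmt_inner_gradient]
  ring

/-- the pointwise identity on the graph. -/
theorem hr_el_pointwise (A : E (n + 1) → Bil (n + 1)) (f : E (n + 1) → ℝ) {u ψ : E n → ℝ} {k : ℝ → ℝ}
    (hψ : ContDiff ℝ ∞ ψ) (hk : ContDiff ℝ ∞ k) {z : E n}
    (h1 : z ∈ tsupport ψ → k (u z) = 1 ∧ deriv k (u z) = 0) :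
    (gmtFv1 A (flVert (flPr ψ k)) (hrG u z) (‖hrN u z‖⁻¹ • hrN u z)
        - f (hrG u z) * ⟪flVert (flPr ψ k) (hrG u z), ‖hrN u z‖⁻¹ • hrN u z⟫) * ‖hrN u z‖ =
      ⟪hrA A (z, u z, gradient u z), gradient ψ z⟫ + hrB A f (z, u z, gradient u z) * ψ z := by
  have hN0 : 0 < ‖hrN u z‖ := lt_of_lt_of_le one_pos (hr_one_le_norm_N u z)
  have hdψ : DifferentiableAt ℝ ψ (gmtHor (hrG u z)) := (hψ.differentiable (by simp)) _
  have hdk : DifferentiableAt ℝ k (gmtVer (hrG u z)) := (hk.differentiable (by simp)) _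
  have hda : DifferentiableAt ℝ (flPr ψ k) (hrG u z) := ((fl_pr_contDiff hψ hk).differentiable (by simp)) _
  have hhor : gmtHor (hrG u z) = z := fl_hor_join _ _
  have hver : gmtVer (hrG u z) = u z := fl_ver_join _ _
  -- the three facts
  have c1 : flPr ψ k (hrG u z) = ψ z := by
    show ψ (gmtHor (hrG u z)) * k (gmtVer (hrG u z)) = ψ z
    rw [hhor, hver]
    by_cases hz : z ∈ tsupport ψ
    · rw [(h1 hz).1, mul_one]
    · rw [image_eq_zero_of_notMem_tsupport hz, zero_mul]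
  have c2 : gmtHor (gradient (flPr ψ k) (hrG u z)) = gradient ψ z := by
    rw [hr_el_hor_grad hdψ hdk, hhor, hver]
    by_cases hz : z ∈ tsupport ψ
    · rw [(h1 hz).1, one_smul]
    · have : gradient ψ z = 0 := by
        unfold gradient
        rw [fderiv_of_notMem_tsupport (𝕜 := ℝ) hz, map_zero]
      rw [this, smul_zero]
  have c3 : fderiv ℝ (flPr ψ k) (hrG u z) (gmtEn n) = 0 := by
    rw [fl_pr_fderiv hdψ hdk, fl_hor_en, fl_ver_en, map_zero, zero_mul, zero_add, hhor, hver]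
    by_cases hz : z ∈ tsupport ψ
    · rw [(h1 hz).2]
      ring
    · rw [image_eq_zero_of_notMem_tsupport hz, zero_mul]
  have hNp : hrN u z = hrNp (gradient u z) := rfl
  rw [hr_fv1_homog A _ _ _ (inv_pos.2 hN0), real_inner_smul_right, fl_vert_inner, c1]
  have hverN : gmtVer (hrN u z) = 1 := fl_ver_join _ _
  rw [hverN, hNp, hr_vert_fv1 A hda c3, c1, c2, hr_A_inner]
  have hF : hrF A (z, u z, gradient u z)
      = Real.sqrt (A (hrG u z) (hrNp (gradient u z)) (hrNp (gradient u z))) := rfl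
  have hB : hrB A f (z, u z, gradient u z) = (2 * hrF A (z, u z, gradient u z))⁻¹ *
      fderiv ℝ A (hrG u z) (gmtEn n) (hrNp (gradient u z)) (hrNp (gradient u z)) - f (hrG u z) := rfl
  rw [hB, hF, ← hNp]
  have hG : gmtJoin (z, u z, gradient u z).1 (z, u z, gradient u z).2.1 = hrG u z := rfl
  simp only [hG]
  have hc : ‖hrN u z‖⁻¹ * ‖hrN u z‖ = 1 := inv_mul_cancel₀ hN0.ne'
  rw [mul_inv, div_eq_mul_inv]
  linear_combination ((ψ z * fderiv ℝ A (hrG u z) (gmtEn n) (hrN u z) (hrN u z) / 2 -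
    A (hrG u z) (hrN u z) (flInc n (gradient ψ z))) * (Real.sqrt (A (hrG u z) (hrN u z) (hrN u z)))⁻¹
      - f (hrG u z) * ψ z) * hc

/-- **the weak Euler-Lagrange equation.** -/
theorem hr_el_weak {U S : Set (E (n + 1))} {A : E (n + 1) → Bil (n + 1)} {f : E (n + 1) → ℝ}
    {u : E n → ℝ} {ρ : ℝ} (hd : GmtData U A f) (hS : GmtLAM A f U S) (hC : hrCyl ρ ⊆ U)
    (h : HrSub S u ρ) : Lib.Ell.WeakQuasi (ball (0 : E n) ρ) (hrA A) (hrB A f) u := by
  intro ψ hψ
  have hB : IsOpen (ball (0 : E n) ρ) := isOpen_ball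
  -- continuity on the ball
  have hgrad : ContinuousOn (gradient u) (ball (0 : E n) ρ) := by
    have h1 : ContinuousOn (fderiv ℝ u) (ball (0 : E n) ρ) :=
      h.c1.continuousOn_fderiv_of_isOpen isOpen_ball le_rfl
    exact (InnerProductSpace.toDual ℝ (E n)).symm.continuous.comp_continuousOn h1
  have hgradψ : Continuous (gradient ψ) :=
    (InnerProductSpace.toDual ℝ (E n)).symm.continuous.comp (hψ.1.continuous_fderiv (by simp))
  have hN : ContinuousOn (hrN u) (ball (0 : E n) ρ) :=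
    fl_continuous_join.comp_continuousOn (hgrad.neg.prodMk continuousOn_const)
  have hΓ : ContinuousOn (hrG u) (ball (0 : E n) ρ) :=
    fl_continuous_join.comp_continuousOn (continuousOn_id.prodMk h.c1.continuousOn)
  have hΓU : MapsTo (hrG u) (ball (0 : E n) ρ) U := by
    intro z hz
    refine hC ⟨?_, ?_⟩
    · rw [hrG, fl_hor_join]
      exact mem_ball_zero_iff.1 hz
    · rw [hrG, fl_ver_join]
      exact h.lt z hz
  have hAΓ : ContinuousOn (fun z => A (hrG u z)) (ball (0 : E n) ρ) :=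
    hd.int.smooth.continuousOn.comp hΓ hΓU
  have hQ : ContinuousOn (fun z => A (hrG u z) (hrN u z) (hrN u z)) (ball (0 : E n) ρ) :=
    (hAΓ.clm_apply hN).clm_apply hN
  have hN0 : ∀ z, hrN u z ≠ 0 := fun z h0 => by
    have := hr_one_le_norm_N u z
    rw [h0, norm_zero] at this
    linarith
  have hFc : ContinuousOn (fun z => hrF A (z, u z, gradient u z)) (ball (0 : E n) ρ) :=
    Real.continuous_sqrt.comp_continuousOn hQ
  have hFne : ∀ z ∈ ball (0 : E n) ρ, hrF A (z, u z, gradient u z) ≠ 0 := fun z hz =>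
    (Real.sqrt_pos.2 (hd.int.pos _ (hΓU hz) _ (hN0 z))).ne'
  have t1 : ContinuousOn (fun z => ⟪hrA A (z, u z, gradient u z), gradient ψ z⟫) (ball (0 : E n) ρ) := by
    simp only [hr_A_inner]
    exact ((hFc.inv₀ hFne).mul ((hAΓ.clm_apply hN).clm_apply
      ((flInc n).continuous.comp hgradψ).continuousOn)).neg
  have hDA : ContinuousOn (fun z => fderiv ℝ A (hrG u z) (gmtEn n)) (ball (0 : E n) ρ) :=
    (gmt_fderiv_apply_continuousOn hd.opn hd.int.smooth (continuous_const (y := gmtEn n))).comp hΓ hΓU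
  have t2 : ContinuousOn (fun z => hrB A f (z, u z, gradient u z) * ψ z) (ball (0 : E n) ρ) := by
    have h2F : ContinuousOn (fun z => (2 * hrF A (z, u z, gradient u z))⁻¹) (ball (0 : E n) ρ) :=
      (continuousOn_const.mul hFc).inv₀ fun z hz => mul_ne_zero two_ne_zero (hFne z hz)
    exact ((h2F.mul ((hDA.clm_apply hN).clm_apply hN)).sub (hd.f.continuousOn.comp hΓ hΓU)).mul
      hψ.1.continuous.continuousOn
  have z1 : ∀ z, z ∉ tsupport ψ → ⟪hrA A (z, u z, gradient u z), gradient ψ z⟫ = 0 := by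
    intro z hz
    have : gradient ψ z = 0 := by
      unfold gradient
      rw [fderiv_of_notMem_tsupport (𝕜 := ℝ) hz, map_zero]
    rw [this, inner_zero_right]
  have z2 : ∀ z, z ∉ tsupport ψ → hrB A f (z, u z, gradient u z) * ψ z = 0 := by
    intro z hz
    rw [image_eq_zero_of_notMem_tsupport hz, mul_zero]
  have i1 : Integrable (fun z => ⟪hrA A (z, u z, gradient u z), gradient ψ z⟫) :=
    (hr_gg_continuous_of_zero_off hB (isClosed_tsupport ψ) hψ.2.2 t1 z1).integrable_of_hasCompactSupport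
      (HasCompactSupport.intro hψ.2.1 z1)
  have i2 : Integrable (fun z => hrB A f (z, u z, gradient u z) * ψ z) :=
    (hr_gg_continuous_of_zero_off hB (isClosed_tsupport ψ) hψ.2.2 t2 z2).integrable_of_hasCompactSupport
      (HasCompactSupport.intro hψ.2.1 z2)
  rw [← integral_add i1 i2]
  -- the height bound on the support
  obtain ⟨b₀, hb₀, hb₀ρ, hub⟩ : ∃ b₀ : ℝ, 0 ≤ b₀ ∧ b₀ < ρ ∧ ∀ z ∈ tsupport ψ, |u z| ≤ b₀ := by
    by_cases hne : (tsupport ψ).Nonempty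
    · obtain ⟨z₀, hz₀, hmax⟩ := hψ.2.1.isCompact.exists_isMaxOn hne
        (continuous_abs.comp_continuousOn (h.c1.continuousOn.mono hψ.2.2))
      exact ⟨|u z₀|, abs_nonneg _, h.lt z₀ (hψ.2.2 hz₀), fun z hz => hmax hz⟩
    · exact ⟨0, le_rfl, h.pos, fun z hz => absurd ⟨z, hz⟩ hne⟩
  obtain ⟨k, hk, hk1, hk0⟩ := hr_el_cut (b := (2 * b₀ + ρ) / 3) (c := (b₀ + 2 * ρ) / 3) (by linarith)
    (by linarith)
  have hkz : ∀ z, z ∈ tsupport ψ → k (u z) = 1 ∧ deriv k (u z) = 0 := by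
    intro z hz
    have hlt : |u z| < (2 * b₀ + ρ) / 3 := lt_of_le_of_lt (hub z hz) (by linarith)
    refine ⟨hk1 _ hlt.le, ?_⟩
    have ho : IsOpen {t : ℝ | |t| < (2 * b₀ + ρ) / 3} := isOpen_lt continuous_abs continuous_const
    have : k =ᶠ[𝓝 (u z)] fun _ => 1 := by
      filter_upwards [ho.mem_nhds hlt] with t ht using hk1 t (le_of_lt ht)
    rw [this.deriv_eq]
    simp
  have hX : GmtTestS (hrCyl ρ) (flVert (flPr ψ k)) := hr_el_testS hψ hk hk0 (by linarith)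
  have hXU : GmtTestS U (flVert (flPr ψ k)) := ⟨hX.smooth, hX.cpt, hX.sub.trans hC⟩
  have fv := gmt_lam_fv hd.opn hd.int hd.f hS hXU
  rw [← setIntegral_eq_integral_of_forall_compl_eq_zero (s := hrCyl ρ)] at fv
  · have hsub := hr_sub_integral h
      (g := fun y ν => gmtFv1 A (flVert (flPr ψ k)) y ν - f y * ⟪flVert (flPr ψ k) y, ν⟫)
      ((hr_el_cont hd hXU).mono (prod_mono hC subset_rfl))
    rw [fv] at hsub
    rw [setIntegral_congr_fun measurableSet_ball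
      (fun z _ => hr_el_pointwise A f hψ.1 hk (hkz z))] at hsub
    rw [← setIntegral_eq_integral_of_forall_compl_eq_zero (s := ball (0 : E n) ρ)]
    · exact hsub.symm
    · intro z hz
      have hz' : z ∉ tsupport ψ := fun h' => hz (hψ.2.2 h')
      rw [z1 z hz', z2 z hz', add_zero]
  · intro y hy
    have hy' : y ∉ tsupport (flVert (flPr ψ k)) := fun h' => hy (hX.sub h')
    rw [gmtFv1_of_notMem A hy', image_eq_zero_of_notMem_tsupport hy', inner_zero_left, mul_zero, sub_zero]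

/-! ### structure -/

end Claimed.Agent.Gmt
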