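import Claimed.Agent.Lib.Gmt.HrEL2

/-!
THIS FILE = PACKAGE L-GMT-HrEL3 (part 3 of 4 of the former `HrEL.lean`, which now only imports the parts; the text below is the plan of the whole former file).
# Lib/Gmt G5.2 (architect: helper190): the weak Euler-Lagrange equation of a minimising `C¹` graph; the structure functions.
PACKAGES L-GMT-HrEL (`hr_vert_*`, `hr_el_weak`), L-GMT-HrStruct (`hr_F_*`, `hr_A_*`, `hr_B_*`, `hr_gram`, `hr_struct_*`).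
Input: `gmt_lam_fv` (helper184), `HrSub`, `FlCoord`.

`y = (z,t)`, `N_p = (-p, 1)`, `F(z,t,p) = hrF A = √(A_y(N_p,N_p))`, `𝒜 = hrA A = ∇_p F`: `⟪𝒜, q⟫ = - A_y(N_p,(q,0))/F`,   `ℬ = hrB A f = ∂_t F - f = ∂_t A_y (N_p,N_p)/(2F) - f(y)`.
EQUATION: `∫ ⟪𝒜(z,u,∇u), ∇ψ⟫ + ∫ ℬ(z,u,∇u) ψ = 0` for `ψ ∈ C_c^∞(ball 0 ρ)`  (`Lib.Ell.WeakQuasi`).
PLAN of `hr_el_weak`.  `ψ` a test function, `b = max_{tsupport ψ} |u| < ρ`; `η̃` smooth, `= 1` on `[-b',b']`, `= 0` off `(-b'',b'')`, `b < b' < b'' < ρ` (`Real.smoothTransition`, as `flEta`); `X = flVert (flPr ψ η̃) ∈ GmtTestS (hrCyl ρ)`.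
 `gmt_lam_fv`: `∫ (gmtFv1 A X y ν_S - f ⟪X,ν_S⟫) dμ_S = 0`; the integrand vanishes off `tsupport X ⊆ hrCyl ρ`; `hr_sub_integral` with `g y ν = gmtFv1 A X y ν - f y ⟪X y, ν⟫` (continuous on `Cyl × sphere`: `A ∈ C¹`, `A_y(ν,ν) > 0`).
 `gmtFv1 A X y ν = √(A ν ν) div X + (D_X A(ν,ν)/2 - A(ν, (DX)ᵀν))/√(A ν ν)` is positively `1`-homogeneous in `ν`: `gmtFv1 A X y (N/‖N‖) ‖N‖ = gmtFv1 A X y N`.
 At `y = Γ(z)`: `η̃ = 1`, `η̃' = 0` near `t = u z` when `ψ z ≠ 0`...(and everything vanishes when `z ∉ tsupport ψ`): `div X = 0`, `X = ψ e`, `D_X A = ψ ∂_t A`, `DX v = ⟪∇ψ, v'⟫ e`, `(DX)ᵀ N = (∇ψ, 0)` (as `N_t = 1`), `⟪X,N⟫ = ψ`.   (`hr_vert_fv1`)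
STRUCTURE.  `hr_gram`: for a symmetric form `B` with `c²|ξ|² ≤ B(ξ,ξ)`: `B(v,v)B(N,N) - B(N,v)² ≥ c⁴ (|v|²|N|² - ⟪v,N⟫²)`:  `B(v - sN, v - sN) ≥ c²|v - sN|² ≥ c² (|v|² - ⟪v,N⟫²/|N|²)` with `s = B(N,v)/B(N,N)`.
 `∂_p 𝒜 [q] · q = (B(v,v)B(N,N) - B(N,v)²)/F³`, `v = (q,0)`, `|v|²|N|² - ⟪v,N⟫² = |q|²(1+|p|²) - ⟪q,p⟫² ≥ |q|²`, `F ≤ C √(1+P²)`.
 Smoothness: `hrF² = A_y(N_p,N_p)` is smooth and `≥ c² > 0` on the box, `Real.sqrt` is smooth on `(0,∞)`.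
 Uniform bounds for families (`hr_struct_bdd`): Mathlib's quantitative chain/Leibniz rules `norm_iteratedFDerivWithin_comp_le` / `norm_iteratedFDeriv_comp_le`, `ContinuousLinearMap.norm_iteratedFDeriv_le_of_bilinear`:
 (i) `w ↦ A (gmtJoin z t)` (composition with a continuous linear map: `ContinuousLinearMap.norm_iteratedFDeriv_comp_right`-type bound), (ii) evaluation at `(N_p,N_p)` (trilinear in `(A, N, N)`, `N_p` affine in `p`, bounded on the box),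
 (iii) `s ↦ s^{-1/2}` on `[c², ∞)`: all derivatives bounded, (iv) products.
-/

set_option autoImplicit false
open scoped ContDiff ENNReal RealInnerProductSpace Topology
open MeasureTheory Metric Set Filter

namespace Claimed.Agent.Gmt

variable {n : ℕ}

/-- scalar form of the Gram inequality. -/
theorem hr_gram_aux {a b d x y z c : ℝ} (hy : 0 ≤ y) (hG : 0 ≤ x * y - z ^ 2) (hdy : c ^ 2 * y ≤ d)
    (hy0 : y = 0 → d = 0)
    (hq : ∀ s t : ℝ, c ^ 2 * (t ^ 2 * x - 2 * t * s * z + s ^ 2 * y) ≤ t ^ 2 * a - 2 * t * s * b + s ^ 2 * d) :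
    c ^ 4 * (x * y - z ^ 2) ≤ a * d - b ^ 2 := by
  have hc2 : 0 ≤ c ^ 2 := sq_nonneg c
  have hd : 0 ≤ d := le_trans (mul_nonneg hc2 hy) hdy
  rcases hd.eq_or_lt with hd0 | hdpos
  · -- `d = 0`
    have hcy : c ^ 2 * y = 0 := le_antisymm (by rw [hd0]; exact hdy) (mul_nonneg hc2 hy)
    have hb : b = c ^ 2 * z := by
      by_contra hne
      have hk : b - c ^ 2 * z ≠ 0 := sub_ne_zero.mpr hne
      have h1 := hq ((a - c ^ 2 * x + 1) / (2 * (b - c ^ 2 * z))) 1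
      rw [← hd0] at h1
      have h2 : 2 * ((a - c ^ 2 * x + 1) / (2 * (b - c ^ 2 * z))) * (b - c ^ 2 * z) = a - c ^ 2 * x + 1 := by
        field_simp
      set s := (a - c ^ 2 * x + 1) / (2 * (b - c ^ 2 * z)) with hs
      nlinarith
    rw [← hd0, hb]
    have : c ^ 4 * (x * y - z ^ 2) = c ^ 2 * x * (c ^ 2 * y) - (c ^ 2 * z) ^ 2 := by ring
    rw [this, hcy]
    linarith
  · have hypos : 0 < y := by
      rcases hy.eq_or_lt with h | h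
      · exact absurd (hy0 h.symm) hdpos.ne'
      · exact h
    have h1 := hq b d
    -- `c² (d² x - 2 d b z + b² y) ≤ d (d a - b²)`
    have h2 : c ^ 2 * (d ^ 2 * (x * y - z ^ 2)) ≤ d * y * (a * d - b ^ 2) := by
      have h3 : c ^ 2 * (d ^ 2 * (x * y - z ^ 2)) ≤ c ^ 2 * ((d ^ 2 * x - 2 * d * b * z + b ^ 2 * y) * y) := by
        apply mul_le_mul_of_nonneg_left _ hc2
        nlinarith [sq_nonneg (d * z - b * y)]
      have h4 := mul_le_mul_of_nonneg_right h1 hy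
      nlinarith
    have h5 : c ^ 2 * (d * (x * y - z ^ 2)) ≤ y * (a * d - b ^ 2) := by
      have : d * (c ^ 2 * (d * (x * y - z ^ 2))) ≤ d * (y * (a * d - b ^ 2)) := by nlinarith
      exact le_of_mul_le_mul_left this hdpos
    have h6 : c ^ 2 * (c ^ 2 * y * (x * y - z ^ 2)) ≤ c ^ 2 * (d * (x * y - z ^ 2)) :=
      mul_le_mul_of_nonneg_left (mul_le_mul_of_nonneg_right hdy hG) hc2
    have h7 : y * (c ^ 4 * (x * y - z ^ 2)) ≤ y * (a * d - b ^ 2) := by nlinarith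
    exact le_of_mul_le_mul_left h7 hypos

theorem hr_gram {m : ℕ} {B : Bil m} {c : ℝ} (hsymm : ∀ ξ η : E m, B ξ η = B η ξ)
    (hlo : ∀ ξ : E m, c ^ 2 * ‖ξ‖ ^ 2 ≤ B ξ ξ) (v N : E m) :
    c ^ 4 * (‖v‖ ^ 2 * ‖N‖ ^ 2 - ⟪v, N⟫ ^ 2) ≤ B v v * B N N - B N v ^ 2 := by
  refine hr_gram_aux (sq_nonneg _) ?_ (hlo N) ?_ ?_
  · have := abs_real_inner_le_norm v N
    have h2 : ⟪v, N⟫ ^ 2 ≤ (‖v‖ * ‖N‖) ^ 2 := by
      rw [← sq_abs]
      exact pow_le_pow_left₀ (abs_nonneg _) this 2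
    nlinarith
  · intro h
    have : N = 0 := by
      have := pow_eq_zero_iff (two_ne_zero) |>.mp h
      exact norm_eq_zero.mp this
    rw [this]; simp
  · intro s t
    have h1 := hlo (t • v - s • N)
    have e1 : ‖t • v - s • N‖ ^ 2 = t ^ 2 * ‖v‖ ^ 2 - 2 * t * s * ⟪v, N⟫ + s ^ 2 * ‖N‖ ^ 2 := by
      rw [norm_sub_sq_real, norm_smul, norm_smul, real_inner_smul_left, real_inner_smul_right, mul_pow, mul_pow,
        Real.norm_eq_abs, Real.norm_eq_abs, sq_abs, sq_abs]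
      ring
    have e2 : B (t • v - s • N) (t • v - s • N) = t ^ 2 * B v v - 2 * t * s * B N v + s ^ 2 * B N N := by
      simp only [map_sub, map_smul, _root_.smul_apply, _root_.sub_apply, smul_eq_mul]
      rw [hsymm v N]
      ring
    rw [e1, e2] at h1
    exact h1

/-- quantitative hypotheses on the data in the cylinder. -/
structure HrDat (ρ c C : ℝ) (A : E (n + 1) → Bil (n + 1)) (f : E (n + 1) → ℝ) : Prop where
  smoothA : ContDiffOn ℝ ∞ A (hrCyl ρ)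
  smoothf : ContDiffOn ℝ ∞ f (hrCyl ρ)
  symm : ∀ y ∈ hrCyl ρ, ∀ ξ η : E (n + 1), A y ξ η = A y η ξ
  lo : ∀ y ∈ hrCyl ρ, ∀ ξ : E (n + 1), c ^ 2 * ‖ξ‖ ^ 2 ≤ A y ξ ξ
  hi : ∀ y ∈ hrCyl ρ, ∀ ξ : E (n + 1), A y ξ ξ ≤ C ^ 2 * ‖ξ‖ ^ 2

theorem hr_el_box_cyl {ρ P : ℝ} {w : E n × ℝ × E n} (hw : w ∈ hrBox ρ P) : gmtJoin w.1 w.2.1 ∈ hrCyl ρ := by
  refine ⟨?_, ?_⟩
  · rw [fl_hor_join]; exact hw.1
  · rw [fl_ver_join]; exact hw.2.1

theorem hr_norm_Np (p : E n) : ‖hrNp p‖ ^ 2 = 1 + ‖p‖ ^ 2 := by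
  rw [fl_norm_sq, hrNp, fl_hor_join, fl_ver_join, norm_neg]
  ring

theorem hr_Np_eq (p : E n) : hrNp p = gmtEn n - flInc n p := by
  rw [hrNp, fl_join_eq, map_neg, one_smul]
  abel

theorem hr_F_sq_lo {ρ c C P : ℝ} {A : E (n + 1) → Bil (n + 1)} {f : E (n + 1) → ℝ}
    (h : HrDat ρ c C A f) {w : E n × ℝ × E n} (hw : w ∈ hrBox ρ P) :
    c ^ 2 ≤ A (gmtJoin w.1 w.2.1) (hrNp w.2.2) (hrNp w.2.2) := by
  have h1 := h.lo _ (hr_el_box_cyl hw) (hrNp w.2.2)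
  rw [hr_norm_Np] at h1
  nlinarith [sq_nonneg c, sq_nonneg ‖w.2.2‖, mul_nonneg (sq_nonneg c) (sq_nonneg ‖w.2.2‖)]

theorem hr_F_bounds {ρ c C P : ℝ} {A : E (n + 1) → Bil (n + 1)} {f : E (n + 1) → ℝ} (hc : 0 < c)
    (hC : 0 ≤ C) (h : HrDat ρ c C A f) {w : E n × ℝ × E n} (hw : w ∈ hrBox ρ P) :
    c ≤ hrF A w ∧ hrF A w ≤ C * Real.sqrt (1 + P ^ 2) := by
  constructor
  · unfold hrF
    exact Real.le_sqrt_of_sq_le (hr_F_sq_lo h hw)
  · unfold hrF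
    have h1 := h.hi _ (hr_el_box_cyl hw) (hrNp w.2.2)
    rw [hr_norm_Np] at h1
    have hp : ‖w.2.2‖ ^ 2 ≤ P ^ 2 := pow_le_pow_left₀ (norm_nonneg _) hw.2.2.le 2
    have h2 : A (gmtJoin w.1 w.2.1) (hrNp w.2.2) (hrNp w.2.2) ≤ C ^ 2 * (1 + P ^ 2) :=
      h1.trans (mul_le_mul_of_nonneg_left (by linarith) (sq_nonneg C))
    calc Real.sqrt (A (gmtJoin w.1 w.2.1) (hrNp w.2.2) (hrNp w.2.2)) ≤ Real.sqrt (C ^ 2 * (1 + P ^ 2)) :=
          Real.sqrt_le_sqrt h2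
      _ = C * Real.sqrt (1 + P ^ 2) := by rw [Real.sqrt_mul (sq_nonneg C), Real.sqrt_sq hC]

theorem hr_sharp_eq_sum {m : ℕ} (B : Bil m) (ξ : E m) : gmtSharp B ξ = ∑ i, B ξ (eb i) • eb i := by
  refine ext_inner_right ℝ fun x => ?_
  unfold gmtSharp
  rw [InnerProductSpace.toDual_symm_apply, sum_inner]
  have hx : x = ∑ i, x i • eb i := by
    ext j
    simp [Finset.sum_apply, Pi.single_apply]
  conv_lhs => rw [hx, map_sum]
  refine Finset.sum_congr rfl fun i _ => ?_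
  rw [map_smul, real_inner_smul_left, smul_eq_mul, mul_comm]
  congr 1
  simp [EuclideanSpace.inner_single_left]

theorem hr_smooth_J : ContDiff ℝ ∞ fun w : E n × ℝ × E n => gmtJoin w.1 w.2.1 := by
  have : (fun w : E n × ℝ × E n => gmtJoin w.1 w.2.1) = fun w => flInc n w.1 + w.2.1 • gmtEn n := by
    funext w; exact fl_join_eq _ _
  rw [this]
  fun_prop

theorem hr_smooth_Np : ContDiff ℝ ∞ fun w : E n × ℝ × E n => hrNp w.2.2 := by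
  have : (fun w : E n × ℝ × E n => hrNp w.2.2) = fun w => gmtEn n - flInc n w.2.2 := by
    funext w; exact hr_Np_eq _
  rw [this]
  fun_prop

theorem hr_smooth_AJ {ρ c C : ℝ} (P : ℝ) {A : E (n + 1) → Bil (n + 1)} {f : E (n + 1) → ℝ}
    (h : HrDat ρ c C A f) : ContDiffOn ℝ ∞ (fun w : E n × ℝ × E n => A (gmtJoin w.1 w.2.1)) (hrBox ρ P) :=
  h.smoothA.comp hr_smooth_J.contDiffOn fun _ hw => hr_el_box_cyl hw

theorem hr_smooth_Finv {ρ c C : ℝ} (P : ℝ) {A : E (n + 1) → Bil (n + 1)} {f : E (n + 1) → ℝ}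
    (hc : 0 < c) (h : HrDat ρ c C A f) : ContDiffOn ℝ ∞ (fun w => (hrF A w)⁻¹) (hrBox ρ P) := by
  have h1 : ContDiffOn ℝ ∞ (fun w : E n × ℝ × E n => A (gmtJoin w.1 w.2.1) (hrNp w.2.2) (hrNp w.2.2))
      (hrBox ρ P) :=
    ((hr_smooth_AJ P h).clm_apply hr_smooth_Np.contDiffOn).clm_apply hr_smooth_Np.contDiffOn
  have hpos : ∀ w ∈ hrBox ρ P, 0 < A (gmtJoin w.1 w.2.1) (hrNp w.2.2) (hrNp w.2.2) := fun w hw =>
    lt_of_lt_of_le (by positivity) (hr_F_sq_lo h hw)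
  have h2 : ContDiffOn ℝ ∞ (hrF A) (hrBox ρ P) := h1.sqrt fun w hw => (hpos w hw).ne'
  exact h2.inv fun w hw => (Real.sqrt_pos.mpr (hpos w hw)).ne'

set_option maxSynthPendingDepth 3 in
theorem hr_struct_smooth {ρ c C P : ℝ} {A : E (n + 1) → Bil (n + 1)} {f : E (n + 1) → ℝ}
    (hc : 0 < c) (h : HrDat ρ c C A f) :
    ContDiffOn ℝ ∞ (hrA A) (hrBox ρ P) ∧ ContDiffOn ℝ ∞ (hrB A f) (hrBox ρ P) := by
  have hAN : ContDiffOn ℝ ∞ (fun w : E n × ℝ × E n => A (gmtJoin w.1 w.2.1) (hrNp w.2.2)) (hrBox ρ P) :=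
    (hr_smooth_AJ P h).clm_apply hr_smooth_Np.contDiffOn
  constructor
  · have h1 : ContDiffOn ℝ ∞ (fun w : E n × ℝ × E n => gmtSharp (A (gmtJoin w.1 w.2.1)) (hrNp w.2.2))
        (hrBox ρ P) := by
      simp only [hr_sharp_eq_sum]
      refine ContDiffOn.sum fun i _ => ?_
      exact (hAN.clm_apply contDiffOn_const).smul contDiffOn_const
    have h2 : ContDiffOn ℝ ∞ (fun w : E n × ℝ × E n => gmtHor (gmtSharp (A (gmtJoin w.1 w.2.1)) (hrNp w.2.2)))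
        (hrBox ρ P) := (gmtHorL n).contDiff.comp_contDiffOn h1
    exact ((hr_smooth_Finv P hc h).smul h2).neg
  · have hdA : ContDiffOn ℝ ∞ (fderiv ℝ A) (hrCyl ρ) :=
      h.smoothA.fderiv_of_isOpen (hr_isOpen_cyl ρ) (by simp)
    have h1 : ContDiffOn ℝ ∞ (fun w : E n × ℝ × E n => fderiv ℝ A (gmtJoin w.1 w.2.1)) (hrBox ρ P) :=
      hdA.comp hr_smooth_J.contDiffOn fun _ hw => hr_el_box_cyl hw
    have h2 : ContDiffOn ℝ ∞ (fun w : E n × ℝ × E n =>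
        fderiv ℝ A (gmtJoin w.1 w.2.1) (gmtEn n) (hrNp w.2.2) (hrNp w.2.2)) (hrBox ρ P) :=
      ((h1.clm_apply contDiffOn_const).clm_apply hr_smooth_Np.contDiffOn).clm_apply hr_smooth_Np.contDiffOn
    have h3 : ContDiffOn ℝ ∞ (fun w : E n × ℝ × E n => f (gmtJoin w.1 w.2.1)) (hrBox ρ P) :=
      h.smoothf.comp hr_smooth_J.contDiffOn fun _ hw => hr_el_box_cyl hw
    have h4 : ContDiffOn ℝ ∞ (fun w : E n × ℝ × E n => (2 * hrF A w)⁻¹) (hrBox ρ P) := by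
      have : (fun w : E n × ℝ × E n => (2 * hrF A w)⁻¹) = fun w => (2 : ℝ)⁻¹ * (hrF A w)⁻¹ := by
        funext w; rw [mul_inv]
      rw [this]
      exact contDiffOn_const.mul (hr_smooth_Finv P hc h)
    exact (h4.mul h2).sub h3

/-- the one-dimensional computation behind `hr_A_fderiv`. -/
theorem hr_A_deriv_aux {α β γ δ ε : ℝ} (hα : 0 < α) :
    HasDerivAt (fun s : ℝ => -((Real.sqrt (α - 2 * s * β + s ^ 2 * γ))⁻¹ * (δ - s * ε)))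
      ((ε * α - β * δ) / Real.sqrt α ^ 3) 0 := by
  have h1 : HasDerivAt (fun s : ℝ => α - 2 * s * β + s ^ 2 * γ) (-2 * β) 0 := by
    have h := ((hasDerivAt_const (0 : ℝ) α).fun_sub (((hasDerivAt_id' (0 : ℝ)).const_mul 2).mul_const β)).fun_add
      (((hasDerivAt_id' (0 : ℝ)).fun_pow 2).mul_const γ)
    refine h.congr_deriv ?_
    simp
  have h0 : α - 2 * 0 * β + (0 : ℝ) ^ 2 * γ = α := by ring
  have hr : 0 < Real.sqrt α := Real.sqrt_pos.mpr hα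
  have h2 := h1.sqrt (by rw [h0]; exact hα.ne')
  have h3 := h2.fun_inv (by rw [h0]; exact hr.ne')
  have h4 : HasDerivAt (fun s : ℝ => δ - s * ε) (-ε) 0 := by
    have h := (hasDerivAt_const (0 : ℝ) δ).fun_sub ((hasDerivAt_id' (0 : ℝ)).mul_const ε)
    refine h.congr_deriv ?_
    simp
  have h5 := (h3.fun_mul h4).fun_neg
  refine h5.congr_deriv ?_
  rw [h0]
  have hsq : α = Real.sqrt α ^ 2 := (Real.sq_sqrt hα.le).symm
  set r := Real.sqrt α with hrdef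
  rw [hsq]
  field_simp
  ring

/-- the `p`-derivative of `𝒜`. -/
theorem hr_A_fderiv {ρ c C P : ℝ} {A : E (n + 1) → Bil (n + 1)} {f : E (n + 1) → ℝ} (hc : 0 < c)
    (h : HrDat ρ c C A f) {w : E n × ℝ × E n} (hw : w ∈ hrBox ρ P) (q q' : E n) :
    ⟪fderiv ℝ (fun p => hrA A (w.1, w.2.1, p)) w.2.2 q, q'⟫ =
      (A (gmtJoin w.1 w.2.1) (flInc n q) (flInc n q') * hrF A w ^ 2 -
        A (gmtJoin w.1 w.2.1) (hrNp w.2.2) (flInc n q) *
          A (gmtJoin w.1 w.2.1) (hrNp w.2.2) (flInc n q')) / hrF A w ^ 3 := by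
  have hα : 0 < A (gmtJoin w.1 w.2.1) (hrNp w.2.2) (hrNp w.2.2) :=
    lt_of_lt_of_le (by positivity) (hr_F_sq_lo h hw)
  have hsymm := h.symm _ (hr_el_box_cyl hw)
  have hd : DifferentiableAt ℝ (hrA A) w :=
    ((hr_struct_smooth (P := P) hc h).1.contDiffAt ((hr_isOpen_box ρ P).mem_nhds hw)).differentiableAt (by simp)
  have hG : DifferentiableAt ℝ (fun p => hrA A (w.1, w.2.1, p)) w.2.2 :=
    DifferentiableAt.comp (f := fun p : E n => ((w.1, w.2.1, p) : E n × ℝ × E n)) w.2.2 hd (by fun_prop)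
  have hl : HasDerivAt (fun s : ℝ => w.2.2 + s • q) q 0 := by
    have := ((hasDerivAt_id' (0 : ℝ)).smul_const q).const_add w.2.2
    simpa using this
  have h1 : HasDerivAt (fun s : ℝ => hrA A (w.1, w.2.1, w.2.2 + s • q))
      (fderiv ℝ (fun p => hrA A (w.1, w.2.1, p)) w.2.2 q) 0 :=
    HasFDerivAt.comp_hasDerivAt_of_eq (l := fun p => hrA A (w.1, w.2.1, p)) (0 : ℝ) hG.hasFDerivAt hl (by simp)
  have h2 := h1.inner ℝ (hasDerivAt_const (0 : ℝ) q')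
  have hfun : (fun s : ℝ => ⟪hrA A (w.1, w.2.1, w.2.2 + s • q), q'⟫) = fun s : ℝ =>
      -((Real.sqrt (A (gmtJoin w.1 w.2.1) (hrNp w.2.2) (hrNp w.2.2)
          - 2 * s * A (gmtJoin w.1 w.2.1) (hrNp w.2.2) (flInc n q)
          + s ^ 2 * A (gmtJoin w.1 w.2.1) (flInc n q) (flInc n q)))⁻¹ *
        (A (gmtJoin w.1 w.2.1) (hrNp w.2.2) (flInc n q') - s * A (gmtJoin w.1 w.2.1) (flInc n q) (flInc n q'))) := by
    funext s
    have hN : hrNp (w.2.2 + s • q) = hrNp w.2.2 - s • flInc n q := by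
      rw [hr_Np_eq, hr_Np_eq, map_add, map_smul]
      abel
    rw [hr_A_inner]
    unfold hrF
    simp only [hN, map_sub, map_smul, _root_.smul_apply, _root_.sub_apply, smul_eq_mul]
    rw [hsymm (flInc n q) (hrNp w.2.2)]
    congr 4
    ring
  rw [hfun] at h2
  have h3 := h2.unique (hr_A_deriv_aux hα)
  rw [inner_zero_right, zero_add] at h3
  rw [h3]
  unfold hrF
  rw [Real.sq_sqrt hα.le]

/-- ellipticity. -/
theorem hr_struct_ell {ρ c C P : ℝ} {A : E (n + 1) → Bil (n + 1)} {f : E (n + 1) → ℝ} (hc : 0 < c)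
    (hcC : c ≤ C) (h : HrDat ρ c C A f) {w : E n × ℝ × E n} (hw : w ∈ hrBox ρ P) (q : E n) :
    c ^ 4 / (C * Real.sqrt (1 + P ^ 2)) ^ 3 * ‖q‖ ^ 2 ≤
      ⟪fderiv ℝ (fun p => hrA A (w.1, w.2.1, p)) w.2.2 q, q⟫ := by
  have hα : 0 < A (gmtJoin w.1 w.2.1) (hrNp w.2.2) (hrNp w.2.2) :=
    lt_of_lt_of_le (by positivity) (hr_F_sq_lo h hw)
  obtain ⟨hF1, hF2⟩ := hr_F_bounds hc (hc.le.trans hcC) h hw
  have hFpos : 0 < hrF A w := lt_of_lt_of_le hc hF1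
  have hFsq : hrF A w ^ 2 = A (gmtJoin w.1 w.2.1) (hrNp w.2.2) (hrNp w.2.2) := by
    unfold hrF; rw [Real.sq_sqrt hα.le]
  rw [hr_A_fderiv hc h hw q q, hFsq]
  have hg := hr_gram (h.symm _ (hr_el_box_cyl hw)) (h.lo _ (hr_el_box_cyl hw)) (flInc n q) (hrNp w.2.2)
  have hin : ⟪flInc n q, hrNp w.2.2⟫ = -⟪q, w.2.2⟫ := by
    rw [fl_inner, fl_inc_apply, fl_hor_join, fl_ver_join, hrNp, fl_hor_join, fl_ver_join, inner_neg_right]
    ring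
  rw [fl_norm_inc, hr_norm_Np, hin] at hg
  have hcs : ⟪q, w.2.2⟫ ^ 2 ≤ ‖q‖ ^ 2 * ‖w.2.2‖ ^ 2 := by
    have := abs_real_inner_le_norm q w.2.2
    rw [← mul_pow, ← sq_abs]
    exact pow_le_pow_left₀ (abs_nonneg _) this 2
  have hnum : c ^ 4 * ‖q‖ ^ 2 ≤ A (gmtJoin w.1 w.2.1) (flInc n q) (flInc n q) *
      A (gmtJoin w.1 w.2.1) (hrNp w.2.2) (hrNp w.2.2) -
      A (gmtJoin w.1 w.2.1) (hrNp w.2.2) (flInc n q) * A (gmtJoin w.1 w.2.1) (hrNp w.2.2) (flInc n q) := by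
    refine le_trans ?_ (le_trans hg (le_of_eq (by ring)))
    apply mul_le_mul_of_nonneg_left _ (by positivity)
    nlinarith
  have hM : hrF A w ^ 3 ≤ (C * Real.sqrt (1 + P ^ 2)) ^ 3 := pow_le_pow_left₀ hFpos.le hF2 3
  calc c ^ 4 / (C * Real.sqrt (1 + P ^ 2)) ^ 3 * ‖q‖ ^ 2
      = c ^ 4 * ‖q‖ ^ 2 / (C * Real.sqrt (1 + P ^ 2)) ^ 3 := by ring
    _ ≤ c ^ 4 * ‖q‖ ^ 2 / hrF A w ^ 3 :=
        div_le_div_of_nonneg_left (by positivity) (by positivity) hM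
    _ ≤ _ := div_le_div_of_nonneg_right hnum (by positivity)

end Claimed.Agent.Gmt
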