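import Claimed.Agent.Lib.Gmt.HrEL3
import Claimed.Agent.Lib.Ell.Cb

/-!
THIS FILE = PACKAGE L-GMT-HrEL4 (part 4 of 4 of the former `HrEL.lean`, which now only imports the parts; the text below is the plan of the whole former file).
# Lib/Gmt G5.2 (architect: helper190): the weak Euler-Lagrange equation of a minimising `C¹` graph; the structure functions.
PACKAGES L-GMT-HrEL (`hr_vert_*`, `hr_el_weak`), L-GMT-HrStruct (`hr_F_*`, `hr_A_*`, `hr_B_*`, `hr_gram`, `hr_struct_*`).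
Input: `gmt_lam_fv` (helper184), `HrSub`, `FlCoord`.

`y = (z,t)`, `N_p = (-p, 1)`, `F(z,t,p) = hrF A = √(A_y(N_p,N_p))`, `𝒜 = hrA A = ∇_p F`: `⟪𝒜, q⟫ = - A_y(N_p,(q,0))/F`,   `ℬ = hrB A f = ∂_t F - f = ∂_t A_y (N_p,N_p)/(2F) - f(y)`.
EQUATION: `∫ ⟪𝒜(z,u,∇u), ∇ψ⟫ + ∫ ℬ(z,u,∇u) ψ = 0` for `ψ ∈ C_c^∞(ball 0 ρ)`  (`Lib.Ell.WeakQuasi`).
PLAN of `hr_el_weak`.  `ψ` a test function, `b = max_{tsupport ψ} |u| < ρ`; `η̃` smooth, `= 1` on `[-b',b']`, `= 0` off `(-b'',b'')`, `b < b' < b'' < ρ` (`Real.smoothTransition`, as `flEta`); `X = flVert (flPr ψ η̃) ∈ GmtTestS (hrCyl ρ)`.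
 `gmt_lam_fv`: `∫ (gmtFv1 A X y ν_S - f ⟪X,ν_S⟫) dμ_S = 0`; the integrand vanishes off `tsupport X ⊆ hrCyl ρ`; `hr_sub_integral` with `g y ν = gmtFv1 A X y ν - f y ⟪X y, ν⟫` (continuous on `Cyl × sphere`: `A ∈ C¹`, `A_y(ν,ν) > 0`).
 `gmtFv1 A X y ν = √(A ν ν) div X + (D_X A(ν,ν)/2 - A(ν, (DX)ᵀν))/√(A ν ν)` is positively `1`-homogeneous in `ν`: `gmtFv1 A X y (N/‖N‖) ‖N‖ = gmtFv1 A X y N`.
 At `y = Γ(z)`: `η̃ = 1`, `η̃' = 0` near `t = u z` when `ψ z ≠ 0`...(and everything vanishes when `z ∉ tsupport ψ`): `div X = 0`, `X = ψ e`, `D_X A = ψ ∂_t A`, `DX v = ⟪∇ψ, v'⟫ e`, `(DX)ᵀ N = (∇ψ, 0)` (as `N_t = 1`), `⟪X,N⟫ = ψ`.   (`hr_vert_fv1`)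
STRUCTURE.  `hr_gram`: for a symmetric form `B` with `c²|ξ|² ≤ B(ξ,ξ)`: `B(v,v)B(N,N) - B(N,v)² ≥ c⁴ (|v|²|N|² - ⟪v,N⟫²)`:  `B(v - sN, v - sN) ≥ c²|v - sN|² ≥ c² (|v|² - ⟪v,N⟫²/|N|²)` with `s = B(N,v)/B(N,N)`.
 `∂_p 𝒜 [q] · q = (B(v,v)B(N,N) - B(N,v)²)/F³`, `v = (q,0)`, `|v|²|N|² - ⟪v,N⟫² = |q|²(1+|p|²) - ⟪q,p⟫² ≥ |q|²`, `F ≤ C √(1+P²)`.
 Smoothness: `hrF² = A_y(N_p,N_p)` is smooth and `≥ c² > 0` on the box, `Real.sqrt` is smooth on `(0,∞)`.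
 Uniform bounds for families (`hr_struct_bdd`): Mathlib's quantitative chain/Leibniz rules `norm_iteratedFDerivWithin_comp_le` / `norm_iteratedFDeriv_comp_le`, `ContinuousLinearMap.norm_iteratedFDeriv_le_of_bilinear`:
 (i) `w ↦ A (gmtJoin z t)` (composition with a continuous linear map: `ContinuousLinearMap.norm_iteratedFDeriv_comp_right`-type bound), (ii) evaluation at `(N_p,N_p)` (trilinear in `(A, N, N)`, `N_p` affine in `p`, bounded on the box),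
 (iii) `s ↦ s^{-1/2}` on `[c², ∞)`: all derivatives bounded, (iv) products.
-/

set_option autoImplicit false
open scoped ContDiff ENNReal RealInnerProductSpace Topology Nat
open MeasureTheory Metric Set Filter

namespace Claimed.Agent.Gmt

section generic

variable {X Y Z : Type} [NormedAddCommGroup X] [NormedSpace ℝ X] [NormedAddCommGroup Y] [NormedSpace ℝ Y]
  [NormedAddCommGroup Z] [NormedSpace ℝ Z]

/-- the chain rule for maps with bounds on all derivatives. -/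
theorem hr_cb_comp {Ω : Set X} {Ω' : Set Y} (hΩ : IsOpen Ω) (hΩ' : IsOpen Ω') {f : X → Y} {g : Y → Z}
    {Λf Λg : ℕ → ℝ} (hf : Lib.Ell.CbLe Λf Ω f) (hg : Lib.Ell.CbLe Λg Ω' g) (hm : MapsTo f Ω Ω') :
    Lib.Ell.CbLe (fun k => k ! * (∑ i ∈ Finset.range (k + 1), Λg i) *
      (1 + ∑ i ∈ Finset.range (k + 1), Λf i) ^ k) Ω (fun x => g (f x)) := by
  refine ⟨hg.smooth.comp hf.smooth hm, fun k x hx => ?_⟩
  have hg0 : ∀ i, 0 ≤ Λg i := fun i => (norm_nonneg _).trans (hg.bd i (f x) (hm hx))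
  have hf0 : ∀ i, 0 ≤ Λf i := fun i => (norm_nonneg _).trans (hf.bd i x hx)
  have h := norm_iteratedFDerivWithin_comp_le (n := k) (N := ∞) hg.smooth hf.smooth
    (by exact_mod_cast le_top) hΩ'.uniqueDiffOn hΩ.uniqueDiffOn hm hx
    (C := ∑ i ∈ Finset.range (k + 1), Λg i) (D := 1 + ∑ i ∈ Finset.range (k + 1), Λf i)
    (by
      intro i hi
      rw [iteratedFDerivWithin_of_isOpen i hΩ' (hm hx)]
      exact (hg.bd i _ (hm hx)).trans (Finset.single_le_sum (f := Λg) (fun j _ => hg0 j)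
        (Finset.mem_range.2 (Nat.lt_succ_of_le hi))))
    (by
      intro i hi1 hi
      rw [iteratedFDerivWithin_of_isOpen i hΩ hx]
      have h1 : Λf i ≤ ∑ i ∈ Finset.range (k + 1), Λf i :=
        Finset.single_le_sum (f := Λf) (fun j _ => hf0 j) (Finset.mem_range.2 (Nat.lt_succ_of_le hi))
      have h2 : 0 ≤ ∑ i ∈ Finset.range (k + 1), Λf i := Finset.sum_nonneg fun j _ => hf0 j
      have h3 : (1 : ℝ) ≤ 1 + ∑ i ∈ Finset.range (k + 1), Λf i := by linarith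
      calc _ ≤ Λf i := hf.bd i x hx
        _ ≤ 1 + ∑ i ∈ Finset.range (k + 1), Λf i := by linarith
        _ ≤ _ := le_self_pow₀ h3 (by omega))
  rw [iteratedFDerivWithin_of_isOpen k hΩ hx] at h
  exact h

/-- directional derivatives. -/
theorem hr_cb_fd_apply {Ω : Set X} (hΩ : IsOpen Ω) {f : X → Y} {Λ : ℕ → ℝ} (hf : Lib.Ell.CbLe Λ Ω f) (v : X) :
    Lib.Ell.CbLe (fun j => ‖ContinuousLinearMap.apply ℝ Y v‖ * Λ (j + 1)) Ω (fun x => fderiv ℝ f x v) :=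
  (hf.fd hΩ).clm_post hΩ (ContinuousLinearMap.apply ℝ Y v)

end generic

/-- negative powers on a half line away from zero. -/
theorem hr_cb_rpow {a r : ℝ} (ha : 0 < a) (hr : r ≤ 0) :
    Lib.Ell.CbLe (fun k : ℕ => |(descPochhammer ℝ k).eval r| * a ^ (r - k)) (Ioi a) (fun s : ℝ => s ^ r) := by
  refine ⟨fun s hs => (Real.contDiffAt_rpow_const_of_ne (ha.trans hs).ne').contDiffWithinAt, fun k s hs => ?_⟩
  have hs0 : 0 < s := ha.trans hs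
  rw [norm_iteratedFDeriv_eq_norm_iteratedDeriv, iteratedDeriv_eq_iterate, Real.iter_deriv_rpow_const,
    norm_mul, Real.norm_eq_abs, Real.norm_eq_abs, abs_of_nonneg (Real.rpow_nonneg hs0.le _)]
  refine mul_le_mul_of_nonneg_left ?_ (abs_nonneg _)
  exact Real.rpow_le_rpow_of_nonpos ha (le_of_lt hs) (by
    have : (0 : ℝ) ≤ k := Nat.cast_nonneg k
    linarith)

variable {n : ℕ}

/-- `(z,t,p) ↦ (z,t)` as a continuous linear map. -/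
noncomputable def hrPiL (n : ℕ) : E n × ℝ × E n →L[ℝ] E (n + 1) :=
  (flInc n).comp (ContinuousLinearMap.fst ℝ (E n) (ℝ × E n)) +
    ((ContinuousLinearMap.fst ℝ ℝ (E n)).comp (ContinuousLinearMap.snd ℝ (E n) (ℝ × E n))).smulRight (gmtEn n)

theorem hr_piL_apply (w : E n × ℝ × E n) : hrPiL n w = gmtJoin w.1 w.2.1 := by
  rw [fl_join_eq]
  simp [hrPiL]

/-- `(z,t,p) ↦ (-p,0)` as a continuous linear map. -/
noncomputable def hrNuL (n : ℕ) : E n × ℝ × E n →L[ℝ] E (n + 1) :=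
  -((flInc n).comp ((ContinuousLinearMap.snd ℝ ℝ (E n)).comp (ContinuousLinearMap.snd ℝ (E n) (ℝ × E n))))

theorem hr_nuL_apply (w : E n × ℝ × E n) : hrNuL n w + gmtEn n = hrNp w.2.2 := by
  rw [hrNp, fl_join_eq]
  simp [hrNuL]

/-- `ℓ ↦` horizontal part of the vector representing `ℓ`. -/
noncomputable def hrShL (n : ℕ) : (E (n + 1) →L[ℝ] ℝ) →L[ℝ] E n :=
  LinearMap.toContinuousLinearMap
    { toFun := fun l => gmtHor ((InnerProductSpace.toDual ℝ (E (n + 1))).symm l)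
      map_add' := fun a b => by
        simp only [map_add, gmtHor]
      map_smul' := fun c a => by
        simp only [gmtHor, map_smulₛₗ, conj_trivial, RingHom.id_apply] }

theorem hr_shL_apply (B : Bil (n + 1)) (ξ : E (n + 1)) : hrShL n (B ξ) = gmtHor (gmtSharp B ξ) := rfl

theorem hr_one_le_norm_Np (p : E n) : 1 ≤ ‖hrNp p‖ := by
  have h := fl_norm_sq (hrNp p)
  rw [hrNp, fl_hor_join, fl_ver_join] at h
  have h2 : (1 : ℝ) ≤ ‖gmtJoin (-p) 1‖ ^ 2 := by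
    rw [h]
    nlinarith [sq_nonneg ‖-p‖]
  rw [hrNp]
  nlinarith [norm_nonneg (gmtJoin (-p) 1 : E (n + 1))]

/-- uniform bounds of all derivatives for families. -/
theorem hr_struct_bdd {ρ c C P : ℝ} {A : ℕ → E (n + 1) → Bil (n + 1)} {f : ℕ → E (n + 1) → ℝ}
    (hc : 0 < c) (hP : 0 < P) (h : ∀ i, HrDat ρ c C (A i) (f i))
    (hA : ∀ k : ℕ, ∃ M : ℝ, ∀ i, ∀ y ∈ hrCyl ρ, ‖iteratedFDeriv ℝ k (A i) y‖ ≤ M)
    (hf : ∀ k : ℕ, ∃ M : ℝ, ∀ i, ∀ y ∈ hrCyl ρ, ‖iteratedFDeriv ℝ k (f i) y‖ ≤ M) (k : ℕ) :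
    ∃ M : ℝ, ∀ i, ∀ w ∈ (hrBox ρ P : Set (E n × ℝ × E n)),
      ‖iteratedFDeriv ℝ k (hrA (A i)) w‖ ≤ M ∧ ‖iteratedFDeriv ℝ k (hrB (A i) (f i)) w‖ ≤ M := by
  have hBox : IsOpen (hrBox ρ P : Set (E n × ℝ × E n)) := hr_isOpen_box ρ P
  have hCyl : IsOpen (hrCyl ρ : Set (E (n + 1))) := hr_isOpen_cyl ρ
  choose MA hMA using hA
  choose Mf hMf using hf
  have hA0 : ∀ i, Lib.Ell.CbLe MA (hrCyl ρ) (A i) := fun i => ⟨(h i).smoothA, fun j y hy => hMA j i y hy⟩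
  have hf0 : ∀ i, Lib.Ell.CbLe Mf (hrCyl ρ) (f i) := fun i => ⟨(h i).smoothf, fun j y hy => hMf j i y hy⟩
  have hπ : MapsTo (hrPiL n) (hrBox ρ P : Set (E n × ℝ × E n)) (hrCyl ρ) := by
    intro w hw
    rw [hr_piL_apply]
    exact ⟨by rw [fl_hor_join]; exact hw.1, by rw [fl_ver_join]; exact hw.2.1⟩
  -- the normal
  obtain ⟨ΛN, hN⟩ : ∃ Λ, Lib.Ell.CbLe Λ (hrBox ρ P : Set (E n × ℝ × E n)) (fun w => hrNp w.2.2) := by
    have h1 := (Lib.Ell.cbLe_clm (Ω := (hrBox ρ P : Set (E n × ℝ × E n))) (hrNuL n) (ρ := P) (by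
      intro w hw
      have : hrNuL n w = -(flInc n w.2.2) := by simp [hrNuL]
      rw [this, norm_neg, fl_norm_inc]
      exact hw.2.2.le)).add hBox (Lib.Ell.cbLe_const (gmtEn n))
    exact ⟨_, h1.congr hBox fun w _ => (hr_nuL_apply w).symm⟩
  -- `A ∘ π`, `A(N)`, `A(N,N)`
  obtain ⟨Λ1, hAπ⟩ : ∃ Λ, ∀ i, Lib.Ell.CbLe Λ (hrBox ρ P : Set (E n × ℝ × E n)) (fun w => A i (hrPiL n w)) :=
    ⟨_, fun i => (hA0 i).comp_clm hCyl hBox (hrPiL n) hπ⟩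
  obtain ⟨Λ2, hAN⟩ : ∃ Λ, ∀ i, Lib.Ell.CbLe Λ (hrBox ρ P : Set (E n × ℝ × E n))
      (fun w => A i (hrPiL n w) (hrNp w.2.2)) :=
    ⟨_, fun i => (hAπ i).bilin hBox hN (ContinuousLinearMap.id ℝ (Bil (n + 1)))⟩
  obtain ⟨Λ3, hQ⟩ : ∃ Λ, ∀ i, Lib.Ell.CbLe Λ (hrBox ρ P : Set (E n × ℝ × E n))
      (fun w => A i (hrPiL n w) (hrNp w.2.2) (hrNp w.2.2)) :=
    ⟨_, fun i => (hAN i).bilin hBox hN (ContinuousLinearMap.id ℝ (E (n + 1) →L[ℝ] ℝ))⟩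
  have hQlo : ∀ i, ∀ w ∈ (hrBox ρ P : Set (E n × ℝ × E n)),
      c ^ 2 ≤ A i (hrPiL n w) (hrNp w.2.2) (hrNp w.2.2) := by
    intro i w hw
    have h1 := (h i).lo _ (hπ hw) (hrNp w.2.2)
    have h2 := hr_one_le_norm_Np w.2.2
    have h3 : (1 : ℝ) ≤ ‖hrNp w.2.2‖ ^ 2 := by nlinarith
    nlinarith [sq_nonneg c]
  have hc2 : 0 < c ^ 2 := by positivity
  -- `F⁻¹`
  obtain ⟨Λ4, hR⟩ : ∃ Λ, ∀ i, Lib.Ell.CbLe Λ (hrBox ρ P : Set (E n × ℝ × E n))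
      (fun w => (A i (hrPiL n w) (hrNp w.2.2) (hrNp w.2.2)) ^ (-(1 / 2) : ℝ)) :=
    ⟨_, fun i => hr_cb_comp hBox isOpen_Ioi (hQ i)
      (hr_cb_rpow (a := c ^ 2 / 2) (r := (-(1 / 2) : ℝ)) (by positivity) (by norm_num))
      (fun w hw => by
        have := hQlo i w hw
        show c ^ 2 / 2 < _
        linarith)⟩
  have hFinv : ∀ i, ∀ w ∈ (hrBox ρ P : Set (E n × ℝ × E n)),
      (hrF (A i) w)⁻¹ = (A i (hrPiL n w) (hrNp w.2.2) (hrNp w.2.2)) ^ (-(1 / 2) : ℝ) := by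
    intro i w hw
    have h0 : 0 ≤ A i (hrPiL n w) (hrNp w.2.2) (hrNp w.2.2) := hc2.le.trans (hQlo i w hw)
    rw [hrF, ← hr_piL_apply, Real.sqrt_eq_rpow, Real.rpow_neg h0]
  -- `𝒜`
  obtain ⟨Λ5, hSh⟩ : ∃ Λ, ∀ i, Lib.Ell.CbLe Λ (hrBox ρ P : Set (E n × ℝ × E n))
      (fun w => hrShL n (A i (hrPiL n w) (hrNp w.2.2))) :=
    ⟨_, fun i => (hAN i).clm_post hBox (hrShL n)⟩
  obtain ⟨Λ6, hAA⟩ : ∃ Λ, ∀ i, Lib.Ell.CbLe Λ (hrBox ρ P : Set (E n × ℝ × E n)) (hrA (A i)) :=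
    ⟨_, fun i => (((hR i).bilin hBox (hSh i) (ContinuousLinearMap.lsmul ℝ ℝ)).neg hBox).congr hBox
      fun w hw => by
        rw [hrA, hFinv i w hw, ← hr_piL_apply, ← hr_shL_apply]
        rfl⟩
  -- `ℬ`
  obtain ⟨Λ7, hDA⟩ : ∃ Λ, ∀ i, Lib.Ell.CbLe Λ (hrBox ρ P : Set (E n × ℝ × E n))
      (fun w => fderiv ℝ (A i) (hrPiL n w) (gmtEn n)) :=
    ⟨_, fun i => (hr_cb_fd_apply hCyl (hA0 i) (gmtEn n)).comp_clm hCyl hBox (hrPiL n) hπ⟩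
  obtain ⟨Λ8, hDAN⟩ : ∃ Λ, ∀ i, Lib.Ell.CbLe Λ (hrBox ρ P : Set (E n × ℝ × E n))
      (fun w => fderiv ℝ (A i) (hrPiL n w) (gmtEn n) (hrNp w.2.2)) :=
    ⟨_, fun i => (hDA i).bilin hBox hN (ContinuousLinearMap.id ℝ (Bil (n + 1)))⟩
  obtain ⟨Λ9, hDQ⟩ : ∃ Λ, ∀ i, Lib.Ell.CbLe Λ (hrBox ρ P : Set (E n × ℝ × E n))
      (fun w => fderiv ℝ (A i) (hrPiL n w) (gmtEn n) (hrNp w.2.2) (hrNp w.2.2)) :=
    ⟨_, fun i => (hDAN i).bilin hBox hN (ContinuousLinearMap.id ℝ (E (n + 1) →L[ℝ] ℝ))⟩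
  obtain ⟨Λ10, hfπ⟩ : ∃ Λ, ∀ i, Lib.Ell.CbLe Λ (hrBox ρ P : Set (E n × ℝ × E n)) (fun w => f i (hrPiL n w)) :=
    ⟨_, fun i => (hf0 i).comp_clm hCyl hBox (hrPiL n) hπ⟩
  obtain ⟨Λ11, hBB⟩ : ∃ Λ, ∀ i, Lib.Ell.CbLe Λ (hrBox ρ P : Set (E n × ℝ × E n)) (hrB (A i) (f i)) :=
    ⟨_, fun i => ((((hR i).bilin hBox (hDQ i) (ContinuousLinearMap.mul ℝ ℝ)).clm_post hBox
      ((1 / 2 : ℝ) • ContinuousLinearMap.id ℝ ℝ)).sub hBox (hfπ i)).congr hBox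
      fun w hw => by
        rw [hrB, mul_inv, hFinv i w hw, ← hr_piL_apply]
        simp only [ContinuousLinearMap.mul_apply', smul_apply, ContinuousLinearMap.id_apply, smul_eq_mul]
        ring⟩
  exact ⟨max (Λ6 k) (Λ11 k), fun i w hw =>
    ⟨((hAA i).bd k w hw).trans (le_max_left _ _), ((hBB i).bd k w hw).trans (le_max_right _ _)⟩⟩

end Claimed.Agent.Gmt
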