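import Claimed.Agent.Lib.Gmt.HrEL
import Claimed.Agent.Lib.Ell.Quasi

/-!
# Lib/Gmt G5.3 (architect: helper190): ADAPTER to the quasilinear regularity theorem of `Lib/Ell` (architect: helper232).
`hr_quasi_smooth`, `hr_quasi_bdd` are PROVED from `Lib.Ell.ell_quasi_est`, `hr_interp` from `Lib.Ell.ell_smooth_conv`.
-/

set_option autoImplicit false
open scoped ContDiff ENNReal RealInnerProductSpace Topology
open MeasureTheory Metric Set Filter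

namespace Claimed.Agent.Gmt

variable {n : ℕ}

/-- a family of `C^{1,1/2}` weak solutions of uniformly elliptic quasilinear equations with uniformly smooth structure. -/
structure HrFam (ρ P lam K : ℝ) (cA : ℕ → E n × ℝ × E n → E n) (cB : ℕ → E n × ℝ × E n → ℝ)
    (u : ℕ → E n → ℝ) : Prop where
  pos : 0 < ρ ∧ 0 < P ∧ 0 < lam
  smoothA : ∀ i, ContDiffOn ℝ ∞ (cA i) (hrBox ρ P)
  smoothB : ∀ i, ContDiffOn ℝ ∞ (cB i) (hrBox ρ P)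
  bdd : ∀ k : ℕ, ∃ M : ℝ, ∀ i, ∀ w ∈ (hrBox ρ P : Set (E n × ℝ × E n)),
    ‖iteratedFDeriv ℝ k (cA i) w‖ ≤ M ∧ ‖iteratedFDeriv ℝ k (cB i) w‖ ≤ M
  ell : ∀ i, ∀ w ∈ (hrBox ρ P : Set (E n × ℝ × E n)), ∀ q : E n,
    lam * ‖q‖ ^ 2 ≤ ⟪fderiv ℝ (fun p => cA i (w.1, w.2.1, p)) w.2.2 q, q⟫
  symm : ∀ i, ∀ w ∈ (hrBox ρ P : Set (E n × ℝ × E n)), ∀ q q' : E n,
    ⟪fderiv ℝ (fun p => cA i (w.1, w.2.1, p)) w.2.2 q, q'⟫ =
      ⟪q, fderiv ℝ (fun p => cA i (w.1, w.2.1, p)) w.2.2 q'⟫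
  diff : ∀ i, ∀ z ∈ ball (0 : E n) ρ, DifferentiableAt ℝ (u i) z
  bd0 : ∀ i, ∀ z ∈ ball (0 : E n) ρ, |u i z| ≤ ρ / 2
  bd1 : ∀ i, ∀ z ∈ ball (0 : E n) ρ, ‖fderiv ℝ (u i) z‖ ≤ P / 2
  hol : ∀ i, ∀ z ∈ ball (0 : E n) ρ, ∀ z' ∈ ball (0 : E n) ρ,
    ‖fderiv ℝ (u i) z - fderiv ℝ (u i) z'‖ ≤ K * Real.sqrt ‖z - z'‖
  weak : ∀ i, Lib.Ell.WeakQuasi (ball (0 : E n) ρ) (cA i) (cB i) (u i)

theorem hr_qbox_eq (ρ P : ℝ) : Lib.Ell.qbox (0 : E n) ρ ρ P = hrBox ρ P := by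
  ext w
  simp [Lib.Ell.qbox, hrBox]

theorem hr_dpA_eq {W : Type} [NormedAddCommGroup W] [InnerProductSpace ℝ W]
    {cA : W × ℝ × W → W} {w : W × ℝ × W} (h : DifferentiableAt ℝ cA w) :
    Lib.Ell.dpA cA w = fderiv ℝ (fun p => cA (w.1, w.2.1, p)) w.2.2 := by
  have h1 : HasFDerivAt (fun p : W => ((w.1, w.2.1, p) : W × ℝ × W))
      ((ContinuousLinearMap.inr ℝ W (ℝ × W)) ∘L (ContinuousLinearMap.inr ℝ ℝ W)) w.2.2 := by
    have h3 : HasFDerivAt (fun p : W => ((w.2.1, p) : ℝ × W))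
        ((0 : W →L[ℝ] ℝ).prod (ContinuousLinearMap.id ℝ W)) w.2.2 :=
      (hasFDerivAt_const w.2.1 w.2.2).prodMk (hasFDerivAt_id w.2.2)
    have h4 := (hasFDerivAt_const w.1 w.2.2).prodMk h3
    have h5 : (ContinuousLinearMap.inr ℝ W (ℝ × W)) ∘L (ContinuousLinearMap.inr ℝ ℝ W)
        = (0 : W →L[ℝ] W).prod ((0 : W →L[ℝ] ℝ).prod (ContinuousLinearMap.id ℝ W)) := by
      ext v <;> simp
    rw [h5]; exact h4
  have h2 : HasFDerivAt cA (fderiv ℝ cA w) ((w.1, w.2.1, w.2.2) : W × ℝ × W) := h.hasFDerivAt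
  exact ((h2.comp w.2.2 h1).fderiv).symm

theorem hr_quasi_data {ρ P lam K : ℝ} {cA : ℕ → E n × ℝ × E n → E n}
    {cB : ℕ → E n × ℝ × E n → ℝ} {u : ℕ → E n → ℝ} (h : HrFam ρ P lam K cA cB u) :
    ∃ Λ : ℕ → ℝ, ∀ i, Lib.Ell.QuasiData (1 / 2) lam Λ (max K P) ρ P (0 : E n) ρ (cA i) (cB i) (u i) := by
  choose Λ hΛ using h.bdd
  refine ⟨Λ, fun i => ?_⟩
  have hd : ∀ w ∈ (hrBox ρ P : Set (E n × ℝ × E n)), DifferentiableAt ℝ (cA i) w := fun w hw =>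
    ((h.smoothA i).contDiffAt ((hr_isOpen_box ρ P).mem_nhds hw)).differentiableAt (by simp)
  have hhol : Lib.Ell.HolOn (1 / 2) (max K P) (ball (0 : E n) ρ) (fderiv ℝ (u i)) := by
    intro z hz z' hz'
    rw [← Real.sqrt_eq_rpow]
    exact (h.hol i z hz z' hz').trans
      (mul_le_mul_of_nonneg_right (le_max_left _ _) (Real.sqrt_nonneg _))
  refine ⟨le_max_right _ _, ⟨?_, ?_⟩, ⟨?_, ?_⟩, ?_, ?_, ?_, ?_, hhol, h.weak i⟩
  · rw [hr_qbox_eq]; exact h.smoothA i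
  · rw [hr_qbox_eq]; exact fun j w hw => (hΛ j i w hw).1
  · rw [hr_qbox_eq]; exact h.smoothB i
  · rw [hr_qbox_eq]; exact fun j w hw => (hΛ j i w hw).2
  · rw [hr_qbox_eq]; intro w hw q q'
    rw [hr_dpA_eq (hd w hw)]; exact h.symm i w hw q q'
  · rw [hr_qbox_eq]; intro w hw q
    rw [hr_dpA_eq (hd w hw)]; exact h.ell i w hw q
  · have h0 : ((1 : ℕ∞) : WithTop ℕ∞) = 0 + 1 := by simp
    have h1 : ContDiffOn ℝ (0 + 1) (u i) (ball (0 : E n) ρ) := by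
      rw [contDiffOn_succ_iff_fderiv_of_isOpen isOpen_ball]
      refine ⟨fun z hz => (h.diff i z hz).differentiableWithinAt, by simp, ?_⟩
      rw [contDiffOn_zero]
      exact hhol.continuousOn (by norm_num)
    simpa using h1
  · intro z hz
    rw [hr_qbox_eq]
    refine ⟨by simpa using hz, ?_, ?_⟩
    · have := h.bd0 i z hz
      have := h.pos.1
      show |u i z| < ρ
      linarith
    · have h1 := h.bd1 i z hz
      have := h.pos.2.1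
      show ‖gradient (u i) z‖ < P
      have h2 : ‖gradient (u i) z‖ = ‖fderiv ℝ (u i) z‖ := by
        simp [gradient]
      rw [h2]; linarith

/-- (Q1) smoothness. -/
theorem hr_quasi_smooth {ρ P lam K : ℝ} {cA : ℕ → E n × ℝ × E n → E n}
    {cB : ℕ → E n × ℝ × E n → ℝ} {u : ℕ → E n → ℝ} (h : HrFam ρ P lam K cA cB u) (i : ℕ) :
    ContDiffOn ℝ ∞ (u i) (ball 0 ρ) := by
  obtain ⟨Λ, hΛ⟩ := hr_quasi_data h
  obtain ⟨C, hC⟩ := Lib.Ell.ell_quasi_est (E n) 0 (α := 1 / 2) (lam := lam) (K := max K P) (Kz := ρ) (Kp := P)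
    (r := ρ / 2) (R := ρ) Λ (by norm_num) (by norm_num) h.pos.2.2 (by linarith [h.pos.1])
    (by linarith [h.pos.1])
  exact (hC 0 _ _ _ (hΛ i)).1

/-- (Q2) uniform interior bounds of all derivatives. -/
theorem hr_quasi_bdd {ρ P lam K : ℝ} {cA : ℕ → E n × ℝ × E n → E n}
    {cB : ℕ → E n × ℝ × E n → ℝ} {u : ℕ → E n → ℝ} (h : HrFam ρ P lam K cA cB u) (k : ℕ)
    {ρ' : ℝ} (hρ' : ρ' < ρ) :
    ∃ M : ℝ, ∀ i, ∀ z ∈ ball (0 : E n) ρ', ‖iteratedFDeriv ℝ k (u i) z‖ ≤ M := by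
  rcases le_or_gt ρ' 0 with h0 | h0
  · exact ⟨0, fun i z hz => by rw [ball_eq_empty.2 h0] at hz; exact hz.elim⟩
  obtain ⟨Λ, hΛ⟩ := hr_quasi_data h
  obtain ⟨C, hC⟩ := Lib.Ell.ell_quasi_est (E n) k (α := 1 / 2) (lam := lam) (K := max K P) (Kz := ρ) (Kp := P)
    (r := ρ') (R := ρ) Λ (by norm_num) (by norm_num) h.pos.2.2 h0 hρ'
  exact ⟨C, fun i z hz => (hC 0 _ _ _ (hΛ i)).2 k le_rfl z hz⟩

/-- (Q3) interpolation: uniform bounds of all derivatives + locally uniform convergence ⇒ smooth convergence. -/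
theorem hr_interp {ρ : ℝ} {u : ℕ → E n → ℝ} {u' : E n → ℝ}
    (hu : ∀ i, ContDiffOn ℝ ∞ (u i) (ball 0 ρ))
    (hb : ∀ k : ℕ, ∀ ρ' < ρ, ∃ M : ℝ, ∀ i, ∀ z ∈ ball (0 : E n) ρ', ‖iteratedFDeriv ℝ k (u i) z‖ ≤ M)
    (hc : ∀ ρ' < ρ, TendstoUniformlyOn u u' atTop (ball (0 : E n) ρ')) :
    GmtSmoothConv (ball (0 : E n) ρ) u u' := by
  intro K hK hKρ k
  -- a smaller ball containing `K`
  obtain ⟨ρ', hρ', hKρ'⟩ : ∃ ρ' < ρ, K ⊆ ball (0 : E n) ρ' := by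
    rcases K.eq_empty_or_nonempty with rfl | hne
    · exact ⟨ρ - 1, by linarith, empty_subset _⟩
    obtain ⟨x, hx, hmax⟩ := hK.exists_isMaxOn hne continuous_norm.continuousOn
    have hxρ : ‖x‖ < ρ := by simpa using hKρ hx
    refine ⟨(‖x‖ + ρ) / 2, by linarith, fun y hy => ?_⟩
    have : ‖y‖ ≤ ‖x‖ := hmax hy
    simp only [mem_ball, dist_zero_right]
    linarith
  have h1 := Lib.Ell.ell_smooth_conv (x₀ := (0 : E n)) (R := ρ') (un := u) (u := u')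
    (fun i => (hu i).mono (ball_subset_ball hρ'.le)) (fun k => hb k ρ' hρ')
    (fun x hx => (hc ρ' hρ').tendsto_at hx)
  exact (h1.2 k).mono hKρ'

end Claimed.Agent.Gmt
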