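import Claimed.Agent.Lib.Gmt.HrConv

/-!
THIS FILE = PACKAGE L-GMT-HrLev1 (part 1 of 6 of the former `HrLev.lean`, which now only imports the parts; the text below is the plan of the whole former file).
# Lib/Gmt G5.5 (architect: helper190): smooth domains in LEVEL SET form: perimeter measure, normal, Euler-Lagrange equation.
PACKAGES L-GMT-HrLevA (`hr_lev_null` ... `hr_lev_slab`), L-GMT-HrLevB (`hr_lev_lf`, `hr_lev_le`, `hr_lev_nu`, `hr_lev_C1`, `hr_reg_mu`), L-GMT-HrLevC (`hr_tan_div`, `hr_Z_*`, `hr_reg_el`).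
No graphs, no area/coarea formula, no partition of unity.

SETTING `HrLev S x r φ`: `B = ball x r`, `φ ∈ C^∞(B)`, `∇φ ≠ 0` on `B`, `S` measurable, `S ∩ B = {φ < 0} ∩ B` a.e.   `ν̃ = ∇φ/|∇φ|`.   Functions with `tsupport` in `B` are multiplied with functions which are junk off `B`: the products are smooth
(`ContDiffOn` on the open set `B` + vanishing near every point off `tsupport`: `contDiff_iff_contDiffAt`, two cases).
* `hr_lev_null`: `|{y ∈ B : φ y = s}| = 0`.  E.g. Lebesgue density: at `y₀` with `φ y₀ = s` the level set lies in `{|⟪y-y₀,ν̃(y₀)⟫| ≤ η‖y-y₀‖}` for `‖y-y₀‖ ≤ r(η)`, whose density in small balls is `≤ C η`: no point of the level set is a density point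
  (`Besicovitch.ae_tendsto_measure_inter_div_of_measurableSet` / `IsUnifLocDoublingMeasure.ae_tendsto_measure_inter_div`).   Or: straighten by the inverse function theorem and use that differentiable maps preserve null sets
  (`MeasureTheory.Measure.addHaar_image_eq_zero_of_differentiableOn_of_addHaar_eq_zero`, hyperplanes are null), + Lindelöf.
* `hr_lev_ibp`: `H ∈ C¹(ℝ)`, `T ∈ C¹_c(B)`: `H(φ) T ∈ C¹_c(B)`, `∫ div (H(φ) T) = 0` (`integral_gmtDiv_eq_zero`), `div (H(φ)T) = H(φ) div T + H'(φ) ⟪∇φ,T⟫` (`gmtDiv_smul`).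
* `hr_lev_slab_id`: `H_ε(s) = 1` for `s ≤ -ε`, `(ε - s)/(2ε)` for `|s| ≤ ε`, `0` for `s ≥ ε`.  Approximate: `H_j ∈ C¹`, `H_j → H_ε` uniformly, `H_j' → -(2ε)⁻¹ 1_{(-ε,ε)}` boundedly and pointwise off `{±ε}` (e.g. `H_j = H_ε * mollifier`, or explicit with `Real.smoothTransition`);
  dominated convergence, `hr_lev_null` for the levels `±ε`.
* `hr_lev_slab`: `ε ↓ 0`: `H_ε(φ) → 1_{φ<0}` off `{φ = 0}`; dominated convergence; `∫_B 1_{φ<0} div T = ∫_S div T`.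
* `hr_lev_lf`: `W ⋐ B`, `χ ∈ C¹_c(B)`, `0 ≤ χ ≤ 1`, `χ = 1` on `closure W` (`exists_contDiff_tsupport_subset`-type/`exists_smooth_one_nhds_of_subset_interior`...).  For `T ∈ C¹_c(W)`, `|T| ≤ 1`: `⟪T,∇φ⟫ ≤ χ|∇φ|`, so by `hr_lev_slab` for `T` and for `χ ν̃`: `∫_S div T ≤ ∫_S div (χ ν̃) < ∞`.
* `hr_lev_le`: for `χ ∈ C¹_c(B)`, `χ ≥ 0`: `∫ χ dμ ≤ Λ(χ) := ∫_S div (χ ν̃)`.   Layer cake `∫ χ dμ = ∫_0^∞ μ{χ > s} ds` (`MeasureTheory.lintegral_eq_lintegral_meas_lt`), `μ{χ>s} = gmtP S {χ>s} = sup_T ∫_S div T ≤ liminf_ε (2ε)⁻¹ ∫_{|φ|<ε, χ>s} |∇φ|`, Fatou along `ε = 1/j`, Tonelli.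
  [or `gmt_polar_open` of `GgRiesz.lean`.]
* `hr_lev_nu`: Gauss-Green: `Λ(χ) = ∫ χ ⟪ν̃,ν⟫ dμ ≤ ∫ χ dμ ≤ Λ(χ)`: `∫ χ (1 - ⟪ν̃,ν⟫) dμ = 0`, integrand `≥ 0`: `⟪ν̃,ν⟫ = 1` a.e. on `{χ>0}`, so `ν = ν̃` (`‖ν - ν̃‖² = ‖ν‖² - 2 + 1 ≤ 0`); countably many `χ_j` with `⋃ {χ_j > 0} = B`.
* `hr_lev_C1`: `∫ χ dμ = lim (2ε)⁻¹ ∫_{|φ|<ε} χ|∇φ|` for all `χ ∈ C¹_c(B)` (write `χ = (χ + M χ₀) - M χ₀`).   `hr_reg_mu`: `g ∈ C_c(B)`: uniform approximation by `C¹_c` functions supported in a fixed compact set (mollification), `(2ε)⁻¹ ∫_{|φ|<ε} χ₀|∇φ|` is bounded for small `ε`.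
  `μ(B \ {φ=0}) = 0`: `{φ<0} ∩ B`, `{φ>0} ∩ B` are open and contain no boundary point: `gmtMu_compl_gmtBd`.
* `hr_tan_div`: `Z ∈ C¹_c(B)`, `⟪Z,∇φ⟫ = 0`: `∫ H(φ) div Z = 0` for all `H ∈ C¹` (`hr_lev_ibp`), hence for `H = 1_{(-ε,ε)}` (increasing limit of `C¹` functions); `hr_reg_mu` with `g = div Z/|∇φ|`.
* `hr_Z_div`.  `F₀ = √(A(∇φ,∇φ))`, `V = F₀⁻¹ a∇φ` (`a = gmtSharp (A y)`), `Z = F₀ X - ⟪X,∇φ⟫ V`; `⟪V,∇φ⟫ = F₀`, so `⟪Z,∇φ⟫ = 0`;
  `div Z = ∇F₀·X + F₀ div X - ⟪DX V,∇φ⟫ - ⟪X, D²φ V⟫ - ⟪X,∇φ⟫ div V`, `∇F₀·X = D_X A(∇φ,∇φ)/(2F₀) + ⟪V, D²φ X⟫`, `D²φ` symmetric, `⟪DX V,∇φ⟫ = A(∇φ,(DX)ᵀ∇φ)/F₀`:   `div Z = gmtFv1 A X y (∇φ) - ⟪X,∇φ⟫ div V`.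
* `hr_reg_el`: `gmt_lam_fv`, `ν = ν̃` a.e., homogeneity (`hr_fv1_homog`), `hr_tan_div`: `∫ (div V - f) ⟪X,ν̃⟫ dμ = 0`; `X = ψ ν̃`; `div V - f` is continuous on `B`; `μ(ball y s) > 0` at `y ∈ {φ = 0}` (`hr_reg_bd`-argument, `gmtBd_iff_gmtMu`).
-/

set_option autoImplicit false
open scoped ContDiff ENNReal RealInnerProductSpace Topology
open MeasureTheory Metric Set Filter

namespace Claimed.Agent.Gmt

variable {m : ℕ}

/-- `S` is the sublevel set of the smooth submersion `φ` in `ball x r`. -/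
structure HrLev (S : Set (E m)) (x : E m) (r : ℝ) (φ : E m → ℝ) : Prop where
  smooth : ContDiffOn ℝ ∞ φ (ball x r)
  ne : ∀ y ∈ ball x r, fderiv ℝ φ y ≠ 0
  meas : MeasurableSet S
  eq : (S ∩ ball x r : Set (E m)) =ᵐ[volume] ({y | y ∈ ball x r ∧ φ y < 0} : Set (E m))

variable {S : Set (E m)} {x : E m} {r : ℝ} {φ : E m → ℝ}

/-- level sets are null sets. -/
theorem hr_lev_null (hφ : ContDiffOn ℝ 1 φ (ball x r)) (hne : ∀ y ∈ ball x r, fderiv ℝ φ y ≠ 0)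
    (s : ℝ) : volume {y | y ∈ ball x r ∧ φ y = s} = 0 := by
  classical
  set Z : Set (E m) := {y | y ∈ ball x r ∧ φ y = s} with hZ
  have hex : ∀ y ∈ Z, ∃ e : E m, fderiv ℝ φ y e ≠ 0 := by
    intro y hy
    by_contra hcon
    push Not at hcon
    exact hne y hy.1 (ContinuousLinearMap.ext hcon)
  choose! e he using hex
  let A : E m → E m →L[ℝ] E m := fun y => ContinuousLinearMap.id ℝ (E m) -
    (fderiv ℝ φ y).smulRight ((fderiv ℝ φ y (e y))⁻¹ • e y)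
  have h1 : ∀ y ∈ Z, HasFDerivWithinAt (fun z : E m => z) (A y) Z y := by
    intro y hy
    have hd : HasFDerivAt φ (fderiv ℝ φ y) y :=
      ((hφ.contDiffAt (isOpen_ball.mem_nhds hy.1)).differentiableAt one_ne_zero).hasFDerivAt
    have hc : HasFDerivWithinAt φ (0 : E m →L[ℝ] ℝ) Z y :=
      (hasFDerivWithinAt_const s y Z).congr (fun z hz => hz.2) hy.2
    have h0 : HasFDerivWithinAt (fun z => φ z - φ z) (fderiv ℝ φ y - 0) Z y :=
      hd.hasFDerivWithinAt.sub hc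
    have h2 := (hasFDerivWithinAt_id y Z).sub
      (h0.smul_const ((fderiv ℝ φ y (e y))⁻¹ • e y))
    refine (h2.congr (fun z _ => ?_) ?_).congr_fderiv ?_
    · simp
    · simp
    · simp [A]
  have h2 : ∀ y ∈ Z, (A y).det = 0 := by
    intro y hy
    rw [ContinuousLinearMap.det, LinearMap.det_eq_zero_iff_ker_ne_bot]
    intro hker
    have h3 : e y ∈ LinearMap.ker (A y : E m →ₗ[ℝ] E m) := by
      rw [LinearMap.mem_ker]
      simp [A, smul_smul, he y hy]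
    rw [hker, Submodule.mem_bot] at h3
    apply he y hy
    rw [h3, map_zero]
  have h3 := addHaar_image_eq_zero_of_det_fderivWithin_eq_zero volume h1 h2
  simpa using h3

/-- integration by parts against a function of `φ`. -/
theorem hr_lev_ibp (hφ : ContDiffOn ℝ 1 φ (ball x r)) {T : E m → E m} (hT : GmtTest (ball x r) T)
    {H : ℝ → ℝ} (hH : ContDiff ℝ 1 H) :
    ∫ y, H (φ y) * gmtDiv T y = -∫ y, deriv H (φ y) * ⟪T y, gradient φ y⟫ := by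
  have hu : ContDiffOn ℝ 1 (fun y => H (φ y)) (ball x r) := hH.comp_contDiffOn hφ
  rw [integral_mul_gmtDiv isOpen_ball hu hT]
  congr 1
  refine integral_congr_ae (Eventually.of_forall fun y => ?_)
  by_cases hy : y ∈ ball x r
  · have hd : HasFDerivAt φ (fderiv ℝ φ y) y :=
      ((hφ.contDiffAt (isOpen_ball.mem_nhds hy)).differentiableAt one_ne_zero).hasFDerivAt
    have hH' : HasDerivAt H (deriv H (φ y)) (φ y) :=
      (hH.differentiable one_ne_zero _).hasDerivAt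
    have h1 := hH'.comp_hasFDerivAt y hd
    have h2 : fderiv ℝ (fun y => H (φ y)) y = deriv H (φ y) • fderiv ℝ φ y := h1.fderiv
    simp only [h2]
    rw [real_inner_comm, gmt_inner_gradient]
    simp
  · have hy' : T y = 0 := image_eq_zero_of_notMem_tsupport fun h => hy (hT.sub h)
    simp [hy']

end Claimed.Agent.Gmt
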