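import Claimed.Agent.Lib.Gmt.HrLev1

/-!
THIS FILE = PACKAGE L-GMT-HrLev2 (part 2 of 6 of the former `HrLev.lean`, which now only imports the parts; the text below is the plan of the whole former file).
# Lib/Gmt G5.5 (architect: helper190): smooth domains in LEVEL SET form: perimeter measure, normal, Euler-Lagrange equation.
PACKAGES L-GMT-HrLevA (`hr_lev_null` ... `hr_lev_slab`), L-GMT-HrLevB (`hr_lev_lf`, `hr_lev_le`, `hr_lev_nu`, `hr_lev_C1`, `hr_reg_mu`), L-GMT-HrLevC (`hr_tan_div`, `hr_Z_*`, `hr_reg_el`).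
No graphs, no area/coarea formula, no partition of unity.

SETTING `HrLev S x r φ`: `B = ball x r`, `φ ∈ C^∞(B)`, `∇φ ≠ 0` on `B`, `S` measurable, `S ∩ B = {φ < 0} ∩ B` a.e.   `ν̃ = ∇φ/|∇φ|`.   Functions with `tsupport` in `B` are multiplied with functions which are junk off `B`: the products are smooth
(`ContDiffOn` on the open set `B` + vanishing near every point off `tsupport`: `contDiff_iff_contDiffAt`, two cases).
* `hr_lev_null`: `|{y ∈ B : φ y = s}| = 0`.  E.g. Lebesgue density: at `y₀` with `φ y₀ = s` the level set lies in `{|⟪y-y₀,ν̃(y₀)⟫| ≤ η‖y-y₀‖}` for `‖y-y₀‖ ≤ r(η)`, whose density in small balls is `≤ C η`: no point of the level set is a density point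
  (`Besicovitch.ae_tendsto_measure_inter_div_of_measurableSet` / `IsUnifLocDoublingMeasure.ae_tendsto_measure_inter_div`).   Or: straighten by the inverse function theorem and use that differentiable maps preserve null sets
  (`MeasureTheory.Measure.addHaar_image_eq_zero_of_differentiableOn_of_addHaar_eq_zero`, hyperplanes are null), + Lindelöf.
* `hr_lev_ibp`: `H ∈ C¹(ℝ)`, `T ∈ C¹_c(B)`: `H(φ) T ∈ C¹_c(B)`, `∫ div (H(φ) T) = 0` (`integral_gmtDiv_eq_zero`), `div (H(φ)T) = H(φ) div T + H'(φ) ⟪∇φ,T⟫` (`gmtDiv_smul`).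
* `hr_lev_slab_id`: `H_ε(s) = 1` for `s ≤ -ε`, `(ε - s)/(2ε)` for `|s| ≤ ε`, `0` for `s ≥ ε`.  Approximate: `H_j ∈ C¹`, `H_j → H_ε` uniformly, `H_j' → -(2ε)⁻¹ 1_{(-ε,ε)}` boundedly and pointwise off `{±ε}` (e.g. `H_j = H_ε * mollifier`, or explicit with `Real.smoothTransition`);
  dominated convergence, `hr_lev_null` for the levels `±ε`.
* `hr_lev_slab`: `ε ↓ 0`: `H_ε(φ) → 1_{φ<0}` off `{φ = 0}`; dominated convergence; `∫_B 1_{φ<0} div T = ∫_S div T`.
* `hr_lev_lf`: `W ⋐ B`, `χ ∈ C¹_c(B)`, `0 ≤ χ ≤ 1`, `χ = 1` on `closure W` (`exists_contDiff_tsupport_subset`-type/`exists_smooth_one_nhds_of_subset_interior`...).  For `T ∈ C¹_c(W)`, `|T| ≤ 1`: `⟪T,∇φ⟫ ≤ χ|∇φ|`, so by `hr_lev_slab` for `T` and for `χ ν̃`: `∫_S div T ≤ ∫_S div (χ ν̃) < ∞`.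
* `hr_lev_le`: for `χ ∈ C¹_c(B)`, `χ ≥ 0`: `∫ χ dμ ≤ Λ(χ) := ∫_S div (χ ν̃)`.   Layer cake `∫ χ dμ = ∫_0^∞ μ{χ > s} ds` (`MeasureTheory.lintegral_eq_lintegral_meas_lt`), `μ{χ>s} = gmtP S {χ>s} = sup_T ∫_S div T ≤ liminf_ε (2ε)⁻¹ ∫_{|φ|<ε, χ>s} |∇φ|`, Fatou along `ε = 1/j`, Tonelli.
  [or `gmt_polar_open` of `GgRiesz.lean`.]
* `hr_lev_nu`: Gauss-Green: `Λ(χ) = ∫ χ ⟪ν̃,ν⟫ dμ ≤ ∫ χ dμ ≤ Λ(χ)`: `∫ χ (1 - ⟪ν̃,ν⟫) dμ = 0`, integrand `≥ 0`: `⟪ν̃,ν⟫ = 1` a.e. on `{χ>0}`, so `ν = ν̃` (`‖ν - ν̃‖² = ‖ν‖² - 2 + 1 ≤ 0`); countably many `χ_j` with `⋃ {χ_j > 0} = B`.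
* `hr_lev_C1`: `∫ χ dμ = lim (2ε)⁻¹ ∫_{|φ|<ε} χ|∇φ|` for all `χ ∈ C¹_c(B)` (write `χ = (χ + M χ₀) - M χ₀`).   `hr_reg_mu`: `g ∈ C_c(B)`: uniform approximation by `C¹_c` functions supported in a fixed compact set (mollification), `(2ε)⁻¹ ∫_{|φ|<ε} χ₀|∇φ|` is bounded for small `ε`.
  `μ(B \ {φ=0}) = 0`: `{φ<0} ∩ B`, `{φ>0} ∩ B` are open and contain no boundary point: `gmtMu_compl_gmtBd`.
* `hr_tan_div`: `Z ∈ C¹_c(B)`, `⟪Z,∇φ⟫ = 0`: `∫ H(φ) div Z = 0` for all `H ∈ C¹` (`hr_lev_ibp`), hence for `H = 1_{(-ε,ε)}` (increasing limit of `C¹` functions); `hr_reg_mu` with `g = div Z/|∇φ|`.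
* `hr_Z_div`.  `F₀ = √(A(∇φ,∇φ))`, `V = F₀⁻¹ a∇φ` (`a = gmtSharp (A y)`), `Z = F₀ X - ⟪X,∇φ⟫ V`; `⟪V,∇φ⟫ = F₀`, so `⟪Z,∇φ⟫ = 0`;
  `div Z = ∇F₀·X + F₀ div X - ⟪DX V,∇φ⟫ - ⟪X, D²φ V⟫ - ⟪X,∇φ⟫ div V`, `∇F₀·X = D_X A(∇φ,∇φ)/(2F₀) + ⟪V, D²φ X⟫`, `D²φ` symmetric, `⟪DX V,∇φ⟫ = A(∇φ,(DX)ᵀ∇φ)/F₀`:   `div Z = gmtFv1 A X y (∇φ) - ⟪X,∇φ⟫ div V`.
* `hr_reg_el`: `gmt_lam_fv`, `ν = ν̃` a.e., homogeneity (`hr_fv1_homog`), `hr_tan_div`: `∫ (div V - f) ⟪X,ν̃⟫ dμ = 0`; `X = ψ ν̃`; `div V - f` is continuous on `B`; `μ(ball y s) > 0` at `y ∈ {φ = 0}` (`hr_reg_bd`-argument, `gmtBd_iff_gmtMu`).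
-/

set_option autoImplicit false
open scoped ContDiff ENNReal RealInnerProductSpace Topology
open MeasureTheory Metric Set Filter

namespace Claimed.Agent.Gmt

variable {m : ℕ}

variable {S : Set (E m)} {x : E m} {r : ℝ} {φ : E m → ℝ}

/-- the ramp `H_ε`. -/
noncomputable def hrRamp (ε s : ℝ) : ℝ := max 0 (min 1 ((ε - s) / (2 * ε)))

/-! ### one-dimensional preparations -/

/-- continuous approximations of the indicator of `(-ε, ε)`. -/
noncomputable def hrTent (ε : ℝ) (j : ℕ) (s : ℝ) : ℝ := max 0 (min 1 ((j : ℝ) * (ε - |s|)))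

theorem hr_tent_cont (ε : ℝ) (j : ℕ) : Continuous (hrTent ε j) := by
  unfold hrTent
  fun_prop

theorem hr_tent_nonneg (ε : ℝ) (j : ℕ) (s : ℝ) : 0 ≤ hrTent ε j s := le_max_left _ _

theorem hr_tent_le (ε : ℝ) (j : ℕ) (s : ℝ) : hrTent ε j s ≤ if |s| < ε then 1 else 0 := by
  unfold hrTent
  split_ifs with h
  · exact max_le zero_le_one (min_le_left _ _)
  · refine max_le le_rfl ((min_le_right _ _).trans ?_)
    have : ε - |s| ≤ 0 := by linarith [not_lt.1 h]
    exact mul_nonpos_of_nonneg_of_nonpos (Nat.cast_nonneg j) this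

theorem hr_tent_le_one (ε : ℝ) (j : ℕ) (s : ℝ) : hrTent ε j s ≤ 1 := by
  refine (hr_tent_le ε j s).trans ?_
  split_ifs <;> norm_num

theorem hr_tent_tendsto (ε s : ℝ) :
    Tendsto (fun j : ℕ => hrTent ε j s) atTop (𝓝 (if |s| < ε then 1 else 0)) := by
  split_ifs with h
  · obtain ⟨N, hN⟩ := exists_nat_gt (1 / (ε - |s|))
    have hpos : 0 < ε - |s| := by linarith
    refine tendsto_const_nhds.congr' ?_
    filter_upwards [eventually_ge_atTop N] with j hj
    unfold hrTent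
    have h1 : 1 ≤ (j : ℝ) * (ε - |s|) := by
      have h2 : (N : ℝ) ≤ j := by exact_mod_cast hj
      have h3 : 1 / (ε - |s|) < j := lt_of_lt_of_le hN h2
      rw [div_lt_iff₀ hpos] at h3
      exact h3.le
    rw [min_eq_left h1, max_eq_right zero_le_one]
  · refine tendsto_const_nhds.congr ?_
    intro j
    have h1 := hr_tent_le ε j s
    rw [if_neg h] at h1
    exact le_antisymm (hr_tent_nonneg ε j s) h1

theorem hr_ind_intervalIntegrable (ε a b : ℝ) :
    IntervalIntegrable (fun t : ℝ => if |t| < ε then (1 : ℝ) else 0) volume a b := by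
  have e : (fun t : ℝ => if |t| < ε then (1 : ℝ) else 0) = indicator (Ioo (-ε) ε) (fun _ => (1 : ℝ)) := by
    funext t
    simp only [indicator, mem_Ioo, abs_lt]
  rw [e]
  exact intervalIntegrable_iff.2 ((intervalIntegrable_iff.1 intervalIntegrable_const).indicator measurableSet_Ioo)

/-- the primitive of the indicator of `(-ε, ε)`. -/
theorem hr_ind_integral {ε : ℝ} (hε : 0 < ε) (s : ℝ) :
    ∫ t in (-ε)..s, (if |t| < ε then (1 : ℝ) else 0) = max 0 (min (2 * ε) (s + ε)) := by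
  have hmid : ∀ s : ℝ, -ε ≤ s → s ≤ ε → ∫ t in (-ε)..s, (if |t| < ε then (1 : ℝ) else 0) = s + ε := by
    intro s h1 h2
    have h3 : ∫ t in (-ε)..s, (if |t| < ε then (1 : ℝ) else 0) = ∫ t in (-ε)..s, (1 : ℝ) := by
      apply intervalIntegral.integral_congr_ae
      have h4 : ∀ᵐ t : ℝ, t ≠ ε := by simp [ae_iff]
      filter_upwards [h4] with t ht htI
      rw [uIoc_of_le h1] at htI
      have : |t| < ε := abs_lt.2 ⟨htI.1, lt_of_le_of_ne (htI.2.trans h2) ht⟩
      rw [if_pos this]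
    rw [h3]
    simp
  rcases le_total s (-ε) with h1 | h1
  · rw [max_eq_left ((min_le_right _ _).trans (by linarith))]
    apply intervalIntegral.integral_zero_ae
    refine Filter.Eventually.of_forall fun t ht => ?_
    rw [uIoc_of_ge h1] at ht
    have : ¬ |t| < ε := by
      intro h2
      have := (abs_lt.1 h2).1
      linarith [ht.2]
    rw [if_neg this]
  · rcases le_total s ε with h2 | h2
    · rw [hmid s h1 h2, min_eq_right (by linarith), max_eq_right (by linarith)]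
    · rw [← intervalIntegral.integral_add_adjacent_intervals (hr_ind_intervalIntegrable ε (-ε) ε)
        (hr_ind_intervalIntegrable ε ε s), hmid ε (by linarith) le_rfl, min_eq_left (by linarith),
        max_eq_right (by linarith)]
      have h3 : ∫ t in ε..s, (if |t| < ε then (1 : ℝ) else 0) = 0 := by
        apply intervalIntegral.integral_zero_ae
        refine Filter.Eventually.of_forall fun t ht => ?_
        rw [uIoc_of_le h2] at ht
        have : ¬ |t| < ε := by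
          intro h2
          have := (abs_lt.1 h2).2
          linarith [ht.1]
        rw [if_neg this]
      rw [h3]
      ring

theorem hr_ramp_eq {ε : ℝ} (hε : 0 < ε) (s : ℝ) :
    hrRamp ε s = 1 - (2 * ε)⁻¹ * max 0 (min (2 * ε) (s + ε)) := by
  unfold hrRamp
  have h2 : 0 < 2 * ε := by linarith
  rcases le_total s (-ε) with h1 | h1
  · rw [max_eq_left ((min_le_right (2 * ε) (s + ε)).trans (by linarith)), mul_zero, sub_zero]
    have : 1 ≤ (ε - s) / (2 * ε) := by rw [le_div_iff₀ h2]; linarith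
    rw [min_eq_left this, max_eq_right zero_le_one]
  · rcases le_total s ε with h3 | h3
    · rw [min_eq_right (by linarith : s + ε ≤ 2 * ε), max_eq_right (by linarith : 0 ≤ s + ε)]
      have h4 : (ε - s) / (2 * ε) ≤ 1 := by rw [div_le_iff₀ h2]; linarith
      have h5 : 0 ≤ (ε - s) / (2 * ε) := div_nonneg (by linarith) h2.le
      rw [min_eq_right h4, max_eq_right h5]
      field_simp
      ring
    · rw [min_eq_left (by linarith : 2 * ε ≤ s + ε), max_eq_right h2.le, inv_mul_cancel₀ h2.ne', sub_self]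
      have h5 : (ε - s) / (2 * ε) ≤ 0 := div_nonpos_of_nonpos_of_nonneg (by linarith) h2.le
      rw [min_eq_right (h5.trans zero_le_one), max_eq_left h5]

/-- `C¹` approximations of the ramp. -/
noncomputable def hrRampJ (ε : ℝ) (j : ℕ) (s : ℝ) : ℝ := 1 - (2 * ε)⁻¹ * ∫ t in (-ε)..s, hrTent ε j t

theorem hr_rampJ_hasDerivAt (ε : ℝ) (j : ℕ) (s : ℝ) :
    HasDerivAt (hrRampJ ε j) (-((2 * ε)⁻¹ * hrTent ε j s)) s := by
  unfold hrRampJ
  have h1 : HasDerivAt (fun u => ∫ t in (-ε)..u, hrTent ε j t) (hrTent ε j s) s :=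
    ((hr_tent_cont ε j).integral_hasStrictDerivAt (-ε) s).hasDerivAt
  exact (h1.const_mul ((2 * ε)⁻¹)).const_sub 1

theorem hr_rampJ_deriv (ε : ℝ) (j : ℕ) : deriv (hrRampJ ε j) = fun s => -((2 * ε)⁻¹ * hrTent ε j s) :=
  funext fun s => (hr_rampJ_hasDerivAt ε j s).deriv

theorem hr_rampJ_contDiff (ε : ℝ) (j : ℕ) : ContDiff ℝ 1 (hrRampJ ε j) := by
  rw [contDiff_one_iff_deriv]
  refine ⟨fun s => (hr_rampJ_hasDerivAt ε j s).differentiableAt, ?_⟩
  rw [hr_rampJ_deriv]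
  exact (continuous_const.mul (hr_tent_cont ε j)).neg

theorem hr_rampJ_tendsto {ε : ℝ} (hε : 0 < ε) (s : ℝ) :
    Tendsto (fun j : ℕ => hrRampJ ε j s) atTop (𝓝 (hrRamp ε s)) := by
  rw [hr_ramp_eq hε, ← hr_ind_integral hε]
  unfold hrRampJ
  refine (Tendsto.const_mul _ ?_).const_sub 1
  refine intervalIntegral.tendsto_integral_filter_of_dominated_convergence (fun _ => (1 : ℝ)) ?_ ?_
    intervalIntegrable_const ?_
  · exact Filter.Eventually.of_forall fun j => (hr_tent_cont ε j).aestronglyMeasurable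
  · refine Filter.Eventually.of_forall fun j => Filter.Eventually.of_forall fun t _ => ?_
    rw [Real.norm_of_nonneg (hr_tent_nonneg ε j t)]
    exact hr_tent_le_one ε j t
  · exact Filter.Eventually.of_forall fun t _ => hr_tent_tendsto ε t

theorem hr_rampJ_bound {ε : ℝ} (hε : 0 < ε) (j : ℕ) (s : ℝ) : |hrRampJ ε j s| ≤ 2 := by
  have h2 : 0 < 2 * ε := by linarith
  have h1 : ‖∫ t in (-ε)..s, hrTent ε j t‖ ≤ |∫ t in (-ε)..s, (if |t| < ε then (1 : ℝ) else 0)| := by
    refine intervalIntegral.norm_integral_le_abs_of_norm_le ?_ (hr_ind_intervalIntegrable ε _ _)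
    refine Filter.Eventually.of_forall fun t => ?_
    rw [Real.norm_of_nonneg (hr_tent_nonneg ε j t)]
    exact hr_tent_le ε j t
  rw [hr_ind_integral hε, abs_of_nonneg (le_max_left _ _), Real.norm_eq_abs] at h1
  have h3 : |∫ t in (-ε)..s, hrTent ε j t| ≤ 2 * ε := h1.trans (max_le h2.le (min_le_left _ _))
  unfold hrRampJ
  have h4 : |(2 * ε)⁻¹ * ∫ t in (-ε)..s, hrTent ε j t| ≤ 1 := by
    rw [abs_mul, abs_of_pos (inv_pos.2 h2), inv_mul_le_iff₀ h2, mul_one]
    exact h3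
  have := abs_le.1 h4
  rw [abs_le]
  constructor <;> linarith [this.1, this.2]

/-! ### dominated convergence for functions of `φ` -/

/-- `φ` in the ball, `1` outside: a measurable function. -/
noncomputable def hrExt (x : E m) (r : ℝ) (φ : E m → ℝ) : E m → ℝ :=
  open Classical in (ball x r).piecewise φ (fun _ => 1)

open Classical in
theorem hr_ext_measurable (hφ : ContinuousOn φ (ball x r)) : Measurable (hrExt x r φ) := by
  unfold hrExt
  exact hφ.measurable_piecewise continuousOn_const measurableSet_ball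

open Classical in
theorem hr_ext_of_mem {y : E m} (hy : y ∈ ball x r) : hrExt x r φ y = φ y := by
  unfold hrExt
  exact Set.piecewise_eq_of_mem _ _ _ hy

open Classical in
theorem hr_ext_of_notMem {y : E m} (hy : y ∉ ball x r) : hrExt x r φ y = 1 := by
  unfold hrExt
  exact Set.piecewise_eq_of_notMem _ _ _ hy

theorem hr_ext_mul (h : ℝ → ℝ) {F : E m → ℝ} (hF : ∀ y, y ∉ ball x r → F y = 0) (y : E m) :
    h (φ y) * F y = h (hrExt x r φ y) * F y := by
  by_cases hy : y ∈ ball x r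
  · rw [hr_ext_of_mem hy]
  · rw [hF y hy, mul_zero, mul_zero]

theorem hr_lev_dct {ι : Type} {l : Filter ι} [l.IsCountablyGenerated] {ψ : E m → ℝ} (hψ : Measurable ψ)
    {F : E m → ℝ} (hF : Integrable F) {h : ι → ℝ → ℝ} {h0 : ℝ → ℝ} (C : ℝ)
    (hm : ∀ᶠ j in l, Measurable (h j)) (hb : ∀ᶠ j in l, ∀ s, |h j s| ≤ C)
    (hlim : ∀ᵐ y : E m, Tendsto (fun j => h j (ψ y)) l (𝓝 (h0 (ψ y)))) :
    Tendsto (fun j => ∫ y, h j (ψ y) * F y) l (𝓝 (∫ y, h0 (ψ y) * F y)) := by
  refine tendsto_integral_filter_of_dominated_convergence (fun y => C * ‖F y‖) ?_ ?_ (hF.norm.const_mul C) ?_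
  · filter_upwards [hm] with j hj
    exact ((hj.comp hψ).aestronglyMeasurable).mul hF.aestronglyMeasurable
  · filter_upwards [hb] with j hj
    refine Filter.Eventually.of_forall fun y => ?_
    rw [norm_mul, Real.norm_eq_abs]
    exact mul_le_mul_of_nonneg_right (hj _) (norm_nonneg _)
  · filter_upwards [hlim] with y hy
    exact hy.mul_const _

theorem hr_div_off {T : E m → E m} (hT : GmtTest (ball x r) T) (y : E m) (hy : y ∉ ball x r) :
    gmtDiv T y = 0 :=
  gmtDiv_eq_zero_of_notMem fun h => hy (hT.sub h)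

theorem hr_inner_off {T : E m → E m} (hT : GmtTest (ball x r) T) (y : E m) (hy : y ∉ ball x r) :
    ⟪T y, gradient φ y⟫ = 0 := by
  rw [image_eq_zero_of_notMem_tsupport fun h => hy (hT.sub h), inner_zero_left]

theorem hr_inner_integrable (hφ : ContDiffOn ℝ 1 φ (ball x r)) {T : E m → E m} (hT : GmtTest (ball x r) T) :
    Integrable (fun y => ⟪T y, gradient φ y⟫) := by
  have h := gmt_fderiv_apply_test isOpen_ball hφ hT
  have e : (fun y => ⟪T y, gradient φ y⟫) = fun y => fderiv ℝ φ y (T y) := by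
    funext y
    rw [real_inner_comm, gmt_inner_gradient]
  rw [e]
  exact h.1.integrable_of_hasCompactSupport h.2

theorem hr_div_integrable {T : E m → E m} (hT : GmtTest (ball x r) T) : Integrable (gmtDiv T) := by
  have h := continuous_gmtDiv hT
  exact h.1.integrable_of_hasCompactSupport h.2.1

theorem hr_lev_slab_id (hφ : ContDiffOn ℝ 1 φ (ball x r)) (hne : ∀ y ∈ ball x r, fderiv ℝ φ y ≠ 0)
    {T : E m → E m} (hT : GmtTest (ball x r) T) {ε : ℝ} (hε : 0 < ε) :
    ∫ y, hrRamp ε (φ y) * gmtDiv T y =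
      (2 * ε)⁻¹ * ∫ y in {y | y ∈ ball x r ∧ |φ y| < ε}, ⟪T y, gradient φ y⟫ := by
  have hψ := hr_ext_measurable hφ.continuousOn
  -- the identity for the approximations
  have hj : ∀ j : ℕ, ∫ y, hrRampJ ε j (hrExt x r φ y) * gmtDiv T y =
      (2 * ε)⁻¹ * ∫ y, hrTent ε j (hrExt x r φ y) * ⟪T y, gradient φ y⟫ := by
    intro j
    have h1 := hr_lev_ibp hφ hT (hr_rampJ_contDiff ε j)
    rw [hr_rampJ_deriv] at h1
    rw [integral_congr_ae (Filter.Eventually.of_forall fun y =>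
      (hr_ext_mul (φ := φ) (hrRampJ ε j) (hr_div_off hT) y).symm), h1, ← integral_neg, ← integral_const_mul]
    refine integral_congr_ae (Filter.Eventually.of_forall fun y => ?_)
    beta_reduce
    rw [← hr_ext_mul (φ := φ) (hrTent ε j) (hr_inner_off hT) y]
    ring
  have hL : Tendsto (fun j : ℕ => ∫ y, hrRampJ ε j (hrExt x r φ y) * gmtDiv T y) atTop
      (𝓝 (∫ y, hrRamp ε (hrExt x r φ y) * gmtDiv T y)) := by
    refine hr_lev_dct hψ (hr_div_integrable hT) 2 ?_ ?_ ?_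
    · exact Filter.Eventually.of_forall fun j => (hr_rampJ_contDiff ε j).continuous.measurable
    · exact Filter.Eventually.of_forall fun j s => hr_rampJ_bound hε j s
    · exact Filter.Eventually.of_forall fun y => hr_rampJ_tendsto hε _
  have hR : Tendsto (fun j : ℕ => ∫ y, hrTent ε j (hrExt x r φ y) * ⟪T y, gradient φ y⟫) atTop
      (𝓝 (∫ y, (fun s : ℝ => if |s| < ε then (1 : ℝ) else 0) (hrExt x r φ y) * ⟪T y, gradient φ y⟫)) := by
    refine hr_lev_dct (l := atTop) (h := fun j : ℕ => hrTent ε j)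
      (h0 := fun s : ℝ => if |s| < ε then (1 : ℝ) else 0) hψ (hr_inner_integrable hφ hT) 1 ?_ ?_ ?_
    · exact Filter.Eventually.of_forall fun j => (hr_tent_cont ε j).measurable
    · refine Filter.Eventually.of_forall fun j s => ?_
      rw [abs_of_nonneg (hr_tent_nonneg ε j s)]
      exact hr_tent_le_one ε j s
    · exact Filter.Eventually.of_forall fun y => hr_tent_tendsto ε _
  have hlim := tendsto_nhds_unique hL ((hR.const_mul ((2 * ε)⁻¹)).congr fun j => (hj j).symm)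
  rw [integral_congr_ae (Filter.Eventually.of_forall fun y => hr_ext_mul (φ := φ) (hrRamp ε) (hr_div_off hT) y), hlim]
  congr 1
  have hA : MeasurableSet {y | y ∈ ball x r ∧ |φ y| < ε} := by
    have e : {y | y ∈ ball x r ∧ |φ y| < ε} = ball x r ∩ (hrExt x r φ) ⁻¹' (Ioo (-ε) ε) := by
      ext y
      simp only [mem_setOf_eq, mem_inter_iff, mem_preimage, mem_Ioo]
      constructor
      · rintro ⟨h1, h2⟩
        rw [hr_ext_of_mem h1]
        exact ⟨h1, abs_lt.1 h2⟩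
      · rintro ⟨h1, h2⟩
        rw [hr_ext_of_mem h1] at h2
        exact ⟨h1, abs_lt.2 h2⟩
    rw [e]
    exact measurableSet_ball.inter (hψ measurableSet_Ioo)
  rw [← integral_indicator hA]
  refine integral_congr_ae (Filter.Eventually.of_forall fun y => ?_)
  beta_reduce
  by_cases hy : y ∈ ball x r
  · rw [hr_ext_of_mem hy]
    by_cases h2 : |φ y| < ε
    · rw [if_pos h2, one_mul, indicator_of_mem (show y ∈ {y | y ∈ ball x r ∧ |φ y| < ε} from ⟨hy, h2⟩)]
    · rw [if_neg h2, zero_mul, indicator_of_notMem (show y ∉ {y | y ∈ ball x r ∧ |φ y| < ε} from fun h => h2 h.2)]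
  · rw [hr_inner_off hT y hy, mul_zero, indicator_of_notMem (show y ∉ {y | y ∈ ball x r ∧ |φ y| < ε} from fun h => hy h.1)]

theorem hr_ramp_measurable (ε : ℝ) : Measurable (hrRamp ε) := by
  unfold hrRamp
  fun_prop

theorem hr_ramp_bound (ε s : ℝ) : |hrRamp ε s| ≤ 1 := by
  unfold hrRamp
  rw [abs_of_nonneg (le_max_left _ _)]
  exact max_le zero_le_one (min_le_left _ _)

theorem hr_ramp_tendsto {s : ℝ} (hs : s ≠ 0) :
    Tendsto (fun ε : ℝ => hrRamp ε s) (𝓝[>] 0) (𝓝 (if s < 0 then 1 else 0)) := by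
  have hev : ∀ᶠ ε : ℝ in 𝓝[>] 0, 0 < ε ∧ ε < |s| := by
    have h1 : ∀ᶠ ε : ℝ in 𝓝[>] 0, ε < |s| :=
      (tendsto_id.mono_left nhdsWithin_le_nhds).eventually (gt_mem_nhds (abs_pos.2 hs))
    filter_upwards [self_mem_nhdsWithin, h1] with ε h2 h3
    exact ⟨h2, h3⟩
  refine tendsto_const_nhds.congr' ?_
  filter_upwards [hev] with ε hε
  have h2 : 0 < 2 * ε := by linarith [hε.1]
  unfold hrRamp
  split_ifs with h
  · rw [abs_of_neg h] at hε
    have : 1 ≤ (ε - s) / (2 * ε) := by rw [le_div_iff₀ h2]; linarith [hε.2]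
    rw [min_eq_left this, max_eq_right zero_le_one]
  · have hs' : 0 < s := lt_of_le_of_ne (not_lt.1 h) hs.symm
    rw [abs_of_pos hs'] at hε
    have h5 : (ε - s) / (2 * ε) ≤ 0 := div_nonpos_of_nonpos_of_nonneg (by linarith [hε.2]) h2.le
    rw [min_eq_right (h5.trans zero_le_one), max_eq_left h5]

/-- **Gauss-Green in slab form.** -/
theorem hr_lev_slab (h : HrLev S x r φ) {T : E m → E m} (hT : GmtTest (ball x r) T) :
    Tendsto (fun ε : ℝ => (2 * ε)⁻¹ * ∫ y in {y | y ∈ ball x r ∧ |φ y| < ε}, ⟪T y, gradient φ y⟫)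
      (𝓝[>] 0) (𝓝 (∫ y in S, gmtDiv T y)) := by
  have hφ : ContDiffOn ℝ 1 φ (ball x r) := h.smooth.of_le (by exact_mod_cast le_top)
  have hψ := hr_ext_measurable hφ.continuousOn
  have hL : Tendsto (fun ε : ℝ => ∫ y, hrRamp ε (hrExt x r φ y) * gmtDiv T y) (𝓝[>] 0)
      (𝓝 (∫ y, (fun s : ℝ => if s < 0 then (1 : ℝ) else 0) (hrExt x r φ y) * gmtDiv T y)) := by
    refine hr_lev_dct (l := 𝓝[>] (0 : ℝ)) (h := fun ε : ℝ => hrRamp ε)
      (h0 := fun s : ℝ => if s < 0 then (1 : ℝ) else 0) hψ (hr_div_integrable hT) 1 ?_ ?_ ?_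
    · exact Filter.Eventually.of_forall fun ε => hr_ramp_measurable ε
    · exact Filter.Eventually.of_forall fun ε s => hr_ramp_bound ε s
    · have h0 := hr_lev_null hφ h.ne 0
      have h1 : ∀ᵐ y : E m, ¬ (y ∈ ball x r ∧ φ y = 0) := by
        rw [ae_iff]
        simpa only [not_not] using h0
      filter_upwards [h1] with y hy
      apply hr_ramp_tendsto
      by_cases hyB : y ∈ ball x r
      · rw [hr_ext_of_mem hyB]
        exact fun h2 => hy ⟨hyB, h2⟩
      · rw [hr_ext_of_notMem hyB]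
        exact one_ne_zero
  have hval : ∫ y, (fun s : ℝ => if s < 0 then (1 : ℝ) else 0) (hrExt x r φ y) * gmtDiv T y = ∫ y in S, gmtDiv T y := by
    have hA : MeasurableSet {y | y ∈ ball x r ∧ φ y < 0} := by
      have e : {y | y ∈ ball x r ∧ φ y < 0} = ball x r ∩ (hrExt x r φ) ⁻¹' (Iio 0) := by
        ext y
        simp only [mem_setOf_eq, mem_inter_iff, mem_preimage, mem_Iio]
        constructor
        · rintro ⟨h1, h2⟩
          rw [hr_ext_of_mem h1]
          exact ⟨h1, h2⟩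
        · rintro ⟨h1, h2⟩
          rw [hr_ext_of_mem h1] at h2
          exact ⟨h1, h2⟩
      rw [e]
      exact measurableSet_ball.inter (hψ measurableSet_Iio)
    have e1 : ∫ y in S, gmtDiv T y = ∫ y in S ∩ ball x r, gmtDiv T y :=
      setIntegral_eq_of_subset_of_forall_diff_eq_zero h.meas inter_subset_left
        (fun y hy => hr_div_off hT y fun hyB => hy.2 ⟨hy.1, hyB⟩)
    rw [e1, setIntegral_congr_set h.eq, ← integral_indicator hA]
    refine integral_congr_ae (Filter.Eventually.of_forall fun y => ?_)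
    beta_reduce
    by_cases hy : y ∈ ball x r
    · rw [hr_ext_of_mem hy]
      by_cases h2 : φ y < 0
      · rw [if_pos h2, one_mul, indicator_of_mem (show y ∈ {y | y ∈ ball x r ∧ φ y < 0} from ⟨hy, h2⟩)]
      · rw [if_neg h2, zero_mul, indicator_of_notMem (show y ∉ {y | y ∈ ball x r ∧ φ y < 0} from fun h => h2 h.2)]
    · rw [hr_div_off hT y hy, mul_zero, indicator_of_notMem (show y ∉ {y | y ∈ ball x r ∧ φ y < 0} from fun h => hy h.1)]
  rw [← hval]
  refine hL.congr' ?_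
  filter_upwards [self_mem_nhdsWithin] with ε hε
  rw [← hr_lev_slab_id hφ h.ne hT hε]
  exact integral_congr_ae (Filter.Eventually.of_forall fun y => (hr_ext_mul (φ := φ) (hrRamp ε) (hr_div_off hT) y).symm)

end Claimed.Agent.Gmt
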