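import Claimed.Agent.Lib.Gmt.HrLev2

/-!
THIS FILE = PACKAGE L-GMT-HrLev3 (part 3 of 6 of the former `HrLev.lean`, which now only imports the parts; the text below is the plan of the whole former file).
# Lib/Gmt G5.5 (architect: helper190): smooth domains in LEVEL SET form: perimeter measure, normal, Euler-Lagrange equation.
PACKAGES L-GMT-HrLevA (`hr_lev_null` ... `hr_lev_slab`), L-GMT-HrLevB (`hr_lev_lf`, `hr_lev_le`, `hr_lev_nu`, `hr_lev_C1`, `hr_reg_mu`), L-GMT-HrLevC (`hr_tan_div`, `hr_Z_*`, `hr_reg_el`).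
No graphs, no area/coarea formula, no partition of unity.

SETTING `HrLev S x r φ`: `B = ball x r`, `φ ∈ C^∞(B)`, `∇φ ≠ 0` on `B`, `S` measurable, `S ∩ B = {φ < 0} ∩ B` a.e.   `ν̃ = ∇φ/|∇φ|`.   Functions with `tsupport` in `B` are multiplied with functions which are junk off `B`: the products are smooth
(`ContDiffOn` on the open set `B` + vanishing near every point off `tsupport`: `contDiff_iff_contDiffAt`, two cases).
* `hr_lev_null`: `|{y ∈ B : φ y = s}| = 0`.  E.g. Lebesgue density: at `y₀` with `φ y₀ = s` the level set lies in `{|⟪y-y₀,ν̃(y₀)⟫| ≤ η‖y-y₀‖}` for `‖y-y₀‖ ≤ r(η)`, whose density in small balls is `≤ C η`: no point of the level set is a density point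
  (`Besicovitch.ae_tendsto_measure_inter_div_of_measurableSet` / `IsUnifLocDoublingMeasure.ae_tendsto_measure_inter_div`).   Or: straighten by the inverse function theorem and use that differentiable maps preserve null sets
  (`MeasureTheory.Measure.addHaar_image_eq_zero_of_differentiableOn_of_addHaar_eq_zero`, hyperplanes are null), + Lindelöf.
* `hr_lev_ibp`: `H ∈ C¹(ℝ)`, `T ∈ C¹_c(B)`: `H(φ) T ∈ C¹_c(B)`, `∫ div (H(φ) T) = 0` (`integral_gmtDiv_eq_zero`), `div (H(φ)T) = H(φ) div T + H'(φ) ⟪∇φ,T⟫` (`gmtDiv_smul`).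
* `hr_lev_slab_id`: `H_ε(s) = 1` for `s ≤ -ε`, `(ε - s)/(2ε)` for `|s| ≤ ε`, `0` for `s ≥ ε`.  Approximate: `H_j ∈ C¹`, `H_j → H_ε` uniformly, `H_j' → -(2ε)⁻¹ 1_{(-ε,ε)}` boundedly and pointwise off `{±ε}` (e.g. `H_j = H_ε * mollifier`, or explicit with `Real.smoothTransition`);
  dominated convergence, `hr_lev_null` for the levels `±ε`.
* `hr_lev_slab`: `ε ↓ 0`: `H_ε(φ) → 1_{φ<0}` off `{φ = 0}`; dominated convergence; `∫_B 1_{φ<0} div T = ∫_S div T`.
* `hr_lev_lf`: `W ⋐ B`, `χ ∈ C¹_c(B)`, `0 ≤ χ ≤ 1`, `χ = 1` on `closure W` (`exists_contDiff_tsupport_subset`-type/`exists_smooth_one_nhds_of_subset_interior`...).  For `T ∈ C¹_c(W)`, `|T| ≤ 1`: `⟪T,∇φ⟫ ≤ χ|∇φ|`, so by `hr_lev_slab` for `T` and for `χ ν̃`: `∫_S div T ≤ ∫_S div (χ ν̃) < ∞`.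
* `hr_lev_le`: for `χ ∈ C¹_c(B)`, `χ ≥ 0`: `∫ χ dμ ≤ Λ(χ) := ∫_S div (χ ν̃)`.   Layer cake `∫ χ dμ = ∫_0^∞ μ{χ > s} ds` (`MeasureTheory.lintegral_eq_lintegral_meas_lt`), `μ{χ>s} = gmtP S {χ>s} = sup_T ∫_S div T ≤ liminf_ε (2ε)⁻¹ ∫_{|φ|<ε, χ>s} |∇φ|`, Fatou along `ε = 1/j`, Tonelli.
  [or `gmt_polar_open` of `GgRiesz.lean`.]
* `hr_lev_nu`: Gauss-Green: `Λ(χ) = ∫ χ ⟪ν̃,ν⟫ dμ ≤ ∫ χ dμ ≤ Λ(χ)`: `∫ χ (1 - ⟪ν̃,ν⟫) dμ = 0`, integrand `≥ 0`: `⟪ν̃,ν⟫ = 1` a.e. on `{χ>0}`, so `ν = ν̃` (`‖ν - ν̃‖² = ‖ν‖² - 2 + 1 ≤ 0`); countably many `χ_j` with `⋃ {χ_j > 0} = B`.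
* `hr_lev_C1`: `∫ χ dμ = lim (2ε)⁻¹ ∫_{|φ|<ε} χ|∇φ|` for all `χ ∈ C¹_c(B)` (write `χ = (χ + M χ₀) - M χ₀`).   `hr_reg_mu`: `g ∈ C_c(B)`: uniform approximation by `C¹_c` functions supported in a fixed compact set (mollification), `(2ε)⁻¹ ∫_{|φ|<ε} χ₀|∇φ|` is bounded for small `ε`.
  `μ(B \ {φ=0}) = 0`: `{φ<0} ∩ B`, `{φ>0} ∩ B` are open and contain no boundary point: `gmtMu_compl_gmtBd`.
* `hr_tan_div`: `Z ∈ C¹_c(B)`, `⟪Z,∇φ⟫ = 0`: `∫ H(φ) div Z = 0` for all `H ∈ C¹` (`hr_lev_ibp`), hence for `H = 1_{(-ε,ε)}` (increasing limit of `C¹` functions); `hr_reg_mu` with `g = div Z/|∇φ|`.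
* `hr_Z_div`.  `F₀ = √(A(∇φ,∇φ))`, `V = F₀⁻¹ a∇φ` (`a = gmtSharp (A y)`), `Z = F₀ X - ⟪X,∇φ⟫ V`; `⟪V,∇φ⟫ = F₀`, so `⟪Z,∇φ⟫ = 0`;
  `div Z = ∇F₀·X + F₀ div X - ⟪DX V,∇φ⟫ - ⟪X, D²φ V⟫ - ⟪X,∇φ⟫ div V`, `∇F₀·X = D_X A(∇φ,∇φ)/(2F₀) + ⟪V, D²φ X⟫`, `D²φ` symmetric, `⟪DX V,∇φ⟫ = A(∇φ,(DX)ᵀ∇φ)/F₀`:   `div Z = gmtFv1 A X y (∇φ) - ⟪X,∇φ⟫ div V`.
* `hr_reg_el`: `gmt_lam_fv`, `ν = ν̃` a.e., homogeneity (`hr_fv1_homog`), `hr_tan_div`: `∫ (div V - f) ⟪X,ν̃⟫ dμ = 0`; `X = ψ ν̃`; `div V - f` is continuous on `B`; `μ(ball y s) > 0` at `y ∈ {φ = 0}` (`hr_reg_bd`-argument, `gmtBd_iff_gmtMu`).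
-/

set_option autoImplicit false
open scoped ContDiff ENNReal RealInnerProductSpace Topology
open MeasureTheory Metric Set Filter

namespace Claimed.Agent.Gmt

variable {m : ℕ}

variable {S : Set (E m)} {x : E m} {r : ℝ} {φ : E m → ℝ}

/-- the field `χ ν̃`. -/
noncomputable def hrNuF (φ : E m → ℝ) (χ : E m → ℝ) (y : E m) : E m :=
  (χ y * ‖gradient φ y‖⁻¹) • gradient φ y

theorem hrl_grad_contDiffOn (h : HrLev S x r φ) : ContDiffOn ℝ ∞ (gradient φ) (ball x r) := by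
  have h1 : ContDiffOn ℝ ∞ (fderiv ℝ φ) (ball x r) :=
    h.smooth.fderiv_of_isOpen isOpen_ball (by simp)
  unfold gradient
  exact (LinearIsometryEquiv.contDiff _).comp_contDiffOn h1

theorem hrl_grad_ne (h : HrLev S x r φ) {y : E m} (hy : y ∈ ball x r) : gradient φ y ≠ 0 := by
  intro h0
  apply h.ne y hy
  unfold gradient at h0
  simpa using h0

theorem hrl_nu_contDiffOn (h : HrLev S x r φ) :
    ContDiffOn ℝ ∞ (fun y => ‖gradient φ y‖⁻¹ • gradient φ y) (ball x r) := by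
  have hg := hrl_grad_contDiffOn h
  exact ((hg.norm ℝ fun y hy => hrl_grad_ne h hy).inv
    fun y hy => norm_ne_zero_iff.2 (hrl_grad_ne h hy)).smul hg

/-- gluing: (compactly supported in `U`) times (smooth on `U`). -/
theorem hrl_glue {F : Type*} [NormedAddCommGroup F] [NormedSpace ℝ F] {N : WithTop ℕ∞}
    {U : Set (E m)} (hU : IsOpen U) {χ : E m → ℝ} {V : E m → F} (hχ : ContDiff ℝ N χ)
    (hs : tsupport χ ⊆ U) (hV : ContDiffOn ℝ N V U) : ContDiff ℝ N (fun y => χ y • V y) := by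
  rw [contDiff_iff_contDiffAt]
  intro y
  by_cases hy : y ∈ U
  · exact hχ.contDiffAt.smul (hV.contDiffAt (hU.mem_nhds hy))
  · have h1 : y ∉ tsupport χ := fun h => hy (hs h)
    have h2 : (fun y => χ y • V y) =ᶠ[𝓝 y] fun _ => 0 := by
      filter_upwards [(isClosed_tsupport χ).isOpen_compl.mem_nhds h1] with z hz
      rw [image_eq_zero_of_notMem_tsupport hz, zero_smul]
    exact contDiffAt_const.congr_of_eventuallyEq h2

theorem hrl_nuF_eq (φ χ : E m → ℝ) :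
    hrNuF φ χ = fun y => χ y • (‖gradient φ y‖⁻¹ • gradient φ y) := by
  funext y
  unfold hrNuF
  rw [mul_smul]

theorem hrl_nuF_tsupport (φ χ : E m → ℝ) : tsupport (hrNuF φ χ) ⊆ tsupport χ := by
  rw [hrl_nuF_eq]
  exact tsupport_smul_subset_left χ _

theorem hr_nuF_test (h : HrLev S x r φ) {χ : E m → ℝ} (hχ : GmtTest0 (ball x r) χ) :
    GmtTest (ball x r) (hrNuF φ χ) := by
  refine ⟨?_, hχ.cpt.of_isClosed_subset (isClosed_tsupport _) (hrl_nuF_tsupport φ χ),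
    (hrl_nuF_tsupport φ χ).trans hχ.sub⟩
  rw [hrl_nuF_eq]
  exact hrl_glue isOpen_ball hχ.c1 hχ.sub ((hrl_nu_contDiffOn h).of_le (by simp))

theorem hr_nuF_testS (h : HrLev S x r φ) {χ : E m → ℝ} (hχ : ContDiff ℝ ∞ χ)
    (hc : HasCompactSupport χ) (hs : tsupport χ ⊆ ball x r) : GmtTestS (ball x r) (hrNuF φ χ) := by
  refine ⟨?_, hc.of_isClosed_subset (isClosed_tsupport _) (hrl_nuF_tsupport φ χ),
    (hrl_nuF_tsupport φ χ).trans hs⟩
  rw [hrl_nuF_eq]
  exact hrl_glue isOpen_ball hχ hs (hrl_nu_contDiffOn h)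

theorem hrl_nuF_inner (φ χ : E m → ℝ) (y : E m) :
    ⟪hrNuF φ χ y, gradient φ y⟫ = χ y * ‖gradient φ y‖ := by
  unfold hrNuF
  rw [inner_smul_left, real_inner_self_eq_norm_sq]
  by_cases h0 : ‖gradient φ y‖ = 0
  · rw [h0]; simp
  · simp only [conj_trivial]
    field_simp

/-- `⟪T,∇φ⟫` is continuous with compact support. -/
theorem hrl_inner_continuous (h : HrLev S x r φ) {T : E m → E m} (hT : GmtTest (ball x r) T) :
    Continuous (fun y => ⟪T y, gradient φ y⟫) ∧ HasCompactSupport fun y => ⟪T y, gradient φ y⟫ := by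
  constructor
  · rw [continuous_iff_continuousAt]
    intro y
    by_cases hy : y ∈ ball x r
    · exact hT.c1.continuous.continuousAt.inner
        ((hrl_grad_contDiffOn h).continuousOn.continuousAt (isOpen_ball.mem_nhds hy))
    · have h1 : y ∉ tsupport T := fun h => hy (hT.sub h)
      have h2 : (fun y => ⟪T y, gradient φ y⟫) =ᶠ[𝓝 y] fun _ => 0 := by
        filter_upwards [(isClosed_tsupport T).isOpen_compl.mem_nhds h1] with z hz
        rw [image_eq_zero_of_notMem_tsupport hz, inner_zero_left]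
      exact continuousAt_const.congr h2.symm
  · refine hT.cpt.mono' fun y hy => ?_
    by_contra hc
    apply hy
    show ⟪T y, gradient φ y⟫ = 0
    rw [image_eq_zero_of_notMem_tsupport hc, inner_zero_left]

theorem hrl_inner_integrable (h : HrLev S x r φ) {T : E m → E m} (hT : GmtTest (ball x r) T) :
    Integrable fun y => ⟪T y, gradient φ y⟫ :=
  (hrl_inner_continuous h hT).1.integrable_of_hasCompactSupport (hrl_inner_continuous h hT).2

/-- comparison of two fields through the slab formula. -/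
theorem hrl_compare (h : HrLev S x r φ) {T T' : E m → E m} (hT : GmtTest (ball x r) T)
    (hT' : GmtTest (ball x r) T')
    (hle : ∀ y, ⟪T y, gradient φ y⟫ ≤ ⟪T' y, gradient φ y⟫) :
    ∫ y in S, gmtDiv T y ≤ ∫ y in S, gmtDiv T' y := by
  refine le_of_tendsto_of_tendsto (hr_lev_slab h hT) (hr_lev_slab h hT') ?_
  filter_upwards [self_mem_nhdsWithin] with ε hε
  have hε0 : (0 : ℝ) < ε := hε
  refine mul_le_mul_of_nonneg_left ?_ (by positivity)
  exact integral_mono (hrl_inner_integrable h hT).integrableOn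
    (hrl_inner_integrable h hT').integrableOn hle

/-- cut-off functions. -/
theorem hrl_cutoff {K U : Set (E m)} (hK : IsCompact K) (hU : IsOpen U) (hKU : K ⊆ U) :
    ∃ χ : E m → ℝ, ContDiff ℝ ∞ χ ∧ HasCompactSupport χ ∧ tsupport χ ⊆ U ∧
      (∀ y, 0 ≤ χ y ∧ χ y ≤ 1) ∧ ∀ y ∈ K, χ y = 1 := by
  obtain ⟨W, ⟨hWo, hWc, hWU⟩, hKW⟩ := gmt_exists_cc hK hU hKU
  obtain ⟨g, g1, g2, g3, g4⟩ := flb_urysohn hWo hK.isClosed hKW
  have hts : tsupport g = closure W := by unfold tsupport; rw [g3]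
  refine ⟨g, g1, ?_, hts ▸ hWU, g2, g4⟩
  unfold HasCompactSupport
  rw [hts]
  exact hWc

theorem hr_lev_lf (h : HrLev S x r φ) : GmtLF S (ball x r) := by
  refine ⟨h.meas, fun W hW => ?_⟩
  obtain ⟨χ, c1, c2, c3, c4, c5⟩ := hrl_cutoff hW.2.1 isOpen_ball hW.2.2
  have hχ : GmtTest0 (ball x r) χ := ⟨c1.of_le (by simp), c2, c3⟩
  have hle : gmtP S W ≤ ENNReal.ofReal (∫ y in S, gmtDiv (hrNuF φ χ) y) := by
    unfold gmtP gmtPer
    refine iSup_le fun T => iSup_le fun hT => iSup_le fun hadm => ?_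
    refine ENNReal.ofReal_le_ofReal ?_
    have hT1 : ∀ y, ‖T y‖ ≤ 1 := (gmtAdm_eu_iff T).1 hadm
    have hTB : GmtTest (ball x r) T :=
      ⟨hT.c1, hT.cpt, hT.sub.trans (subset_closure.trans hW.2.2)⟩
    refine hrl_compare h hTB (hr_nuF_test h hχ) fun y => ?_
    rw [hrl_nuF_inner]
    by_cases hy : y ∈ W
    · rw [c5 y (subset_closure hy), one_mul]
      refine (real_inner_le_norm _ _).trans ?_
      have := hT1 y
      nlinarith [norm_nonneg (gradient φ y)]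
    · rw [image_eq_zero_of_notMem_tsupport fun hc => hy (hT.sub hc), inner_zero_left]
      exact mul_nonneg (c4 y).1 (norm_nonneg _)
  exact ne_top_of_le_ne_top ENNReal.ofReal_ne_top hle

theorem hrl_slab_open (h : HrLev S x r φ) (ε : ℝ) : IsOpen {y | y ∈ ball x r ∧ |φ y| < ε} := by
  have := h.smooth.continuousOn.isOpen_inter_preimage isOpen_ball (isOpen_Ioo (a := -ε) (b := ε))
  have e : {y | y ∈ ball x r ∧ |φ y| < ε} = ball x r ∩ φ ⁻¹' Ioo (-ε) ε := by
    ext y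
    exact ⟨fun hy => ⟨hy.1, abs_lt.1 hy.2⟩, fun hy => ⟨hy.1, abs_lt.2 hy.2⟩⟩
  rw [e]
  exact this

/-- the sequence `1/(j+1)`. -/
theorem hrl_seq : Tendsto (fun j : ℕ => 1 / ((j : ℝ) + 1)) atTop (𝓝[>] 0) :=
  tendsto_nhdsWithin_iff.2 ⟨tendsto_one_div_add_atTop_nhds_zero_nat,
    Eventually.of_forall fun j => by
      show (0 : ℝ) < 1 / ((j : ℝ) + 1)
      positivity⟩

theorem hrl_ofReal_indicator (V : Set (E m)) (f : E m → ℝ) (y : E m) :
    ENNReal.ofReal (V.indicator f y) = V.indicator (fun y => ENNReal.ofReal (f y)) y := by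
  by_cases hy : y ∈ V
  · rw [indicator_of_mem hy, indicator_of_mem hy]
  · rw [indicator_of_notMem hy, indicator_of_notMem hy, ENNReal.ofReal_zero]

theorem hr_lev_le (h : HrLev S x r φ) {χ : E m → ℝ} (hχ : GmtTest0 (ball x r) χ)
    (h0 : ∀ y, 0 ≤ χ y) : ∫ y, χ y ∂(gmtMu S) ≤ ∫ y in S, gmtDiv (hrNuF φ χ) y := by
  obtain ⟨χ₀, c1, c2, c3, c4, c5⟩ := hrl_cutoff hχ.cpt isOpen_ball hχ.sub
  have hχ₀ : GmtTest0 (ball x r) χ₀ := ⟨c1.of_le (by simp), c2, c3⟩
  have hT₀ := hr_nuF_test h hχ₀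
  have hTχ := hr_nuF_test h hχ
  obtain ⟨w, hw⟩ : ∃ w : E m → ℝ, w = fun y => ⟪hrNuF φ χ₀ y, gradient φ y⟫ := ⟨_, rfl⟩
  have hwc : Continuous w := hw ▸ (hrl_inner_continuous h hT₀).1
  have hwi : Integrable w := hw ▸ hrl_inner_integrable h hT₀
  have hw0 : ∀ y, 0 ≤ w y := fun y => by
    rw [hw]
    show 0 ≤ ⟪hrNuF φ χ₀ y, gradient φ y⟫
    rw [hrl_nuF_inner]
    exact mul_nonneg (c4 y).1 (norm_nonneg _)
  have hwK : ∀ y ∈ tsupport χ, w y = ‖gradient φ y‖ := fun y hy => by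
    rw [hw]
    show ⟪hrNuF φ χ₀ y, gradient φ y⟫ = _
    rw [hrl_nuF_inner, c5 y hy, one_mul]
  obtain ⟨e, he⟩ : ∃ e : ℕ → ℝ, e = fun j : ℕ => 1 / ((j : ℝ) + 1) := ⟨_, rfl⟩
  have hepos : ∀ j, 0 < e j := fun j => by rw [he]; positivity
  have hetend : Tendsto e atTop (𝓝[>] 0) := he ▸ hrl_seq
  obtain ⟨lam, hlam⟩ : ∃ lam : ℕ → Measure (E m), lam = fun j =>
      (volume.restrict {y | y ∈ ball x r ∧ |φ y| < e j}).withDensity
        fun y => ENNReal.ofReal ((2 * e j)⁻¹ * w y) := ⟨_, rfl⟩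
  have hρm : ∀ j, Measurable fun y => ENNReal.ofReal ((2 * e j)⁻¹ * w y) := fun j =>
    (continuous_const.mul hwc).measurable.ennreal_ofReal
  -- Step A
  have stepA : ∀ t : ℝ, 0 < t → gmtMu S {y | t < χ y}
      ≤ liminf (fun j => lam j {y | t < χ y}) atTop := by
    intro t ht
    have hV : IsOpen {y | t < χ y} := isOpen_lt continuous_const hχ.c1.continuous
    have hVK : {y | t < χ y} ⊆ tsupport χ := fun y hy =>
      subset_tsupport χ (Function.mem_support.2 (ne_of_gt (lt_trans ht hy)))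
    rw [gmtMu_open S hV]
    unfold gmtP gmtPer
    refine iSup_le fun T => iSup_le fun hT => iSup_le fun hadm => ?_
    have hT1 : ∀ y, ‖T y‖ ≤ 1 := (gmtAdm_eu_iff T).1 hadm
    have hTB : GmtTest (ball x r) T := ⟨hT.c1, hT.cpt, hT.sub.trans (hVK.trans hχ.sub)⟩
    have lim := (hr_lev_slab h hTB).comp hetend
    have lim' := (ENNReal.continuous_ofReal.tendsto _).comp lim
    rw [← lim'.liminf_eq]
    refine liminf_le_liminf (Eventually.of_forall fun j => ?_)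
    have hj := hepos j
    show ENNReal.ofReal ((2 * e j)⁻¹ * ∫ y in {y | y ∈ ball x r ∧ |φ y| < e j},
      ⟪T y, gradient φ y⟫) ≤ lam j {y | t < χ y}
    rw [hlam]
    show _ ≤ ((volume.restrict {y | y ∈ ball x r ∧ |φ y| < e j}).withDensity
        fun y => ENNReal.ofReal ((2 * e j)⁻¹ * w y)) {y | t < χ y}
    rw [withDensity_apply _ hV.measurableSet, ← lintegral_indicator hV.measurableSet]
    have hgi : Integrable (({y | t < χ y}).indicator fun y => (2 * e j)⁻¹ * w y)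
        (volume.restrict {y | y ∈ ball x r ∧ |φ y| < e j}) :=
      ((hwi.const_mul _).indicator hV.measurableSet).integrableOn
    have hg0 : ∀ y, 0 ≤ ({y | t < χ y}).indicator (fun y => (2 * e j)⁻¹ * w y) y := fun y =>
      indicator_nonneg (fun y _ => mul_nonneg (by positivity) (hw0 y)) y
    have e1 := ofReal_integral_eq_lintegral_ofReal hgi (Eventually.of_forall hg0)
    simp only [hrl_ofReal_indicator] at e1
    rw [← e1]
    refine ENNReal.ofReal_le_ofReal ?_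
    rw [← integral_const_mul]
    refine integral_mono ((hrl_inner_integrable h hTB).const_mul _).integrableOn hgi fun y => ?_
    by_cases hy : y ∈ {y | t < χ y}
    · rw [indicator_of_mem hy, hwK y (hVK hy)]
      refine mul_le_mul_of_nonneg_left ?_ (by positivity)
      refine (real_inner_le_norm _ _).trans ?_
      have := hT1 y
      nlinarith [norm_nonneg (gradient φ y)]
    · rw [indicator_of_notMem hy, image_eq_zero_of_notMem_tsupport fun hc => hy (hT.sub hc),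
        inner_zero_left, mul_zero]
  -- Step B
  have stepB : ∀ j, ∫⁻ y, ENNReal.ofReal (χ y) ∂(lam j)
      = ENNReal.ofReal ((2 * e j)⁻¹ * ∫ y in {y | y ∈ ball x r ∧ |φ y| < e j},
        ⟪hrNuF φ χ y, gradient φ y⟫) := by
    intro j
    have hj := hepos j
    rw [hlam]
    show ∫⁻ y, ENNReal.ofReal (χ y) ∂((volume.restrict {y | y ∈ ball x r ∧ |φ y| < e j}).withDensity
        fun y => ENNReal.ofReal ((2 * e j)⁻¹ * w y)) = _
    rw [lintegral_withDensity_eq_lintegral_mul _ (hρm j)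
      hχ.c1.continuous.measurable.ennreal_ofReal, ← integral_const_mul,
      ofReal_integral_eq_lintegral_ofReal ((hrl_inner_integrable h hTχ).const_mul _).integrableOn
        (Eventually.of_forall fun y => by
          show 0 ≤ (2 * e j)⁻¹ * ⟪hrNuF φ χ y, gradient φ y⟫
          rw [hrl_nuF_inner]
          exact mul_nonneg (by positivity) (mul_nonneg (h0 y) (norm_nonneg _)))]
    refine lintegral_congr fun y => ?_
    show ENNReal.ofReal ((2 * e j)⁻¹ * w y) * ENNReal.ofReal (χ y) = _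
    rw [← ENNReal.ofReal_mul (mul_nonneg (by positivity) (hw0 y)), hrl_nuF_inner]
    congr 1
    by_cases hy : y ∈ tsupport χ
    · rw [hwK y hy]; ring
    · rw [image_eq_zero_of_notMem_tsupport hy]; ring
  -- Step C
  have limχ := (hr_lev_slab h hTχ).comp hetend
  have limχ' := (ENNReal.continuous_ofReal.tendsto _).comp limχ
  have hΛ0 : 0 ≤ ∫ y in S, gmtDiv (hrNuF φ χ) y := by
    refine ge_of_tendsto' limχ fun j => ?_
    have hj := hepos j
    refine mul_nonneg (by positivity) (integral_nonneg fun y => ?_)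
    show 0 ≤ ⟪hrNuF φ χ y, gradient φ y⟫
    rw [hrl_nuF_inner]
    exact mul_nonneg (h0 y) (norm_nonneg _)
  have hmain : ∫⁻ y, ENNReal.ofReal (χ y) ∂(gmtMu S)
      ≤ ENNReal.ofReal (∫ y in S, gmtDiv (hrNuF φ χ) y) := by
    calc ∫⁻ y, ENNReal.ofReal (χ y) ∂(gmtMu S)
        = ∫⁻ t in Ioi (0 : ℝ), gmtMu S {y | t < χ y} :=
          lintegral_eq_lintegral_meas_lt _ (Eventually.of_forall h0)
            hχ.c1.continuous.aemeasurable
      _ ≤ ∫⁻ t in Ioi (0 : ℝ), liminf (fun j => lam j {y | t < χ y}) atTop :=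
          setLIntegral_mono' measurableSet_Ioi fun t ht => stepA t ht
      _ ≤ liminf (fun j => ∫⁻ t in Ioi (0 : ℝ), lam j {y | t < χ y}) atTop :=
          lintegral_liminf_le fun j => Antitone.measurable fun t t' htt' =>
            measure_mono fun y (hy : t' < χ y) => lt_of_le_of_lt htt' hy
      _ = liminf (fun j => ENNReal.ofReal ((2 * e j)⁻¹ *
            ∫ y in {y | y ∈ ball x r ∧ |φ y| < e j}, ⟪hrNuF φ χ y, gradient φ y⟫)) atTop := by
          congr 1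
          funext j
          rw [← stepB j]
          exact (lintegral_eq_lintegral_meas_lt _ (Eventually.of_forall h0)
            hχ.c1.continuous.aemeasurable).symm
      _ = ENNReal.ofReal (∫ y in S, gmtDiv (hrNuF φ χ) y) := limχ'.liminf_eq
  rw [integral_eq_lintegral_of_nonneg_ae (Eventually.of_forall h0)
    hχ.c1.continuous.aestronglyMeasurable]
  exact ENNReal.toReal_le_of_le_ofReal hΛ0 hmain

end Claimed.Agent.Gmt
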