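import Claimed.Agent.Lib.Gmt.HrLev3

/-!
THIS FILE = PACKAGE L-GMT-HrLev4 (part 4 of 6 of the former `HrLev.lean`, which now only imports the parts; the text below is the plan of the whole former file).
# Lib/Gmt G5.5 (architect: helper190): smooth domains in LEVEL SET form: perimeter measure, normal, Euler-Lagrange equation.
PACKAGES L-GMT-HrLevA (`hr_lev_null` ... `hr_lev_slab`), L-GMT-HrLevB (`hr_lev_lf`, `hr_lev_le`, `hr_lev_nu`, `hr_lev_C1`, `hr_reg_mu`), L-GMT-HrLevC (`hr_tan_div`, `hr_Z_*`, `hr_reg_el`).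
No graphs, no area/coarea formula, no partition of unity.

SETTING `HrLev S x r φ`: `B = ball x r`, `φ ∈ C^∞(B)`, `∇φ ≠ 0` on `B`, `S` measurable, `S ∩ B = {φ < 0} ∩ B` a.e.   `ν̃ = ∇φ/|∇φ|`.   Functions with `tsupport` in `B` are multiplied with functions which are junk off `B`: the products are smooth
(`ContDiffOn` on the open set `B` + vanishing near every point off `tsupport`: `contDiff_iff_contDiffAt`, two cases).
* `hr_lev_null`: `|{y ∈ B : φ y = s}| = 0`.  E.g. Lebesgue density: at `y₀` with `φ y₀ = s` the level set lies in `{|⟪y-y₀,ν̃(y₀)⟫| ≤ η‖y-y₀‖}` for `‖y-y₀‖ ≤ r(η)`, whose density in small balls is `≤ C η`: no point of the level set is a density point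
  (`Besicovitch.ae_tendsto_measure_inter_div_of_measurableSet` / `IsUnifLocDoublingMeasure.ae_tendsto_measure_inter_div`).   Or: straighten by the inverse function theorem and use that differentiable maps preserve null sets
  (`MeasureTheory.Measure.addHaar_image_eq_zero_of_differentiableOn_of_addHaar_eq_zero`, hyperplanes are null), + Lindelöf.
* `hr_lev_ibp`: `H ∈ C¹(ℝ)`, `T ∈ C¹_c(B)`: `H(φ) T ∈ C¹_c(B)`, `∫ div (H(φ) T) = 0` (`integral_gmtDiv_eq_zero`), `div (H(φ)T) = H(φ) div T + H'(φ) ⟪∇φ,T⟫` (`gmtDiv_smul`).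
* `hr_lev_slab_id`: `H_ε(s) = 1` for `s ≤ -ε`, `(ε - s)/(2ε)` for `|s| ≤ ε`, `0` for `s ≥ ε`.  Approximate: `H_j ∈ C¹`, `H_j → H_ε` uniformly, `H_j' → -(2ε)⁻¹ 1_{(-ε,ε)}` boundedly and pointwise off `{±ε}` (e.g. `H_j = H_ε * mollifier`, or explicit with `Real.smoothTransition`);
  dominated convergence, `hr_lev_null` for the levels `±ε`.
* `hr_lev_slab`: `ε ↓ 0`: `H_ε(φ) → 1_{φ<0}` off `{φ = 0}`; dominated convergence; `∫_B 1_{φ<0} div T = ∫_S div T`.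
* `hr_lev_lf`: `W ⋐ B`, `χ ∈ C¹_c(B)`, `0 ≤ χ ≤ 1`, `χ = 1` on `closure W` (`exists_contDiff_tsupport_subset`-type/`exists_smooth_one_nhds_of_subset_interior`...).  For `T ∈ C¹_c(W)`, `|T| ≤ 1`: `⟪T,∇φ⟫ ≤ χ|∇φ|`, so by `hr_lev_slab` for `T` and for `χ ν̃`: `∫_S div T ≤ ∫_S div (χ ν̃) < ∞`.
* `hr_lev_le`: for `χ ∈ C¹_c(B)`, `χ ≥ 0`: `∫ χ dμ ≤ Λ(χ) := ∫_S div (χ ν̃)`.   Layer cake `∫ χ dμ = ∫_0^∞ μ{χ > s} ds` (`MeasureTheory.lintegral_eq_lintegral_meas_lt`), `μ{χ>s} = gmtP S {χ>s} = sup_T ∫_S div T ≤ liminf_ε (2ε)⁻¹ ∫_{|φ|<ε, χ>s} |∇φ|`, Fatou along `ε = 1/j`, Tonelli.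
  [or `gmt_polar_open` of `GgRiesz.lean`.]
* `hr_lev_nu`: Gauss-Green: `Λ(χ) = ∫ χ ⟪ν̃,ν⟫ dμ ≤ ∫ χ dμ ≤ Λ(χ)`: `∫ χ (1 - ⟪ν̃,ν⟫) dμ = 0`, integrand `≥ 0`: `⟪ν̃,ν⟫ = 1` a.e. on `{χ>0}`, so `ν = ν̃` (`‖ν - ν̃‖² = ‖ν‖² - 2 + 1 ≤ 0`); countably many `χ_j` with `⋃ {χ_j > 0} = B`.
* `hr_lev_C1`: `∫ χ dμ = lim (2ε)⁻¹ ∫_{|φ|<ε} χ|∇φ|` for all `χ ∈ C¹_c(B)` (write `χ = (χ + M χ₀) - M χ₀`).   `hr_reg_mu`: `g ∈ C_c(B)`: uniform approximation by `C¹_c` functions supported in a fixed compact set (mollification), `(2ε)⁻¹ ∫_{|φ|<ε} χ₀|∇φ|` is bounded for small `ε`.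
  `μ(B \ {φ=0}) = 0`: `{φ<0} ∩ B`, `{φ>0} ∩ B` are open and contain no boundary point: `gmtMu_compl_gmtBd`.
* `hr_tan_div`: `Z ∈ C¹_c(B)`, `⟪Z,∇φ⟫ = 0`: `∫ H(φ) div Z = 0` for all `H ∈ C¹` (`hr_lev_ibp`), hence for `H = 1_{(-ε,ε)}` (increasing limit of `C¹` functions); `hr_reg_mu` with `g = div Z/|∇φ|`.
* `hr_Z_div`.  `F₀ = √(A(∇φ,∇φ))`, `V = F₀⁻¹ a∇φ` (`a = gmtSharp (A y)`), `Z = F₀ X - ⟪X,∇φ⟫ V`; `⟪V,∇φ⟫ = F₀`, so `⟪Z,∇φ⟫ = 0`;
  `div Z = ∇F₀·X + F₀ div X - ⟪DX V,∇φ⟫ - ⟪X, D²φ V⟫ - ⟪X,∇φ⟫ div V`, `∇F₀·X = D_X A(∇φ,∇φ)/(2F₀) + ⟪V, D²φ X⟫`, `D²φ` symmetric, `⟪DX V,∇φ⟫ = A(∇φ,(DX)ᵀ∇φ)/F₀`:   `div Z = gmtFv1 A X y (∇φ) - ⟪X,∇φ⟫ div V`.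
* `hr_reg_el`: `gmt_lam_fv`, `ν = ν̃` a.e., homogeneity (`hr_fv1_homog`), `hr_tan_div`: `∫ (div V - f) ⟪X,ν̃⟫ dμ = 0`; `X = ψ ν̃`; `div V - f` is continuous on `B`; `μ(ball y s) > 0` at `y ∈ {φ = 0}` (`hr_reg_bd`-argument, `gmtBd_iff_gmtMu`).
-/

set_option autoImplicit false
open scoped ContDiff ENNReal RealInnerProductSpace Topology
open MeasureTheory Metric Set Filter

namespace Claimed.Agent.Gmt

variable {m : ℕ}

variable {S : Set (E m)} {x : E m} {r : ℝ} {φ : E m → ℝ}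

theorem hrm_nu_le (S : Set (E m)) (y : E m) : ‖gmtNu S y‖ ≤ 1 := by
  rcases (gmt_nu_spec S).unit y with h | h
  · exact h.le
  · rw [h, norm_zero]; exact zero_le_one

theorem hrm_nuF_norm_le (φ χ : E m → ℝ) (y : E m) : ‖hrNuF φ χ y‖ ≤ |χ y| := by
  unfold hrNuF
  rw [norm_smul, norm_mul, Real.norm_eq_abs, norm_inv, norm_norm, mul_assoc]
  by_cases h0 : ‖gradient φ y‖ = 0
  · rw [h0]; simp
  · rw [inv_mul_cancel₀ h0, mul_one]

theorem hrm_test0_integrable (h : HrLev S x r φ) {χ : E m → ℝ} (hc : Continuous χ)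
    (hcp : HasCompactSupport χ) (hs : tsupport χ ⊆ ball x r) : Integrable χ (gmtMu S) := by
  obtain ⟨C, hC⟩ := hc.bounded_above_of_compact_support hcp
  exact gmtMu_integrable_of_cpt isOpen_ball (hr_lev_lf h) hcp hs hc.measurable
    (fun y _ => hC y) fun y hy => image_eq_zero_of_notMem_tsupport hy

theorem hrm_inner_integrable (h : HrLev S x r φ) {χ : E m → ℝ} (hχ : GmtTest0 (ball x r) χ) :
    Integrable (fun y => ⟪hrNuF φ χ y, gmtNu S y⟫) (gmtMu S) := by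
  obtain ⟨C, hC⟩ := hχ.c1.continuous.bounded_above_of_compact_support hχ.cpt
  have hT := hr_nuF_test h hχ
  refine gmtMu_integrable_of_cpt isOpen_ball (hr_lev_lf h) hχ.cpt hχ.sub
    (hT.c1.continuous.measurable.inner (gmt_nu_spec S).meas) (C := C) (fun y _ => ?_) fun y hy => ?_
  · refine (abs_real_inner_le_norm _ _).trans ?_
    have h1 := hrm_nuF_norm_le φ χ y
    have h2 := hrm_nu_le S y
    have h3 : |χ y| ≤ C := hC y
    calc ‖hrNuF φ χ y‖ * ‖gmtNu S y‖ ≤ |χ y| * 1 :=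
          mul_le_mul h1 h2 (norm_nonneg _) (abs_nonneg _)
      _ ≤ C := by rw [mul_one]; exact h3
  · have : hrNuF φ χ y = 0 := by
      unfold hrNuF
      rw [image_eq_zero_of_notMem_tsupport hy, zero_mul, zero_smul]
    rw [this, inner_zero_left]

theorem hrm_key (h : HrLev S x r φ) {χ : E m → ℝ} (hχ : GmtTest0 (ball x r) χ)
    (h0 : ∀ y, 0 ≤ χ y) : ∀ᵐ y ∂(gmtMu S), ⟪hrNuF φ χ y, gmtNu S y⟫ = χ y := by
  have gg := (gmt_nu_spec S).gg _ isOpen_ball (hr_lev_lf h) _ (hr_nuF_test h hχ)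
  have le := hr_lev_le h hχ h0
  rw [gg] at le
  have i1 := hrm_test0_integrable h hχ.c1.continuous hχ.cpt hχ.sub
  have i2 := hrm_inner_integrable h hχ
  have hnn : ∀ y, 0 ≤ χ y - ⟪hrNuF φ χ y, gmtNu S y⟫ := fun y => by
    have h1 := hrm_nuF_norm_le φ χ y
    have h2 := hrm_nu_le S y
    have h3 := real_inner_le_norm (hrNuF φ χ y) (gmtNu S y)
    have h4 : ‖hrNuF φ χ y‖ * ‖gmtNu S y‖ ≤ |χ y| * 1 :=
      mul_le_mul h1 h2 (norm_nonneg _) (abs_nonneg _)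
    rw [abs_of_nonneg (h0 y)] at h4
    linarith
  have hz : ∫ y, (χ y - ⟪hrNuF φ χ y, gmtNu S y⟫) ∂(gmtMu S) = 0 := by
    refine le_antisymm ?_ (integral_nonneg hnn)
    rw [integral_sub i1 i2]
    linarith
  have := (integral_eq_zero_iff_of_nonneg hnn (i1.sub i2)).1 hz
  filter_upwards [this] with y hy
  have : χ y - ⟪hrNuF φ χ y, gmtNu S y⟫ = 0 := hy
  linarith

theorem hr_lev_nu (h : HrLev S x r φ) :
    ∀ᵐ y ∂((gmtMu S).restrict (ball x r)), gmtNu S y = ‖gradient φ y‖⁻¹ • gradient φ y := by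
  obtain ⟨K, hK, hKU, -, hKun⟩ := gmt_exists_exhaustion (isOpen_ball (x := x) (ε := r))
  choose χ c1 c2 c3 c4 c5 using fun n => hrl_cutoff (hK n) isOpen_ball (hKU n)
  have hall : ∀ᵐ y ∂(gmtMu S), ∀ n, ⟪hrNuF φ (χ n) y, gmtNu S y⟫ = χ n y :=
    ae_all_iff.2 fun n => hrm_key h ⟨(c1 n).of_le (by simp), c2 n, c3 n⟩ fun y => (c4 n y).1
  rw [ae_restrict_iff' measurableSet_ball]
  filter_upwards [hall] with y hy hyB
  rw [← hKun] at hyB
  obtain ⟨n, hn⟩ := mem_iUnion.1 hyB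
  have h1 := hy n
  rw [c5 n y hn] at h1
  have hyB' : y ∈ ball x r := hKU n hn
  have hne : ‖gradient φ y‖ ≠ 0 := norm_ne_zero_iff.2 (hrl_grad_ne h hyB')
  have e1 : hrNuF φ (χ n) y = ‖gradient φ y‖⁻¹ • gradient φ y := by
    unfold hrNuF
    rw [c5 n y hn, one_mul]
  rw [e1] at h1
  have hn1 : ‖‖gradient φ y‖⁻¹ • gradient φ y‖ = 1 := by
    rw [norm_smul, norm_inv, norm_norm, inv_mul_cancel₀ hne]
  have h2 := hrm_nu_le S y
  have h3 : ‖gmtNu S y - ‖gradient φ y‖⁻¹ • gradient φ y‖ ^ 2 ≤ 0 := by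
    rw [norm_sub_sq_real, hn1, real_inner_comm, h1]
    nlinarith [norm_nonneg (gmtNu S y)]
  have h4 : ‖gmtNu S y - ‖gradient φ y‖⁻¹ • gradient φ y‖ = 0 := by
    have := sq_nonneg ‖gmtNu S y - ‖gradient φ y‖⁻¹ • gradient φ y‖
    exact pow_eq_zero_iff (two_ne_zero) |>.1 (le_antisymm h3 this)
  exact sub_eq_zero.1 (norm_eq_zero.1 h4)

theorem hr_lev_C1 (h : HrLev S x r φ) {χ : E m → ℝ} (hχ : GmtTest0 (ball x r) χ) :
    Tendsto (fun ε : ℝ => (2 * ε)⁻¹ * ∫ y in {y | y ∈ ball x r ∧ |φ y| < ε}, χ y * ‖gradient φ y‖)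
      (𝓝[>] 0) (𝓝 (∫ y, χ y ∂(gmtMu S))) := by
  have lim := hr_lev_slab h (hr_nuF_test h hχ)
  simp only [hrl_nuF_inner] at lim
  have gg := (gmt_nu_spec S).gg _ isOpen_ball (hr_lev_lf h) _ (hr_nuF_test h hχ)
  rw [gg] at lim
  have e : ∫ y, ⟪hrNuF φ χ y, gmtNu S y⟫ ∂(gmtMu S) = ∫ y, χ y ∂(gmtMu S) := by
    refine integral_congr_ae ?_
    have hnu := (ae_restrict_iff' measurableSet_ball).1 (hr_lev_nu h)
    filter_upwards [hnu] with y hy
    by_cases hyB : y ∈ ball x r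
    · rw [hy hyB, inner_smul_right, hrl_nuF_inner]
      have hne : ‖gradient φ y‖ ≠ 0 := norm_ne_zero_iff.2 (hrl_grad_ne h hyB)
      field_simp
    · have hc : χ y = 0 := image_eq_zero_of_notMem_tsupport fun hc => hyB (hχ.sub hc)
      unfold hrNuF
      rw [hc, zero_mul, zero_smul, inner_zero_left]
  rw [e] at lim
  exact lim

/-- `g |∇φ|` is continuous with compact support. -/
theorem hrm_mul_continuous (h : HrLev S x r φ) {g : E m → ℝ} (hg : Continuous g)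
    (hc : HasCompactSupport g) (hs : tsupport g ⊆ ball x r) :
    Continuous (fun y => g y * ‖gradient φ y‖) ∧ HasCompactSupport fun y => g y * ‖gradient φ y‖ := by
  constructor
  · rw [continuous_iff_continuousAt]
    intro y
    by_cases hy : y ∈ ball x r
    · exact hg.continuousAt.mul
        ((hrl_grad_contDiffOn h).continuousOn.continuousAt (isOpen_ball.mem_nhds hy)).norm
    · have h1 : y ∉ tsupport g := fun h => hy (hs h)
      have h2 : (fun y => g y * ‖gradient φ y‖) =ᶠ[𝓝 y] fun _ => 0 := by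
        filter_upwards [(isClosed_tsupport g).isOpen_compl.mem_nhds h1] with z hz
        rw [image_eq_zero_of_notMem_tsupport hz, zero_mul]
      exact continuousAt_const.congr h2.symm
  · refine hc.mono' fun y hy => ?_
    by_contra hcc
    apply hy
    show g y * ‖gradient φ y‖ = 0
    rw [image_eq_zero_of_notMem_tsupport hcc, zero_mul]

theorem hrm_mul_integrable (h : HrLev S x r φ) {g : E m → ℝ} (hg : Continuous g)
    (hc : HasCompactSupport g) (hs : tsupport g ⊆ ball x r) :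
    Integrable fun y => g y * ‖gradient φ y‖ :=
  (hrm_mul_continuous h hg hc hs).1.integrable_of_hasCompactSupport (hrm_mul_continuous h hg hc hs).2

/-- scalar smooth approximation. -/
theorem hrm_approx {K K' : Set (E m)} (hK' : IsCompact K') (hKK' : K ⊆ interior K')
    {g : E m → ℝ} (hg : Continuous g) (hc : HasCompactSupport g) (hgK : tsupport g ⊆ K) {δ : ℝ}
    (hδ : 0 < δ) :
    ∃ g' : E m → ℝ, ContDiff ℝ ∞ g' ∧ HasCompactSupport g' ∧ tsupport g' ⊆ K' ∧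
      ∀ y, |g' y - g y| ≤ δ := by
  obtain ⟨C, hC⟩ := hg.bounded_above_of_compact_support hc
  have hT : Continuous fun y => EuclideanSpace.single (0 : Fin 1) (g y) := by
    have : (fun y => EuclideanSpace.single (0 : Fin 1) (g y))
        = fun y => g y • EuclideanSpace.single (0 : Fin 1) (1 : ℝ) := by
      funext y
      ext i
      simp
    rw [this]
    exact hg.smul continuous_const
  have hTs : tsupport (fun y => EuclideanSpace.single (0 : Fin 1) (g y)) ⊆ K := by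
    refine (closure_mono fun y hy => ?_).trans hgK
    intro h0
    apply hy
    show EuclideanSpace.single (0 : Fin 1) (g y) = 0
    rw [h0]
    simp
  obtain ⟨T', t1, t2, t3, t4, -⟩ := gmt_exists_approx hK' hKK' hT hTs (c := C)
    (fun y => by rw [PiLp.norm_single]; exact hC y) hδ
  have hsub : tsupport (fun y => T' y 0) ⊆ tsupport T' := by
    refine closure_mono fun y hy => ?_
    intro h0
    apply hy
    show T' y 0 = 0
    rw [h0]
    rfl
  refine ⟨fun y => T' y 0, ?_, t2.of_isClosed_subset (isClosed_tsupport _) hsub, hsub.trans t3,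
    fun y => ?_⟩
  · exact (contDiff_euclidean.1 t1) 0
  · have h1 := t4 y
    have h2 := EuclideanSpace.norm_eq (T' y - EuclideanSpace.single (0 : Fin 1) (g y))
    have h3 : |(T' y - EuclideanSpace.single (0 : Fin 1) (g y)) 0|
        ≤ ‖T' y - EuclideanSpace.single (0 : Fin 1) (g y)‖ := by
      have := PiLp.norm_apply_le (T' y - EuclideanSpace.single (0 : Fin 1) (g y)) 0
      simpa using this
    have h4 : (T' y - EuclideanSpace.single (0 : Fin 1) (g y)) 0 = T' y 0 - g y := by simp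
    rw [h4] at h3
    exact h3.trans h1

/-- the perimeter measure does not charge `{φ ≠ 0}`. -/
theorem hrm_off (h : HrLev S x r φ) : gmtMu S (ball x r \ {y | φ y = 0}) = 0 := by
  have hVm : IsOpen (ball x r ∩ φ ⁻¹' Iio 0) :=
    h.smooth.continuousOn.isOpen_inter_preimage isOpen_ball isOpen_Iio
  have hVp : IsOpen (ball x r ∩ φ ⁻¹' Ioi 0) :=
    h.smooth.continuousOn.isOpen_inter_preimage isOpen_ball isOpen_Ioi
  have hsub : ball x r \ {y | φ y = 0} ⊆ (ball x r ∩ φ ⁻¹' Iio 0) ∪ (ball x r ∩ φ ⁻¹' Ioi 0) := by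
    intro y hy
    rcases lt_or_gt_of_ne (show φ y ≠ 0 from hy.2) with h1 | h1
    · exact Or.inl ⟨hy.1, h1⟩
    · exact Or.inr ⟨hy.1, h1⟩
  have heq := h.eq
  have hm : gmtMu S (ball x r ∩ φ ⁻¹' Iio 0) = 0 := by
    rw [gmtMu_open S hVm]
    refine gmtP_eq_zero_of_null h.meas (Or.inr ?_)
    have : ∀ᵐ y, y ∉ (ball x r ∩ φ ⁻¹' Iio 0) \ S := by
      filter_upwards [heq] with y hy hc
      have h1 : ({y | y ∈ ball x r ∧ φ y < 0} : Set (E m)) y := ⟨hc.1.1, hc.1.2⟩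
      have h2 : (S ∩ ball x r : Set (E m)) y := by rw [hy]; exact h1
      exact hc.2 h2.1
    exact measure_eq_zero_iff_ae_notMem.2 this
  have hp : gmtMu S (ball x r ∩ φ ⁻¹' Ioi 0) = 0 := by
    rw [gmtMu_open S hVp]
    refine gmtP_eq_zero_of_null h.meas (Or.inl ?_)
    have : ∀ᵐ y, y ∉ S ∩ (ball x r ∩ φ ⁻¹' Ioi 0) := by
      filter_upwards [heq] with y hy hc
      have h2 : (S ∩ ball x r : Set (E m)) y := ⟨hc.1, hc.2.1⟩
      have h1 : ({y | y ∈ ball x r ∧ φ y < 0} : Set (E m)) y := by rw [← hy]; exact h2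
      exact lt_asymm h1.2 hc.2.2
    exact measure_eq_zero_iff_ae_notMem.2 this
  exact measure_mono_null hsub (measure_union_null hm hp)

/-- the slab limit for continuous functions. -/
theorem hrm_C0 (h : HrLev S x r φ) {g : E m → ℝ} (hg : Continuous g) (hc : HasCompactSupport g)
    (hs : tsupport g ⊆ ball x r) :
    Tendsto (fun ε : ℝ => (2 * ε)⁻¹ * ∫ y in {y | y ∈ ball x r ∧ |φ y| < ε}, g y * ‖gradient φ y‖)
      (𝓝[>] 0) (𝓝 (∫ y, g y ∂(gmtMu S))) := by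
  obtain ⟨K', hK', hKK', hK'B⟩ := exists_compact_between hc.isCompact isOpen_ball hs
  obtain ⟨χ₀, c1, c2, c3, c4, c5⟩ := hrl_cutoff hK' isOpen_ball hK'B
  have hχ₀ : GmtTest0 (ball x r) χ₀ := ⟨c1.of_le (by simp), c2, c3⟩
  have lim0 := hr_lev_C1 h hχ₀
  obtain ⟨M, hM⟩ : ∃ M : ℝ, M = ∫ y, χ₀ y ∂(gmtMu S) := ⟨_, rfl⟩
  rw [← hM] at lim0
  have hM0 : 0 ≤ M := hM ▸ integral_nonneg fun y => (c4 y).1
  have i0 := hrm_test0_integrable h c1.continuous c2 c3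
  have ig := hrm_test0_integrable h hg hc hs
  have j0 := hrm_mul_integrable h c1.continuous c2 c3
  have jg := hrm_mul_integrable h hg hc hs
  rw [Metric.tendsto_nhds]
  intro η hη
  obtain ⟨δ, hδ⟩ : ∃ δ : ℝ, δ = η / (2 * M + 3) := ⟨_, rfl⟩
  have hδ0 : 0 < δ := by rw [hδ]; positivity
  have hδη : δ * (2 * M + 2) < η := by
    have : δ * (2 * M + 3) = η := by rw [hδ]; field_simp
    nlinarith
  obtain ⟨g', g1, g2, g3, g4⟩ := hrm_approx hK' hKK' hg hc le_rfl hδ0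
  have hg' : GmtTest0 (ball x r) g' := ⟨g1.of_le (by simp), g2, g3.trans hK'B⟩
  have lim1 := hr_lev_C1 h hg'
  have ig' := hrm_test0_integrable h g1.continuous g2 (g3.trans hK'B)
  have jg' := hrm_mul_integrable h g1.continuous g2 (g3.trans hK'B)
  have hdiff : ∀ y, |g y - g' y| ≤ δ * χ₀ y := fun y => by
    by_cases hy : y ∈ K'
    · rw [c5 y hy, mul_one, abs_sub_comm]
      exact g4 y
    · rw [image_eq_zero_of_notMem_tsupport fun hcc => hy (interior_subset (hKK' hcc)),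
        image_eq_zero_of_notMem_tsupport fun hcc => hy (g3 hcc), sub_zero, abs_zero]
      exact mul_nonneg hδ0.le (c4 y).1
  have hmu : |(∫ y, g y ∂(gmtMu S)) - ∫ y, g' y ∂(gmtMu S)| ≤ δ * M := by
    rw [← integral_sub ig ig', hM, ← integral_const_mul, ← Real.norm_eq_abs]
    exact norm_integral_le_of_norm_le (i0.const_mul δ) (Eventually.of_forall fun y => by
      rw [Real.norm_eq_abs]; exact hdiff y)
  have ev0 : ∀ᶠ ε in 𝓝[>] (0 : ℝ),
      (2 * ε)⁻¹ * ∫ y in {y | y ∈ ball x r ∧ |φ y| < ε}, χ₀ y * ‖gradient φ y‖ < M + 1 :=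
    lim0.eventually (gt_mem_nhds (by linarith))
  have ev1 := (Metric.tendsto_nhds.1 lim1) δ hδ0
  filter_upwards [ev0, ev1, self_mem_nhdsWithin] with ε e0 e1 hε
  have hε0 : (0 : ℝ) < ε := hε
  have hslab : |(2 * ε)⁻¹ * (∫ y in {y | y ∈ ball x r ∧ |φ y| < ε}, g y * ‖gradient φ y‖)
      - (2 * ε)⁻¹ * ∫ y in {y | y ∈ ball x r ∧ |φ y| < ε}, g' y * ‖gradient φ y‖|
      ≤ δ * ((2 * ε)⁻¹ * ∫ y in {y | y ∈ ball x r ∧ |φ y| < ε}, χ₀ y * ‖gradient φ y‖) := by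
    rw [← mul_sub, ← integral_sub jg.integrableOn jg'.integrableOn, abs_mul,
      abs_of_pos (by positivity : 0 < (2 * ε)⁻¹), mul_left_comm]
    refine mul_le_mul_of_nonneg_left ?_ (by positivity)
    rw [← integral_const_mul, ← Real.norm_eq_abs]
    refine norm_integral_le_of_norm_le (j0.const_mul δ).integrableOn
      (Eventually.of_forall fun y => ?_)
    rw [← sub_mul, norm_mul, norm_norm, Real.norm_eq_abs, ← mul_assoc]
    exact mul_le_mul_of_nonneg_right (hdiff y) (norm_nonneg _)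
  rw [Real.dist_eq] at e1 ⊢
  generalize (2 * ε)⁻¹ * (∫ y in {y | y ∈ ball x r ∧ |φ y| < ε}, g y * ‖gradient φ y‖) = a at *
  generalize (2 * ε)⁻¹ * (∫ y in {y | y ∈ ball x r ∧ |φ y| < ε}, g' y * ‖gradient φ y‖) = b at *
  generalize (2 * ε)⁻¹ * (∫ y in {y | y ∈ ball x r ∧ |φ y| < ε}, χ₀ y * ‖gradient φ y‖) = c at *
  generalize (∫ y, g y ∂(gmtMu S)) = A at *
  generalize (∫ y, g' y ∂(gmtMu S)) = B at *
  have h1 : δ * c ≤ δ * (M + 1) := mul_le_mul_of_nonneg_left e0.le hδ0.le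
  have h2 : a - A = (a - b) + (b - B) + (B - A) := by ring
  rw [h2]
  have h3 := abs_add_le ((a - b) + (b - B)) (B - A)
  have h4 := abs_add_le (a - b) (b - B)
  rw [abs_sub_comm] at hmu
  nlinarith

/-- **`IFb.gmt_reg_mu`.** -/
theorem hr_reg_mu {S : Set (E m)} (x : E m) (r : ℝ) (hr : 0 < r)
    (φ : E m → ℝ) (hφ : ContDiffOn ℝ ∞ φ (ball x r)) (hφ' : ∀ y ∈ ball x r, fderiv ℝ φ y ≠ 0)
    (hS : MeasurableSet S)
    (hSφ : (S ∩ ball x r : Set (E m)) =ᵐ[volume] ({y | y ∈ ball x r ∧ φ y < 0} : Set (E m))) :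
    GmtLF S (ball x r) ∧ gmtMu S (ball x r \ {y | φ y = 0}) = 0 ∧
    (∀ᵐ y ∂((gmtMu S).restrict (ball x r)), gmtNu S y = ‖gradient φ y‖⁻¹ • gradient φ y) ∧
    ∀ g : E m → ℝ, Continuous g → HasCompactSupport g → tsupport g ⊆ ball x r →
      Tendsto (fun ε : ℝ => (2 * ε)⁻¹ * ∫ y in {y | y ∈ ball x r ∧ |φ y| < ε}, g y * ‖gradient φ y‖)
        (nhdsWithin 0 (Ioi 0)) (nhds (∫ y, g y ∂(gmtMu S))) := by
  have h : HrLev S x r φ := ⟨hφ, hφ', hS, hSφ⟩
  exact ⟨hr_lev_lf h, hrm_off h, hr_lev_nu h, fun g hg hc hs => hrm_C0 h hg hc hs⟩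

end Claimed.Agent.Gmt
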