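import Claimed.Agent.Lib.Gmt.HrLev4

/-!
THIS FILE = PACKAGE L-GMT-HrLev5 (part 5 of 6 of the former `HrLev.lean`, which now only imports the parts; the text below is the plan of the whole former file).
# Lib/Gmt G5.5 (architect: helper190): smooth domains in LEVEL SET form: perimeter measure, normal, Euler-Lagrange equation.
PACKAGES L-GMT-HrLevA (`hr_lev_null` ... `hr_lev_slab`), L-GMT-HrLevB (`hr_lev_lf`, `hr_lev_le`, `hr_lev_nu`, `hr_lev_C1`, `hr_reg_mu`), L-GMT-HrLevC (`hr_tan_div`, `hr_Z_*`, `hr_reg_el`).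
No graphs, no area/coarea formula, no partition of unity.

SETTING `HrLev S x r φ`: `B = ball x r`, `φ ∈ C^∞(B)`, `∇φ ≠ 0` on `B`, `S` measurable, `S ∩ B = {φ < 0} ∩ B` a.e.   `ν̃ = ∇φ/|∇φ|`.   Functions with `tsupport` in `B` are multiplied with functions which are junk off `B`: the products are smooth
(`ContDiffOn` on the open set `B` + vanishing near every point off `tsupport`: `contDiff_iff_contDiffAt`, two cases).
* `hr_lev_null`: `|{y ∈ B : φ y = s}| = 0`.  E.g. Lebesgue density: at `y₀` with `φ y₀ = s` the level set lies in `{|⟪y-y₀,ν̃(y₀)⟫| ≤ η‖y-y₀‖}` for `‖y-y₀‖ ≤ r(η)`, whose density in small balls is `≤ C η`: no point of the level set is a density point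
  (`Besicovitch.ae_tendsto_measure_inter_div_of_measurableSet` / `IsUnifLocDoublingMeasure.ae_tendsto_measure_inter_div`).   Or: straighten by the inverse function theorem and use that differentiable maps preserve null sets
  (`MeasureTheory.Measure.addHaar_image_eq_zero_of_differentiableOn_of_addHaar_eq_zero`, hyperplanes are null), + Lindelöf.
* `hr_lev_ibp`: `H ∈ C¹(ℝ)`, `T ∈ C¹_c(B)`: `H(φ) T ∈ C¹_c(B)`, `∫ div (H(φ) T) = 0` (`integral_gmtDiv_eq_zero`), `div (H(φ)T) = H(φ) div T + H'(φ) ⟪∇φ,T⟫` (`gmtDiv_smul`).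
* `hr_lev_slab_id`: `H_ε(s) = 1` for `s ≤ -ε`, `(ε - s)/(2ε)` for `|s| ≤ ε`, `0` for `s ≥ ε`.  Approximate: `H_j ∈ C¹`, `H_j → H_ε` uniformly, `H_j' → -(2ε)⁻¹ 1_{(-ε,ε)}` boundedly and pointwise off `{±ε}` (e.g. `H_j = H_ε * mollifier`, or explicit with `Real.smoothTransition`);
  dominated convergence, `hr_lev_null` for the levels `±ε`.
* `hr_lev_slab`: `ε ↓ 0`: `H_ε(φ) → 1_{φ<0}` off `{φ = 0}`; dominated convergence; `∫_B 1_{φ<0} div T = ∫_S div T`.
* `hr_lev_lf`: `W ⋐ B`, `χ ∈ C¹_c(B)`, `0 ≤ χ ≤ 1`, `χ = 1` on `closure W` (`exists_contDiff_tsupport_subset`-type/`exists_smooth_one_nhds_of_subset_interior`...).  For `T ∈ C¹_c(W)`, `|T| ≤ 1`: `⟪T,∇φ⟫ ≤ χ|∇φ|`, so by `hr_lev_slab` for `T` and for `χ ν̃`: `∫_S div T ≤ ∫_S div (χ ν̃) < ∞`.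
* `hr_lev_le`: for `χ ∈ C¹_c(B)`, `χ ≥ 0`: `∫ χ dμ ≤ Λ(χ) := ∫_S div (χ ν̃)`.   Layer cake `∫ χ dμ = ∫_0^∞ μ{χ > s} ds` (`MeasureTheory.lintegral_eq_lintegral_meas_lt`), `μ{χ>s} = gmtP S {χ>s} = sup_T ∫_S div T ≤ liminf_ε (2ε)⁻¹ ∫_{|φ|<ε, χ>s} |∇φ|`, Fatou along `ε = 1/j`, Tonelli.
  [or `gmt_polar_open` of `GgRiesz.lean`.]
* `hr_lev_nu`: Gauss-Green: `Λ(χ) = ∫ χ ⟪ν̃,ν⟫ dμ ≤ ∫ χ dμ ≤ Λ(χ)`: `∫ χ (1 - ⟪ν̃,ν⟫) dμ = 0`, integrand `≥ 0`: `⟪ν̃,ν⟫ = 1` a.e. on `{χ>0}`, so `ν = ν̃` (`‖ν - ν̃‖² = ‖ν‖² - 2 + 1 ≤ 0`); countably many `χ_j` with `⋃ {χ_j > 0} = B`.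
* `hr_lev_C1`: `∫ χ dμ = lim (2ε)⁻¹ ∫_{|φ|<ε} χ|∇φ|` for all `χ ∈ C¹_c(B)` (write `χ = (χ + M χ₀) - M χ₀`).   `hr_reg_mu`: `g ∈ C_c(B)`: uniform approximation by `C¹_c` functions supported in a fixed compact set (mollification), `(2ε)⁻¹ ∫_{|φ|<ε} χ₀|∇φ|` is bounded for small `ε`.
  `μ(B \ {φ=0}) = 0`: `{φ<0} ∩ B`, `{φ>0} ∩ B` are open and contain no boundary point: `gmtMu_compl_gmtBd`.
* `hr_tan_div`: `Z ∈ C¹_c(B)`, `⟪Z,∇φ⟫ = 0`: `∫ H(φ) div Z = 0` for all `H ∈ C¹` (`hr_lev_ibp`), hence for `H = 1_{(-ε,ε)}` (increasing limit of `C¹` functions); `hr_reg_mu` with `g = div Z/|∇φ|`.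
* `hr_Z_div`.  `F₀ = √(A(∇φ,∇φ))`, `V = F₀⁻¹ a∇φ` (`a = gmtSharp (A y)`), `Z = F₀ X - ⟪X,∇φ⟫ V`; `⟪V,∇φ⟫ = F₀`, so `⟪Z,∇φ⟫ = 0`;
  `div Z = ∇F₀·X + F₀ div X - ⟪DX V,∇φ⟫ - ⟪X, D²φ V⟫ - ⟪X,∇φ⟫ div V`, `∇F₀·X = D_X A(∇φ,∇φ)/(2F₀) + ⟪V, D²φ X⟫`, `D²φ` symmetric, `⟪DX V,∇φ⟫ = A(∇φ,(DX)ᵀ∇φ)/F₀`:   `div Z = gmtFv1 A X y (∇φ) - ⟪X,∇φ⟫ div V`.
* `hr_reg_el`: `gmt_lam_fv`, `ν = ν̃` a.e., homogeneity (`hr_fv1_homog`), `hr_tan_div`: `∫ (div V - f) ⟪X,ν̃⟫ dμ = 0`; `X = ψ ν̃`; `div V - f` is continuous on `B`; `μ(ball y s) > 0` at `y ∈ {φ = 0}` (`hr_reg_bd`-argument, `gmtBd_iff_gmtMu`).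
-/

set_option autoImplicit false
open scoped ContDiff ENNReal RealInnerProductSpace Topology
open MeasureTheory Metric Set Filter

namespace Claimed.Agent.Gmt

variable {m : ℕ}

variable {S : Set (E m)} {x : E m} {r : ℝ} {φ : E m → ℝ}

/-- gluing: continuous on the open set `B`, zero off a closed subset of `B`. -/
theorem hr_tan_glue_cont {F : Type*} [TopologicalSpace F] [Zero F] {B : Set (E m)} (hB : IsOpen B)
    {g : E m → F} (hg : ContinuousOn g B) (hs : tsupport g ⊆ B) : Continuous g := by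
  rw [continuous_iff_continuousAt]
  intro y
  by_cases hy : y ∈ B
  · exact hg.continuousAt (hB.mem_nhds hy)
  · have : g =ᶠ[𝓝 y] fun _ => 0 := notMem_tsupport_iff_eventuallyEq.mp (fun h => hy (hs h))
    exact continuousAt_const.congr this.symm

/-- gluing: `C^k` on the open set `B`, zero off a closed subset of `B`. -/
theorem hr_tan_glue_contDiff {F : Type*} [NormedAddCommGroup F] [NormedSpace ℝ F] {k : WithTop ℕ∞}
    {B : Set (E m)} (hB : IsOpen B) {g : E m → F} (hg : ContDiffOn ℝ k g B) (hs : tsupport g ⊆ B) :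
    ContDiff ℝ k g := by
  rw [contDiff_iff_contDiffAt]
  intro y
  by_cases hy : y ∈ B
  · exact hg.contDiffAt (hB.mem_nhds hy)
  · have : g =ᶠ[𝓝 y] fun _ => 0 := notMem_tsupport_iff_eventuallyEq.mp (fun h => hy (hs h))
    exact contDiffAt_const.congr_of_eventuallyEq this

theorem hr_tan_grad_ne {y : E m} (h : fderiv ℝ φ y ≠ 0) : gradient φ y ≠ 0 := by
  intro h0
  apply h
  unfold gradient at h0
  exact (LinearIsometryEquiv.map_eq_zero_iff _).mp h0

theorem hr_tan_grad_cont (hφ : ContDiffOn ℝ ∞ φ (ball x r)) : ContinuousOn (gradient φ) (ball x r) :=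
  (InnerProductSpace.toDual ℝ (E m)).symm.continuous.comp_continuousOn
    (hφ.continuousOn_fderiv_of_isOpen isOpen_ball (by simp))

/-- the divergence of a field tangent to the level sets integrates to zero over every slab. -/
theorem hr_tan_slab (h : HrLev S x r φ) {Z : E m → E m} (hZ : GmtTest (ball x r) Z)
    (htan : ∀ y ∈ ball x r, ⟪Z y, gradient φ y⟫ = 0) {ε : ℝ} (hε : 0 < ε) :
    ∫ y in {y | y ∈ ball x r ∧ |φ y| < ε}, gmtDiv Z y = 0 := by
  obtain ⟨hdc, hdcpt, hdsub⟩ := continuous_gmtDiv hZ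
  have hφc : ContinuousOn φ (ball x r) := h.smooth.continuousOn
  have hWo : IsOpen {y | y ∈ ball x r ∧ |φ y| < ε} :=
    hφc.abs.isOpen_inter_preimage isOpen_ball isOpen_Iio
  set H : ℕ → ℝ → ℝ := fun j s => Real.smoothTransition ((j : ℝ) * (ε ^ 2 - s ^ 2)) with hH
  have hHs : ∀ j, ContDiff ℝ 1 (H j) := fun j =>
    Real.smoothTransition.contDiff.comp (by fun_prop)
  have hj : ∀ j, ∫ y, H j (φ y) * gmtDiv Z y = 0 := by
    intro j
    rw [hr_lev_ibp (h.smooth.of_le (by simp)) hZ (hHs j)]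
    have : ∀ y, deriv (H j) (φ y) * ⟪Z y, gradient φ y⟫ = 0 := by
      intro y
      by_cases hy : y ∈ ball x r
      · rw [htan y hy, mul_zero]
      · rw [image_eq_zero_of_notMem_tsupport (fun hh => hy (hZ.sub hh)), inner_zero_left, mul_zero]
    simp only [this, integral_zero, neg_zero]
  have hlim : Tendsto (fun j : ℕ => ∫ y, H j (φ y) * gmtDiv Z y) atTop
      (𝓝 (∫ y, ({y | y ∈ ball x r ∧ |φ y| < ε} : Set (E m)).indicator (gmtDiv Z) y)) := by
    refine tendsto_integral_of_dominated_convergence (fun y => ‖gmtDiv Z y‖) ?_ (gmtDiv_integrable hZ).norm ?_ ?_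
    · intro j
      refine (hr_tan_glue_cont (B := ball x r) isOpen_ball ?_ ?_).aestronglyMeasurable
      · exact ((hHs j).continuous.comp_continuousOn hφc).mul hdc.continuousOn
      · exact (tsupport_mul_subset_right).trans hdsub
    · intro j
      refine ae_of_all _ fun y => ?_
      rw [norm_mul]
      have h1 : ‖H j (φ y)‖ ≤ 1 := by
        rw [Real.norm_of_nonneg (Real.smoothTransition.nonneg _)]
        exact Real.smoothTransition.le_one _
      exact mul_le_of_le_one_left (norm_nonneg _) h1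
    · refine ae_of_all _ fun y => ?_
      by_cases hy : y ∈ ball x r
      · by_cases hyε : |φ y| < ε
        · rw [Set.indicator_of_mem (show y ∈ {y | y ∈ ball x r ∧ |φ y| < ε} from ⟨hy, hyε⟩)]
          have hpos : 0 < ε ^ 2 - φ y ^ 2 := by
            have := sq_lt_sq' (by linarith [(abs_lt.mp hyε).1]) (abs_lt.mp hyε).2
            linarith
          refine tendsto_const_nhds.congr' ?_
          obtain ⟨N, hN⟩ := exists_nat_ge (1 / (ε ^ 2 - φ y ^ 2))
          filter_upwards [eventually_ge_atTop N] with j hjN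
          have h1 : 1 ≤ (j : ℝ) * (ε ^ 2 - φ y ^ 2) := by
            have : (N : ℝ) ≤ j := by exact_mod_cast hjN
            rw [div_le_iff₀ hpos] at hN
            nlinarith
          show gmtDiv Z y = Real.smoothTransition ((j : ℝ) * (ε ^ 2 - φ y ^ 2)) * gmtDiv Z y
          rw [Real.smoothTransition.one_of_one_le h1, one_mul]
        · rw [Set.indicator_of_notMem (fun hh : y ∈ {y | y ∈ ball x r ∧ |φ y| < ε} => hyε hh.2)]
          have hneg : ε ^ 2 - φ y ^ 2 ≤ 0 := by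
            have := sq_le_sq' (by linarith [abs_nonneg (φ y), not_lt.mp hyε]) (not_lt.mp hyε)
            rw [sq_abs] at this
            linarith
          refine tendsto_const_nhds.congr fun j => ?_
          show (0 : ℝ) = Real.smoothTransition ((j : ℝ) * (ε ^ 2 - φ y ^ 2)) * gmtDiv Z y
          rw [Real.smoothTransition.zero_of_nonpos (mul_nonpos_of_nonneg_of_nonpos (Nat.cast_nonneg j) hneg), zero_mul]
      · rw [Set.indicator_of_notMem (fun hh : y ∈ {y | y ∈ ball x r ∧ |φ y| < ε} => hy hh.1)]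
        have : gmtDiv Z y = 0 := gmtDiv_eq_zero_of_notMem (fun hh => hy (hZ.sub hh))
        simp [this]
  simp only [hj] at hlim
  rw [integral_indicator hWo.measurableSet] at hlim
  exact tendsto_nhds_unique hlim tendsto_const_nhds

/-- **tangential divergence theorem** for fields tangent to all level sets. -/
theorem hr_tan_div (h : HrLev S x r φ) {Z : E m → E m} (hZ : GmtTest (ball x r) Z)
    (htan : ∀ y ∈ ball x r, ⟪Z y, gradient φ y⟫ = 0) :
    ∫ y, gmtDiv Z y * ‖gradient φ y‖⁻¹ ∂(gmtMu S) = 0 := by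
  rcases le_or_gt r 0 with hr | hr
  · have hdiv : ∀ y, gmtDiv Z y = 0 := fun y => gmtDiv_eq_zero_of_notMem (fun hy => by
      have := hZ.sub hy
      rw [ball_eq_empty.mpr hr] at this
      exact this)
    simp [hdiv]
  obtain ⟨hdc, hdcpt, hdsub⟩ := continuous_gmtDiv hZ
  have hφc : ContinuousOn φ (ball x r) := h.smooth.continuousOn
  have hgs : tsupport (fun y => gmtDiv Z y * ‖gradient φ y‖⁻¹) ⊆ tsupport (gmtDiv Z) :=
    tsupport_mul_subset_left
  have hgc : Continuous (fun y => gmtDiv Z y * ‖gradient φ y‖⁻¹) := by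
    refine hr_tan_glue_cont isOpen_ball ?_ (hgs.trans hdsub)
    exact hdc.continuousOn.mul ((hr_tan_grad_cont h.smooth).norm.inv₀
      fun y hy => norm_ne_zero_iff.mpr (hr_tan_grad_ne (h.ne y hy)))
  have hlim := (hr_reg_mu x r hr φ h.smooth h.ne h.meas h.eq).2.2.2 _ hgc hdcpt.mul_right (hgs.trans hdsub)
  have hzero : ∀ ε : ℝ, 0 < ε →
      (2 * ε)⁻¹ * ∫ y in {y | y ∈ ball x r ∧ |φ y| < ε}, gmtDiv Z y * ‖gradient φ y‖⁻¹ * ‖gradient φ y‖ = 0 := by
    intro ε hε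
    have hWo : IsOpen {y | y ∈ ball x r ∧ |φ y| < ε} :=
      hφc.abs.isOpen_inter_preimage isOpen_ball isOpen_Iio
    rw [setIntegral_congr_fun (g := gmtDiv Z) hWo.measurableSet, hr_tan_slab h hZ htan hε, mul_zero]
    intro y hy
    have := norm_ne_zero_iff.mpr (hr_tan_grad_ne (h.ne y hy.1))
    show gmtDiv Z y * ‖gradient φ y‖⁻¹ * ‖gradient φ y‖ = gmtDiv Z y
    field_simp
  have h2 : Tendsto (fun _ : ℝ => (0 : ℝ)) (𝓝[>] 0)
      (𝓝 (∫ y, gmtDiv Z y * ‖gradient φ y‖⁻¹ ∂(gmtMu S))) := by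
    refine hlim.congr' ?_
    filter_upwards [self_mem_nhdsWithin] with ε hε
    exact hzero ε hε
  exact tendsto_nhds_unique h2 tendsto_const_nhds

/-- the `A`-conormal field `V = a∇φ/√(A(∇φ,∇φ))`. -/
noncomputable def hrV (A : E m → Bil m) (φ : E m → ℝ) (z : E m) : E m :=
  (Real.sqrt (A z (gradient φ z) (gradient φ z)))⁻¹ • gmtSharp (A z) (gradient φ z)

/-- `Z = F₀ X - ⟪X,∇φ⟫ V`. -/
noncomputable def hrZ (A : E m → Bil m) (φ : E m → ℝ) (X : E m → E m) (z : E m) : E m :=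
  Real.sqrt (A z (gradient φ z) (gradient φ z)) • X z - ⟪X z, gradient φ z⟫ • hrV A φ z

theorem hr_V_dual_sum (ℓ : E m →L[ℝ] ℝ) :
    (InnerProductSpace.toDual ℝ (E m)).symm ℓ = ∑ i, ℓ (eb i) • eb i := by
  refine ext_inner_right ℝ fun x => ?_
  rw [InnerProductSpace.toDual_symm_apply, sum_inner]
  have hx : x = ∑ i, x i • eb i := by
    ext j
    simp [Finset.sum_apply, Pi.single_apply]
  conv_lhs => rw [hx, map_sum]
  refine Finset.sum_congr rfl fun i _ => ?_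
  rw [map_smul, real_inner_smul_left, smul_eq_mul, mul_comm]
  congr 1
  simp [EuclideanSpace.inner_single_left]

theorem hr_V_grad_smooth (hφ : ContDiffOn ℝ ∞ φ (ball x r)) : ContDiffOn ℝ ∞ (gradient φ) (ball x r) := by
  have h1 : ContDiffOn ℝ ∞ (fderiv ℝ φ) (ball x r) := hφ.fderiv_of_isOpen isOpen_ball (by simp)
  unfold gradient
  simp only [hr_V_dual_sum]
  refine ContDiffOn.sum fun i _ => ?_
  exact (h1.clm_apply contDiffOn_const).smul contDiffOn_const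

theorem hr_V_Q_smooth {U : Set (E m)} {A : E m → Bil m} (hA : GmtInt U A) (hxr : ball x r ⊆ U)
    (hφ : ContDiffOn ℝ ∞ φ (ball x r)) (hne : ∀ y ∈ ball x r, fderiv ℝ φ y ≠ 0) :
    ContDiffOn ℝ ∞ (fun z => Real.sqrt (A z (gradient φ z) (gradient φ z))) (ball x r) :=
  (((hA.smooth.mono hxr).clm_apply (hr_V_grad_smooth hφ)).clm_apply (hr_V_grad_smooth hφ)).sqrt
    fun y hy => (hA.pos y (hxr hy) _ (hr_tan_grad_ne (hne y hy))).ne'

theorem hr_V_smooth {U : Set (E m)} {A : E m → Bil m} (hA : GmtInt U A) (hxr : ball x r ⊆ U)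
    (hφ : ContDiffOn ℝ ∞ φ (ball x r)) (hne : ∀ y ∈ ball x r, fderiv ℝ φ y ≠ 0) :
    ContDiffOn ℝ ∞ (hrV A φ) (ball x r) := by
  have h1 : ContDiffOn ℝ ∞ (fun z => gmtSharp (A z) (gradient φ z)) (ball x r) := by
    unfold gmtSharp
    simp only [hr_V_dual_sum]
    refine ContDiffOn.sum fun i _ => ?_
    exact (((hA.smooth.mono hxr).clm_apply (hr_V_grad_smooth hφ)).clm_apply contDiffOn_const).smul
      contDiffOn_const
  refine ContDiffOn.smul ((hr_V_Q_smooth hA hxr hφ hne).inv fun y hy => ?_) h1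
  exact (Real.sqrt_pos.mpr (hA.pos y (hxr hy) _ (hr_tan_grad_ne (hne y hy)))).ne'

theorem hr_Z_test {U : Set (E m)} {A : E m → Bil m} (hA : GmtInt U A) (hxr : ball x r ⊆ U)
    (hφ : ContDiffOn ℝ ∞ φ (ball x r)) (hne : ∀ y ∈ ball x r, fderiv ℝ φ y ≠ 0) {X : E m → E m}
    (hX : GmtTestS (ball x r) X) : GmtTest (ball x r) (hrZ A φ X) := by
  have hsupp : Function.support (hrZ A φ X) ⊆ tsupport X := by
    intro z hz
    by_contra hzX
    apply hz
    unfold hrZ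
    rw [image_eq_zero_of_notMem_tsupport hzX]
    simp
  have hts : tsupport (hrZ A φ X) ⊆ tsupport X := closure_minimal hsupp (isClosed_tsupport X)
  refine ⟨?_, hX.cpt.mono' hsupp, hts.trans hX.sub⟩
  refine hr_tan_glue_contDiff isOpen_ball ?_ (hts.trans hX.sub)
  have hXs : ContDiffOn ℝ ∞ X (ball x r) := hX.smooth.contDiffOn
  have : ContDiffOn ℝ ∞ (hrZ A φ X) (ball x r) :=
    ((hr_V_Q_smooth hA hxr hφ hne).smul hXs).sub
      ((hXs.inner ℝ (hr_V_grad_smooth hφ)).smul (hr_V_smooth hA hxr hφ hne))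
  exact this.of_le (by simp)

theorem hr_Z_tan {U : Set (E m)} {A : E m → Bil m} (hA : GmtInt U A) (hxr : ball x r ⊆ U)
    (hne : ∀ y ∈ ball x r, fderiv ℝ φ y ≠ 0) (X : E m → E m) {y : E m} (hy : y ∈ ball x r) :
    ⟪hrZ A φ X y, gradient φ y⟫ = 0 := by
  have hpos := hA.pos y (hxr hy) _ (hr_tan_grad_ne (hne y hy))
  have hs := Real.sqrt_pos.mpr hpos
  unfold hrZ hrV
  rw [inner_sub_left, real_inner_smul_left, real_inner_smul_left, real_inner_smul_left]
  unfold gmtSharp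
  rw [InnerProductSpace.toDual_symm_apply]
  have h2 : (Real.sqrt (A y (gradient φ y) (gradient φ y)))⁻¹ * A y (gradient φ y) (gradient φ y) =
      Real.sqrt (A y (gradient φ y) (gradient φ y)) := by
    have h3 := Real.mul_self_sqrt hpos.le
    set q := Real.sqrt (A y (gradient φ y) (gradient φ y)) with hq
    rw [← h3]
    field_simp
  rw [h2]
  ring

end Claimed.Agent.Gmt
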