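import Claimed.Agent.Lib.Gmt.HrLev5

/-!
THIS FILE = PACKAGE L-GMT-HrLev6 (part 6 of 6 of the former `HrLev.lean`, which now only imports the parts; the text below is the plan of the whole former file).
# Lib/Gmt G5.5 (architect: helper190): smooth domains in LEVEL SET form: perimeter measure, normal, Euler-Lagrange equation.
PACKAGES L-GMT-HrLevA (`hr_lev_null` ... `hr_lev_slab`), L-GMT-HrLevB (`hr_lev_lf`, `hr_lev_le`, `hr_lev_nu`, `hr_lev_C1`, `hr_reg_mu`), L-GMT-HrLevC (`hr_tan_div`, `hr_Z_*`, `hr_reg_el`).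
No graphs, no area/coarea formula, no partition of unity.

SETTING `HrLev S x r φ`: `B = ball x r`, `φ ∈ C^∞(B)`, `∇φ ≠ 0` on `B`, `S` measurable, `S ∩ B = {φ < 0} ∩ B` a.e.   `ν̃ = ∇φ/|∇φ|`.   Functions with `tsupport` in `B` are multiplied with functions which are junk off `B`: the products are smooth
(`ContDiffOn` on the open set `B` + vanishing near every point off `tsupport`: `contDiff_iff_contDiffAt`, two cases).
* `hr_lev_null`: `|{y ∈ B : φ y = s}| = 0`.  E.g. Lebesgue density: at `y₀` with `φ y₀ = s` the level set lies in `{|⟪y-y₀,ν̃(y₀)⟫| ≤ η‖y-y₀‖}` for `‖y-y₀‖ ≤ r(η)`, whose density in small balls is `≤ C η`: no point of the level set is a density point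
  (`Besicovitch.ae_tendsto_measure_inter_div_of_measurableSet` / `IsUnifLocDoublingMeasure.ae_tendsto_measure_inter_div`).   Or: straighten by the inverse function theorem and use that differentiable maps preserve null sets
  (`MeasureTheory.Measure.addHaar_image_eq_zero_of_differentiableOn_of_addHaar_eq_zero`, hyperplanes are null), + Lindelöf.
* `hr_lev_ibp`: `H ∈ C¹(ℝ)`, `T ∈ C¹_c(B)`: `H(φ) T ∈ C¹_c(B)`, `∫ div (H(φ) T) = 0` (`integral_gmtDiv_eq_zero`), `div (H(φ)T) = H(φ) div T + H'(φ) ⟪∇φ,T⟫` (`gmtDiv_smul`).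
* `hr_lev_slab_id`: `H_ε(s) = 1` for `s ≤ -ε`, `(ε - s)/(2ε)` for `|s| ≤ ε`, `0` for `s ≥ ε`.  Approximate: `H_j ∈ C¹`, `H_j → H_ε` uniformly, `H_j' → -(2ε)⁻¹ 1_{(-ε,ε)}` boundedly and pointwise off `{±ε}` (e.g. `H_j = H_ε * mollifier`, or explicit with `Real.smoothTransition`);
  dominated convergence, `hr_lev_null` for the levels `±ε`.
* `hr_lev_slab`: `ε ↓ 0`: `H_ε(φ) → 1_{φ<0}` off `{φ = 0}`; dominated convergence; `∫_B 1_{φ<0} div T = ∫_S div T`.
* `hr_lev_lf`: `W ⋐ B`, `χ ∈ C¹_c(B)`, `0 ≤ χ ≤ 1`, `χ = 1` on `closure W` (`exists_contDiff_tsupport_subset`-type/`exists_smooth_one_nhds_of_subset_interior`...).  For `T ∈ C¹_c(W)`, `|T| ≤ 1`: `⟪T,∇φ⟫ ≤ χ|∇φ|`, so by `hr_lev_slab` for `T` and for `χ ν̃`: `∫_S div T ≤ ∫_S div (χ ν̃) < ∞`.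
* `hr_lev_le`: for `χ ∈ C¹_c(B)`, `χ ≥ 0`: `∫ χ dμ ≤ Λ(χ) := ∫_S div (χ ν̃)`.   Layer cake `∫ χ dμ = ∫_0^∞ μ{χ > s} ds` (`MeasureTheory.lintegral_eq_lintegral_meas_lt`), `μ{χ>s} = gmtP S {χ>s} = sup_T ∫_S div T ≤ liminf_ε (2ε)⁻¹ ∫_{|φ|<ε, χ>s} |∇φ|`, Fatou along `ε = 1/j`, Tonelli.
  [or `gmt_polar_open` of `GgRiesz.lean`.]
* `hr_lev_nu`: Gauss-Green: `Λ(χ) = ∫ χ ⟪ν̃,ν⟫ dμ ≤ ∫ χ dμ ≤ Λ(χ)`: `∫ χ (1 - ⟪ν̃,ν⟫) dμ = 0`, integrand `≥ 0`: `⟪ν̃,ν⟫ = 1` a.e. on `{χ>0}`, so `ν = ν̃` (`‖ν - ν̃‖² = ‖ν‖² - 2 + 1 ≤ 0`); countably many `χ_j` with `⋃ {χ_j > 0} = B`.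
* `hr_lev_C1`: `∫ χ dμ = lim (2ε)⁻¹ ∫_{|φ|<ε} χ|∇φ|` for all `χ ∈ C¹_c(B)` (write `χ = (χ + M χ₀) - M χ₀`).   `hr_reg_mu`: `g ∈ C_c(B)`: uniform approximation by `C¹_c` functions supported in a fixed compact set (mollification), `(2ε)⁻¹ ∫_{|φ|<ε} χ₀|∇φ|` is bounded for small `ε`.
  `μ(B \ {φ=0}) = 0`: `{φ<0} ∩ B`, `{φ>0} ∩ B` are open and contain no boundary point: `gmtMu_compl_gmtBd`.
* `hr_tan_div`: `Z ∈ C¹_c(B)`, `⟪Z,∇φ⟫ = 0`: `∫ H(φ) div Z = 0` for all `H ∈ C¹` (`hr_lev_ibp`), hence for `H = 1_{(-ε,ε)}` (increasing limit of `C¹` functions); `hr_reg_mu` with `g = div Z/|∇φ|`.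
* `hr_Z_div`.  `F₀ = √(A(∇φ,∇φ))`, `V = F₀⁻¹ a∇φ` (`a = gmtSharp (A y)`), `Z = F₀ X - ⟪X,∇φ⟫ V`; `⟪V,∇φ⟫ = F₀`, so `⟪Z,∇φ⟫ = 0`;
  `div Z = ∇F₀·X + F₀ div X - ⟪DX V,∇φ⟫ - ⟪X, D²φ V⟫ - ⟪X,∇φ⟫ div V`, `∇F₀·X = D_X A(∇φ,∇φ)/(2F₀) + ⟪V, D²φ X⟫`, `D²φ` symmetric, `⟪DX V,∇φ⟫ = A(∇φ,(DX)ᵀ∇φ)/F₀`:   `div Z = gmtFv1 A X y (∇φ) - ⟪X,∇φ⟫ div V`.
* `hr_reg_el`: `gmt_lam_fv`, `ν = ν̃` a.e., homogeneity (`hr_fv1_homog`), `hr_tan_div`: `∫ (div V - f) ⟪X,ν̃⟫ dμ = 0`; `X = ψ ν̃`; `div V - f` is continuous on `B`; `μ(ball y s) > 0` at `y ∈ {φ = 0}` (`hr_reg_bd`-argument, `gmtBd_iff_gmtMu`).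
-/

set_option autoImplicit false
open scoped ContDiff ENNReal RealInnerProductSpace Topology
open MeasureTheory Metric Set Filter

namespace Claimed.Agent.Gmt

section generic

variable {H : Type*} [NormedAddCommGroup H] [NormedSpace ℝ H]

/-- derivative of `z ↦ A z (G z) (G z)`. -/
theorem hr_Z_fderiv_quad {A : H → H →L[ℝ] H →L[ℝ] ℝ} {G : H → H} {y : H} (hA : DifferentiableAt ℝ A y)
    (hG : DifferentiableAt ℝ G y) :
    DifferentiableAt ℝ (fun z => A z (G z) (G z)) y ∧ ∀ h : H,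
    fderiv ℝ (fun z => A z (G z) (G z)) y h =
      fderiv ℝ A y h (G y) (G y) + A y (fderiv ℝ G y h) (G y) + A y (G y) (fderiv ℝ G y h) := by
  have h1 := hA.hasFDerivAt.clm_apply hG.hasFDerivAt
  have h2 := h1.clm_apply hG.hasFDerivAt
  refine ⟨h2.differentiableAt, fun h => ?_⟩
  rw [h2.fderiv]
  simp only [add_apply, ContinuousLinearMap.comp_apply, ContinuousLinearMap.flip_apply]
  ring

end generic

variable {m : ℕ}

variable {S : Set (E m)} {x : E m} {r : ℝ} {φ : E m → ℝ}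

/-- the derivative of the gradient is symmetric. -/
theorem hr_Z_grad {y : E m} (hφ : ContDiffAt ℝ 2 φ y) :
    DifferentiableAt ℝ (gradient φ) y ∧ ∀ h k : E m,
      ⟪fderiv ℝ (gradient φ) y h, k⟫ = ⟪fderiv ℝ (gradient φ) y k, h⟫ := by
  have h1 : ContDiffAt ℝ 1 (fderiv ℝ φ) y := hφ.fderiv_right (m := 1) (by norm_num)
  have hG : ContDiffAt ℝ 1 (gradient φ) y := by
    unfold gradient
    exact (LinearIsometryEquiv.contDiff _).contDiffAt.comp y h1
  have hGd : DifferentiableAt ℝ (gradient φ) y := hG.differentiableAt one_ne_zero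
  have key : ∀ h k : E m, ⟪fderiv ℝ (gradient φ) y h, k⟫ = fderiv ℝ (fderiv ℝ φ) y h k := by
    intro h k
    have e : (fun z => ⟪gradient φ z, k⟫) = fun z => fderiv ℝ φ z k :=
      funext fun z => gmt_inner_gradient φ z k
    have a1 := fderiv_inner_apply ℝ hGd (differentiableAt_const k) h
    have a2 := fderiv_clm_apply (h1.differentiableAt one_ne_zero) (differentiableAt_const k)
    rw [e, a2] at a1
    simp at a1
    exact a1.symm
  refine ⟨hGd, fun h k => ?_⟩
  rw [key, key]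
  exact (hφ.isSymmSndFDerivAt (by simp)) h k

theorem hr_Z_div_sub {T T' : E m → E m} {y : E m} (hT : DifferentiableAt ℝ T y)
    (hT' : DifferentiableAt ℝ T' y) :
    gmtDiv (fun z => T z - T' z) y = gmtDiv T y - gmtDiv T' y := by
  unfold gmtDiv
  rw [fderiv_fun_sub hT hT', ← Finset.sum_sub_distrib]
  simp

theorem hr_Z_sharp_inner (B : Bil m) (ξ η : E m) : ⟪gmtSharp B ξ, η⟫ = B ξ η := by
  unfold gmtSharp
  rw [InnerProductSpace.toDual_symm_apply]

/-- **the pointwise identity.** -/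
theorem hr_Z_div {U : Set (E m)} {A : E m → Bil m} (hA : GmtInt U A) (hxr : ball x r ⊆ U)
    (hφ : ContDiffOn ℝ ∞ φ (ball x r)) (hne : ∀ y ∈ ball x r, fderiv ℝ φ y ≠ 0) {X : E m → E m}
    (hX : ContDiff ℝ ∞ X) {y : E m} (hy : y ∈ ball x r) :
    gmtDiv (hrZ A φ X) y =
      gmtFv1 A X y (gradient φ y) - ⟪X y, gradient φ y⟫ * gmtDiv (hrV A φ) y := by
  have hnhds : ball x r ∈ 𝓝 y := isOpen_ball.mem_nhds hy
  have hφ2 : ContDiffAt ℝ 2 φ y := (hφ.contDiffAt hnhds).of_le (by norm_cast)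
  obtain ⟨hGd, hGs⟩ := hr_Z_grad hφ2
  have hAd : DifferentiableAt ℝ A y :=
    ((hA.smooth.mono hxr).contDiffAt hnhds).differentiableAt (by simp)
  obtain ⟨hQd, hQf⟩ := hr_Z_fderiv_quad hAd hGd
  have hXd : DifferentiableAt ℝ X y := (hX.differentiable (by simp)) y
  have hVd : DifferentiableAt ℝ (hrV A φ) y :=
    ((hr_V_smooth hA hxr hφ hne).contDiffAt hnhds).differentiableAt (by simp)
  have hG0 : gradient φ y ≠ 0 := by
    intro h0
    apply hne y hy
    ext v
    rw [← gmt_inner_gradient, h0, inner_zero_left]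
    simp
  have hQpos : 0 < A y (gradient φ y) (gradient φ y) := hA.pos y (hxr hy) _ hG0
  have hF0 : Real.sqrt (A y (gradient φ y) (gradient φ y)) ≠ 0 := (Real.sqrt_pos.2 hQpos).ne'
  have hFd := hQd.hasFDerivAt.sqrt hQpos.ne'
  have hsd : DifferentiableAt ℝ (fun z => ⟪X z, gradient φ z⟫) y := hXd.inner ℝ hGd
  have e0 : hrZ A φ X = fun z => (fun z => Real.sqrt (A z (gradient φ z) (gradient φ z)) • X z) z -
      (fun z => ⟪X z, gradient φ z⟫ • hrV A φ z) z := rfl
  have d1 : DifferentiableAt ℝ (fun z => Real.sqrt (A z (gradient φ z) (gradient φ z)) • X z) y :=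
    hFd.differentiableAt.fun_smul hXd
  have d2 : DifferentiableAt ℝ (fun z => ⟪X z, gradient φ z⟫ • hrV A φ z) y := hsd.fun_smul hVd
  rw [e0, hr_Z_div_sub d1 d2,
    gmtDiv_smul hFd.differentiableAt hXd, gmtDiv_smul hsd hVd, hFd.fderiv,
    fderiv_inner_apply ℝ hXd hGd]
  simp only [smul_apply, smul_eq_mul, hQf]
  have b1 : A y (fderiv ℝ (gradient φ) y (X y)) (gradient φ y)
      = A y (gradient φ y) (fderiv ℝ (gradient φ) y (X y)) := hA.symm y (hxr hy) _ _
  have b2 : ⟪X y, fderiv ℝ (gradient φ) y (hrV A φ y)⟫ =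
      (Real.sqrt (A y (gradient φ y) (gradient φ y)))⁻¹ *
        A y (gradient φ y) (fderiv ℝ (gradient φ) y (X y)) := by
    rw [real_inner_comm, hGs, hrV, real_inner_smul_right, real_inner_comm, hr_Z_sharp_inner]
  have b3 : ⟪fderiv ℝ X y (hrV A φ y), gradient φ y⟫ =
      (Real.sqrt (A y (gradient φ y) (gradient φ y)))⁻¹ *
        A y (gradient φ y) (ContinuousLinearMap.adjoint (fderiv ℝ X y) (gradient φ y)) := by
    rw [← ContinuousLinearMap.adjoint_inner_right, hrV, real_inner_smul_left, hr_Z_sharp_inner]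
  rw [b1, b2, b3, gmtFv1]
  field_simp
  ring

/-- homogeneity of the first variation integrand (any dimension). -/
theorem hr_rel_fv1_homog (A : E m → Bil m) (X : E m → E m) (y N : E m)
    {c : ℝ} (hc : 0 < c) : gmtFv1 A X y (c • N) = c * gmtFv1 A X y N := by
  unfold gmtFv1
  have h1 : A y (c • N) (c • N) = c ^ 2 * A y N N := by
    simp only [map_smul, _root_.smul_apply, smul_eq_mul]; ring
  have h2 : Real.sqrt (A y (c • N) (c • N)) = c * Real.sqrt (A y N N) := by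
    rw [h1, Real.sqrt_mul (sq_nonneg c), Real.sqrt_sq hc.le]
  have h3 : fderiv ℝ A y (X y) (c • N) (c • N) / 2 -
      A y (c • N) (ContinuousLinearMap.adjoint (fderiv ℝ X y) (c • N)) =
      c ^ 2 * (fderiv ℝ A y (X y) N N / 2 - A y N (ContinuousLinearMap.adjoint (fderiv ℝ X y) N)) := by
    simp only [map_smul, _root_.smul_apply, smul_eq_mul]; ring
  rw [h2, h3]
  rcases eq_or_ne (Real.sqrt (A y N N)) 0 with h0 | h0
  · rw [h0]; simp
  · field_simp

/-- continuous functions with compact support of finite measure are integrable. -/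
theorem hr_rel_integrable {μ : Measure (E m)} {g : E m → ℝ} (hg : Continuous g) (hc : HasCompactSupport g)
    (hfin : μ (tsupport g) ≠ ⊤) : Integrable g μ := by
  obtain ⟨C, hC⟩ := hg.bounded_above_of_compact_support hc
  rw [← integrableOn_iff_integrable_of_support_subset (subset_tsupport g)]
  exact Measure.integrableOn_of_bounded hfin hg.aestronglyMeasurable (Eventually.of_forall hC)

/-- the fundamental lemma of the calculus of variations at a point of the support of `μ`. -/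
theorem hr_rel_vanish {μ : Measure (E m)} {B : Set (E m)} (hB : IsOpen B)
    (hfin : ∀ K, IsCompact K → K ⊆ B → μ K ≠ ⊤) {w : E m → ℝ} (hw : ContinuousOn w B) {y : E m}
    (hy : y ∈ B) (hpos : ∀ s > 0, 0 < μ (ball y s))
    (h0 : ∀ ψ : E m → ℝ, ContDiff ℝ ∞ ψ → HasCompactSupport ψ → tsupport ψ ⊆ B →
      ∫ z, ψ z * w z ∂μ = 0) : w y = 0 := by
  by_contra hne
  have hδ : 0 < w y * w y / 2 := by
    have := mul_self_pos.2 hne
    linarith
  have hcont : ContinuousOn (fun z => w y * w z) B := continuousOn_const.mul hw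
  have hopen : IsOpen (B ∩ (fun z => w y * w z) ⁻¹' Ioi (w y * w y / 2)) :=
    hcont.isOpen_inter_preimage hB isOpen_Ioi
  have hmem : y ∈ B ∩ (fun z => w y * w z) ⁻¹' Ioi (w y * w y / 2) := by
    refine ⟨hy, ?_⟩
    show w y * w y / 2 < w y * w y
    linarith
  obtain ⟨s, hs, hsub⟩ := Metric.isOpen_iff.1 hopen y hmem
  let ψ : ContDiffBump y := ⟨s / 4, s / 2, by positivity, by linarith⟩
  have hts : tsupport ψ ⊆ ball y s := by
    rw [ψ.tsupport_eq]
    exact closedBall_subset_ball (by show s / 2 < s; linarith)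
  have htsB : tsupport ψ ⊆ B := hts.trans (hsub.trans inter_subset_left)
  have hz := h0 ψ ψ.contDiff ψ.hasCompactSupport htsB
  have hcψ : Continuous (fun z => ψ z * (w y * w z)) := by
    refine hr_gg_continuous_of_zero_off hB (isClosed_tsupport ψ) htsB
      (ψ.continuous.continuousOn.mul hcont) ?_
    intro z hz'
    rw [image_eq_zero_of_notMem_tsupport hz', zero_mul]
  have hcs : HasCompactSupport (fun z => ψ z * (w y * w z)) := ψ.hasCompactSupport.mul_right
  have hI : Integrable (fun z => ψ z * (w y * w z)) μ := by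
    refine hr_rel_integrable hcψ hcs (hfin _ hcs.isCompact ?_)
    refine (closure_minimal ?_ (isClosed_tsupport ψ)).trans htsB
    intro z hz'
    apply subset_tsupport
    intro h'
    apply hz'
    simp [h']
  have hfb : μ (ball y (s / 4)) ≠ ⊤ := by
    refine ne_top_of_le_ne_top (hfin (closedBall y (s / 4)) (isCompact_closedBall y _) ?_)
      (measure_mono ball_subset_closedBall)
    exact (closedBall_subset_ball (by linarith)).trans (hsub.trans inter_subset_left)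
  have hI2 : Integrable ((ball y (s / 4)).indicator fun _ => w y * w y / 2) μ :=
    (integrableOn_const hfb).integrable_indicator measurableSet_ball
  have hle : ∫ z, (ball y (s / 4)).indicator (fun _ => w y * w y / 2) z ∂μ ≤ ∫ z, ψ z * (w y * w z) ∂μ := by
    refine integral_mono hI2 hI fun z => ?_
    by_cases hzb : z ∈ ball y (s / 4)
    · rw [indicator_of_mem hzb]
      have h1 : ψ z = 1 := ψ.one_of_mem_closedBall (ball_subset_closedBall hzb)
      have h2 : w y * w y / 2 < w y * w z := (hsub (ball_subset_ball (by linarith) hzb)).2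
      show _ ≤ ψ z * (w y * w z)
      rw [h1, one_mul]
      exact h2.le
    · rw [indicator_of_notMem hzb]
      show 0 ≤ ψ z * (w y * w z)
      by_cases hzs : z ∈ tsupport ψ
      · have h2 : w y * w y / 2 < w y * w z := (hsub (hts hzs)).2
        exact mul_nonneg ψ.nonneg (hδ.le.trans h2.le)
      · rw [image_eq_zero_of_notMem_tsupport hzs, zero_mul]
  have h3 : ∫ z, ψ z * (w y * w z) ∂μ = 0 := by
    have : (fun z => ψ z * (w y * w z)) = fun z => w y * (ψ z * w z) := by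
      funext z
      ring
    rw [this, integral_const_mul, hz, mul_zero]
  rw [h3, integral_indicator measurableSet_ball, setIntegral_const, smul_eq_mul] at hle
  have h4 : 0 < μ.real (ball y (s / 4)) := ENNReal.toReal_pos (hpos _ (by positivity)).ne' hfb
  have := mul_pos h4 hδ
  linarith

/-- **`IFb.gmt_reg_el`.** -/
theorem hr_reg_el {U : Set (E m)} {A : E m → Bil m} {f : E m → ℝ} {S : Set (E m)}
    (hd : GmtData U A f) (hS : GmtLAM A f U S) (x : E m) (r : ℝ) (hr : 0 < r) (hxr : ball x r ⊆ U)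
    (φ : E m → ℝ) (hφ : ContDiffOn ℝ ∞ φ (ball x r)) (hφ' : ∀ y ∈ ball x r, fderiv ℝ φ y ≠ 0)
    (hSφ : (S ∩ ball x r : Set (E m)) =ᵐ[volume] ({y | y ∈ ball x r ∧ φ y < 0} : Set (E m)))
    (y : E m) (hy : y ∈ ball x r) (hy0 : φ y = 0) :
    gmtDiv (fun z => (Real.sqrt (A z (gradient φ z) (gradient φ z)))⁻¹ •
      gmtSharp (A z) (gradient φ z)) y = f y := by
  have h : HrLev S x r φ := ⟨hφ, hφ', hS.meas, hSφ⟩
  have hLF : GmtLF S (ball x r) := hr_lev_lf h
  have hV := hr_V_smooth hd.int hxr hφ hφ'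
  have hfin : ∀ K, IsCompact K → K ⊆ ball x r → gmtMu S K ≠ ⊤ := fun K hK hKB =>
    gmtMu_compact_ne_top isOpen_ball hLF hK hKB
  have hdivV : ContinuousOn (gmtDiv (hrV A φ)) (ball x r) := by
    have hDV : ContinuousOn (fderiv ℝ (hrV A φ)) (ball x r) :=
      hV.continuousOn_fderiv_of_isOpen isOpen_ball (by simp)
    unfold gmtDiv
    refine continuousOn_finsetSum _ fun i _ => ?_
    exact (EuclideanSpace.proj i).continuous.comp_continuousOn (hDV.clm_apply continuousOn_const)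
  have hw : ContinuousOn (fun z => gmtDiv (hrV A φ) z - f z) (ball x r) :=
    hdivV.sub (hd.f.continuousOn.mono hxr)
  have hG0 : ∀ z ∈ ball x r, gradient φ z ≠ 0 := by
    intro z hz h0
    apply hφ' z hz
    ext v
    rw [← gmt_inner_gradient, h0, inner_zero_left]
    simp
  have hGc : ContinuousOn (gradient φ) (ball x r) :=
    continuousOn_gradient isOpen_ball (hφ.of_le (by simp))
  -- `y` is a boundary point
  have hyB : y ∈ gmtBd S := by
    have hlt : dist y x < r := hy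
    have hsub : ball y (r - dist y x) ⊆ ball x r := by
      intro z hz
      have h1 : dist z y < r - dist y x := hz
      have h2 := dist_triangle z y x
      show dist z x < r
      linarith
    refine hr_reg_bd ⟨r - dist y x, by linarith, φ, hφ.mono hsub, hy0, fun z hz => hφ' z (hsub hz), ?_⟩
    have e1 : (S ∩ ball y (r - dist y x) : Set (E m)) = (S ∩ ball x r) ∩ ball y (r - dist y x) := by
      ext z
      constructor
      · rintro ⟨a, b⟩
        exact ⟨⟨a, hsub b⟩, b⟩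
      · rintro ⟨⟨a, _⟩, b⟩
        exact ⟨a, b⟩
    have e2 : ({z | z ∈ ball y (r - dist y x) ∧ φ z < 0} : Set (E m))
        = {z | z ∈ ball x r ∧ φ z < 0} ∩ ball y (r - dist y x) := by
      ext z
      constructor
      · rintro ⟨a, b⟩
        exact ⟨⟨hsub a, b⟩, a⟩
      · rintro ⟨⟨_, b⟩, a⟩
        exact ⟨a, b⟩
    rw [e1, e2]
    exact hSφ.inter (ae_eq_refl _)
  have hpos := (gmtBd_iff_gmtMu hS.meas y).1 hyB
  refine sub_eq_zero.1 (hr_rel_vanish isOpen_ball hfin hw hy hpos ?_)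
  intro ψ hψ hc hs
  have hX : GmtTestS (ball x r) (hrNuF φ ψ) := hr_nuF_testS h hψ hc hs
  have hXU : GmtTestS U (hrNuF φ ψ) := ⟨hX.smooth, hX.cpt, hX.sub.trans hxr⟩
  have fv := gmt_lam_fv hd.opn hd.int hd.f hS hXU
  have hZ : GmtTest (ball x r) (hrZ A φ (hrNuF φ ψ)) := hr_Z_test hd.int hxr hφ hφ' hX
  have tan := hr_tan_div h hZ (fun z hz => hr_Z_tan hd.int hxr hφ' (hrNuF φ ψ) hz)
  have hae : ∀ᵐ z ∂(gmtMu S), gmtFv1 A (hrNuF φ ψ) z (gmtNu S z) - f z * ⟪hrNuF φ ψ z, gmtNu S z⟫ =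
      gmtDiv (hrZ A φ (hrNuF φ ψ)) z * ‖gradient φ z‖⁻¹ + ψ z * (gmtDiv (hrV A φ) z - f z) := by
    have hν := hr_lev_nu h
    rw [ae_restrict_iff' measurableSet_ball] at hν
    filter_upwards [hν] with z hz
    by_cases hzB : z ∈ ball x r
    · have hn : 0 < ‖gradient φ z‖ := norm_pos_iff.2 (hG0 z hzB)
      rw [hz hzB, hr_rel_fv1_homog A _ _ _ (inv_pos.2 hn), real_inner_smul_right]
      have e1 := hr_Z_div hd.int hxr hφ hφ' hX.smooth hzB
      have e2 : ⟪hrNuF φ ψ z, gradient φ z⟫ = ψ z * ‖gradient φ z‖ := by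
        rw [hrNuF, real_inner_smul_left, real_inner_self_eq_norm_sq]
        field_simp
      rw [e2] at e1 ⊢
      have e3 : gmtFv1 A (hrNuF φ ψ) z (gradient φ z) =
          gmtDiv (hrZ A φ (hrNuF φ ψ)) z + ψ z * ‖gradient φ z‖ * gmtDiv (hrV A φ) z := by
        rw [e1]
        ring
      rw [e3]
      field_simp
      ring
    · have h1 : z ∉ tsupport (hrNuF φ ψ) := fun h' => hzB (hX.sub h')
      have h2 : z ∉ tsupport (hrZ A φ (hrNuF φ ψ)) := fun h' => hzB (hZ.sub h')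
      have h3 : z ∉ tsupport ψ := fun h' => hzB (hs h')
      rw [gmtFv1_of_notMem A h1, image_eq_zero_of_notMem_tsupport h1, gmtDiv_eq_zero_of_notMem h2,
        image_eq_zero_of_notMem_tsupport h3]
      simp
  have hdZ := continuous_gmtDiv hZ
  have I1 : Integrable (fun z => gmtDiv (hrZ A φ (hrNuF φ ψ)) z * ‖gradient φ z‖⁻¹) (gmtMu S) := by
    have hc1 : Continuous (fun z => gmtDiv (hrZ A φ (hrNuF φ ψ)) z * ‖gradient φ z‖⁻¹) := by
      refine hr_gg_continuous_of_zero_off isOpen_ball (isClosed_tsupport (gmtDiv (hrZ A φ (hrNuF φ ψ))))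
        hdZ.2.2 (hdZ.1.continuousOn.mul (hGc.norm.inv₀ fun z hz => (norm_pos_iff.2 (hG0 z hz)).ne')) ?_
      intro z hz
      rw [image_eq_zero_of_notMem_tsupport hz, zero_mul]
    have hc2 : HasCompactSupport (fun z => gmtDiv (hrZ A φ (hrNuF φ ψ)) z * ‖gradient φ z‖⁻¹) :=
      hdZ.2.1.mul_right
    refine hr_rel_integrable hc1 hc2 (hfin _ hc2.isCompact ?_)
    refine (closure_minimal ?_ (isClosed_tsupport (gmtDiv (hrZ A φ (hrNuF φ ψ))))).trans hdZ.2.2
    intro z hz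
    apply subset_tsupport
    intro h'
    apply hz
    simp [h']
  have I2 : Integrable (fun z => ψ z * (gmtDiv (hrV A φ) z - f z)) (gmtMu S) := by
    have hc1 : Continuous (fun z => ψ z * (gmtDiv (hrV A φ) z - f z)) := by
      refine hr_gg_continuous_of_zero_off isOpen_ball (isClosed_tsupport ψ) hs
        (hψ.continuous.continuousOn.mul hw) ?_
      intro z hz
      rw [image_eq_zero_of_notMem_tsupport hz, zero_mul]
    have hc2 : HasCompactSupport (fun z => ψ z * (gmtDiv (hrV A φ) z - f z)) := hc.mul_right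
    refine hr_rel_integrable hc1 hc2 (hfin _ hc2.isCompact ?_)
    refine (closure_minimal ?_ (isClosed_tsupport ψ)).trans hs
    intro z hz
    apply subset_tsupport
    intro h'
    apply hz
    simp [h']
  rw [integral_congr_ae hae, integral_add I1 I2, tan, zero_add] at fv
  exact fv

end Claimed.Agent.Gmt
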