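import Claimed.Agent.Lib.Gmt.FlGraph
import Claimed.Agent.Lib.Gmt.GgMeas

/-!
THIS FILE = PACKAGE L-GMT-HrSub1 (part 1 of 4 of the former `HrSub.lean`, which now only imports the parts; the text below is the plan of the whole former file).
# Lib/Gmt G5.1 (architect: helper190): the Gauss-Green pair of the subgraph of a `C¹` function.
PACKAGE L-GMT-HrSub.   Input: `FlCoord` (coordinates, Fubini), `gmtMu_gmtNu_unique` (helper75).   No area formula, no Leibniz rule.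

`Cyl = hrCyl ρ = {‖z‖ < ρ, |t| < ρ}`, `u ∈ C¹(ball 0 ρ)`, `|u| < ρ`, `N(z) = hrN u z = (-∇u(z), 1)`, `Γ(z) = hrG u z = (z, u z)`; `S` measurable, `= {t < u(z)}` a.e. in `Cyl`.
* `hr_sub_gg`.  Let `k : ℝ → ℝ` be a smooth bump, `k ≥ 0`, `k = 0` off `(-1,1)`, `∫ k = 1`; `H(s) = ∫_s^∞ k` (`H = 1` on `(-∞,-1]`, `= 0` on `[1,∞)`, `H' = -k`); `φ(y) = t - u(z)` (`C¹` on `Cyl`).
  For `T ∈ C¹_c(Cyl)` the field `H(φ/ε) T` is `C¹_c` (extend by `0`), so `0 = ∫ div (H(φ/ε) T) = ∫ H(φ/ε) div T - ε⁻¹ ∫ k(φ/ε) ⟪∇φ, T⟫` (`integral_gmtDiv_eq_zero`, `gmtDiv_smul`), `∇φ(y) = N(z)`.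
  `ε → 0`: `H(φ/ε) → 1_{φ<0}` off the graph `{φ = 0}` (a null set: Fubini, `fl_ae_join`), dominated convergence: left term `→ ∫_S div T`.
  Right term: Fubini: `∫_z ⟪N(z), ∫_t ε⁻¹ k((t - u z)/ε) T(z,t) dt⟫ dz`, the inner integral is `∫ k(s) T(z, u z + ε s) ds → T(z, u z)` (continuity of `T`, dominated convergence; `N` is bounded on the compact projection of `tsupport T`).
* `hr_mu_*`: `hrMu u ρ = Γ_# (‖N‖ dz ⌞ ball 0 ρ)`; `Γ` is measurable on the ball [`u` is only continuous on the ball: use `Measure.map` with `AEMeasurable` w.r.t. the restricted measure; `hr_mu_integral` via `integral_map`, `integral_withDensity_eq_integral_smul`/`setIntegral_withDensity_eq_setIntegral_smul`].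
  Finite on compact subsets `K` of `Cyl`: `Γ⁻¹ K ⊆` projection of `K`, compact in the ball, `‖N‖` bounded there.  `hrMu (Cylᶜ) = 0` as `Γ (ball) ⊆ Cyl`.
* `hr_sub_mu`: `gmtMu_gmtNu_unique` with `U = Cyl`, `μ = hrMu u ρ`, `ν y = ‖N(z)‖⁻¹ N(z)` for `y ∈ Cyl`, (a fixed unit vector off `Cyl`, to have a measurable `ν`): `∫ ⟪T,ν⟫ dμ = ∫_{ball} ⟪T(Γ z), N(z)⟫ dz`.
* `hr_c1_of_gr`: `FlGr` ⇒ `ContDiffOn ℝ 1` (`contDiffOn_one_iff_fderiv_of_isOpen`/`contDiffOn_succ_iff_fderiv_of_isOpen`: differentiable + `fderiv` continuous by the Hölder bound).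
-/

set_option autoImplicit false
open scoped ContDiff ENNReal RealInnerProductSpace Topology
open MeasureTheory Metric Set Filter

namespace Claimed.Agent.Gmt

variable {n : ℕ}

/-- the open cylinder `{‖z‖ < ρ, |t| < ρ}`. -/
def hrCyl (ρ : ℝ) : Set (E (n + 1)) := {y | ‖gmtHor y‖ < ρ ∧ |gmtVer y| < ρ}

/-- the upward normal `(-∇u, 1)` (not normalised). -/
noncomputable def hrN (u : E n → ℝ) (z : E n) : E (n + 1) := gmtJoin (-(gradient u z)) 1

/-- the graph map. -/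
noncomputable def hrG (u : E n → ℝ) (z : E n) : E (n + 1) := gmtJoin z (u z)

/-- the graph measure `Γ_# (√(1+|∇u|²) dz)`. -/
noncomputable def hrMu (u : E n → ℝ) (ρ : ℝ) : Measure (E (n + 1)) :=
  Measure.map (hrG u)
    (((volume : Measure (E n)).restrict (ball 0 ρ)).withDensity fun z => ENNReal.ofReal ‖hrN u z‖)

/-- `S` is a.e. the subgraph of the `C¹` function `u` in the cylinder. -/
structure HrSub (S : Set (E (n + 1))) (u : E n → ℝ) (ρ : ℝ) : Prop where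
  pos : 0 < ρ
  meas : MeasurableSet S
  c1 : ContDiffOn ℝ 1 u (ball 0 ρ)
  lt : ∀ z ∈ ball (0 : E n) ρ, |u z| < ρ
  sub : ∀ᵐ y : E (n + 1), y ∈ hrCyl ρ → (y ∈ S ↔ gmtVer y < u (gmtHor y))

theorem hr_isOpen_cyl (ρ : ℝ) : IsOpen (hrCyl ρ : Set (E (n + 1))) := by
  have h1 : Continuous (fun y : E (n + 1) => ‖gmtHor y‖) := (gmtHorL n).continuous.norm
  have h2 : Continuous (fun y : E (n + 1) => |gmtVer y|) := (gmtVerL n).continuous.abs
  exact (isOpen_lt h1 continuous_const).inter (isOpen_lt h2 continuous_const)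

theorem hr_cyl_convex (ρ : ℝ) : Convex ℝ (hrCyl ρ : Set (E (n + 1))) := by
  have h : (hrCyl ρ : Set (E (n + 1))) = (gmtHorL n) ⁻¹' (ball 0 ρ) ∩ (gmtVerL n) ⁻¹' (ball 0 ρ) := by
    ext y
    simp [hrCyl, gmtHor, gmtVer, Real.norm_eq_abs]
  rw [h]
  exact ((convex_ball _ _).linear_preimage (gmtHorL n).toLinearMap).inter
    ((convex_ball _ _).linear_preimage (gmtVerL n).toLinearMap)

theorem hr_closure_cyl (ρ : ℝ) :
    closure (hrCyl ρ : Set (E (n + 1))) ⊆ {y | ‖gmtHor y‖ ≤ ρ ∧ |gmtVer y| ≤ ρ} := by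
  have h1 : Continuous (fun y : E (n + 1) => ‖gmtHor y‖) := (gmtHorL n).continuous.norm
  have h2 : Continuous (fun y : E (n + 1) => |gmtVer y|) := (gmtVerL n).continuous.abs
  exact closure_minimal (fun y hy => ⟨hy.1.le, hy.2.le⟩)
    ((isClosed_le h1 continuous_const).inter (isClosed_le h2 continuous_const))

theorem hr_cyl_subset_ball (ρ : ℝ) : (hrCyl ρ : Set (E (n + 1))) ⊆ ball 0 (2 * ρ) := by
  intro y hy
  rw [mem_ball_zero_iff]
  have h := fl_norm_le_add y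
  have h1 := hy.1
  have h2 := hy.2
  linarith

theorem hr_ball_subset_cyl (ρ : ℝ) : ball (0 : E (n + 1)) ρ ⊆ hrCyl ρ := by
  intro y hy
  rw [mem_ball_zero_iff] at hy
  exact ⟨lt_of_le_of_lt (fl_norm_hor_le y) hy, lt_of_le_of_lt (fl_abs_ver_le y) hy⟩

theorem hr_norm_N (u : E n → ℝ) (z : E n) : ‖hrN u z‖ ^ 2 = 1 + ‖gradient u z‖ ^ 2 := by
  rw [fl_norm_sq, hrN, fl_hor_join, fl_ver_join, norm_neg]
  ring

theorem hr_one_le_norm_N (u : E n → ℝ) (z : E n) : 1 ≤ ‖hrN u z‖ := by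
  have h := hr_norm_N u z
  nlinarith [norm_nonneg (hrN u z), sq_nonneg ‖gradient u z‖]

/-- a graph is a null set. -/
theorem hr_graph_null {u : E n → ℝ} {ρ : ℝ} (hu : ContinuousOn u (ball 0 ρ)) :
    ∀ᵐ y : E (n + 1), ‖gmtHor y‖ < ρ → gmtVer y ≠ u (gmtHor y) := fl_graph_null hu

variable {S : Set (E (n + 1))} {u : E n → ℝ} {ρ : ℝ}

end Claimed.Agent.Gmt
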