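import Claimed.Agent.Lib.Gmt.HrSub1

/-!
THIS FILE = PACKAGE L-GMT-HrSub2 (part 2 of 4 of the former `HrSub.lean`, which now only imports the parts; the text below is the plan of the whole former file).
# Lib/Gmt G5.1 (architect: helper190): the Gauss-Green pair of the subgraph of a `C¹` function.
PACKAGE L-GMT-HrSub.   Input: `FlCoord` (coordinates, Fubini), `gmtMu_gmtNu_unique` (helper75).   No area formula, no Leibniz rule.

`Cyl = hrCyl ρ = {‖z‖ < ρ, |t| < ρ}`, `u ∈ C¹(ball 0 ρ)`, `|u| < ρ`, `N(z) = hrN u z = (-∇u(z), 1)`, `Γ(z) = hrG u z = (z, u z)`; `S` measurable, `= {t < u(z)}` a.e. in `Cyl`.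
* `hr_sub_gg`.  Let `k : ℝ → ℝ` be a smooth bump, `k ≥ 0`, `k = 0` off `(-1,1)`, `∫ k = 1`; `H(s) = ∫_s^∞ k` (`H = 1` on `(-∞,-1]`, `= 0` on `[1,∞)`, `H' = -k`); `φ(y) = t - u(z)` (`C¹` on `Cyl`).
  For `T ∈ C¹_c(Cyl)` the field `H(φ/ε) T` is `C¹_c` (extend by `0`), so `0 = ∫ div (H(φ/ε) T) = ∫ H(φ/ε) div T - ε⁻¹ ∫ k(φ/ε) ⟪∇φ, T⟫` (`integral_gmtDiv_eq_zero`, `gmtDiv_smul`), `∇φ(y) = N(z)`.
  `ε → 0`: `H(φ/ε) → 1_{φ<0}` off the graph `{φ = 0}` (a null set: Fubini, `fl_ae_join`), dominated convergence: left term `→ ∫_S div T`.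
  Right term: Fubini: `∫_z ⟪N(z), ∫_t ε⁻¹ k((t - u z)/ε) T(z,t) dt⟫ dz`, the inner integral is `∫ k(s) T(z, u z + ε s) ds → T(z, u z)` (continuity of `T`, dominated convergence; `N` is bounded on the compact projection of `tsupport T`).
* `hr_mu_*`: `hrMu u ρ = Γ_# (‖N‖ dz ⌞ ball 0 ρ)`; `Γ` is measurable on the ball [`u` is only continuous on the ball: use `Measure.map` with `AEMeasurable` w.r.t. the restricted measure; `hr_mu_integral` via `integral_map`, `integral_withDensity_eq_integral_smul`/`setIntegral_withDensity_eq_setIntegral_smul`].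
  Finite on compact subsets `K` of `Cyl`: `Γ⁻¹ K ⊆` projection of `K`, compact in the ball, `‖N‖` bounded there.  `hrMu (Cylᶜ) = 0` as `Γ (ball) ⊆ Cyl`.
* `hr_sub_mu`: `gmtMu_gmtNu_unique` with `U = Cyl`, `μ = hrMu u ρ`, `ν y = ‖N(z)‖⁻¹ N(z)` for `y ∈ Cyl`, (a fixed unit vector off `Cyl`, to have a measurable `ν`): `∫ ⟪T,ν⟫ dμ = ∫_{ball} ⟪T(Γ z), N(z)⟫ dz`.
* `hr_c1_of_gr`: `FlGr` ⇒ `ContDiffOn ℝ 1` (`contDiffOn_one_iff_fderiv_of_isOpen`/`contDiffOn_succ_iff_fderiv_of_isOpen`: differentiable + `fderiv` continuous by the Hölder bound).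
-/

set_option autoImplicit false
open scoped ContDiff ENNReal RealInnerProductSpace Topology
open MeasureTheory Metric Set Filter

namespace Claimed.Agent.Gmt

variable {n : ℕ}

variable {S : Set (E (n + 1))} {u : E n → ℝ} {ρ : ℝ}

/-! ### the smooth Heaviside profile -/

/-- smooth decreasing profile: `1` on `(-∞,-1]`, `0` on `[1,∞)`. -/
noncomputable def hrHv (s : ℝ) : ℝ := Real.smoothTransition ((1 - s) / 2)

theorem hr_hv_contDiff : ContDiff ℝ ∞ hrHv := Real.smoothTransition.contDiff.comp (by fun_prop)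

theorem hr_hv_one {s : ℝ} (hs : s ≤ -1) : hrHv s = 1 :=
  Real.smoothTransition.one_of_one_le (by linarith)

theorem hr_hv_zero {s : ℝ} (hs : 1 ≤ s) : hrHv s = 0 :=
  Real.smoothTransition.zero_of_nonpos (by linarith)

theorem hr_hv_mem (s : ℝ) : 0 ≤ hrHv s ∧ hrHv s ≤ 1 :=
  ⟨Real.smoothTransition.nonneg _, Real.smoothTransition.le_one _⟩

theorem hr_hv_deriv_zero {s : ℝ} (hs : s ∉ Icc (-1 : ℝ) 1) : deriv hrHv s = 0 := by
  rw [mem_Icc, not_and_or, not_le, not_le] at hs
  rcases hs with hs | hs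
  · have : hrHv =ᶠ[𝓝 s] fun _ => 1 := by
      filter_upwards [Iio_mem_nhds hs] with t ht using hr_hv_one (le_of_lt ht)
    rw [this.deriv_eq]
    simp
  · have : hrHv =ᶠ[𝓝 s] fun _ => 0 := by
      filter_upwards [Ioi_mem_nhds hs] with t ht using hr_hv_zero (le_of_lt ht)
    rw [this.deriv_eq]
    simp

theorem hr_hv_deriv_cont : Continuous (deriv hrHv) := hr_hv_contDiff.continuous_deriv (by simp)

theorem hr_hv_deriv_cpt : HasCompactSupport (deriv hrHv) :=
  HasCompactSupport.intro (isCompact_Icc (a := (-1 : ℝ)) (b := 1)) fun _ hs => hr_hv_deriv_zero hs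

theorem hr_hv_deriv_integrable : Integrable (deriv hrHv) :=
  hr_hv_deriv_cont.integrable_of_hasCompactSupport hr_hv_deriv_cpt

theorem hr_hv_integral : ∫ s, deriv hrHv s = -1 := by
  have h := integral_of_hasDerivAt_of_tendsto (f := hrHv) (f' := deriv hrHv) (m := 1) (n := 0)
    (fun x => ((hr_hv_contDiff.differentiable (by simp)) x).hasDerivAt) hr_hv_deriv_integrable
    (tendsto_const_nhds.congr' (by
      filter_upwards [eventually_le_atBot (-1 : ℝ)] with s hs using (hr_hv_one hs).symm))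
    (tendsto_const_nhds.congr' (by
      filter_upwards [eventually_ge_atTop (1 : ℝ)] with s hs using (hr_hv_zero hs).symm))
  rw [h]
  norm_num

/-- continuous on an open set and zero off a closed subset: continuous. -/
theorem hr_gg_continuous_of_zero_off {X Y : Type*} [TopologicalSpace X] [TopologicalSpace Y] [Zero Y]
    {B K : Set X} (hB : IsOpen B) (hK : IsClosed K) (hKB : K ⊆ B) {g : X → Y}
    (hg : ContinuousOn g B) (h0 : ∀ x, x ∉ K → g x = 0) : Continuous g := by
  rw [continuous_iff_continuousAt]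
  intro x
  by_cases hx : x ∈ B
  · exact hg.continuousAt (hB.mem_nhds hx)
  · have hxT : x ∈ Kᶜ := fun h => hx (hKB h)
    have : g =ᶠ[𝓝 x] fun _ => (0 : Y) := by
      filter_upwards [hK.isOpen_compl.mem_nhds hxT] with y hy using h0 y hy
    exact continuousAt_const.congr this.symm

/-- the defining function `t - u(z)`, divided by `ε`, is `C¹` on the cylinder. -/
theorem hr_gg_phi_hasFDerivAt (h : HrSub S u ρ) (ε : ℝ) {y : E (n + 1)} (hy : y ∈ hrCyl ρ) :
    HasFDerivAt (fun y : E (n + 1) => (gmtVer y - u (gmtHor y)) / ε)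
      (ε⁻¹ • (gmtVerL n - (fderiv ℝ u (gmtHor y)).comp (gmtHorL n))) y := by
  have hz : gmtHor y ∈ ball (0 : E n) ρ := by
    rw [mem_ball_zero_iff]
    exact hy.1
  have hu : HasFDerivAt u (fderiv ℝ u (gmtHor y)) (gmtHor y) :=
    ((h.c1.differentiableOn one_ne_zero).differentiableAt (isOpen_ball.mem_nhds hz)).hasFDerivAt
  have h1 : HasFDerivAt (fun y : E (n + 1) => u (gmtHor y)) ((fderiv ℝ u (gmtHor y)).comp (gmtHorL n)) y :=
    hu.comp y (gmtHorL n).hasFDerivAt
  have h2 : HasFDerivAt (fun y : E (n + 1) => gmtVer y) (gmtVerL n) y := (gmtVerL n).hasFDerivAt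
  have h3 := (h2.fun_sub h1).const_smul ε⁻¹
  refine h3.congr_of_eventuallyEq (Eventually.of_forall fun y => ?_)
  simp only [Pi.smul_apply, smul_eq_mul]
  ring

theorem hr_gg_phi_contDiffOn (h : HrSub S u ρ) (ε : ℝ) :
    ContDiffOn ℝ 1 (fun y : E (n + 1) => (gmtVer y - u (gmtHor y)) / ε) (hrCyl ρ) := by
  have h1 : ContDiffOn ℝ 1 (fun y : E (n + 1) => u (gmtHor y)) (hrCyl ρ) :=
    h.c1.comp (gmtHorL n).contDiff.contDiffOn (fun y hy => by
      rw [mem_ball_zero_iff]
      exact hy.1)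
  have h2 : ContDiffOn ℝ 1 (fun y : E (n + 1) => gmtVer y) (hrCyl ρ) := (gmtVerL n).contDiff.contDiffOn
  exact (h2.sub h1).div_const ε

/-- the identity at level `ε`. -/
theorem hr_gg_eps (h : HrSub S u ρ) {T : E (n + 1) → E (n + 1)} (hT : GmtTest (hrCyl ρ) T) (ε : ℝ) :
    ∫ y, hrHv ((gmtVer y - u (gmtHor y)) / ε) * gmtDiv T y =
      - ∫ y, ε⁻¹ * deriv hrHv ((gmtVer y - u (gmtHor y)) / ε) * ⟪T y, hrN u (gmtHor y)⟫ := by
  have hU : IsOpen (hrCyl ρ : Set (E (n + 1))) := hr_isOpen_cyl ρ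
  have hg : ContDiffOn ℝ 1 (fun y : E (n + 1) => hrHv ((gmtVer y - u (gmtHor y)) / ε)) (hrCyl ρ) :=
    (hr_hv_contDiff.of_le (by simp)).comp_contDiffOn (hr_gg_phi_contDiffOn h ε)
  have h0 := integral_gmtDiv_eq_zero (hT.smul_on hU hg)
  simp only [gmtDiv_smul_on hU hT hg] at h0
  have hdiv := continuous_gmtDiv hT
  have hK : IsClosed (tsupport T) := isClosed_tsupport T
  have c1 : Continuous (fun y : E (n + 1) => hrHv ((gmtVer y - u (gmtHor y)) / ε) * gmtDiv T y) := by
    refine hr_gg_continuous_of_zero_off hU hK hT.sub (hg.continuousOn.mul hdiv.1.continuousOn) ?_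
    intro y hy
    rw [gmtDiv_eq_zero_of_notMem hy, mul_zero]
  have i1 : Integrable (fun y : E (n + 1) => hrHv ((gmtVer y - u (gmtHor y)) / ε) * gmtDiv T y) :=
    c1.integrable_of_hasCompactSupport hdiv.2.1.mul_left
  have e2 : ∀ y, ⟪gradient (fun y : E (n + 1) => hrHv ((gmtVer y - u (gmtHor y)) / ε)) y, T y⟫
      = ε⁻¹ * deriv hrHv ((gmtVer y - u (gmtHor y)) / ε) * ⟪T y, hrN u (gmtHor y)⟫ := by
    intro y
    by_cases hy : y ∈ hrCyl ρ
    · rw [gmt_inner_gradient]
      have hH : HasDerivAt hrHv (deriv hrHv ((gmtVer y - u (gmtHor y)) / ε)) ((gmtVer y - u (gmtHor y)) / ε) :=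
        ((hr_hv_contDiff.differentiable (by simp)) _).hasDerivAt
      have hc := hH.comp_hasFDerivAt y (hr_gg_phi_hasFDerivAt h ε hy)
      have hc' : fderiv ℝ (fun y : E (n + 1) => hrHv ((gmtVer y - u (gmtHor y)) / ε)) y = _ := hc.fderiv
      rw [hc', fl_inner, hrN, fl_hor_join, fl_ver_join, inner_neg_right, real_inner_comm, gmt_inner_gradient]
      simp only [smul_apply, sub_apply, ContinuousLinearMap.comp_apply, smul_eq_mul]
      change _ * (_ * (gmtVer (T y) - fderiv ℝ u (gmtHor y) (gmtHor (T y)))) = _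
      ring
    · have : T y = 0 := image_eq_zero_of_notMem_tsupport fun h' => hy (hT.sub h')
      simp [this]
  simp only [e2] at h0
  have i2 : Integrable (fun y : E (n + 1) =>
      ε⁻¹ * deriv hrHv ((gmtVer y - u (gmtHor y)) / ε) * ⟪T y, hrN u (gmtHor y)⟫) := by
    have i0 := (continuous_gmtDiv (hT.smul_on hU hg))
    have i0' : Integrable (gmtDiv (fun y : E (n + 1) => hrHv ((gmtVer y - u (gmtHor y)) / ε) • T y)) :=
      i0.1.integrable_of_hasCompactSupport i0.2.1
    have := i0'.sub i1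
    refine this.congr (Eventually.of_forall fun y => ?_)
    simp only [Pi.sub_apply, gmtDiv_smul_on hU hT hg, e2]
    ring
  rw [integral_add i1 i2] at h0
  linarith

/-- affine substitution on the line. -/
theorem hr_gg_subst (k f : ℝ → ℝ) (c : ℝ) {ε : ℝ} (hε : 0 < ε) :
    ∫ t, ε⁻¹ * k ((t - c) / ε) * f t = ∫ s, k s * f (c + ε * s) := by
  have h1 : ∫ t, ε⁻¹ * k ((t - c) / ε) * f t = ∫ t, (fun t => ε⁻¹ * k (t / ε) * f (c + t)) (t - c) := by
    congr 1
    ext t
    simp
  rw [h1, integral_sub_right_eq_self (fun t => ε⁻¹ * k (t / ε) * f (c + t)) c]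
  have h2 : ∫ t, ε⁻¹ * k (t / ε) * f (c + t) = ∫ t, (fun s => ε⁻¹ * (k s * f (c + ε * s))) (t / ε) := by
    congr 1
    ext t
    have : ε * (t / ε) = t := by field_simp
    simp only [this]
    ring
  rw [h2, Measure.integral_comp_div (fun s => ε⁻¹ * (k s * f (c + ε * s))) ε, integral_const_mul,
    abs_of_pos hε, smul_eq_mul, ← mul_assoc, mul_inv_cancel₀ hε.ne', one_mul]

theorem hr_gg_slice (u : E n → ℝ) (F : E (n + 1) → ℝ) {ε : ℝ} (hε : 0 < ε) (z : E n) :
    ∫ t, ε⁻¹ * deriv hrHv ((gmtVer (gmtJoin z t) - u (gmtHor (gmtJoin z t))) / ε) * F (gmtJoin z t) =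
      ∫ s, deriv hrHv s * F (gmtJoin z (u z + ε * s)) := by
  simp only [fl_hor_join, fl_ver_join]
  exact hr_gg_subst (deriv hrHv) (fun t => F (gmtJoin z t)) (u z) hε

/-- limit of the boundary term. -/
theorem hr_gg_lim_right {F : E (n + 1) → ℝ} (hF : Continuous F) (hFc : HasCompactSupport F) (u : E n → ℝ)
    (ε : ℕ → ℝ) (hε : Tendsto ε atTop (𝓝 0))
    (hmeas : ∀ j, AEStronglyMeasurable (fun z => ∫ s, deriv hrHv s * F (gmtJoin z (u z + ε j * s))) volume) :
    Tendsto (fun j => ∫ z, ∫ s, deriv hrHv s * F (gmtJoin z (u z + ε j * s))) atTop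
      (𝓝 (∫ z, - F (gmtJoin z (u z)))) := by
  obtain ⟨C, hC⟩ := hF.bounded_above_of_compact_support hFc
  have hK : IsCompact (gmtHor '' tsupport F) := hFc.isCompact.image fl_continuous_hor
  have hzero : ∀ z, z ∉ gmtHor '' tsupport F → ∀ t, F (gmtJoin z t) = 0 := by
    intro z hz t
    apply image_eq_zero_of_notMem_tsupport
    intro h'
    exact hz ⟨_, h', fl_hor_join z t⟩
  have hb : ∀ (z : E n) (a : ℝ) (s : ℝ), ‖deriv hrHv s * F (gmtJoin z a)‖ ≤ C * |deriv hrHv s| := by
    intro z a s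
    rw [norm_mul, Real.norm_eq_abs, mul_comm]
    exact mul_le_mul_of_nonneg_right (hC _) (abs_nonneg _)
  have hbi : Integrable (fun s => C * |deriv hrHv s|) := hr_hv_deriv_integrable.abs.const_mul C
  refine tendsto_integral_of_dominated_convergence
    (fun z => (gmtHor '' tsupport F).indicator (fun _ => ∫ s, C * |deriv hrHv s|) z) hmeas ?_ ?_ ?_
  · exact (integrableOn_const hK.measure_lt_top.ne).integrable_indicator hK.measurableSet
  · intro j
    refine Eventually.of_forall fun z => ?_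
    by_cases hz : z ∈ gmtHor '' tsupport F
    · rw [indicator_of_mem hz]
      refine (norm_integral_le_integral_norm _).trans ?_
      exact integral_mono_of_nonneg (Eventually.of_forall fun s => norm_nonneg _) hbi
        (Eventually.of_forall fun s => hb z _ s)
    · rw [indicator_of_notMem hz]
      simp [hzero z hz]
  · refine Eventually.of_forall fun z => ?_
    have hin : Tendsto (fun j => ∫ s, deriv hrHv s * F (gmtJoin z (u z + ε j * s))) atTop
        (𝓝 (∫ s, deriv hrHv s * F (gmtJoin z (u z)))) := by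
      refine tendsto_integral_of_dominated_convergence (fun s => C * |deriv hrHv s|) ?_ hbi ?_ ?_
      · intro j
        have hc : Continuous (fun s : ℝ => gmtJoin z (u z + ε j * s)) :=
          fl_continuous_join.comp (continuous_const.prodMk (by fun_prop))
        exact (hr_hv_deriv_cont.mul (hF.comp hc)).aestronglyMeasurable
      · intro j
        exact Eventually.of_forall fun s => hb z _ s
      · refine Eventually.of_forall fun s => ?_
        have hc : Continuous (fun a : ℝ => deriv hrHv s * F (gmtJoin z (u z + a * s))) := by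
          have : Continuous (fun a : ℝ => gmtJoin z (u z + a * s)) :=
            fl_continuous_join.comp (continuous_const.prodMk (by fun_prop))
          exact continuous_const.mul (hF.comp this)
        have := (hc.tendsto 0).comp hε
        simpa [Function.comp_def] using this
    rw [integral_mul_const, hr_hv_integral] at hin
    simpa using hin

theorem hr_gg_cont_left (h : HrSub S u ρ) {T : E (n + 1) → E (n + 1)} (hT : GmtTest (hrCyl ρ) T) (ε : ℝ) :
    Continuous (fun y : E (n + 1) => hrHv ((gmtVer y - u (gmtHor y)) / ε) * gmtDiv T y) := by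
  have hg : ContDiffOn ℝ 1 (fun y : E (n + 1) => hrHv ((gmtVer y - u (gmtHor y)) / ε)) (hrCyl ρ) :=
    (hr_hv_contDiff.of_le (by simp)).comp_contDiffOn (hr_gg_phi_contDiffOn h ε)
  refine hr_gg_continuous_of_zero_off (hr_isOpen_cyl ρ) (isClosed_tsupport T) hT.sub
    (hg.continuousOn.mul (continuous_gmtDiv hT).1.continuousOn) ?_
  intro y hy
  rw [gmtDiv_eq_zero_of_notMem hy, mul_zero]

/-- limit of the interior term. -/
theorem hr_gg_lim_left (h : HrSub S u ρ) {T : E (n + 1) → E (n + 1)} (hT : GmtTest (hrCyl ρ) T)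
    (ε : ℕ → ℝ) (hε0 : ∀ j, 0 < ε j) (hε : Tendsto ε atTop (𝓝 0)) :
    Tendsto (fun j => ∫ y, hrHv ((gmtVer y - u (gmtHor y)) / ε j) * gmtDiv T y) atTop
      (𝓝 (∫ y in S, gmtDiv T y)) := by
  rw [← integral_indicator h.meas]
  have hdiv := continuous_gmtDiv hT
  refine tendsto_integral_of_dominated_convergence (fun y => |gmtDiv T y|)
    (fun j => (hr_gg_cont_left h hT (ε j)).aestronglyMeasurable)
    (hdiv.1.integrable_of_hasCompactSupport hdiv.2.1).abs ?_ ?_
  · intro j
    refine Eventually.of_forall fun y => ?_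
    rw [norm_mul, Real.norm_eq_abs, Real.norm_eq_abs, abs_of_nonneg (hr_hv_mem _).1]
    calc _ ≤ 1 * |gmtDiv T y| := mul_le_mul_of_nonneg_right (hr_hv_mem _).2 (abs_nonneg _)
      _ = _ := one_mul _
  · filter_upwards [h.sub, hr_graph_null h.c1.continuousOn] with y hy1 hy2
    by_cases hy : y ∈ hrCyl ρ
    · have hne := hy2 hy.1
      rcases lt_or_gt_of_ne hne with hlt | hgt
      · have hyS : y ∈ S := (hy1 hy).2 hlt
        rw [indicator_of_mem hyS]
        have hev : ∀ᶠ j in atTop, ε j < u (gmtHor y) - gmtVer y :=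
          hε.eventually (Iio_mem_nhds (by linarith))
        refine tendsto_const_nhds.congr' ?_
        filter_upwards [hev] with j hj
        rw [hr_hv_one (by rw [div_le_iff₀ (hε0 j)]; linarith), one_mul]
      · have hyS : y ∉ S := fun h' => absurd ((hy1 hy).1 h') (not_lt.2 hgt.le)
        rw [indicator_of_notMem hyS]
        have hev : ∀ᶠ j in atTop, ε j < gmtVer y - u (gmtHor y) :=
          hε.eventually (Iio_mem_nhds (by linarith))
        refine tendsto_const_nhds.congr' ?_
        filter_upwards [hev] with j hj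
        rw [hr_hv_zero (by rw [le_div_iff₀ (hε0 j)]; linarith), zero_mul]
    · have h0 : gmtDiv T y = 0 := gmtDiv_eq_zero_of_notMem fun h' => hy (hT.sub h')
      have h1 : S.indicator (fun y => gmtDiv T y) y = 0 := by
        by_cases hyS : y ∈ S
        · rw [indicator_of_mem hyS, h0]
        · rw [indicator_of_notMem hyS]
      rw [h1]
      simp [h0]

theorem hr_gg_F_cont (h : HrSub S u ρ) {T : E (n + 1) → E (n + 1)} (hT : GmtTest (hrCyl ρ) T) :
    Continuous (fun y : E (n + 1) => ⟪T y, hrN u (gmtHor y)⟫) := by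
  have hgrad : ContinuousOn (gradient u) (ball (0 : E n) ρ) := by
    have h1 : ContinuousOn (fderiv ℝ u) (ball (0 : E n) ρ) :=
      h.c1.continuousOn_fderiv_of_isOpen isOpen_ball le_rfl
    exact (InnerProductSpace.toDual ℝ (E n)).symm.continuous.comp_continuousOn h1
  have hN : ContinuousOn (hrN u) (ball (0 : E n) ρ) :=
    fl_continuous_join.comp_continuousOn (hgrad.neg.prodMk continuousOn_const)
  have hN' : ContinuousOn (fun y : E (n + 1) => hrN u (gmtHor y)) (hrCyl ρ) :=
    hN.comp fl_continuous_hor.continuousOn (fun y hy => by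
      rw [mem_ball_zero_iff]
      exact hy.1)
  refine hr_gg_continuous_of_zero_off (hr_isOpen_cyl ρ) (isClosed_tsupport T) hT.sub
    (hT.c1.continuous.continuousOn.inner hN') ?_
  intro y hy
  rw [image_eq_zero_of_notMem_tsupport hy, inner_zero_left]

/-- **Gauss-Green formula for a `C¹` subgraph.** -/
theorem hr_sub_gg (h : HrSub S u ρ) {T : E (n + 1) → E (n + 1)} (hT : GmtTest (hrCyl ρ) T) :
    ∫ y in S, gmtDiv T y = ∫ z in ball (0 : E n) ρ, ⟪T (hrG u z), hrN u z⟫ := by
  set F : E (n + 1) → ℝ := fun y => ⟪T y, hrN u (gmtHor y)⟫ with hFdef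
  have hF : Continuous F := hr_gg_F_cont h hT
  have hFc : HasCompactSupport F := by
    refine hT.cpt.mono' ?_
    intro y hy
    apply subset_tsupport
    intro h'
    apply hy
    simp [hFdef, h']
  set ε : ℕ → ℝ := fun j => 1 / ((j : ℝ) + 1) with hεdef
  have hε0 : ∀ j, 0 < ε j := fun j => by positivity
  have hε : Tendsto ε atTop (𝓝 0) := tendsto_one_div_add_atTop_nhds_zero_nat
  have hU : IsOpen (hrCyl ρ : Set (E (n + 1))) := hr_isOpen_cyl ρ
  -- integrability of the boundary integrand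
  have hint : ∀ j, Integrable (fun y : E (n + 1) =>
      (ε j)⁻¹ * deriv hrHv ((gmtVer y - u (gmtHor y)) / ε j) * F y) := by
    intro j
    have hc : Continuous (fun y : E (n + 1) =>
        (ε j)⁻¹ * deriv hrHv ((gmtVer y - u (gmtHor y)) / ε j) * F y) := by
      refine hr_gg_continuous_of_zero_off hU (isClosed_tsupport T) hT.sub ?_ ?_
      · exact (continuousOn_const.mul (hr_hv_deriv_cont.comp_continuousOn
          (hr_gg_phi_contDiffOn h (ε j)).continuousOn)).mul hF.continuousOn
      · intro y hy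
        simp [hFdef, image_eq_zero_of_notMem_tsupport hy]
    exact hc.integrable_of_hasCompactSupport hFc.mul_left
  have hfub : ∀ j, ∫ y, (ε j)⁻¹ * deriv hrHv ((gmtVer y - u (gmtHor y)) / ε j) * F y =
      ∫ z, ∫ s, deriv hrHv s * F (gmtJoin z (u z + ε j * s)) := by
    intro j
    rw [fl_integral_join (hint j)]
    congr 1
    ext z
    exact hr_gg_slice u F (hε0 j) z
  have hmeas : ∀ j, AEStronglyMeasurable
      (fun z => ∫ s, deriv hrHv s * F (gmtJoin z (u z + ε j * s))) volume := by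
    intro j
    have := (fl_integrable_join (hint j)).integral_prod_left.aestronglyMeasurable
    refine this.congr (Eventually.of_forall fun z => ?_)
    exact hr_gg_slice u F (hε0 j) z
  have L := hr_gg_lim_left h hT ε hε0 hε
  have Rr := (hr_gg_lim_right hF hFc u ε hε hmeas).neg
  have heq : ∀ j, ∫ y, hrHv ((gmtVer y - u (gmtHor y)) / ε j) * gmtDiv T y =
      - ∫ z, ∫ s, deriv hrHv s * F (gmtJoin z (u z + ε j * s)) := by
    intro j
    rw [hr_gg_eps h hT (ε j), ← hfub j]
  simp only [heq] at L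
  have hfin := tendsto_nhds_unique L Rr
  rw [hfin, integral_neg, neg_neg]
  rw [setIntegral_eq_integral_of_forall_compl_eq_zero]
  · congr 1
    ext z
    simp only [hFdef, fl_hor_join]
    rfl
  · intro z hz
    have : hrG u z ∉ tsupport T := by
      intro h'
      have := (hT.sub h').1
      rw [hrG, fl_hor_join] at this
      exact hz (by rwa [mem_ball_zero_iff])
    rw [image_eq_zero_of_notMem_tsupport this, inner_zero_left]

end Claimed.Agent.Gmt
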