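import Claimed.Agent.Lib.Gmt.HrSub2

/-!
THIS FILE = PACKAGE L-GMT-HrSub3 (part 3 of 4 of the former `HrSub.lean`, which now only imports the parts; the text below is the plan of the whole former file).
# Lib/Gmt G5.1 (architect: helper190): the Gauss-Green pair of the subgraph of a `C¹` function.
PACKAGE L-GMT-HrSub.   Input: `FlCoord` (coordinates, Fubini), `gmtMu_gmtNu_unique` (helper75).   No area formula, no Leibniz rule.

`Cyl = hrCyl ρ = {‖z‖ < ρ, |t| < ρ}`, `u ∈ C¹(ball 0 ρ)`, `|u| < ρ`, `N(z) = hrN u z = (-∇u(z), 1)`, `Γ(z) = hrG u z = (z, u z)`; `S` measurable, `= {t < u(z)}` a.e. in `Cyl`.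
* `hr_sub_gg`.  Let `k : ℝ → ℝ` be a smooth bump, `k ≥ 0`, `k = 0` off `(-1,1)`, `∫ k = 1`; `H(s) = ∫_s^∞ k` (`H = 1` on `(-∞,-1]`, `= 0` on `[1,∞)`, `H' = -k`); `φ(y) = t - u(z)` (`C¹` on `Cyl`).
  For `T ∈ C¹_c(Cyl)` the field `H(φ/ε) T` is `C¹_c` (extend by `0`), so `0 = ∫ div (H(φ/ε) T) = ∫ H(φ/ε) div T - ε⁻¹ ∫ k(φ/ε) ⟪∇φ, T⟫` (`integral_gmtDiv_eq_zero`, `gmtDiv_smul`), `∇φ(y) = N(z)`.
  `ε → 0`: `H(φ/ε) → 1_{φ<0}` off the graph `{φ = 0}` (a null set: Fubini, `fl_ae_join`), dominated convergence: left term `→ ∫_S div T`.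
  Right term: Fubini: `∫_z ⟪N(z), ∫_t ε⁻¹ k((t - u z)/ε) T(z,t) dt⟫ dz`, the inner integral is `∫ k(s) T(z, u z + ε s) ds → T(z, u z)` (continuity of `T`, dominated convergence; `N` is bounded on the compact projection of `tsupport T`).
* `hr_mu_*`: `hrMu u ρ = Γ_# (‖N‖ dz ⌞ ball 0 ρ)`; `Γ` is measurable on the ball [`u` is only continuous on the ball: use `Measure.map` with `AEMeasurable` w.r.t. the restricted measure; `hr_mu_integral` via `integral_map`, `integral_withDensity_eq_integral_smul`/`setIntegral_withDensity_eq_setIntegral_smul`].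
  Finite on compact subsets `K` of `Cyl`: `Γ⁻¹ K ⊆` projection of `K`, compact in the ball, `‖N‖` bounded there.  `hrMu (Cylᶜ) = 0` as `Γ (ball) ⊆ Cyl`.
* `hr_sub_mu`: `gmtMu_gmtNu_unique` with `U = Cyl`, `μ = hrMu u ρ`, `ν y = ‖N(z)‖⁻¹ N(z)` for `y ∈ Cyl`, (a fixed unit vector off `Cyl`, to have a measurable `ν`): `∫ ⟪T,ν⟫ dμ = ∫_{ball} ⟪T(Γ z), N(z)⟫ dz`.
* `hr_c1_of_gr`: `FlGr` ⇒ `ContDiffOn ℝ 1` (`contDiffOn_one_iff_fderiv_of_isOpen`/`contDiffOn_succ_iff_fderiv_of_isOpen`: differentiable + `fderiv` continuous by the Hölder bound).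
-/

set_option autoImplicit false
open scoped ContDiff ENNReal RealInnerProductSpace Topology
open MeasureTheory Metric Set Filter

namespace Claimed.Agent.Gmt

variable {n : ℕ}

variable {S : Set (E (n + 1))} {u : E n → ℝ} {ρ : ℝ}

theorem hr_mu_cont_join {X : Type*} [TopologicalSpace X] {s : Set X} {f : X → E n} {g : X → ℝ}
    (hf : ContinuousOn f s) (hg : ContinuousOn g s) : ContinuousOn (fun x => gmtJoin (f x) (g x)) s :=
  fl_continuous_join.comp_continuousOn (hf.prodMk hg)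

theorem hr_mu_cont_G (h : HrSub S u ρ) : ContinuousOn (hrG u) (ball 0 ρ) :=
  hr_mu_cont_join continuousOn_id h.c1.continuousOn

theorem hr_mu_cont_N (h : HrSub S u ρ) : ContinuousOn (hrN u) (ball 0 ρ) := by
  have h1 : ContinuousOn (fderiv ℝ u) (ball 0 ρ) :=
    h.c1.continuousOn_fderiv_of_isOpen isOpen_ball le_rfl
  have h2 : ContinuousOn (gradient u) (ball 0 ρ) :=
    (InnerProductSpace.toDual ℝ (E n)).symm.continuous.comp_continuousOn h1
  exact hr_mu_cont_join h2.neg continuousOn_const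

theorem hr_mu_G_mem (h : HrSub S u ρ) {z : E n} (hz : z ∈ ball (0 : E n) ρ) : hrG u z ∈ hrCyl ρ := by
  refine ⟨?_, ?_⟩
  · rw [hrG, fl_hor_join]; exact mem_ball_zero_iff.mp hz
  · rw [hrG, fl_ver_join]; exact h.lt z hz

theorem hr_mu_ac (u : E n → ℝ) (ρ : ℝ) :
    ((volume : Measure (E n)).restrict (ball 0 ρ)).withDensity (fun z => ENNReal.ofReal ‖hrN u z‖) ≪
      (volume : Measure (E n)).restrict (ball 0 ρ) := withDensity_absolutelyContinuous _ _

theorem hr_mu_aem_G (h : HrSub S u ρ) : AEMeasurable (hrG u)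
    (((volume : Measure (E n)).restrict (ball 0 ρ)).withDensity fun z => ENNReal.ofReal ‖hrN u z‖) :=
  ((hr_mu_cont_G h).aemeasurable measurableSet_ball).mono_ac (hr_mu_ac u ρ)

theorem hr_mu_aem_dens (h : HrSub S u ρ) : AEMeasurable (fun z => ENNReal.ofReal ‖hrN u z‖)
    ((volume : Measure (E n)).restrict (ball 0 ρ)) :=
  ((hr_mu_cont_N h).norm.aemeasurable measurableSet_ball).ennreal_ofReal

theorem hr_mu_compl (h : HrSub S u ρ) : hrMu u ρ (hrCyl ρ)ᶜ = 0 := by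
  rw [hrMu, Measure.map_apply_of_aemeasurable (hr_mu_aem_G h) (hr_isOpen_cyl ρ).measurableSet.compl]
  apply hr_mu_ac u ρ
  refine measure_mono_null (t := (ball (0 : E n) ρ)ᶜ) ?_ ?_
  · intro z hz hzb
    exact hz (hr_mu_G_mem h hzb)
  · rw [Measure.restrict_apply measurableSet_ball.compl]
    simp

theorem hr_mu_compact (h : HrSub S u ρ) {K : Set (E (n + 1))} (hK : IsCompact K)
    (hKC : K ⊆ hrCyl ρ) : hrMu u ρ K ≠ ⊤ := by
  rw [hrMu, Measure.map_apply_of_aemeasurable (hr_mu_aem_G h) hK.isClosed.measurableSet]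
  have hP : IsCompact (gmtHor '' K) := hK.image (gmtHorL n).continuous
  have hPb : gmtHor '' K ⊆ ball (0 : E n) ρ := by
    rintro _ ⟨y, hy, rfl⟩
    exact mem_ball_zero_iff.mpr (hKC hy).1
  obtain ⟨C, hC⟩ := hP.exists_bound_of_continuousOn ((hr_mu_cont_N h).mono hPb)
  have hsub : hrG u ⁻¹' K ⊆ gmtHor '' K := fun z hz => ⟨hrG u z, hz, by rw [hrG, fl_hor_join]⟩
  refine ne_top_of_le_ne_top ?_ (measure_mono hsub)
  rw [withDensity_apply _ hP.isClosed.measurableSet]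
  refine ne_top_of_le_ne_top ?_ (setLIntegral_mono (g := fun _ => ENNReal.ofReal C) measurable_const
    (fun z hz => ENNReal.ofReal_le_ofReal (hC z hz)))
  rw [setLIntegral_const]
  refine ENNReal.mul_ne_top ENNReal.ofReal_ne_top ?_
  exact ne_top_of_le_ne_top hP.measure_lt_top.ne (Measure.restrict_apply_le _ _)

/-- integration against the graph measure. -/
theorem hr_mu_integral (h : HrSub S u ρ) {g : E (n + 1) → ℝ} (hg : ContinuousOn g (hrCyl ρ)) :
    ∫ y, g y ∂(hrMu u ρ) = ∫ z in ball (0 : E n) ρ, g (hrG u z) * ‖hrN u z‖ := by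
  have hres : (hrMu u ρ).restrict (hrCyl ρ) = hrMu u ρ :=
    Measure.restrict_eq_self_of_ae_mem (by
      rw [ae_iff]; exact hr_mu_compl h)
  have hgm : AEStronglyMeasurable g (hrMu u ρ) := by
    rw [← hres]
    exact hg.aestronglyMeasurable (hr_isOpen_cyl ρ).measurableSet
  rw [hrMu] at hgm ⊢
  rw [integral_map (hr_mu_aem_G h) hgm,
    integral_withDensity_eq_integral_toReal_smul₀ (hr_mu_aem_dens h) (ae_of_all _ fun _ => ENNReal.ofReal_lt_top)]
  refine integral_congr_ae (ae_of_all _ fun z => ?_)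
  show (ENNReal.ofReal ‖hrN u z‖).toReal • g (hrG u z) = g (hrG u z) * ‖hrN u z‖
  rw [ENNReal.toReal_ofReal (norm_nonneg _), smul_eq_mul, mul_comm]

end Claimed.Agent.Gmt
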