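import Claimed.Agent.Lib.Gmt.HrSub3

/-!
THIS FILE = PACKAGE L-GMT-HrSub4 (part 4 of 4 of the former `HrSub.lean`, which now only imports the parts; the text below is the plan of the whole former file).
# Lib/Gmt G5.1 (architect: helper190): the Gauss-Green pair of the subgraph of a `C¹` function.
PACKAGE L-GMT-HrSub.   Input: `FlCoord` (coordinates, Fubini), `gmtMu_gmtNu_unique` (helper75).   No area formula, no Leibniz rule.

`Cyl = hrCyl ρ = {‖z‖ < ρ, |t| < ρ}`, `u ∈ C¹(ball 0 ρ)`, `|u| < ρ`, `N(z) = hrN u z = (-∇u(z), 1)`, `Γ(z) = hrG u z = (z, u z)`; `S` measurable, `= {t < u(z)}` a.e. in `Cyl`.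
* `hr_sub_gg`.  Let `k : ℝ → ℝ` be a smooth bump, `k ≥ 0`, `k = 0` off `(-1,1)`, `∫ k = 1`; `H(s) = ∫_s^∞ k` (`H = 1` on `(-∞,-1]`, `= 0` on `[1,∞)`, `H' = -k`); `φ(y) = t - u(z)` (`C¹` on `Cyl`).
  For `T ∈ C¹_c(Cyl)` the field `H(φ/ε) T` is `C¹_c` (extend by `0`), so `0 = ∫ div (H(φ/ε) T) = ∫ H(φ/ε) div T - ε⁻¹ ∫ k(φ/ε) ⟪∇φ, T⟫` (`integral_gmtDiv_eq_zero`, `gmtDiv_smul`), `∇φ(y) = N(z)`.
  `ε → 0`: `H(φ/ε) → 1_{φ<0}` off the graph `{φ = 0}` (a null set: Fubini, `fl_ae_join`), dominated convergence: left term `→ ∫_S div T`.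
  Right term: Fubini: `∫_z ⟪N(z), ∫_t ε⁻¹ k((t - u z)/ε) T(z,t) dt⟫ dz`, the inner integral is `∫ k(s) T(z, u z + ε s) ds → T(z, u z)` (continuity of `T`, dominated convergence; `N` is bounded on the compact projection of `tsupport T`).
* `hr_mu_*`: `hrMu u ρ = Γ_# (‖N‖ dz ⌞ ball 0 ρ)`; `Γ` is measurable on the ball [`u` is only continuous on the ball: use `Measure.map` with `AEMeasurable` w.r.t. the restricted measure; `hr_mu_integral` via `integral_map`, `integral_withDensity_eq_integral_smul`/`setIntegral_withDensity_eq_setIntegral_smul`].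
  Finite on compact subsets `K` of `Cyl`: `Γ⁻¹ K ⊆` projection of `K`, compact in the ball, `‖N‖` bounded there.  `hrMu (Cylᶜ) = 0` as `Γ (ball) ⊆ Cyl`.
* `hr_sub_mu`: `gmtMu_gmtNu_unique` with `U = Cyl`, `μ = hrMu u ρ`, `ν y = ‖N(z)‖⁻¹ N(z)` for `y ∈ Cyl`, (a fixed unit vector off `Cyl`, to have a measurable `ν`): `∫ ⟪T,ν⟫ dμ = ∫_{ball} ⟪T(Γ z), N(z)⟫ dz`.
* `hr_c1_of_gr`: `FlGr` ⇒ `ContDiffOn ℝ 1` (`contDiffOn_one_iff_fderiv_of_isOpen`/`contDiffOn_succ_iff_fderiv_of_isOpen`: differentiable + `fderiv` continuous by the Hölder bound).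
-/

set_option autoImplicit false
open scoped ContDiff ENNReal RealInnerProductSpace Topology
open MeasureTheory Metric Set Filter

namespace Claimed.Agent.Gmt

variable {n : ℕ}

variable {S : Set (E (n + 1))} {u : E n → ℝ} {ρ : ℝ}

/-- the unit normal as a function on the cylinder. -/
theorem hr_sub_cont_nu (h : HrSub S u ρ) :
    ContinuousOn (fun y : E (n + 1) => ‖hrN u (gmtHor y)‖⁻¹ • hrN u (gmtHor y)) (hrCyl ρ) := by
  have h1 : ContinuousOn (fun y : E (n + 1) => hrN u (gmtHor y)) (hrCyl ρ) :=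
    (hr_mu_cont_N h).comp (gmtHorL n).continuous.continuousOn
      (fun y hy => mem_ball_zero_iff.mpr hy.1)
  refine ContinuousOn.smul (h1.norm.inv₀ fun y _ => ?_) h1
  have := hr_one_le_norm_N u (gmtHor y)
  linarith

theorem hr_sub_norm_nu (u : E n → ℝ) (z : E n) : ‖‖hrN u z‖⁻¹ • hrN u z‖ = 1 := by
  have := hr_one_le_norm_N u z
  rw [norm_smul, norm_inv, norm_norm, inv_mul_cancel₀ (by linarith)]

theorem hr_sub_ae_cyl (h : HrSub S u ρ) : ∀ᵐ y ∂(hrMu u ρ), y ∈ hrCyl ρ := by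
  rw [ae_iff]; exact hr_mu_compl h

/-- **the perimeter measure and the normal of a `C¹` subgraph.** -/
theorem hr_sub_mu (h : HrSub S u ρ) :
    GmtLF S (hrCyl ρ) ∧ (gmtMu S).restrict (hrCyl ρ) = hrMu u ρ ∧
      ∀ᵐ y ∂((gmtMu S).restrict (hrCyl ρ)),
        gmtNu S y = ‖hrN u (gmtHor y)‖⁻¹ • hrN u (gmtHor y) := by
  classical
  set ν₀ : E (n + 1) → E (n + 1) := fun y => ‖hrN u (gmtHor y)‖⁻¹ • hrN u (gmtHor y) with hν₀
  set ν : E (n + 1) → E (n + 1) := (hrCyl ρ).piecewise ν₀ (fun _ => gmtEn n) with hν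
  have hνm : Measurable ν :=
    (hr_sub_cont_nu h).measurable_piecewise continuousOn_const (hr_isOpen_cyl ρ).measurableSet
  have hν1 : ∀ᵐ x ∂(hrMu u ρ), ‖ν x‖ = 1 := by
    filter_upwards [hr_sub_ae_cyl h] with y hy
    rw [hν, Set.piecewise_eq_of_mem _ _ _ hy]
    exact hr_sub_norm_nu u _
  have hgg : ∀ T, GmtTest (hrCyl ρ) T → ∫ x in S, gmtDiv T x = ∫ x, ⟪T x, ν x⟫ ∂(hrMu u ρ) := by
    intro T hT
    have hc : ContinuousOn (fun y => ⟪T y, ν₀ y⟫) (hrCyl ρ) :=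
      hT.c1.continuous.continuousOn.inner (hr_sub_cont_nu h)
    have e1 : ∫ x, ⟪T x, ν x⟫ ∂(hrMu u ρ) = ∫ x, ⟪T x, ν₀ x⟫ ∂(hrMu u ρ) := by
      refine integral_congr_ae ?_
      filter_upwards [hr_sub_ae_cyl h] with y hy
      rw [hν, Set.piecewise_eq_of_mem _ _ _ hy]
    rw [e1, hr_mu_integral h hc, hr_sub_gg h hT]
    refine setIntegral_congr_fun measurableSet_ball fun z _ => ?_
    have hN := hr_one_le_norm_N u z
    show ⟪T (hrG u z), hrN u z⟫ = ⟪T (hrG u z), ‖hrN u (gmtHor (hrG u z))‖⁻¹ • hrN u (gmtHor (hrG u z))⟫ * ‖hrN u z‖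
    rw [hrG, fl_hor_join, inner_smul_right]
    field_simp
  obtain ⟨hLF, hμ, hνe⟩ := gmtMu_gmtNu_unique (hr_isOpen_cyl ρ) h.meas hνm hν1 (hr_mu_compl h)
    (fun K hK hKC => hr_mu_compact h hK hKC) hgg
  refine ⟨hLF, hμ.symm, ?_⟩
  rw [← hμ]
  filter_upwards [hνe, hr_sub_ae_cyl h] with y hy hyc
  rw [← hy, hν, Set.piecewise_eq_of_mem _ _ _ hyc]

/-- integrals of functions of `(y, ν_S(y))`. -/
theorem hr_sub_integral (h : HrSub S u ρ) {g : E (n + 1) → E (n + 1) → ℝ}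
    (hg : ContinuousOn (Function.uncurry g) (hrCyl ρ ×ˢ sphere (0 : E (n + 1)) 1)) :
    ∫ y in hrCyl ρ, g y (gmtNu S y) ∂(gmtMu S) =
      ∫ z in ball (0 : E n) ρ, g (hrG u z) (‖hrN u z‖⁻¹ • hrN u z) * ‖hrN u z‖ := by
  obtain ⟨-, hμ, hν⟩ := hr_sub_mu h
  have e1 : ∫ y in hrCyl ρ, g y (gmtNu S y) ∂(gmtMu S) =
      ∫ y in hrCyl ρ, g y (‖hrN u (gmtHor y)‖⁻¹ • hrN u (gmtHor y)) ∂(gmtMu S) := by
    refine integral_congr_ae ?_
    filter_upwards [hν] with y hy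
    rw [hy]
  have hc : ContinuousOn (fun y => g y (‖hrN u (gmtHor y)‖⁻¹ • hrN u (gmtHor y))) (hrCyl ρ) := by
    refine hg.comp (f := fun y => (y, ‖hrN u (gmtHor y)‖⁻¹ • hrN u (gmtHor y)))
      (continuousOn_id.prodMk (hr_sub_cont_nu h)) ?_
    intro y hy
    exact ⟨hy, mem_sphere_zero_iff_norm.mpr (hr_sub_norm_nu u _)⟩
  rw [e1, hμ, hr_mu_integral h hc]
  refine setIntegral_congr_fun measurableSet_ball fun z _ => ?_
  show g (hrG u z) (‖hrN u (gmtHor (hrG u z))‖⁻¹ • hrN u (gmtHor (hrG u z))) * ‖hrN u z‖ = _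
  rw [show gmtHor (hrG u z) = z by rw [hrG, fl_hor_join]]

/-- `FlGr` gives `HrSub`. -/
theorem hr_sub_of_gr {K : ℝ} (hρ : 0 < ρ) (hK : K < 1) (hS : MeasurableSet S) (h : FlGr S u ρ K) :
    HrSub S u ρ := by
  refine ⟨hρ, hS, ?_, ?_, ?_⟩
  · rw [show (1 : WithTop ℕ∞) = 0 + 1 from rfl, contDiffOn_succ_iff_fderiv_of_isOpen isOpen_ball]
    refine ⟨fun z hz => (h.diff z hz).differentiableWithinAt, by simp, ?_⟩
    rw [contDiffOn_zero]
    intro z hz
    rw [ContinuousWithinAt, tendsto_iff_norm_sub_tendsto_zero]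
    have hlim : Tendsto (fun z' : E n => K * Real.sqrt (‖z' - z‖ / ρ)) (𝓝[ball 0 ρ] z) (𝓝 0) := by
      have hcont : Continuous fun z' : E n => K * Real.sqrt (‖z' - z‖ / ρ) := by fun_prop
      have := hcont.tendsto z
      simp only [sub_self, norm_zero, zero_div, Real.sqrt_zero, mul_zero] at this
      exact this.mono_left nhdsWithin_le_nhds
    refine squeeze_zero' (Eventually.of_forall fun _ => norm_nonneg _) ?_ hlim
    filter_upwards [self_mem_nhdsWithin] with z' hz'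
    exact h.hol z' hz' z hz
  · intro z hz
    have := h.bound z hz
    nlinarith
  · filter_upwards [h.sub] with y hy hyc
    exact hy hyc.1 hyc.2

end Claimed.Agent.Gmt
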