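import Claimed.Agent.Lib.Gmt.Defs

/-!
# Lib/Gmt SMC: calculus of `C^∞_loc` convergence (`GmtSmoothConv`): composition with a fixed smooth map.   (architect: helper184; proofs: helper48)

Used by `R315/Ct/RegH.lean` (`CtSeq.reg_conv`: independence of the chart) and `R315/Rg/Csc.lean`.  Pure Mathlib.  NO SORRY IN THIS FILE.

`GmtCk k U a a'` := uniform convergence on compact subsets of `U` of the derivatives of order `≤ k`.

* `gmtSmoothConv_iff`, `GmtCk.mono`, `GmtCk.mono_set`, `GmtCk.const`, `GmtCk.congr` (only the values on the open set matter), `GmtCk.add`;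
* `GmtCk.comp_right`, `GmtSmoothConv.comp_right`: composition with a fixed smooth map.  NO induction: `D^j (a i ∘ τ) - D^j (a' ∘ τ) = D^j ((a i - a') ∘ τ)` and the Faa di Bruno bound
  `norm_iteratedFDerivWithin_comp_le` : `‖D^j (g ∘ τ) x‖ ≤ j! C D^j` if `‖D^l g (τ x)‖ ≤ C` (`l ≤ j`), `‖D^l τ x‖ ≤ D^l` (`1 ≤ l ≤ j`).
-/

set_option autoImplicit false
open scoped ContDiff ENNReal Topology
open MeasureTheory Metric Set Filter

namespace Claimed.Agent.Gmt

variable {m n : ℕ}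

/-- `C^k_loc(U)` convergence. -/
def GmtCk {F : Type} [NormedAddCommGroup F] [NormedSpace ℝ F] (k : ℕ) (U : Set (E m))
    (a : ℕ → E m → F) (a' : E m → F) : Prop :=
  ∀ K, IsCompact K → K ⊆ U → ∀ j ≤ k,
    TendstoUniformlyOn (fun i x => iteratedFDeriv ℝ j (a i) x) (fun x => iteratedFDeriv ℝ j a' x)
      atTop K

variable {F G : Type} [NormedAddCommGroup F] [NormedSpace ℝ F] [NormedAddCommGroup G]
  [NormedSpace ℝ G]

theorem gmtSmoothConv_iff {U : Set (E m)} {a : ℕ → E m → F} {a' : E m → F} :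
    GmtSmoothConv U a a' ↔ ∀ k, GmtCk k U a a' :=
  ⟨fun h _ K hK hKU j _ => h K hK hKU j, fun h K hK hKU k => h k K hK hKU k le_rfl⟩

theorem GmtCk.mono {k k' : ℕ} {U : Set (E m)} {a : ℕ → E m → F} {a' : E m → F}
    (h : GmtCk k U a a') (hk : k' ≤ k) : GmtCk k' U a a' :=
  fun K hK hKU j hj => h K hK hKU j (hj.trans hk)

theorem GmtCk.mono_set {k : ℕ} {U U' : Set (E m)} {a : ℕ → E m → F} {a' : E m → F}
    (h : GmtCk k U a a') (hU : U' ⊆ U) : GmtCk k U' a a' :=
  fun K hK hKU j hj => h K hK (hKU.trans hU) j hj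

theorem GmtCk.const {k : ℕ} {U : Set (E m)} (a' : E m → F) : GmtCk k U (fun _ => a') a' := by
  intro K _ _ j _
  rw [Metric.tendstoUniformlyOn_iff]
  intro ε hε
  exact Eventually.of_forall fun i x _ => by simpa using hε

/-- the sequence may be changed for finitely many indices, and only the values on the open set matter. -/
theorem GmtCk.congr' {k : ℕ} {U : Set (E m)} (hU : IsOpen U) {a b : ℕ → E m → F}
    {a' b' : E m → F} (h : GmtCk k U a a') (hab : ∀ᶠ i in atTop, EqOn (a i) (b i) U)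
    (hab' : EqOn a' b' U) : GmtCk k U b b' := by
  intro K hK hKU j hj
  have key : ∀ {f g : E m → F}, EqOn f g U → ∀ x ∈ K,
      iteratedFDeriv ℝ j f x = iteratedFDeriv ℝ j g x := by
    intro f g hfg x hx
    exact ((Filter.eventuallyEq_of_mem (hU.mem_nhds (hKU hx)) hfg).iteratedFDeriv ℝ j).self_of_nhds
  refine ((h K hK hKU j hj).congr (hab.mono fun i hi x hx => key hi x hx)).congr_right
    fun x hx => key hab' x hx

/-- only the values on the open set matter. -/
theorem GmtCk.congr {k : ℕ} {U : Set (E m)} (hU : IsOpen U) {a b : ℕ → E m → F}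
    {a' b' : E m → F} (h : GmtCk k U a a') (hab : ∀ i, EqOn (a i) (b i) U) (hab' : EqOn a' b' U) :
    GmtCk k U b b' := h.congr' hU (Eventually.of_forall hab) hab'

theorem gmt_cda {U : Set (E m)} (hU : IsOpen U) {f : E m → F} (hf : ContDiffOn ℝ ∞ f U) {x : E m}
    (hx : x ∈ U) (j : ℕ) : ContDiffAt ℝ j f x :=
  (hf.contDiffAt (hU.mem_nhds hx)).of_le (by exact_mod_cast le_top)

theorem GmtCk.add {k : ℕ} {U : Set (E m)} (hU : IsOpen U) {a b : ℕ → E m → F} {a' b' : E m → F}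
    (ha : GmtCk k U a a') (hb : GmtCk k U b b') (has : ∀ᶠ i in atTop, ContDiffOn ℝ ∞ (a i) U)
    (hbs : ∀ᶠ i in atTop, ContDiffOn ℝ ∞ (b i) U) (ha' : ContDiffOn ℝ ∞ a' U)
    (hb' : ContDiffOn ℝ ∞ b' U) :
    GmtCk k U (fun i x => a i x + b i x) (fun x => a' x + b' x) := by
  intro K hK hKU j hj
  refine (((ha K hK hKU j hj).add (hb K hK hKU j hj)).congr ?_).congr_right fun x hx => ?_
  · filter_upwards [has, hbs] with i h1 h2 x hx
    exact (iteratedFDeriv_add_apply (gmt_cda hU h1 (hKU hx) j) (gmt_cda hU h2 (hKU hx) j)).symm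
  · exact (iteratedFDeriv_add_apply (gmt_cda hU ha' (hKU hx) j) (gmt_cda hU hb' (hKU hx) j)).symm

/-- the derivatives of a smooth map are bounded on compact sets. -/
theorem gmt_bdd_iter {W : Set (E n)} (hW : IsOpen W) {τ : E n → G} (hτ : ContDiffOn ℝ ∞ τ W)
    {K : Set (E n)} (hK : IsCompact K) (hKW : K ⊆ W) (j : ℕ) :
    ∃ D : ℝ, 1 ≤ D ∧ ∀ l ≤ j, ∀ x ∈ K, ‖iteratedFDeriv ℝ l τ x‖ ≤ D := by
  have h1 : ∀ l : ℕ, ∃ C, ∀ x ∈ K, ‖iteratedFDeriv ℝ l τ x‖ ≤ C := by
    intro l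
    have hc : ContinuousOn (iteratedFDeriv ℝ l τ) W :=
      (hτ.continuousOn_iteratedFDerivWithin (m := l) (by exact_mod_cast le_top)
        hW.uniqueDiffOn).congr fun x hx => (iteratedFDerivWithin_of_isOpen l hW hx).symm
    exact hK.exists_bound_of_continuousOn (hc.mono hKW)
  choose C hC using h1
  refine ⟨1 + ∑ l ∈ Finset.range (j + 1), |C l|, ?_, fun l hl x hx => ?_⟩
  · have : 0 ≤ ∑ l ∈ Finset.range (j + 1), |C l| := Finset.sum_nonneg fun _ _ => abs_nonneg _
    linarith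
  · have h2 : |C l| ≤ ∑ l ∈ Finset.range (j + 1), |C l| :=
      Finset.single_le_sum (f := fun l => |C l|) (fun _ _ => abs_nonneg _)
        (Finset.mem_range.2 (Nat.lt_succ_of_le hl))
    have h3 := hC l x hx
    have h4 := le_abs_self (C l)
    linarith

theorem GmtCk.comp_right {k : ℕ} {U' : Set (E m)} {W : Set (E n)} (hU' : IsOpen U')
    (hW : IsOpen W) {a : ℕ → E m → F} {a' : E m → F} (h : GmtCk k U' a a')
    (ha : ∀ᶠ i in atTop, ContDiffOn ℝ ∞ (a i) U') (ha' : ContDiffOn ℝ ∞ a' U') {τ : E n → E m}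
    (hτ : ContDiffOn ℝ ∞ τ W) (hmaps : MapsTo τ W U') :
    GmtCk k W (fun i => a i ∘ τ) (a' ∘ τ) := by
  intro K hK hKW j hj
  have hK' : IsCompact (τ '' K) := hK.image_of_continuousOn (hτ.continuousOn.mono hKW)
  have hK'U : τ '' K ⊆ U' := (image_mono hKW).trans hmaps.image_subset
  obtain ⟨D, hD1, hD⟩ := gmt_bdd_iter hW hτ hK hKW j
  have hD0 : 0 < D := by linarith
  rw [Metric.tendstoUniformlyOn_iff]
  intro ε hε
  set ε' : ℝ := ε / (2 * (j.factorial * D ^ j)) with hε'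
  have hfac : (0 : ℝ) < j.factorial * D ^ j := by positivity
  have hε'0 : 0 < ε' := by positivity
  have hall : ∀ᶠ i in atTop, ∀ l ∈ Finset.range (j + 1), ∀ y ∈ τ '' K,
      dist (iteratedFDeriv ℝ l a' y) (iteratedFDeriv ℝ l (a i) y) < ε' := by
    rw [Filter.eventually_all_finset]
    intro l hl
    exact Metric.tendstoUniformlyOn_iff.1
      (h (τ '' K) hK' hK'U l ((Nat.lt_succ_iff.1 (Finset.mem_range.1 hl)).trans hj)) ε' hε'0
  filter_upwards [hall, ha] with i hi hai x hx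
  have hxW := hKW hx
  have hg : ContDiffOn ℝ ∞ (a i - a') U' := hai.sub ha'
  have hb := norm_iteratedFDerivWithin_comp_le (n := j) hg hτ (by exact_mod_cast le_top)
    hU'.uniqueDiffOn hW.uniqueDiffOn hmaps hxW (C := ε') (D := D) ?_ ?_
  · have e1 : iteratedFDerivWithin ℝ j ((a i - a') ∘ τ) W x =
        iteratedFDeriv ℝ j (a i ∘ τ) x - iteratedFDeriv ℝ j (a' ∘ τ) x := by
      rw [iteratedFDerivWithin_of_isOpen j hW hxW]
      exact iteratedFDeriv_sub_apply (gmt_cda hW (hai.comp hτ hmaps) hxW j)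
        (gmt_cda hW (ha'.comp hτ hmaps) hxW j)
    rw [e1] at hb
    rw [dist_comm, dist_eq_norm]
    refine lt_of_le_of_lt hb ?_
    have : (j.factorial : ℝ) * ε' * D ^ j = ε / 2 := by
      rw [hε']
      field_simp
    rw [this]
    linarith
  · intro l hl
    rw [iteratedFDerivWithin_of_isOpen l hU' (hmaps hxW),
      iteratedFDeriv_sub_apply (gmt_cda hU' hai (hmaps hxW) l) (gmt_cda hU' ha' (hmaps hxW) l),
      ← dist_eq_norm, dist_comm]
    exact (hi l (Finset.mem_range.2 (Nat.lt_succ_of_le hl)) _ (mem_image_of_mem τ hx)).le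
  · intro l hl1 hl
    rw [iteratedFDerivWithin_of_isOpen l hW hxW]
    exact (hD l hl x hx).trans (le_self_pow₀ hD1 (by omega))

/-- **composition with a fixed smooth map**. -/
theorem GmtSmoothConv.comp_right {U' : Set (E m)} {W : Set (E n)} (hU' : IsOpen U')
    (hW : IsOpen W) {a : ℕ → E m → F} {a' : E m → F} (h : GmtSmoothConv U' a a')
    (ha : ∀ᶠ i in atTop, ContDiffOn ℝ ∞ (a i) U') (ha' : ContDiffOn ℝ ∞ a' U') {τ : E n → E m}
    (hτ : ContDiffOn ℝ ∞ τ W) (hmaps : MapsTo τ W U') :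
    GmtSmoothConv W (fun i => a i ∘ τ) (a' ∘ τ) :=
  gmtSmoothConv_iff.2 fun k => (gmtSmoothConv_iff.1 h k).comp_right hU' hW ha ha' hτ hmaps

end Claimed.Agent.Gmt
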