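import Claimed.Agent.Lib.Gmt.HrLev
import Claimed.Agent.Lib.Gmt.SmC

/-!
THIS FILE = PACKAGE L-GMT-HrTop1 (part 1 of 3 of the former `HrTop.lean`, which now only imports the parts; the text below is the plan of the whole former file).
# Lib/Gmt G5 TOP (architect: helper190): the tops of `IFb.lean` (regularity).
PACKAGE L-GMT-HrTop (glue + affine changes of variables).

* `hr_sing_closed`: `x ∈ U \ Sing`: either `x ∉ gmtBd S` (`isClosed_gmtBd`: a neighbourhood misses the boundary) or `GmtReg S x` (`hr_reg_open`).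
* `hr_blow_dataConv`, `hr_blow_conv`: fixed affine isometry `Ψ = gmtAff L x' 1`.  `iteratedFDeriv k (a ∘ Ψ) y = (iteratedFDeriv k a (Ψ y)).compContinuousLinearMap (fun _ => L.symm)` (`ContinuousLinearMap.iteratedFDeriv_comp_right`, `iteratedFDeriv_comp_add_left`),
  post-composition with the fixed continuous linear map `B ↦ (det)⁻² B(Lᵀ·,Lᵀ·)` (`ContinuousLinearMap.iteratedFDeriv_comp_left`), compact sets correspond; `gmt_blow_data`; volumes: `volume_gmtBlow`.
* `hr_smoothConv_comp`: the same computation for `y ↦ ℓ y - u i (G y)`.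
* `hr_reg_conv`: `m = n+1`; `e` from `hr_reg_flat`; `L` from `fl_exists_rot`; blown-up data; `gmt_blow_lam`; `FlFlat.blow_isometry`; `hr_core`: `ρ, u i, u'`.   `φ i y = gmtVer (L (y - x')) - u i (gmtHor (L (y - x')))`, `r = ρ`:
  `y ∈ ball x' ρ ⇒ L (y - x') ∈ ball 0 ρ ⊆ hrCyl ρ`; `fderiv (φ i) y (L.symm e_{n+1}) = 1 ≠ 0`; `φ' x' = - u' 0 = 0` as `0 ∈ gmtBd S̃'` (`hr_reg_bd`, `gmtBd_gmtBlow`, the `bd` clause of `hr_core`).
  a.e. identity: `HrSub.sub` pulled back by the affine map (`fl_blow_ae` for the inverse map).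
* `hr_sing_lim`: `x' ∈ gmtBd S'` (`gmt_lam_bd_lim`).  If `GmtReg S' x'`: `hr_reg_conv`; for large `i`: `x i ∈ ball x' r`, defining function `φ i`: `hr_reg_of_def` gives `GmtReg (S i) (x i)`: contradiction with `x i ∈ gmtSing`.
-/

set_option autoImplicit false
open scoped ContDiff ENNReal RealInnerProductSpace Topology
open MeasureTheory Metric Set Filter

namespace Claimed.Agent.Gmt

variable {m n : ℕ}

/-- **`IFb.gmt_sing_closed`** (no minimality needed). -/
theorem hr_sing_closed {U : Set (E m)} (hU : IsOpen U) (S : Set (E m)) :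
    IsOpen (U \ gmtSing S U) := by
  rw [isOpen_iff_mem_nhds]
  rintro x ⟨hxU, hx⟩
  by_cases hb : x ∈ gmtBd S
  · have hreg : GmtReg S x := by
      by_contra hcon
      exact hx ⟨hxU, hb, hcon⟩
    obtain ⟨r, hr, h⟩ := hr_reg_open hreg
    filter_upwards [hU.mem_nhds hxU, ball_mem_nhds x hr] with y hyU hy
    exact ⟨hyU, fun hs => hs.2.2 (h y hy hs.2.1)⟩
  · filter_upwards [hU.mem_nhds hxU, (isClosed_gmtBd S).isOpen_compl.mem_nhds hb] with y hyU hy
    exact ⟨hyU, fun hs => hy hs.2.1⟩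

section conv

variable {F G : Type} [NormedAddCommGroup F] [NormedSpace ℝ F] [NormedAddCommGroup G]
  [NormedSpace ℝ G]

/-- post-composition with a fixed continuous linear map. -/
theorem hrTop_clm_left {U : Set (E m)} (hU : IsOpen U) (Λ : F →L[ℝ] G) {a : ℕ → E m → F}
    {a' : E m → F} (h : GmtSmoothConv U a a') (ha : ∀ᶠ i in atTop, ContDiffOn ℝ ∞ (a i) U)
    (ha' : ContDiffOn ℝ ∞ a' U) :
    GmtSmoothConv U (fun i y => Λ (a i y)) (fun y => Λ (a' y)) := by
  intro K hK hKU k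
  have h1 := h K hK hKU k
  have hu : UniformContinuous (fun M : ContinuousMultilinearMap ℝ (fun _ : Fin k => E m) F =>
      Λ.compContinuousMultilinearMap M) :=
    (ContinuousLinearMap.compContinuousMultilinearMapL ℝ (fun _ : Fin k => E m) F G
      Λ).uniformContinuous
  have h2 := hu.comp_tendstoUniformlyOn h1
  refine (h2.congr ?_).congr_right ?_
  · filter_upwards [ha] with i hi y hy
    have hc : ContDiffAt ℝ k (a i) y := gmt_cda hU hi (hKU hy) k
    exact (Λ.iteratedFDeriv_comp_left hc le_rfl).symm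
  · intro y hy
    exact (Λ.iteratedFDeriv_comp_left (gmt_cda hU ha' (hKU hy) k) le_rfl).symm

/-- `y ↦ Λ (a i (τ y))` for data which are smooth on exhausting windows. -/
theorem hrTop_conv_comp {U : ℕ → Set (E m)} {U' : Set (E m)} (hU' : IsOpen U')
    (hexh : ∀ K, IsCompact K → K ⊆ U' → ∀ᶠ i in atTop, K ⊆ U i)
    {a : ℕ → E m → F} {a' : E m → F} (ha : ∀ i, ContDiffOn ℝ ∞ (a i) (U i))
    (ha' : ContDiffOn ℝ ∞ a' U') (h : GmtSmoothConv U' a a') (Λ : F →L[ℝ] G) {W : Set (E n)}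
    (hW : IsOpen W) {τ : E n → E m} (hτ : ContDiffOn ℝ ∞ τ W) (hmaps : MapsTo τ W U') :
    GmtSmoothConv W (fun i y => Λ (a i (τ y))) (fun y => Λ (a' (τ y))) := by
  intro K hK hKW k
  have hK' : IsCompact (τ '' K) := hK.image_of_continuousOn (hτ.continuousOn.mono hKW)
  have hK'U : τ '' K ⊆ U' := by
    rintro _ ⟨y, hy, rfl⟩
    exact hmaps (hKW hy)
  obtain ⟨V, hVo, hKV, hVU, hVc⟩ := exists_open_between_and_isCompact_closure hK' hU' hK'U
  have hev : ∀ᶠ i in atTop, ContDiffOn ℝ ∞ (a i) V := by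
    filter_upwards [hexh _ hVc hVU] with i hi
    exact (ha i).mono (subset_closure.trans hi)
  have ha'V : ContDiffOn ℝ ∞ a' V := ha'.mono (subset_closure.trans hVU)
  have hV : GmtSmoothConv V a a' := fun K₁ hK₁ hK₁V =>
    h K₁ hK₁ (hK₁V.trans (subset_closure.trans hVU))
  have hW' : IsOpen (W ∩ τ ⁻¹' V) := hτ.continuousOn.isOpen_inter_preimage hW hVo
  have h1 := hrTop_clm_left hVo Λ hV hev ha'V
  have h2 := GmtSmoothConv.comp_right hVo hW' h1
    (hev.mono fun i hi => Λ.contDiff.comp_contDiffOn hi) (Λ.contDiff.comp_contDiffOn ha'V)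
    (hτ.mono inter_subset_left) (fun y hy => hy.2)
  exact h2 K hK (fun y hy => ⟨hKW hy, hKV ⟨y, hy, rfl⟩⟩) k

end conv

/-- the linear map `B ↦ c B(P·,P·)`. -/
noncomputable def hrTopLam (c : ℝ) (P : E m →L[ℝ] E m) : Bil m →L[ℝ] Bil m :=
  LinearMap.toContinuousLinearMap
    { toFun := fun B : Bil m => (c • B.bilinearComp P P : Bil m)
      map_add' := by
        intro B B'
        ext ξ η
        simp [mul_add]
      map_smul' := by
        intro t B
        ext ξ η
        simp [mul_left_comm] }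

theorem hrTopLam_apply (c : ℝ) (P : E m →L[ℝ] E m) (B : Bil m) :
    hrTopLam c P B = c • B.bilinearComp P P := rfl

/-- convergent data in a fixed isometric frame. -/
theorem hr_blow_dataConv {U : ℕ → Set (E m)} {A : ℕ → E m → Bil m} {f : ℕ → E m → ℝ}
    {U' : Set (E m)} {A' : E m → Bil m} {f' : E m → ℝ} (h : GmtDataConv U A f U' A' f')
    (L : E m ≃ₗᵢ[ℝ] E m) (x : E m) :
    GmtDataConv (fun i => gmtBlow L.toContinuousLinearEquiv x 1 (U i))
      (fun i => gmtBlowA L.toContinuousLinearEquiv x 1 (A i))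
      (fun i => gmtBlowF L.toContinuousLinearEquiv x 1 (f i))
      (gmtBlow L.toContinuousLinearEquiv x 1 U') (gmtBlowA L.toContinuousLinearEquiv x 1 A')
      (gmtBlowF L.toContinuousLinearEquiv x 1 f') := by
  set T : E m ≃L[ℝ] E m := L.toContinuousLinearEquiv with hT
  refine ⟨fun i => gmt_blow_data T x one_pos (h.data i), gmt_blow_data T x one_pos h.data', ?_, ?_,
    ?_⟩
  · intro K hK hKU
    have hK' : IsCompact (gmtAff T x 1 '' K) := hK.image (gmtFrB_continuous T x 1)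
    have hK'U : gmtAff T x 1 '' K ⊆ U' := by
      rintro _ ⟨y, hy, rfl⟩
      exact hKU hy
    filter_upwards [h.exh _ hK' hK'U] with i hi y hy
    exact hi ⟨y, hy, rfl⟩
  · exact hrTop_conv_comp (G := Bil m) h.data'.opn h.exh (fun i => (h.data i).int.smooth)
      h.data'.int.smooth h.convA (hrTopLam ((T : E m →L[ℝ] E m).det ^ 2)⁻¹ (gmtAdj (T : E m →L[ℝ] E m)))
      (isOpen_gmtBlow T x 1 h.data'.opn) (gmtFrC_contDiff T x 1).contDiffOn (fun y hy => hy)
  · have h1 := hrTop_conv_comp h.data'.opn h.exh (fun i => (h.data i).f) h.data'.f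
      h.convf ((1 * |(T : E m →L[ℝ] E m).det|⁻¹) • ContinuousLinearMap.id ℝ ℝ)
      (isOpen_gmtBlow T x 1 h.data'.opn) (gmtFrC_contDiff T x 1).contDiffOn (fun y hy => hy)
    exact h1

theorem hr_blow_conv {U' : Set (E m)} {S : ℕ → Set (E m)} {S' : Set (E m)} (hc : GmtConv U' S S')
    (L : E m ≃ₗᵢ[ℝ] E m) (x : E m) :
    GmtConv (gmtBlow L.toContinuousLinearEquiv x 1 U')
      (fun i => gmtBlow L.toContinuousLinearEquiv x 1 (S i))
      (gmtBlow L.toContinuousLinearEquiv x 1 S') := by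
  set T : E m ≃L[ℝ] E m := L.toContinuousLinearEquiv with hT
  intro K hK hKU
  have hK' : IsCompact (gmtAff T x 1 '' K) := hK.image (gmtFrB_continuous T x 1)
  have hK'U : gmtAff T x 1 '' K ⊆ U' := by
    rintro _ ⟨y, hy, rfl⟩
    exact hKU hy
  have h1 := hc _ hK' hK'U
  have hk : 0 < (1 : ℝ) ^ m * |(T : E m →L[ℝ] E m).det|⁻¹ := by
    have := abs_pos.2 (gmtFrC_det_ne T)
    positivity
  set c : ℝ≥0∞ := ENNReal.ofReal ((1 : ℝ) ^ m * |(T : E m →L[ℝ] E m).det|⁻¹) with hcdef
  have hc0 : c ≠ 0 := by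
    rw [hcdef, Ne, ENNReal.ofReal_eq_zero, not_le]
    exact hk
  have hct : c ≠ ⊤ := ENNReal.ofReal_ne_top
  have e : ∀ i, volume (symmDiff (gmtBlow T x 1 (S i)) (gmtBlow T x 1 S') ∩ K) =
      c⁻¹ * volume (symmDiff (S i) S' ∩ gmtAff T x 1 '' K) := by
    intro i
    rw [volume_gmtBlow T x one_pos (symmDiff (S i) S' ∩ gmtAff T x 1 '' K), ← mul_assoc,
      ENNReal.inv_mul_cancel hc0 hct, one_mul]
    congr 1
    ext y
    have hinj := (gmtAff_bijective T x one_pos).1
    simp only [gmtBlow, mem_inter_iff, mem_preimage, mem_symmDiff, hinj.mem_set_image]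
  simp only [e]
  have h2 := ENNReal.Tendsto.const_mul (a := c⁻¹) h1 (Or.inr (ENNReal.inv_ne_top.2 hc0))
  rwa [mul_zero] at h2

end Claimed.Agent.Gmt
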