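import Claimed.Agent.Lib.Gmt.HrTop1

/-!
THIS FILE = PACKAGE L-GMT-HrTop2 (part 2 of 3 of the former `HrTop.lean`, which now only imports the parts; the text below is the plan of the whole former file).
# Lib/Gmt G5 TOP (architect: helper190): the tops of `IFb.lean` (regularity).
PACKAGE L-GMT-HrTop (glue + affine changes of variables).

* `hr_sing_closed`: `x ∈ U \ Sing`: either `x ∉ gmtBd S` (`isClosed_gmtBd`: a neighbourhood misses the boundary) or `GmtReg S x` (`hr_reg_open`).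
* `hr_blow_dataConv`, `hr_blow_conv`: fixed affine isometry `Ψ = gmtAff L x' 1`.  `iteratedFDeriv k (a ∘ Ψ) y = (iteratedFDeriv k a (Ψ y)).compContinuousLinearMap (fun _ => L.symm)` (`ContinuousLinearMap.iteratedFDeriv_comp_right`, `iteratedFDeriv_comp_add_left`),
  post-composition with the fixed continuous linear map `B ↦ (det)⁻² B(Lᵀ·,Lᵀ·)` (`ContinuousLinearMap.iteratedFDeriv_comp_left`), compact sets correspond; `gmt_blow_data`; volumes: `volume_gmtBlow`.
* `hr_smoothConv_comp`: the same computation for `y ↦ ℓ y - u i (G y)`.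
* `hr_reg_conv`: `m = n+1`; `e` from `hr_reg_flat`; `L` from `fl_exists_rot`; blown-up data; `gmt_blow_lam`; `FlFlat.blow_isometry`; `hr_core`: `ρ, u i, u'`.   `φ i y = gmtVer (L (y - x')) - u i (gmtHor (L (y - x')))`, `r = ρ`:
  `y ∈ ball x' ρ ⇒ L (y - x') ∈ ball 0 ρ ⊆ hrCyl ρ`; `fderiv (φ i) y (L.symm e_{n+1}) = 1 ≠ 0`; `φ' x' = - u' 0 = 0` as `0 ∈ gmtBd S̃'` (`hr_reg_bd`, `gmtBd_gmtBlow`, the `bd` clause of `hr_core`).
  a.e. identity: `HrSub.sub` pulled back by the affine map (`fl_blow_ae` for the inverse map).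
* `hr_sing_lim`: `x' ∈ gmtBd S'` (`gmt_lam_bd_lim`).  If `GmtReg S' x'`: `hr_reg_conv`; for large `i`: `x i ∈ ball x' r`, defining function `φ i`: `hr_reg_of_def` gives `GmtReg (S i) (x i)`: contradiction with `x i ∈ gmtSing`.
-/

set_option autoImplicit false
open scoped ContDiff ENNReal RealInnerProductSpace Topology
open MeasureTheory Metric Set Filter

namespace Claimed.Agent.Gmt

variable {m n : ℕ}

/-- the horizontal coordinate in the rotated frame. -/
noncomputable def hrTopTau (L : E (n + 1) ≃ₗᵢ[ℝ] E (n + 1)) (x : E (n + 1)) (y : E (n + 1)) : E n :=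
  gmtHor (L (y - x))

/-- the vertical coordinate in the rotated frame. -/
noncomputable def hrTopEll (L : E (n + 1) ≃ₗᵢ[ℝ] E (n + 1)) (x : E (n + 1)) (y : E (n + 1)) : ℝ :=
  gmtVer (L (y - x))

theorem hrTop_rot_hasFDerivAt (L : E (n + 1) ≃ₗᵢ[ℝ] E (n + 1)) (x y : E (n + 1)) :
    HasFDerivAt (fun y : E (n + 1) => L (y - x))
      (L.toContinuousLinearEquiv : E (n + 1) →L[ℝ] E (n + 1)) y := by
  have h0 : HasFDerivAt (fun y : E (n + 1) => y - x) (ContinuousLinearMap.id ℝ (E (n + 1))) y :=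
    (hasFDerivAt_id y).sub_const x
  exact (L.toContinuousLinearEquiv : E (n + 1) →L[ℝ] E (n + 1)).hasFDerivAt.comp y h0

theorem hrTop_rot_contDiff (L : E (n + 1) ≃ₗᵢ[ℝ] E (n + 1)) (x : E (n + 1)) :
    ContDiff ℝ ∞ (fun y : E (n + 1) => L (y - x)) :=
  (L.toContinuousLinearEquiv : E (n + 1) →L[ℝ] E (n + 1)).contDiff.comp
    (contDiff_id.sub contDiff_const)

theorem hrTopTau_contDiff (L : E (n + 1) ≃ₗᵢ[ℝ] E (n + 1)) (x : E (n + 1)) :
    ContDiff ℝ ∞ (hrTopTau L x) :=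
  (gmtHorL n).contDiff.comp (hrTop_rot_contDiff L x)

theorem hrTopEll_contDiff (L : E (n + 1) ≃ₗᵢ[ℝ] E (n + 1)) (x : E (n + 1)) :
    ContDiff ℝ ∞ (hrTopEll L x) :=
  (gmtVerL n).contDiff.comp (hrTop_rot_contDiff L x)

theorem hrTopTau_mapsTo (L : E (n + 1) ≃ₗᵢ[ℝ] E (n + 1)) (x : E (n + 1)) (ρ : ℝ) :
    MapsTo (hrTopTau L x) (ball x ρ) (ball 0 ρ) := by
  intro y hy
  rw [mem_ball, dist_eq_norm] at hy
  rw [mem_ball, dist_zero_right]
  calc ‖hrTopTau L x y‖ ≤ ‖L (y - x)‖ := fl_norm_hor_le _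
    _ = ‖y - x‖ := L.norm_map _
    _ < ρ := hy

/-- smooth convergence of the defining functions `y ↦ t(y) - u i (z(y))`. -/
theorem hr_smoothConv_comp {u : ℕ → E n → ℝ} {u' : E n → ℝ} {ρ : ℝ}
    (hu : ∀ᶠ i in atTop, ContDiffOn ℝ ∞ (u i) (ball 0 ρ)) (hu' : ContDiffOn ℝ ∞ u' (ball 0 ρ))
    (hc : GmtSmoothConv (ball (0 : E n) ρ) u u') (L : E (n + 1) ≃ₗᵢ[ℝ] E (n + 1)) (x : E (n + 1)) :
    GmtSmoothConv (ball x ρ) (fun i y => gmtVer (L (y - x)) - u i (gmtHor (L (y - x))))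
      (fun y => gmtVer (L (y - x)) - u' (gmtHor (L (y - x)))) := by
  have hτ := (hrTopTau_contDiff L x).contDiffOn (s := ball x ρ)
  have hm := hrTopTau_mapsTo L x ρ
  have h1 := GmtSmoothConv.comp_right isOpen_ball isOpen_ball hc hu hu' hτ hm
  have hs : ∀ᶠ i in atTop, ContDiffOn ℝ ∞ (u i ∘ hrTopTau L x) (ball x ρ) :=
    hu.mono fun i hi => hi.comp hτ hm
  have hs' : ContDiffOn ℝ ∞ (u' ∘ hrTopTau L x) (ball x ρ) := hu'.comp hτ hm
  have h2 := hrTop_clm_left isOpen_ball (-ContinuousLinearMap.id ℝ ℝ) h1 hs hs'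
  rw [gmtSmoothConv_iff] at h2 ⊢
  intro k
  have h3 := GmtCk.add (k := k) isOpen_ball (GmtCk.const (hrTopEll L x)) (h2 k)
    (Eventually.of_forall fun _ => (hrTopEll_contDiff L x).contDiffOn)
    (hs.mono fun i hi => (-ContinuousLinearMap.id ℝ ℝ).contDiff.comp_contDiffOn hi)
    (hrTopEll_contDiff L x).contDiffOn
    ((-ContinuousLinearMap.id ℝ ℝ).contDiff.comp_contDiffOn hs')
  refine h3.congr isOpen_ball (fun i y _ => ?_) (fun y _ => ?_)
  · simp [hrTopEll, hrTopTau, sub_eq_add_neg]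
  · simp [hrTopEll, hrTopTau, sub_eq_add_neg]

/-- a smooth subgraph in a rotated frame, in defining function form. -/
theorem hr_def_of_sub {S : Set (E (n + 1))} {u : E n → ℝ} {ρ : ℝ} (L : E (n + 1) ≃ₗᵢ[ℝ] E (n + 1))
    (x : E (n + 1)) (hu : ContDiffOn ℝ ∞ u (ball 0 ρ))
    (h : HrSub (gmtBlow L.toContinuousLinearEquiv x 1 S) u ρ) :
    ContDiffOn ℝ ∞ (fun y => gmtVer (L (y - x)) - u (gmtHor (L (y - x)))) (ball x ρ) ∧
    (∀ y ∈ ball x ρ, fderiv ℝ (fun y => gmtVer (L (y - x)) - u (gmtHor (L (y - x)))) y ≠ 0) ∧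
    ((S ∩ ball x ρ : Set (E (n + 1))) =ᵐ[volume]
      ({y | y ∈ ball x ρ ∧ gmtVer (L (y - x)) - u (gmtHor (L (y - x))) < 0} : Set (E (n + 1)))) := by
  have hτ := (hrTopTau_contDiff L x).contDiffOn (s := ball x ρ)
  have hm := hrTopTau_mapsTo L x ρ
  refine ⟨(hrTopEll_contDiff L x).contDiffOn.sub (hu.comp hτ hm), ?_, ?_⟩
  · intro y hy hcon
    have hr := hrTop_rot_hasFDerivAt L x y
    have h1 : HasFDerivAt (fun y => gmtVer (L (y - x)))
        ((gmtVerL n).comp (L.toContinuousLinearEquiv : E (n + 1) →L[ℝ] E (n + 1))) y :=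
      (gmtVerL n).hasFDerivAt.comp y hr
    have h2 : HasFDerivAt (fun y => gmtHor (L (y - x)))
        ((gmtHorL n).comp (L.toContinuousLinearEquiv : E (n + 1) →L[ℝ] E (n + 1))) y :=
      (gmtHorL n).hasFDerivAt.comp y hr
    have h3 : HasFDerivAt u (fderiv ℝ u (gmtHor (L (y - x)))) (gmtHor (L (y - x))) :=
      ((hu.contDiffAt (isOpen_ball.mem_nhds (hm hy))).differentiableAt (by simp)).hasFDerivAt
    have h4 := h1.sub (h3.comp y h2)
    have h5 := h4.fderiv
    have h6 : fderiv ℝ (fun y => gmtVer (L (y - x)) - u (gmtHor (L (y - x)))) y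
        (L.symm (gmtEn n)) = 1 := by
      have e : (fun y => gmtVer (L (y - x)) - u (gmtHor (L (y - x)))) =
          (fun y => gmtVer (L (y - x))) - (u ∘ fun y => gmtHor (L (y - x))) := rfl
      rw [e, h5]
      have e1 : gmtVerL n (gmtEn n) = 1 := fl_ver_en
      have e2 : gmtHorL n (gmtEn n) = 0 := fl_hor_en
      simp [e1, e2]
    rw [hcon] at h6
    simp at h6
  · have hq : Measure.QuasiMeasurePreserving (fun y : E (n + 1) => L (y - x)) volume volume :=
      (L.measurePreserving.comp (measurePreserving_sub_right volume x)).quasiMeasurePreserving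
    have h1 := hq.ae h.sub
    refine Filter.eventuallyEq_set.2 ?_
    filter_upwards [h1] with y hy
    simp only [mem_inter_iff, mem_setOf_eq]
    constructor
    · rintro ⟨hyS, hyb⟩
      refine ⟨hyb, ?_⟩
      have hcyl : L (y - x) ∈ (hrCyl ρ : Set (E (n + 1))) := by
        have hn : ‖L (y - x)‖ < ρ := by
          rw [L.norm_map, ← dist_eq_norm]
          exact hyb
        exact ⟨(fl_norm_hor_le _).trans_lt hn, (fl_abs_ver_le _).trans_lt hn⟩
      have hmem : L (y - x) ∈ gmtBlow L.toContinuousLinearEquiv x 1 S := by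
        simp only [gmtBlow, gmtAff, mem_preimage]
        simpa using hyS
      have := (hy hcyl).1 hmem
      linarith
    · rintro ⟨hyb, hlt⟩
      refine ⟨?_, hyb⟩
      have hcyl : L (y - x) ∈ (hrCyl ρ : Set (E (n + 1))) := by
        have hn : ‖L (y - x)‖ < ρ := by
          rw [L.norm_map, ← dist_eq_norm]
          exact hyb
        exact ⟨(fl_norm_hor_le _).trans_lt hn, (fl_abs_ver_le _).trans_lt hn⟩
      have hmem := (hy hcyl).2 (by linarith)
      simp only [gmtBlow, gmtAff, mem_preimage] at hmem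
      simpa using hmem

end Claimed.Agent.Gmt
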