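import Claimed.Agent.Lib.Gmt.HrTop2

/-!
THIS FILE = PACKAGE L-GMT-HrTop3 (part 3 of 3 of the former `HrTop.lean`, which now only imports the parts; the text below is the plan of the whole former file).
# Lib/Gmt G5 TOP (architect: helper190): the tops of `IFb.lean` (regularity).
PACKAGE L-GMT-HrTop (glue + affine changes of variables).

* `hr_sing_closed`: `x ∈ U \ Sing`: either `x ∉ gmtBd S` (`isClosed_gmtBd`: a neighbourhood misses the boundary) or `GmtReg S x` (`hr_reg_open`).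
* `hr_blow_dataConv`, `hr_blow_conv`: fixed affine isometry `Ψ = gmtAff L x' 1`.  `iteratedFDeriv k (a ∘ Ψ) y = (iteratedFDeriv k a (Ψ y)).compContinuousLinearMap (fun _ => L.symm)` (`ContinuousLinearMap.iteratedFDeriv_comp_right`, `iteratedFDeriv_comp_add_left`),
  post-composition with the fixed continuous linear map `B ↦ (det)⁻² B(Lᵀ·,Lᵀ·)` (`ContinuousLinearMap.iteratedFDeriv_comp_left`), compact sets correspond; `gmt_blow_data`; volumes: `volume_gmtBlow`.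
* `hr_smoothConv_comp`: the same computation for `y ↦ ℓ y - u i (G y)`.
* `hr_reg_conv`: `m = n+1`; `e` from `hr_reg_flat`; `L` from `fl_exists_rot`; blown-up data; `gmt_blow_lam`; `FlFlat.blow_isometry`; `hr_core`: `ρ, u i, u'`.   `φ i y = gmtVer (L (y - x')) - u i (gmtHor (L (y - x')))`, `r = ρ`:
  `y ∈ ball x' ρ ⇒ L (y - x') ∈ ball 0 ρ ⊆ hrCyl ρ`; `fderiv (φ i) y (L.symm e_{n+1}) = 1 ≠ 0`; `φ' x' = - u' 0 = 0` as `0 ∈ gmtBd S̃'` (`hr_reg_bd`, `gmtBd_gmtBlow`, the `bd` clause of `hr_core`).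
  a.e. identity: `HrSub.sub` pulled back by the affine map (`fl_blow_ae` for the inverse map).
* `hr_sing_lim`: `x' ∈ gmtBd S'` (`gmt_lam_bd_lim`).  If `GmtReg S' x'`: `hr_reg_conv`; for large `i`: `x i ∈ ball x' r`, defining function `φ i`: `hr_reg_of_def` gives `GmtReg (S i) (x i)`: contradiction with `x i ∈ gmtSing`.
-/

set_option autoImplicit false
open scoped ContDiff ENNReal RealInnerProductSpace Topology
open MeasureTheory Metric Set Filter

namespace Claimed.Agent.Gmt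

variable {m n : ℕ}

/-- **`IFb.gmt_reg_conv`.** -/
theorem hr_reg_conv (h2 : 2 ≤ m) {U : ℕ → Set (E m)} {A : ℕ → E m → Bil m} {f : ℕ → E m → ℝ}
    {U' : Set (E m)} {A' : E m → Bil m} {f' : E m → ℝ} (h : GmtDataConv U A f U' A' f')
    (S : ℕ → Set (E m)) (hS : ∀ i, GmtLAM (A i) (f i) (U i) (S i)) (S' : Set (E m))
    (hm : MeasurableSet S') (hc : GmtConv U' S S') (x' : E m) (hx' : x' ∈ U')
    (hr : GmtReg S' x') :
    ∃ r > 0, ∃ (φ : ℕ → E m → ℝ) (φ' : E m → ℝ), ball x' r ⊆ U' ∧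
      ContDiffOn ℝ ∞ φ' (ball x' r) ∧ φ' x' = 0 ∧ (∀ y ∈ ball x' r, fderiv ℝ φ' y ≠ 0) ∧
      ((S' ∩ ball x' r : Set (E m)) =ᵐ[volume] ({y | y ∈ ball x' r ∧ φ' y < 0} : Set (E m))) ∧
      GmtSmoothConv (ball x' r) φ φ' ∧
      ∀ᶠ i in atTop, ContDiffOn ℝ ∞ (φ i) (ball x' r) ∧ (∀ y ∈ ball x' r, fderiv ℝ (φ i) y ≠ 0) ∧
        ((S i ∩ ball x' r : Set (E m)) =ᵐ[volume] ({y | y ∈ ball x' r ∧ φ i y < 0} : Set (E m))) := by
  obtain ⟨n, rfl⟩ : ∃ n, m = n + 1 := ⟨m - 1, by omega⟩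
  have hn : 1 ≤ n := by omega
  obtain ⟨e, he, hflat⟩ := hr_reg_flat hr
  obtain ⟨L, hL⟩ := fl_exists_rot he
  have h0 : (0 : E (n + 1)) ∈ gmtBlow L.toContinuousLinearEquiv x' 1 U' := by
    show gmtAff L.toContinuousLinearEquiv x' 1 0 ∈ U'
    simpa [gmtAff] using hx'
  have hfl : ∀ η > 0, ∃ r₀ > 0, ∀ r, 0 < r → r ≤ r₀ →
      FlFlat (gmtBlow L.toContinuousLinearEquiv x' 1 S') 0 r η (gmtEn n) := by
    intro η hη
    obtain ⟨r₀, hr₀, H⟩ := hflat η hη
    refine ⟨r₀, hr₀, fun r hr hrr => ?_⟩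
    have := (H r hr hrr).blow_isometry L one_pos
    rwa [div_one, hL] at this
  obtain ⟨ρ, hρ, u, u', hcl, hsm', hsub', hbd, hconv, hev⟩ :=
    hr_core hn (hr_blow_dataConv h L x')
      (fun i => gmt_blow_lam (by omega) L.toContinuousLinearEquiv x' one_pos (hS i))
      (measurableSet_gmtBlow _ _ _ hm) (hr_blow_conv hc L x') h0 hfl
  obtain ⟨d1, d2, d3⟩ := hr_def_of_sub L x' hsm' hsub'
  refine ⟨ρ, hρ, fun i y => gmtVer (L (y - x')) - u i (gmtHor (L (y - x'))),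
    fun y => gmtVer (L (y - x')) - u' (gmtHor (L (y - x'))), ?_, d1, ?_, d2, d3,
    hr_smoothConv_comp (hev.mono fun i hi => hi.1) hsm' hconv L x', ?_⟩
  · intro y hy
    have h1 : L (y - x') ∈ ball (0 : E (n + 1)) ρ := by
      simp only [mem_ball, dist_zero_right, L.norm_map]
      simpa [dist_eq_norm] using hy
    have h3 : gmtAff L.toContinuousLinearEquiv x' 1 (L (y - x')) ∈ U' :=
      hcl (subset_closure (hr_ball_subset_cyl ρ h1))
    have h4 : gmtAff L.toContinuousLinearEquiv x' 1 (L (y - x')) = y := by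
      simp [gmtAff]
    rwa [h4] at h3
  · have hb : (0 : E (n + 1)) ∈ gmtBd (gmtBlow L.toContinuousLinearEquiv x' 1 S') := by
      rw [gmtBd_gmtBlow _ _ one_pos]
      show gmtAff L.toContinuousLinearEquiv x' 1 0 ∈ gmtBd S'
      simpa [gmtAff] using hr_reg_bd hr
    have h1 := (hbd 0 (hr_ball_subset_cyl ρ (mem_ball_self hρ))).1 hb
    show gmtVer (L (x' - x')) - u' (gmtHor (L (x' - x'))) = 0
    rw [sub_self, map_zero, h1, sub_self]
  · filter_upwards [hev] with i hi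
    exact hr_def_of_sub L x' hi.1 hi.2

/-- **`IFb.gmt_sing_lim`.** -/
theorem hr_sing_lim (h2 : 2 ≤ m) {U : ℕ → Set (E m)} {A : ℕ → E m → Bil m} {f : ℕ → E m → ℝ}
    {U' : Set (E m)} {A' : E m → Bil m} {f' : E m → ℝ} (h : GmtDataConv U A f U' A' f')
    (S : ℕ → Set (E m)) (hS : ∀ i, GmtLAM (A i) (f i) (U i) (S i)) (S' : Set (E m))
    (hm : MeasurableSet S') (hc : GmtConv U' S S') (x : ℕ → E m) (x' : E m) (hx' : x' ∈ U')
    (hx : ∀ i, x i ∈ gmtSing (S i) (U i)) (hlim : Tendsto x atTop (nhds x')) :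
    x' ∈ gmtSing S' U' := by
  have hb : x' ∈ gmtBd S' :=
    gmt_lam_bd_lim h S hS S' hm hc x x' hx' (fun i => (hx i).2.1) hlim
  refine ⟨hx', hb, fun hreg => ?_⟩
  obtain ⟨r, hr, φ, φ', -, -, -, -, -, -, hev⟩ := hr_reg_conv h2 h S hS S' hm hc x' hx' hreg
  have h1 : ∀ᶠ i in atTop, x i ∈ ball x' r := hlim (ball_mem_nhds x' hr)
  obtain ⟨i, ⟨hφ, hφ', hSφ⟩, hxi⟩ := (hev.and h1).exists
  exact (hx i).2.2 (hr_reg_of_def hφ hφ' hSφ hxi (hx i).2.1)

end Claimed.Agent.Gmt
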