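import Claimed.Agent.Lib.Gmt.HrTop3
import Claimed.Agent.Lib.Gmt.SmC

/-!
THIS FILE = PACKAGE L-GMT-HrTop4 (architect: helper190): GRAPH FORM of `gmt_reg_conv` at a point where the limit is a horizontal half space.

`hr_graph_conv`: `S i → S'` minimisers as in `hr_reg_conv`; near `x'` the limit `S'` is a.e. `{ver < ver x'}`.  Then in a small cylinder around `x'` the `S i` are (for large `i`) a.e. the subgraphs of smooth functions `u i`, and `u i → ver x'` in `C^∞`.

PLAN.  Copy the first half of the proof of `hr_reg_conv` (`HrTop3.lean`) with `e = gmtEn n`, `L = LinearIsometryEquiv.refl ℝ (E (n+1))`: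
* `Ψ = gmtAff L.toContinuousLinearEquiv x' 1`, `Ψ y = x' + y` (`simp [gmtAff]`), `S̃ = gmtBlow .. S = {y | x' + y ∈ S}`.
* flatness `hfl` of `hr_core`: for `r ≤ r₀`, any `η > 0`: `FlFlat S̃' 0 r η (gmtEn n)`: both fields follow from `hfl` translated (`⟪y - 0, gmtEn n⟫ = gmtVer y`: `fl_ver_eq_inner`; a.e. statements are transported by the measure preserving translation: `fl_blow_ae` / `(measurePreserving_add_left volume x').quasiMeasurePreserving.ae`).
* `hr_core hn (hr_blow_dataConv h L x') (fun i => gmt_blow_lam .. (hS i)) (measurableSet_gmtBlow ..) (hr_blow_conv hc L x') h0 hfl'` gives `ρ₁, v i, v'` with `HrSub S̃' v' ρ₁`, `GmtSmoothConv (ball 0 ρ₁) v v'`, eventually `ContDiffOn (v i)`, `HrSub (S̃ i) (v i) ρ₁`.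
* `v' = 0` on `ball 0 ρ₂`, `ρ₂ = min ρ₁ (r₀/2)`: for a.e. `y ∈ hrCyl ρ₂`: `ver y < v' (hor y) ↔ ver y < 0` (`HrSub.sub` and `hfl`; `hrCyl ρ₂ ⊆ ball 0 (2 ρ₂)`: `hr_cyl_subset_ball`).  If `v' z₀ ≠ 0` then by continuity there is a nonempty open box on which exactly one of the two inequalities holds: contradiction with `IsOpen.measure_pos`.
* `ρ = ρ₂ / 2`.  Uniform convergence of `v i` to `0` on the compact `closedBall 0 ρ ⊆ ball 0 ρ₁` (`GmtSmoothConv` with `k = 0`, `iteratedFDeriv_zero_apply` / `GmtSmoothConv.tendstoUniformlyOn` of `IFa.lean`): eventually `|v i| < ρ` on it.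
* `u i z = gmtVer x' + v i (z - gmtHor x')`.  Smoothness and `GmtSmoothConv`: composition with the translation `z ↦ z - gmtHor x'` (`GmtSmoothConv.comp_right`, `SmC.lean`) and addition of a constant (`GmtCk.add`, `GmtCk.const`, `SmD.lean`; or directly `iteratedFDeriv_comp_add_right`-type lemmas); restrict from `ball 0 ρ₁` to `ball 0 ρ`; the limit is `fun _ => gmtVer x' + 0` on the ball (`GmtCk.congr`).
* a.e. identity: `HrSub.sub` for `S̃ i` at `y - x'` (translate the a.e. statement), `gmtHor`, `gmtVer` are linear (`fl_hor_sub`, `fl_ver_sub`).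
* inclusion in `U'`: `closure (hrCyl ρ₁) ⊆ gmtBlow .. U'`.
-/

set_option autoImplicit false
open scoped ContDiff ENNReal RealInnerProductSpace Topology
open MeasureTheory Metric Set Filter

namespace Claimed.Agent.Gmt

variable {n : ℕ}

theorem hr_graph_conv (hn : 1 ≤ n) {U : ℕ → Set (E (n + 1))} {A : ℕ → E (n + 1) → Bil (n + 1)}
    {f : ℕ → E (n + 1) → ℝ} {U' : Set (E (n + 1))} {A' : E (n + 1) → Bil (n + 1)}
    {f' : E (n + 1) → ℝ} (h : GmtDataConv U A f U' A' f') {S : ℕ → Set (E (n + 1))}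
    (hS : ∀ i, GmtLAM (A i) (f i) (U i) (S i)) {S' : Set (E (n + 1))} (hm : MeasurableSet S')
    (hc : GmtConv U' S S') {x' : E (n + 1)} (hx' : x' ∈ U') {r₀ : ℝ} (hr₀ : 0 < r₀)
    (hfl : ((S' ∩ ball x' r₀ : Set (E (n + 1))) =ᵐ[volume]
      ({y | y ∈ ball x' r₀ ∧ gmtVer y < gmtVer x'} : Set (E (n + 1))))) :
    ∃ ρ > 0, ∃ u : ℕ → E n → ℝ,
      {y : E (n + 1) | gmtHor y ∈ ball (gmtHor x') ρ ∧ |gmtVer y - gmtVer x'| < ρ} ⊆ U' ∧
      GmtSmoothConv (ball (gmtHor x') ρ) u (fun _ => gmtVer x') ∧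
      ∀ᶠ i in atTop, ContDiffOn ℝ ∞ (u i) (ball (gmtHor x') ρ) ∧
        (∀ z ∈ ball (gmtHor x') ρ, |u i z - gmtVer x'| < ρ) ∧
        ∀ᵐ y : E (n + 1), (gmtHor y ∈ ball (gmtHor x') ρ ∧ |gmtVer y - gmtVer x'| < ρ) →
          (y ∈ S i ↔ gmtVer y < u i (gmtHor y)) := by
  obtain ⟨L, hLdef⟩ : ∃ L : E (n + 1) ≃ₗᵢ[ℝ] E (n + 1),
      L = LinearIsometryEquiv.refl ℝ (E (n + 1)) := ⟨_, rfl⟩
  have haff : ∀ y, gmtAff L.toContinuousLinearEquiv x' 1 y = x' + y := fun y => by
    rw [hLdef]; simp [gmtAff]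
  have hmem : ∀ (X : Set (E (n + 1))) y,
      y ∈ gmtBlow L.toContinuousLinearEquiv x' 1 X ↔ x' + y ∈ X := fun X y => by
    show gmtAff L.toContinuousLinearEquiv x' 1 y ∈ X ↔ _
    rw [haff]
  have h0 : (0 : E (n + 1)) ∈ gmtBlow L.toContinuousLinearEquiv x' 1 U' := by
    rw [hmem, add_zero]; exact hx'
  have hae : ∀ᵐ y : E (n + 1), ‖y‖ < r₀ →
      (y ∈ gmtBlow L.toContinuousLinearEquiv x' 1 S' ↔ gmtVer y < 0) := by
    have h1 := (measurePreserving_add_left volume x').quasiMeasurePreserving.ae hfl.mem_iff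
    filter_upwards [h1] with y hy hyn
    have hb : x' + y ∈ ball x' r₀ := by simpa [dist_eq_norm] using hyn
    rw [hmem]
    have hv : gmtVer (x' + y) = gmtVer x' + gmtVer y := map_add (gmtVerL n) x' y
    constructor
    · intro hS
      have := (hy.1 ⟨hS, hb⟩).2
      rw [hv] at this
      linarith
    · intro hlt
      exact (hy.2 ⟨hb, by rw [hv]; linarith⟩).1
  have hfl' : ∀ η > 0, ∃ r₁ > 0, ∀ r, 0 < r → r ≤ r₁ →
      FlFlat (gmtBlow L.toContinuousLinearEquiv x' 1 S') 0 r η (gmtEn n) := by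
    intro η hη
    refine ⟨r₀, hr₀, fun r hr hrr => ⟨by simp, ?_, ?_⟩⟩
    · filter_upwards [hae] with y hy hyb hlt
      rw [sub_zero, ← fl_ver_eq_inner] at hlt
      have hyn : ‖y‖ < r := by simpa using hyb
      exact (hy (by linarith)).2 (by nlinarith [mul_pos hη hr])
    · filter_upwards [hae] with y hy hyb hlt hyS
      rw [sub_zero, ← fl_ver_eq_inner] at hlt
      have hyn : ‖y‖ < r := by simpa using hyb
      have := (hy (by linarith)).1 hyS
      nlinarith [mul_pos hη hr]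
  obtain ⟨ρ₁, hρ₁, v, v', hcl, hsm', hsub', hbd, hconv, hev⟩ :=
    hr_core hn (hr_blow_dataConv h L x')
      (fun i => gmt_blow_lam (by omega) L.toContinuousLinearEquiv x' one_pos (hS i))
      (measurableSet_gmtBlow _ _ _ hm) (hr_blow_conv hc L x') h0 hfl'
  obtain ⟨ρ₂, hρ₂def⟩ : ∃ ρ₂, ρ₂ = min ρ₁ (r₀ / 2) := ⟨_, rfl⟩
  have hρ₂ : 0 < ρ₂ := by rw [hρ₂def]; exact lt_min hρ₁ (by positivity)
  have hρ₂1 : ρ₂ ≤ ρ₁ := by rw [hρ₂def]; exact min_le_left _ _
  have hρ₂r : ρ₂ ≤ r₀ / 2 := by rw [hρ₂def]; exact min_le_right _ _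
  have hv0 : ∀ z ∈ ball (0 : E n) ρ₂, v' z = 0 := by
    intro z hz
    have hzn : ‖z‖ < ρ₂ := by simpa using hz
    have hy1n : ‖gmtJoin z 0‖ = ‖z‖ := by rw [← fl_inc_apply, fl_norm_inc]
    have hreg : GmtReg (gmtBlow L.toContinuousLinearEquiv x' 1 S') (gmtJoin z 0) := by
      refine ⟨r₀ - ‖z‖, by linarith, gmtVer, (gmtVerL n).contDiff.contDiffOn, fl_ver_join z 0,
        fun y _ => ?_, ?_⟩
      · have : fderiv ℝ (gmtVer : E (n + 1) → ℝ) y = gmtVerL n := (gmtVerL n).fderiv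
        rw [this]
        intro hc
        have h1 : gmtVerL n (gmtEn n) = 1 := fl_ver_en
        rw [hc] at h1
        simp at h1
      · refine Filter.eventuallyEq_set.2 ?_
        filter_upwards [hae] with y hy
        have hyn : y ∈ ball (gmtJoin z 0) (r₀ - ‖z‖) → ‖y‖ < r₀ := fun hyb => by
          have h1 : ‖y - gmtJoin z 0‖ < r₀ - ‖z‖ := by simpa [dist_eq_norm] using hyb
          have h2 := norm_sub_norm_le y (gmtJoin z 0)
          rw [hy1n] at h2
          linarith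
        constructor
        · intro hyS
          exact ⟨hyS.2, (hy (hyn hyS.2)).1 hyS.1⟩
        · intro hyS
          exact ⟨(hy (hyn hyS.1)).2 hyS.2, hyS.1⟩
    have hb := hr_reg_bd hreg
    have hcyl : gmtJoin z 0 ∈ (hrCyl ρ₁ : Set (E (n + 1))) :=
      ⟨by rw [fl_hor_join]; linarith, by rw [fl_ver_join, abs_zero]; exact hρ₁⟩
    have := (hbd _ hcyl).1 hb
    rw [fl_ver_join, fl_hor_join] at this
    exact this.symm
  obtain ⟨ρ, hρdef⟩ : ∃ ρ, ρ = ρ₂ / 2 := ⟨_, rfl⟩
  have hρ : 0 < ρ := by rw [hρdef]; positivity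
  have hρ2 : ρ < ρ₂ := by rw [hρdef]; linarith
  have hKsub : closedBall (0 : E n) ρ ⊆ ball 0 ρ₁ := closedBall_subset_ball (by linarith)
  have hunif := hconv.tendstoUniformlyOn (isCompact_closedBall (0 : E n) ρ) hKsub
  have hsmall := (Metric.tendstoUniformlyOn_iff.1 hunif) ρ hρ
  have hτ : ContDiffOn ℝ ∞ (fun z : E n => z - gmtHor x') (ball (gmtHor x') ρ) :=
    (contDiff_id.sub contDiff_const).contDiffOn
  have hnorm : ∀ z ∈ ball (gmtHor x') ρ, ‖z - gmtHor x'‖ < ρ := fun z hz => by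
    simpa [dist_eq_norm] using hz
  have hmaps : MapsTo (fun z : E n => z - gmtHor x') (ball (gmtHor x') ρ) (ball 0 ρ₁) :=
    fun z hz => by
      simp only [mem_ball, dist_zero_right]
      linarith [hnorm z hz]
  have hc1 := hconv.comp_right isOpen_ball isOpen_ball (hev.mono fun i hi => hi.1) hsm' hτ hmaps
  refine ⟨ρ, hρ, fun i z => gmtVer x' + v i (z - gmtHor x'), ?_, ?_, ?_⟩
  · intro y hy
    have hcyl : y - x' ∈ (hrCyl ρ₁ : Set (E (n + 1))) :=
      ⟨by rw [fl_hor_sub]; linarith [hnorm _ hy.1], by rw [fl_ver_sub]; linarith [hy.2]⟩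
    have := (hmem U' (y - x')).1 (hcl (subset_closure hcyl))
    rwa [add_sub_cancel] at this
  · rw [gmtSmoothConv_iff]
    intro k
    have a1 : GmtCk k (ball (gmtHor x') ρ) (fun _ => fun _ : E n => gmtVer x')
        (fun _ => gmtVer x') := GmtCk.const _
    have a2 := (gmtSmoothConv_iff.1 hc1) k
    have a3 := a1.add isOpen_ball a2 (Eventually.of_forall fun _ => contDiffOn_const)
      (hev.mono fun i hi => hi.1.comp hτ hmaps) contDiffOn_const (hsm'.comp hτ hmaps)
    refine a3.congr isOpen_ball (fun i z _ => rfl) (fun z hz => ?_)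
    show gmtVer x' + v' (z - gmtHor x') = gmtVer x'
    rw [hv0 _ (by simp only [mem_ball, dist_zero_right]; linarith [hnorm z hz]), add_zero]
  · filter_upwards [hev, hsmall] with i hi hsm
    refine ⟨contDiffOn_const.add (hi.1.comp hτ hmaps), fun z hz => ?_, ?_⟩
    · have h1 := hsm (z - gmtHor x') (by
        simp only [mem_closedBall, dist_zero_right]; exact (hnorm z hz).le)
      rw [hv0 _ (by simp only [mem_ball, dist_zero_right]; linarith [hnorm z hz]),
        Real.dist_eq, zero_sub, abs_neg] at h1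
      show |gmtVer x' + v i (z - gmtHor x') - gmtVer x'| < ρ
      rwa [add_sub_cancel_left]
    · have h1 := (measurePreserving_sub_right volume x').quasiMeasurePreserving.ae hi.2.sub
      filter_upwards [h1] with y hy hyc
      have hcyl : y - x' ∈ (hrCyl ρ₁ : Set (E (n + 1))) :=
        ⟨by rw [fl_hor_sub]; linarith [hnorm _ hyc.1], by rw [fl_ver_sub]; linarith [hyc.2]⟩
      have h2 := hy hcyl
      rw [hmem, add_sub_cancel, fl_ver_sub, fl_hor_sub] at h2
      rw [h2]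
      show _ ↔ gmtVer y < gmtVer x' + v i (gmtHor y - gmtHor x')
      constructor <;> intro h3 <;> linarith

end Claimed.Agent.Gmt
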