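import Claimed.Agent.Lib.Gmt.RbHalfA

/-!
# Lib/Gmt [RbHalf = part 2/2 of the former RbHalf] G2a: half spaces; sets with constant normal.   (architect: helper75)

PLAN OF PROOFS
* `gmtHalf_gg`: by an isometry (`gmtP_isometry`, or directly with an orthonormal basis containing `e`) reduce to `e = e_last`; Fubini and the fundamental
  theorem of calculus in the direction `e`: `∫_{⟪y-x,e⟫<0} div T = ∫_{hyperplane} T·e`.  To avoid a measure on the hyperplane we record the result in the "slab limit" form: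
  `∫ g dμ_H = lim_{ε→0} (2ε)⁻¹ ∫_{|⟪y-x,e⟫|<ε} g` for `g ∈ C_c`.
* `gmtP_half_ball`: from the slab limit, or: `≥` with `T = φ e`, `≤` with Fubini; the value is the volume of the `(m-1)`-ball
  (`|{y ∈ B_r : |y·e| < ε}| / 2ε → ω_{m-1} r^{m-1}`; Mathlib: volume of Euclidean balls `EuclideanSpace.volume_ball`, Fubini via `gmtJoin`).
* `gmt_const_normal` (Maggi Prop. 15.15): if `ν_S = e` a.e. in the ball `B`, then for `v ⊥ e`: `∫_S ∂_v φ = 0`, and `∫_S ∂_e φ ≥ 0` for `φ ≥ 0`.  Mollify: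
  `u_ε = gmtMol ε χ_S` satisfies `∂_v u_ε = 0`, `∂_e u_ε ≤ 0` on `B_{r-ε}`; so `u_ε(y) = h_ε(⟪y,e⟫)`, `h_ε` nonincreasing; the `L¹` limit is the characteristic function of `{⟪y - x,e⟫ < c}`.
-/

set_option autoImplicit false
open scoped ContDiff ENNReal RealInnerProductSpace Topology
open MeasureTheory Metric Set Filter

namespace Claimed.Agent.Gmt

variable {m : ℕ}

/-- constant normal: the distributional derivative of `χ_S` in a direction `v` with `v·e ≥ 0` is
nonpositive. -/
theorem gmt_const_normal_test {S W : Set (E m)} (hW : IsOpen W) (hS : GmtLF S W) {e : E m}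
    (hν : ∀ᵐ y ∂((gmtMu S).restrict W), gmtNu S y = e) {ψ : E m → ℝ} (hψ : GmtTest0 W ψ)
    (h0 : ∀ z, 0 ≤ ψ z) {v : E m} (hv : 0 ≤ ⟪v, e⟫) : 0 ≤ ∫ z in S, fderiv ℝ ψ z v := by
  have hs : Function.support (fun z => ψ z • v) ⊆ tsupport ψ := by
    intro z hz
    apply subset_tsupport
    intro h
    apply hz
    show ψ z • v = 0
    rw [h, zero_smul]
  have hT : GmtTest W (fun z => ψ z • v) :=
    ⟨hψ.c1.smul contDiff_const, hψ.cpt.mono' hs,
      (closure_minimal hs (isClosed_tsupport ψ)).trans hψ.sub⟩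
  have hd : ∀ z, gmtDiv (fun z => ψ z • v) z = fderiv ℝ ψ z v := by
    intro z
    have h1 := gmtDiv_smul (φ := ψ) (T := fun _ => v) (x := z)
      (hψ.c1.differentiable one_ne_zero z) (differentiableAt_const v)
    rw [h1]
    have : gmtDiv (fun _ : E m => v) z = 0 := by
      simp [gmtDiv]
    rw [this, mul_zero, zero_add]
  have hgg := gmt_gauss_green hW hS hT
  simp only [hd] at hgg
  rw [hgg, ← setIntegral_eq_integral_of_forall_compl_eq_zero (s := W)]
  · apply integral_nonneg_of_ae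
    filter_upwards [hν] with z hz
    rw [hz, real_inner_smul_left]
    exact mul_nonneg (h0 z) hv
  · intro z hz
    have : z ∉ tsupport ψ := fun h' => hz (hψ.sub h')
    rw [image_eq_zero_of_notMem_tsupport this, zero_smul, inner_zero_left]
/-- the mollified characteristic function is nonincreasing in the directions `v` with `v·e ≥ 0`. -/
theorem gmt_const_normal_fderiv {S W : Set (E m)} (hW : IsOpen W) (hS : GmtLF S W) {e : E m}
    (hν : ∀ᵐ y ∂((gmtMu S).restrict W), gmtNu S y = e) {ε : ℝ} (hε : 0 < ε) {y : E m}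
    (hy : closedBall y ε ⊆ W) {v : E m} (hv : 0 ≤ ⟪v, e⟫) :
    fderiv ℝ (gmtMol ε (gmtChi S)) y v ≤ 0 := by
  have hρ := gmtBump_props (m := m) hε
  have hρ1 : ContDiff ℝ 1 (gmtBump m ε) := hρ.1.of_le (by exact_mod_cast le_top)
  have hs : Function.support (fun z => gmtBump m ε (y - z)) ⊆ closedBall y ε := by
    intro z hz
    have : y - z ∈ Function.support (gmtBump m ε) := hz
    rw [hρ.2.2.2.1, mem_ball_zero_iff] at this
    rw [mem_closedBall, dist_comm, dist_eq_norm]
    exact this.le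
  have hψ : GmtTest0 W (fun z => gmtBump m ε (y - z)) :=
    ⟨hρ1.comp (by fun_prop), HasCompactSupport.intro (isCompact_closedBall y ε)
      (fun z hz => by
        by_contra h
        exact hz (hs h)),
      (closure_minimal hs isClosed_closedBall).trans hy⟩
  have hd : ∀ z, fderiv ℝ (fun z => gmtBump m ε (y - z)) z v = - fderiv ℝ (gmtBump m ε) (y - z) v := by
    intro z
    have h1 : HasFDerivAt (fun z : E m => y - z) (-ContinuousLinearMap.id ℝ (E m)) z :=
      (hasFDerivAt_id z).const_sub y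
    have h2 := ((hρ1.differentiable one_ne_zero (y - z)).hasFDerivAt.comp z h1).fderiv
    have h3 : fderiv ℝ (fun z => gmtBump m ε (y - z)) z =
        (fderiv ℝ (gmtBump m ε) (y - z)).comp (-ContinuousLinearMap.id ℝ (E m)) := h2
    rw [h3]
    simp
  have h := gmt_const_normal_test hW hS hν hψ (fun z => hρ.2.1 _) hv
  simp only [hd] at h
  rw [integral_neg] at h
  rw [fderiv_gmtMol hε (gmtChi_locallyIntegrable hS.1)]
  simp only [mul_comm _ (gmtChi S _)]
  rw [integral_gmtChi_mul hS.1]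
  linarith
/-- monotonicity of the mollified characteristic function. -/
theorem gmt_const_normal_mol_le {S W : Set (E m)} (hW : IsOpen W) (hc : Convex ℝ W)
    (hS : GmtLF S W) {e : E m}
    (hν : ∀ᵐ y ∂((gmtMu S).restrict W), gmtNu S y = e) {ε : ℝ} (hε : 0 < ε) {y y' : E m}
    (hy : closedBall y ε ⊆ W) (hy' : closedBall y' ε ⊆ W) (hv : 0 ≤ ⟪y' - y, e⟫) :
    gmtMol ε (gmtChi S) y' ≤ gmtMol ε (gmtChi S) y := by
  have hU : Differentiable ℝ (gmtMol ε (gmtChi S)) :=
    (gmtMol_contDiff hε (gmtChi_locallyIntegrable hS.1)).differentiable (by simp)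
  have hseg : ∀ t ∈ Icc (0 : ℝ) 1, closedBall (y + t • (y' - y)) ε ⊆ W := by
    intro t ht p hp
    have h1 : y + (p - (y + t • (y' - y))) ∈ W := by
      apply hy
      rw [mem_closedBall, dist_eq_norm] at hp ⊢
      simpa using hp
    have h2 : y' + (p - (y + t • (y' - y))) ∈ W := by
      apply hy'
      rw [mem_closedBall, dist_eq_norm] at hp ⊢
      simpa using hp
    have h3 := hc h1 h2 (sub_nonneg.2 ht.2) ht.1 (by ring)
    convert h3 using 1
    module
  have hder : ∀ t : ℝ, HasDerivAt (fun t : ℝ => gmtMol ε (gmtChi S) (y + t • (y' - y)))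
      (fderiv ℝ (gmtMol ε (gmtChi S)) (y + t • (y' - y)) (y' - y)) t := by
    intro t
    have h1 : HasDerivAt (fun t : ℝ => y + t • (y' - y)) (y' - y) t := by
      simpa using ((hasDerivAt_id t).smul_const (y' - y)).const_add y
    exact (hU _).hasFDerivAt.comp_hasDerivAt t h1
  have hanti : AntitoneOn (fun t : ℝ => gmtMol ε (gmtChi S) (y + t • (y' - y))) (Icc 0 1) := by
    apply antitoneOn_of_deriv_nonpos (convex_Icc 0 1)
    · exact fun t _ => (hder t).continuousAt.continuousWithinAt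
    · exact fun t _ => (hder t).differentiableAt.differentiableWithinAt
    · intro t ht
      rw [(hder t).deriv]
      exact gmt_const_normal_fderiv hW hS hν hε (hseg t (interior_subset ht)) hv
  have := hanti (left_mem_Icc.2 zero_le_one) (right_mem_Icc.2 zero_le_one) zero_le_one
  simpa using this
/-- there is a set of full measure on which `S ∩ W` is a lower set for `⟪·, e⟫`. -/
theorem gmt_const_normal_lower {S W : Set (E m)} (hW : IsOpen W) (hc : Convex ℝ W)
    (hS : GmtLF S W) {e : E m} (hν : ∀ᵐ y ∂((gmtMu S).restrict W), gmtNu S y = e) :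
    ∃ L : Set (E m), (∀ᵐ y, y ∈ L) ∧ ∀ y ∈ L ∩ W, ∀ y' ∈ L ∩ W, ⟪y, e⟫ ≤ ⟪y', e⟫ → y' ∈ S → y ∈ S := by
  refine ⟨{y | Tendsto (fun ε => gmtMol ε (gmtChi S) y) (𝓝[>] 0) (𝓝 (gmtChi S y))},
    gmtMol_tendsto_ae (gmtChi_locallyIntegrable hS.1), ?_⟩
  rintro y ⟨hyL, hyW⟩ y' ⟨hyL', hyW'⟩ hle hyS
  have hev : ∀ p ∈ W, ∀ᶠ ε in 𝓝[>] (0 : ℝ), 0 < ε ∧ closedBall p ε ⊆ W := by
    intro p hp
    obtain ⟨δ, hδ, hb⟩ := Metric.isOpen_iff.1 hW p hp
    filter_upwards [Ioo_mem_nhdsGT hδ] with ε hε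
    exact ⟨hε.1, (closedBall_subset_ball hε.2).trans hb⟩
  have h1 : gmtChi S y' ≤ gmtChi S y := by
    refine le_of_tendsto_of_tendsto hyL' hyL ?_
    filter_upwards [hev y hyW, hev y' hyW'] with ε h1 h2
    refine gmt_const_normal_mol_le hW hc hS hν h1.1 h1.2 h2.2 ?_
    rw [inner_sub_left]
    linarith
  by_contra hyS'
  simp only [gmtChi, indicator_of_mem hyS, indicator_of_notMem hyS'] at h1
  linarith

/-- hyperplanes are Lebesgue null. -/
theorem gmt_volume_hyperplane {e : E m} (he : e ≠ 0) (c : ℝ) :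
    volume {y : E m | ⟪y, e⟫ = c} = 0 := by
  have hK : (ℝ ∙ e)ᗮ ≠ ⊤ := by
    intro h
    have : e ∈ (ℝ ∙ e)ᗮ := by rw [h]; trivial
    rw [Submodule.mem_orthogonal_singleton_iff_inner_left] at this
    exact he (inner_self_eq_zero.1 this)
  have h0 := Measure.addHaar_submodule volume _ hK
  have hee : ⟪e, e⟫ ≠ 0 := fun h => he (inner_self_eq_zero.1 h)
  have : {y : E m | ⟪y, e⟫ = c} = (fun y => y + (-(c / ⟪e, e⟫)) • e) ⁻¹' ((ℝ ∙ e)ᗮ : Set (E m)) := by
    ext y
    simp only [mem_ofPred_eq, mem_preimage, SetLike.mem_coe,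
      Submodule.mem_orthogonal_singleton_iff_inner_left, inner_add_left, real_inner_smul_left]
    rw [neg_mul, div_mul_cancel₀ _ hee]
    constructor
    · intro h; linarith
    · intro h; linarith
  rw [this, measure_preimage_add_right, h0]
/-- version in an open convex set (cylinders). -/
theorem gmt_const_normal_convex {S W : Set (E m)} (hW : IsOpen W) (hc : Convex ℝ W)
    (hS : GmtLF S W) {e : E m} (he : ‖e‖ = 1)
    (hν : ∀ᵐ y ∂((gmtMu S).restrict W), gmtNu S y = e) :
    ∃ c : EReal, (S ∩ W : Set (E m)) =ᵐ[volume]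
      ({y | y ∈ W ∧ ((⟪y, e⟫ : ℝ) : EReal) < c} : Set (E m)) := by
  obtain ⟨L, hL, hlow⟩ := gmt_const_normal_lower hW hc hS hν
  obtain ⟨c, hcdef⟩ : ∃ c : EReal, c = sSup ((fun y => ((⟪y, e⟫ : ℝ) : EReal)) '' (S ∩ W ∩ L)) :=
    ⟨_, rfl⟩
  have he0 : e ≠ 0 := by
    intro h
    rw [h, norm_zero] at he
    exact zero_ne_one he
  have hnull : ∀ᵐ y : E m, ((⟪y, e⟫ : ℝ) : EReal) ≠ c := by
    induction c using EReal.rec with
    | bot => exact Eventually.of_forall fun y => EReal.coe_ne_bot _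
    | top => exact Eventually.of_forall fun y => EReal.coe_ne_top _
    | coe a =>
      rw [ae_iff]
      simp only [not_not, EReal.coe_eq_coe_iff]
      exact gmt_volume_hyperplane he0 a
  refine ⟨c, ?_⟩
  filter_upwards [hL, hnull] with y hy hyc
  apply propext
  constructor
  · rintro ⟨hyS, hyW⟩
    refine ⟨hyW, lt_of_le_of_ne ?_ hyc⟩
    rw [hcdef]
    exact le_sSup ⟨y, ⟨⟨hyS, hyW⟩, hy⟩, rfl⟩
  · rintro ⟨hyW, hlt⟩
    rw [hcdef] at hlt
    obtain ⟨_, ⟨y', hy', rfl⟩, hlt'⟩ := lt_sSup_iff.1 hlt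
    exact ⟨hlow y ⟨hy, hyW⟩ y' ⟨hy'.2, hy'.1.2⟩ (EReal.coe_lt_coe_iff.1 hlt').le hy'.1.1, hyW⟩

/-- SETS WITH CONSTANT NORMAL ARE HALF SPACES (in a ball). -/
theorem gmt_const_normal {S : Set (E m)} {x : E m} {r : ℝ} (hr : 0 < r)
    (hS : GmtLF S (ball x r)) {e : E m} (he : ‖e‖ = 1)
    (hν : ∀ᵐ y ∂((gmtMu S).restrict (ball x r)), gmtNu S y = e) :
    ∃ c : ℝ, (S ∩ ball x r : Set (E m)) =ᵐ[volume]
      ({y | y ∈ ball x r ∧ ⟪y - x, e⟫ < c} : Set (E m)) := by
  obtain ⟨c, hc⟩ := gmt_const_normal_convex isOpen_ball (convex_ball x r) hS he hν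
  have hb : ∀ y ∈ ball x r, |⟪y - x, e⟫| < r := by
    intro y hy
    rw [mem_ball, dist_eq_norm] at hy
    calc |⟪y - x, e⟫| ≤ ‖y - x‖ * ‖e‖ := abs_real_inner_le_norm _ _
      _ = ‖y - x‖ := by rw [he, mul_one]
      _ < r := hy
  induction c using EReal.rec with
  | bot =>
    refine ⟨-r, hc.trans (Eventually.of_forall fun y => propext ?_)⟩
    constructor
    · rintro ⟨_, h⟩
      exact absurd h not_lt_bot
    · rintro ⟨hy, h⟩
      have := (abs_lt.1 (hb y hy)).1
      exact absurd h (not_lt.2 this.le)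
  | top =>
    refine ⟨r, hc.trans (Eventually.of_forall fun y => propext ?_)⟩
    constructor
    · rintro ⟨hy, _⟩
      exact ⟨hy, (abs_lt.1 (hb y hy)).2⟩
    · rintro ⟨hy, _⟩
      exact ⟨hy, EReal.coe_lt_top _⟩
  | coe a =>
    refine ⟨a - ⟪x, e⟫, hc.trans (Eventually.of_forall fun y => propext ?_)⟩
    constructor
    · rintro ⟨hy, h⟩
      refine ⟨hy, ?_⟩
      have := EReal.coe_lt_coe_iff.1 h
      rw [inner_sub_left]
      linarith
    · rintro ⟨hy, h⟩
      refine ⟨hy, EReal.coe_lt_coe_iff.2 ?_⟩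
      rw [inner_sub_left] at h
      linarith

/-- global version. -/
theorem gmt_const_normal_univ {S : Set (E m)} (hS : GmtLF S univ) {e : E m} (he : ‖e‖ = 1)
    (hν : ∀ᵐ y ∂(gmtMu S), gmtNu S y = e) :
    S =ᵐ[volume] (∅ : Set (E m)) ∨ S =ᵐ[volume] (univ : Set (E m)) ∨
      ∃ c : ℝ, S =ᵐ[volume] ({y | ⟪y, e⟫ < c} : Set (E m)) := by
  obtain ⟨c, hc⟩ := gmt_const_normal_convex isOpen_univ convex_univ hS he
    (by rwa [Measure.restrict_univ])
  rw [inter_univ] at hc
  induction c using EReal.rec with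
  | bot =>
    left
    refine hc.trans (Eventually.of_forall fun y => propext ?_)
    constructor
    · rintro ⟨_, h⟩
      exact absurd h not_lt_bot
    · intro h
      exact absurd h (notMem_empty y)
  | top =>
    right; left
    refine hc.trans (Eventually.of_forall fun y => propext ?_)
    constructor
    · intro _
      trivial
    · intro _
      exact ⟨mem_univ y, EReal.coe_lt_top _⟩
  | coe a =>
    right; right
    refine ⟨a, hc.trans (Eventually.of_forall fun y => propext ?_)⟩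
    constructor
    · rintro ⟨_, h⟩
      exact EReal.coe_lt_coe_iff.1 h
    · intro h
      exact ⟨mem_univ y, EReal.coe_lt_coe_iff.2 h⟩

end Claimed.Agent.Gmt
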