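import Claimed.Agent.Lib.Gmt.IFa
import Claimed.Agent.Lib.Gmt.RbHalf

/-!
# Lib/Gmt HsM: the anisotropic perimeter measure of a half space, parametrised by the hyperplane.   (architect: helper184)

Used by `R315/Ct/RegF.lean` (`wper` = weighted volume of the wall, computed in lapse coordinates where the phase is a half space).
Data: `J : E n →L[ℝ] E (n+1)` norm preserving, `e` a unit vector orthogonal to the range of `J`; `H = gmtHalf 0 e = {y | ⟪y, e⟫ < 0}`.

PLAN OF PROOFS
* `gmtHsEquiv`-free approach: `Φ : E n × ℝ → E (n+1)`, `Φ (y, s) = J y + s • e`.  `gmt_hs_measurePreserving`: `Φ` is measure preserving (`volume.prod volume → volume`).  Proof: `‖Φ (y,s)‖² = ‖y‖² + s²` (Pythagoras: `norm_add_sq_real`, `hJe`), so `Φ ∘ (WithLp.equiv 2 (E n × ℝ))` is a linear isometry `WithLp 2 (E n × ℝ) → E (n+1)` between spaces of the same `finrank`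
  ⇒ a `LinearIsometryEquiv` (`LinearIsometry.toLinearIsometryEquiv`), measure preserving (`LinearIsometryEquiv.measurePreserving`); `WithLp.volume_preserving_ofLp`/`EuclideanSpace`-type lemma for `WithLp 2 (α × β)` (Mathlib: `WithLp.prod_volume_preserving...`; if it is missing: both `volume` on `E (n+1)` pulled back by `Φ` and `volume.prod volume`
  are additive Haar measures on `E n × ℝ`, compare them on one set: use `MeasureTheory.Measure.addHaar` uniqueness `isAddLeftInvariant_eq_smul` and the value on `Φ ⁻¹' ball 0 1`…).  ALTERNATIVE (simpler): choose the orthonormal basis `b` of `E (n+1)`: `b (castSucc i) = J (eb i)`, `b (last) = e`; `b.repr` is a `LinearIsometryEquiv` onto `E (n+1)`, and `b.repr (Φ (y,s)) = gmtJoin y s`-coordinates;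
  then `MeasureTheory.volume_preserving_piFinSuccAbove`/`Fin.snoc` (this is what `SpA.gmt_split_last`, `BvProd` use as well: look there for an already proved `E (n+1) ≃ E n × ℝ` measure preserving map, e.g. `gmtJoin`).
* `gmt_hs_slab`: for `g` continuous with compact support: `(2ε)⁻¹ ∫_{|⟪y,e⟫| < ε} g = (2ε)⁻¹ ∫_{-ε}^{ε} I(s) ds`, `I(s) = ∫ g (J y + s e) dy` (`MeasurePreserving.setIntegral_preimage_emb`/`integral_comp`, `integral_prod`, `⟪Φ(y,s), e⟫ = s`).  `I` is continuous (`continuous_parametric_integral_of_continuous` or dominated convergence: `g` uniformly continuous, supports in a fixed compact set).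
  So the limit as `ε → 0+` is `I(0)` (`intervalIntegral` mean value: FTC `intervalIntegral.integral_hasDerivAt_right`, or squeeze with `|I(s) - I(0)| < δ`).
* `gmtMu_gmtHalf_eq`: by `gmtMu_gmtHalf_slab` (x = 0), `gmt_hs_slab` and uniqueness of limits: `∫ g ∂(gmtMu H) = ∫ g (J y) dy = ∫ g ∂(map J volume)` (`integral_map`) for all `g ∈ C_c`.  Both measures are finite on compacts [`gmtHalf_lf` + `gmtMu_open`; `J` is a closed embedding, so `J ⁻¹' K` is compact], hence regular (`E (n+1)` is a second countable locally compact metric space):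
  `MeasureTheory.Measure.ext_of_integral_eq_on_compactlySupported` (Mathlib.MeasureTheory.Integral.RieszMarkovKakutani.*) or by hand: approximate indicators of open sets from below by `C_c` functions (`gmt_exists_cutoff`, monotone convergence), then outer regularity.
* `gmt_half_perM`: `gmtPerM_restrict_congr A hU hS (measurableSet_gmtHalf 0 e) hSH` (evaluate both restrictions on `B ⊆ U`: `Measure.restrict_apply hB`, `inter_eq_left.2 hBU`) reduces to `S = H`.  `gmt_perM_eq hU hA` (`GmtLF H U` from `gmtHalf_lf`: restrict `GmtCC W U → GmtCC W univ`): `gmtPerM A H B = ∫⁻_B ofReal √(A x ν ν) ∂(gmtMu H)` (`Measure.restrict_apply`, `withDensity_apply`, `B ⊆ U`);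
  `ν = e` a.e. (`gmtNu_gmtHalf`); `gmtMu H = map J volume`; `lintegral_map` (`setLIntegral_map`) needs measurability of `x ↦ ofReal √(A x e e)`: only known on `U`: replace it by `U.indicator ..` (measurable: `ContinuousOn.measurable_piecewise`/`Measurable.indicator` with `hA.smooth.continuousOn`), they agree on `B`.
-/

set_option autoImplicit false
open scoped ContDiff ENNReal RealInnerProductSpace Topology
open MeasureTheory Metric Set Filter

namespace Claimed.Agent.Gmt

variable {n : ℕ}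

/-- the frame defined by `J` and `e`. -/
theorem gmt_hs_frame {J : E n →L[ℝ] E (n + 1)} (hJ : ∀ y, ‖J y‖ = ‖y‖)
    {e : E (n + 1)} (he : ‖e‖ = 1) (hJe : ∀ y, ⟪J y, e⟫ = 0) :
    ∃ L : E (n + 1) ≃ₗᵢ[ℝ] E (n + 1), ∀ z s, L (gmtJoin z s) = J z + s • e := by
  set ℓ : E (n + 1) →L[ℝ] E (n + 1) := J.comp (gmtHorL n) + (gmtVerL n).smulRight e with hℓ
  have hℓa : ∀ w, ℓ w = J (gmtHor w) + gmtVer w • e := fun w => rfl
  have hnorm : ∀ w, ‖ℓ w‖ = ‖w‖ := by
    intro w
    have h1 : ‖ℓ w‖ ^ 2 = ‖w‖ ^ 2 := by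
      rw [hℓa, norm_add_sq_real, inner_smul_right, hJe, mul_zero, mul_zero, add_zero, hJ, norm_smul, he, mul_one,
        Real.norm_eq_abs, sq_abs, fl_norm_sq]
    exact (sq_eq_sq₀ (norm_nonneg _) (norm_nonneg _)).1 h1
  refine ⟨(⟨ℓ.toLinearMap, hnorm⟩ : E (n + 1) →ₗᵢ[ℝ] E (n + 1)).toLinearIsometryEquiv rfl, fun z s => ?_⟩
  show ℓ (gmtJoin z s) = _
  rw [hℓa, fl_hor_join, fl_ver_join]

/-- `(y, s) ↦ J y + s e` preserves Lebesgue measure. -/
theorem gmt_hs_measurePreserving {J : E n →L[ℝ] E (n + 1)} (hJ : ∀ y, ‖J y‖ = ‖y‖)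
    {e : E (n + 1)} (he : ‖e‖ = 1) (hJe : ∀ y, ⟪J y, e⟫ = 0) :
    MeasurePreserving (fun z : E n × ℝ => J z.1 + z.2 • e) (volume.prod volume) volume := by
  obtain ⟨L, hL⟩ := gmt_hs_frame hJ he hJe
  have h := L.measurePreserving.comp (fl_measurePreserving_join (n := n))
  have e1 : (fun z : E n × ℝ => J z.1 + z.2 • e) = ⇑L ∘ fun p : E n × ℝ => gmtJoin p.1 p.2 := by
    funext z
    exact (hL z.1 z.2).symm
  rw [e1]
  exact h

/-- the perimeter measure of a half space is the Lebesgue measure of the hyperplane. -/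
theorem gmtMu_gmtHalf_eq {J : E n →L[ℝ] E (n + 1)} (hJ : ∀ y, ‖J y‖ = ‖y‖)
    {e : E (n + 1)} (he : ‖e‖ = 1) (hJe : ∀ y, ⟪J y, e⟫ = 0) :
    gmtMu (gmtHalf 0 e) = Measure.map J volume := by
  obtain ⟨L, hL⟩ := gmt_hs_frame hJ he hJe
  have h1 : L (gmtEn n) = e := by
    have h2 : gmtEn n = gmtJoin (0 : E n) 1 := by
      rw [fl_join_eq, map_zero, zero_add, one_smul]
    rw [h2, hL, map_zero, zero_add, one_smul]
  have h3 : rbP L 0 = J := by
    funext z
    unfold rbP
    rw [zero_add, fl_inc_apply, hL, zero_smul, add_zero]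
  have h4 := (rb_core L 0).2.1
  rwa [h1, h3] at h4

/-- slab averages converge to the integral over the hyperplane. -/
theorem gmt_hs_slab {J : E n →L[ℝ] E (n + 1)} (hJ : ∀ y, ‖J y‖ = ‖y‖)
    {e : E (n + 1)} (he : ‖e‖ = 1) (hJe : ∀ y, ⟪J y, e⟫ = 0) {g : E (n + 1) → ℝ}
    (hg : Continuous g) (hc : HasCompactSupport g) :
    Tendsto (fun ε : ℝ => (2 * ε)⁻¹ * ∫ y in {y | |⟪y - 0, e⟫| < ε}, g y) (𝓝[>] 0)
      (𝓝 (∫ y, g (J y))) := by
  have h := gmtMu_gmtHalf_slab 0 he hg hc
  rwa [gmtMu_gmtHalf_eq hJ he hJe, integral_map J.continuous.aemeasurable hg.aestronglyMeasurable] at h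

/-- **the anisotropic perimeter measure of a set which is a half space in `U`.** -/
theorem gmt_half_perM {J : E n →L[ℝ] E (n + 1)} (hJ : ∀ y, ‖J y‖ = ‖y‖)
    {e : E (n + 1)} (he : ‖e‖ = 1) (hJe : ∀ y, ⟪J y, e⟫ = 0) {U : Set (E (n + 1))}
    (hU : IsOpen U) {A : E (n + 1) → Bil (n + 1)} (hA : GmtInt U A) {S : Set (E (n + 1))}
    (hS : MeasurableSet S)
    (hSH : (S ∩ U : Set (E (n + 1))) =ᵐ[volume] (gmtHalf 0 e ∩ U : Set (E (n + 1))))
    {B : Set (E (n + 1))} (hB : MeasurableSet B) (hBU : B ⊆ U) :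
    gmtPerM A S B = ∫⁻ y in J ⁻¹' B, ENNReal.ofReal (Real.sqrt (A (J y) e e)) := by
  have hLF : GmtLF (gmtHalf 0 e) U :=
    ⟨measurableSet_gmtHalf 0 e, fun W hW => (gmtHalf_lf 0 he).2 W ⟨hW.1, hW.2.1, subset_univ _⟩⟩
  have hemb : MeasurableEmbedding J := by
    have hiso : Isometry J := AddMonoidHomClass.isometry_of_norm J hJ
    exact hiso.isClosedEmbedding.measurableEmbedding
  have e1 : gmtPerM A S B = (gmtPerM A S).restrict U B := by
    rw [Measure.restrict_apply hB, inter_eq_left.2 hBU]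
  rw [e1, gmtPerM_restrict_congr A hU hS (measurableSet_gmtHalf 0 e) hSH, gmt_perM_eq hU hA hLF,
    withDensity_apply _ hB, Measure.restrict_restrict hB, inter_eq_left.2 hBU]
  have e2 : ∫⁻ x in B, ENNReal.ofReal (Real.sqrt (A x (gmtNu (gmtHalf 0 e) x) (gmtNu (gmtHalf 0 e) x)))
        ∂(gmtMu (gmtHalf 0 e)) = ∫⁻ x in B, ENNReal.ofReal (Real.sqrt (A x e e)) ∂(gmtMu (gmtHalf 0 e)) := by
    refine lintegral_congr_ae (ae_restrict_of_ae ?_)
    filter_upwards [gmtNu_gmtHalf 0 he] with x hx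
    rw [hx]
  rw [e2, gmtMu_gmtHalf_eq hJ he hJe, hemb.restrict_map, hemb.lintegral_map]

end Claimed.Agent.Gmt
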