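import Claimed.Agent.Lib.Gmt.SimFlatB

/-!
# Lib/Gmt [G7 Simons] `SimFlat`: `a = 0` on `Σ \ 0` implies that `S` is a half space (`k ≥ 3`).   (architect: helper257)

## (A) `gmtSim_A_zero_two`: for `k = 2` the second fundamental form of a cone vanishes for free
At `p ∈ Σ \ 0`: `h N = 0` (`gmtSim_H_gradient`), `h p = 0` (`gmtSim_C1`), `⟪p, N⟫ = u p = 0`, `p ≠ 0`, `|N| = 1`: `p, N` span `E 2`, so `h = 0`.
## (B) `gmtSim_flat_local`
`a = 0` on `Σ \ 0` means `gmtSimH u q = 0` for `q ∈ Σ ∩ U`.  On `U`: `∇u = ∇u ∘ π` (`grad_proj`), `π` is differentiable on `U`, `∇u` is differentiable at `π x ∈ U`; chain rule: `h x = h(π x) ∘ Dπ x = 0` (`π x ∈ Σ ∩ U` by `proj`, `zero_iff`).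
On a ball `ball p ρ ⊆ U`: `∇u` is constant `= e := ∇u p` (`Convex.is_const_of_fderivWithin_eq_zero` or `IsOpen.is_const_of_fderiv_eq_zero`), so `u x = ⟪e, x - p⟫ = ⟪x, e⟫` (`u p = 0`, `⟪p, e⟫ = u p = 0` by `hom`).  Then `neg`.
## (C) `gmtSim_trivial_of_connected`: `V` open connected, `V ∩ Σ = ∅` `⟹` `S ∩ V` or `V \ S` is null   (`gmtP_eq_zero_of_disjoint`, `gmtP_eq_zero_const`).
## (D) `gmtSim_half_unique`: two half spaces through `0` which agree a.e. in a ball centred at `q ∈ e^⊥` coincide: `e = e'`.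
      (If `e' ≠ e`, pick `v` with `⟪v,e⟫ < 0 < ⟪v,e'⟫` or the reverse [`v = e' - e` works: `⟪e'-e,e⟫ = ⟪e,e'⟫ - 1 < 0 < 1 - ⟪e,e'⟫`]; need also `⟪q,e'⟫ = 0`: otherwise near `q` the set `H_{e'}` is full or empty while `H_e` is neither.  Then near `q + δ v` one set is full and the other is empty.)
## (E) `gmtSim_flat_global` (`k ≥ 3`)
1. `Σ \ 0 ≠ ∅`: otherwise (C) on `V = {0}ᶜ` (connected: `isConnected_compl_singleton_of_one_lt_rank`) makes `S` null or conull, contradicting `0 ∈ Σ`.   Fix `p₀`, `e`.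
2. For a unit vector `e` let `Z_e = e^⊥ \ 0` and `G_e = {q ∈ Z_e | S = H_e a.e. near q}`.   `G_e` is open in `Z_e`; it is closed in `Z_e`: if `q_j → q ∈ Z_e`, `q_j ∈ G_e`, then `q_j ∈ Σ`, so `q ∈ Σ \ 0` (`isClosed_gmtBd`), `S = H_{e'}` on `ball q ρ`, and (D) at `q_j ∈ ball q ρ` gives `e' = e`.
   `Z_e` is connected (`e^⊥` has dimension `k - 1 ≥ 2`; image of `{0}ᶜ` of the subspace).   So `G_e ≠ ∅ ⟹ G_e = Z_e`.
3. If `p ∈ Σ`, `⟪p,e⟫ ≠ 0`: then `G_{e_p} = Z_{e_p}`, `e_p ≠ ± e`... take `q ≠ 0` with `q ⟂ e, e_p` (`k ≥ 3`); (D) at `q` gives `e_p = e`, but `⟪p,e_p⟫ = 0 ≠ ⟪p,e⟫`.   So `Σ ⊆ e^⊥`.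
4. (C) on the two open half spaces (convex, hence connected); near `p₀` the set `S` is `H_e`: `S` is conull in `H_e`, null in `H_{-e}`; the hyperplane is null.

THIS FILE: (E).
-/

set_option autoImplicit false
open scoped ContDiff ENNReal RealInnerProductSpace Topology
open MeasureTheory Metric Set Filter

namespace Claimed.Agent.Gmt

variable {k : ℕ}

/-- `S` coincides a.e. with the half space `H_e` near `q`. -/
def GmtSimNear (S : Set (E k)) (e q : E k) : Prop :=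
  ∃ ρ > 0, (S ∩ ball q ρ : Set (E k)) =ᵐ[volume] (gmtHalf 0 e ∩ ball q ρ : Set (E k))

theorem gmtSimNear_forced : True := by
  have := @GmtSimNear.eq_1
  trivial

/-- restriction of an a.e. equality to a smaller set. -/
theorem gmtSimFl_restrict {A A' B B' : Set (E k)} (h : (A ∩ B : Set (E k)) =ᵐ[volume] (A' ∩ B : Set (E k)))
    (hB : B' ⊆ B) : (A ∩ B' : Set (E k)) =ᵐ[volume] (A' ∩ B' : Set (E k)) := by
  have h1 := ae_eq_set_inter h (ae_eq_refl B')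
  have e1 : A ∩ B ∩ B' = A ∩ B' := by
    rw [inter_assoc, inter_eq_self_of_subset_right hB]
  have e2 : A' ∩ B ∩ B' = A' ∩ B' := by
    rw [inter_assoc, inter_eq_self_of_subset_right hB]
  rwa [e1, e2] at h1

theorem gmtSimFl_ball_sub {q q' : E k} {ρ : ℝ} : ball q' (ρ - dist q' q) ⊆ ball q ρ := by
  intro z hz
  rw [mem_ball] at *
  calc dist z q ≤ dist z q' + dist q' q := dist_triangle _ _ _
    _ < ρ := by linarith

theorem gmtSimFl_near_of_mem {S : Set (E k)} {e q q' : E k} {ρ : ℝ}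
    (h : (S ∩ ball q ρ : Set (E k)) =ᵐ[volume] (gmtHalf 0 e ∩ ball q ρ : Set (E k))) (hq' : q' ∈ ball q ρ) :
    GmtSimNear S e q' :=
  ⟨ρ - dist q' q, sub_pos.2 hq', gmtSimFl_restrict h gmtSimFl_ball_sub⟩

theorem gmtSimFl_isOpen_near (S : Set (E k)) (e : E k) : IsOpen {q | GmtSimNear S e q} := by
  rw [Metric.isOpen_iff]
  rintro q ⟨ρ, hρ, h⟩
  exact ⟨ρ, hρ, fun q' hq' => gmtSimFl_near_of_mem h hq'⟩

/-- the normal of a flat piece is unique at the points of the hyperplane. -/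
theorem gmtSimFl_near_unique {S : Set (E k)} {e e' q : E k} (he : ‖e‖ = 1) (he' : ‖e'‖ = 1) (hq : ⟪q, e⟫ = 0)
    (h : GmtSimNear S e q) (h' : GmtSimNear S e' q) : e = e' := by
  obtain ⟨ρ, hρ, h⟩ := h
  obtain ⟨ρ', hρ', h'⟩ := h'
  have h1 := gmtSimFl_restrict h (ball_subset_ball (min_le_left ρ ρ') : ball q (min ρ ρ') ⊆ ball q ρ)
  have h2 := gmtSimFl_restrict h' (ball_subset_ball (min_le_right ρ ρ') : ball q (min ρ ρ') ⊆ ball q ρ')
  exact gmtSim_half_unique he he' (lt_min hρ hρ') hq (h1.symm.trans h2)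

/-- the punctured hyperplane is connected (`k ≥ 3`). -/
theorem gmtSimFl_conn (hk : 3 ≤ k) {e : E k} (he : e ≠ 0) :
    IsPreconnected {q : E k | ⟪q, e⟫ = 0 ∧ q ≠ 0} := by
  obtain ⟨n, rfl⟩ : ∃ n, k = n + 1 := ⟨k - 1, by omega⟩
  haveI : Fact (Module.finrank ℝ (E (n + 1)) = n + 1) := ⟨by simp⟩
  have hfr : Module.finrank ℝ (ℝ ∙ e)ᗮ = n := Submodule.finrank_orthogonal_span_singleton he
  have hrank : 1 < Module.rank ℝ (ℝ ∙ e)ᗮ := by
    rw [← Module.finrank_eq_rank, hfr]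
    have : 1 < n := by omega
    exact_mod_cast this
  have hc := (isConnected_compl_singleton_of_one_lt_rank hrank (0 : (ℝ ∙ e)ᗮ)).isPreconnected
  have himg : {q : E (n + 1) | ⟪q, e⟫ = 0 ∧ q ≠ 0} = Subtype.val '' ({0}ᶜ : Set (ℝ ∙ e)ᗮ) := by
    ext q
    constructor
    · rintro ⟨h1, h2⟩
      refine ⟨⟨q, ?_⟩, ?_, rfl⟩
      · rw [Submodule.mem_orthogonal_singleton_iff_inner_left]
        exact h1
      · intro h
        exact h2 (congrArg Subtype.val h)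
    · rintro ⟨⟨q', hq'⟩, h1, rfl⟩
      refine ⟨?_, fun h => h1 (Subtype.ext h)⟩
      rw [Submodule.mem_orthogonal_singleton_iff_inner_left] at hq'
      exact hq'
  rw [himg]
  exact hc.image _ continuous_subtype_val.continuousOn

/-- step 2 of (E): flatness with normal `e` propagates along the punctured hyperplane `e^⊥ \ 0`. -/
theorem gmtSimFl_propagate (hk : 3 ≤ k) {S : Set (E k)} (hflat : GmtSimFlat S) {e q₀ : E k} (he : ‖e‖ = 1)
    (hq₀ : ⟪q₀, e⟫ = 0) (hq₀' : q₀ ≠ 0) (h₀ : GmtSimNear S e q₀) :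
    ∀ q : E k, ⟪q, e⟫ = 0 → q ≠ 0 → GmtSimNear S e q := by
  have he0 : e ≠ 0 := fun h0 => by rw [h0, norm_zero] at he; exact zero_ne_one he
  have hloc : ∀ q : E k, ⟪q, e⟫ = 0 → q ≠ 0 → ¬ GmtSimNear S e q →
      ∃ r > 0, ∀ q' ∈ ball q r, ⟪q', e⟫ = 0 → ¬ GmtSimNear S e q' := by
    intro q hq hq0 hn
    by_cases hB : q ∈ gmtBd S
    · obtain ⟨e', he', -, ρ, hρ, h⟩ := hflat q hB hq0
      refine ⟨ρ, hρ, fun q' hq' hq'e hn' => hn ?_⟩
      have := gmtSimFl_near_unique he he' hq'e hn' (gmtSimFl_near_of_mem h hq')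
      rw [this]
      exact ⟨ρ, hρ, h⟩
    · obtain ⟨r, hr, hsub⟩ := Metric.isOpen_iff.1 (isClosed_gmtBd S).isOpen_compl q hB
      refine ⟨r, hr, fun q' hq' hq'e hn' => hsub hq' ?_⟩
      obtain ⟨ρ', hρ', h'⟩ := hn'
      exact gmtSim_mem_bd_of_half he hρ' hq'e h'
  set v : Set (E k) := {x | ∃ q : E k, ∃ r : ℝ, x ∈ ball q r ∧
    ∀ q' ∈ ball q r, ⟪q', e⟫ = 0 → ¬ GmtSimNear S e q'} with hv
  have hvo : IsOpen v := by
    rw [Metric.isOpen_iff]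
    rintro x ⟨q, r, hx, h⟩
    exact ⟨r - dist x q, sub_pos.2 hx, fun y hy => ⟨q, r, gmtSimFl_ball_sub hy, h⟩⟩
  have hcov : {q : E k | ⟪q, e⟫ = 0 ∧ q ≠ 0} ⊆ {q | GmtSimNear S e q} ∪ v := by
    rintro q ⟨hq, hq0⟩
    by_cases hn : GmtSimNear S e q
    · exact Or.inl hn
    · obtain ⟨r, hr, h⟩ := hloc q hq hq0 hn
      exact Or.inr ⟨q, r, mem_ball_self hr, h⟩
  have hdis : {q : E k | ⟪q, e⟫ = 0 ∧ q ≠ 0} ∩ ({q | GmtSimNear S e q} ∩ v) = ∅ := by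
    rw [Set.eq_empty_iff_forall_notMem]
    rintro x ⟨⟨hx, -⟩, hxn, q, r, hxq, h⟩
    exact h x hxq hx hxn
  rcases (isPreconnected_iff_subset_of_disjoint.1 (gmtSimFl_conn hk he0)) _ v (gmtSimFl_isOpen_near S e) hvo
    hcov hdis with h | h
  · exact fun q hq hq0 => h ⟨hq, hq0⟩
  · obtain ⟨q, r, hxq, h'⟩ := h ⟨hq₀, hq₀'⟩
    exact absurd h₀ (h' q₀ hxq hq₀)

/-- in dimension `≥ 3` two vectors have a common nonzero orthogonal vector. -/
theorem gmtSimFl_exists_orth (hk : 3 ≤ k) (e e' : E k) : ∃ q : E k, q ≠ 0 ∧ ⟪q, e⟫ = 0 ∧ ⟪q, e'⟫ = 0 := by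
  let f : E k →ₗ[ℝ] ℝ × ℝ := ((innerSL ℝ e).toLinearMap).prod ((innerSL ℝ e').toLinearMap)
  have hf : LinearMap.ker f ≠ ⊥ := by
    apply LinearMap.ker_ne_bot_of_finrank_lt
    simp only [Module.finrank_prod, Module.finrank_self, finrank_euclideanSpace, Fintype.card_fin]
    omega
  obtain ⟨q, hq, hq0⟩ := Submodule.exists_mem_ne_zero_of_ne_bot hf
  rw [LinearMap.mem_ker] at hq
  have h1 : ⟪e, q⟫ = 0 := congrArg Prod.fst hq
  have h2 : ⟪e', q⟫ = 0 := congrArg Prod.snd hq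
  exact ⟨q, hq0, by rw [real_inner_comm]; exact h1, by rw [real_inner_comm]; exact h2⟩

/-- (E) -/
theorem gmtSim_flat_global (hk : 3 ≤ k) {S : Set (E k)} (hS : MeasurableSet S)
    (h0 : (0 : E k) ∈ gmtBd S) (hflat : GmtSimFlat S) :
    ∃ e : E k, ‖e‖ = 1 ∧ S =ᵐ[volume] gmtHalf 0 e := by
  obtain ⟨p₀, hp₀, hp₀'⟩ := gmtSim_exists_bd_ne_zero (by omega) hS h0
  obtain ⟨e, he, hp₀e, ρ, hρ, h⟩ := hflat p₀ hp₀ hp₀'
  refine ⟨e, he, gmtSim_half_of_bd_subset hS he hρ hp₀e (fun p hp => ?_) h⟩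
  by_contra hpe
  have hp0 : p ≠ 0 := fun h => hpe (by rw [h, inner_zero_left])
  obtain ⟨e', he', hpe', ρ', hρ', h'⟩ := hflat p hp hp0
  obtain ⟨q, hq0, hqe, hqe'⟩ := gmtSimFl_exists_orth hk e e'
  have h1 := gmtSimFl_propagate hk hflat he hp₀e hp₀' ⟨ρ, hρ, h⟩ q hqe hq0
  have h2 := gmtSimFl_propagate hk hflat he' hpe' hp0 ⟨ρ', hρ', h'⟩ q hqe' hq0
  have := gmtSimFl_near_unique he he' hqe h1 h2
  rw [this] at hpe
  exact hpe hpe'

end Claimed.Agent.Gmt
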