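import Claimed.Agent.Lib.Gmt.SimRadB

/-!
# Lib/Gmt [G7 Simons] `SimRad`: the radial test functions; `a = 0` for `3 ≤ k ≤ 7`.   (architect: helper257)

`ℓ x = log |x|`, `β = (k-5)/2` (`β² ≤ 1`), weight `w x = a x · |x|^(3-k)` (`zpow`), shells `A_j = {x | j ≤ ℓ x < j+1}`, `j : ℤ`.
1. `gmtSim_scaling`: `∫ g dμ = t^(k-1) ∫ g(t·) dμ` for a cone (`integral_gmtMu_gmtDil` with `x = 0`, and `gmtMu (gmtDil 0 t S) = gmtMu S` from `gmtMu_restrict_congr` on `univ`).
2. `gmtSim_shell`: `m_j := ∫_{A_j} w dμ = m_0` (scaling with `t = e^j`, `homA`: `a(tx) = t⁻² a(x)` on `Σ`; `μ` lives on `Σ`), `0 ≤ m_0 < ∞` (`w` is bounded on the part of `Σ` in the compact shell, `gmtMu_compact_ne_top`).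
3. `gmtSim_radial_test`: for `G ∈ C_c^∞(ℝ)`, `ψ = G ∘ ℓ = gmtSimRad G ∈ C_c^∞(E k \ 0)` and `∇ψ = G'(ℓ x) x/|x|²`, `|∇ψ|² = G'(ℓ)²/|x|²`.   (`ℓ = (1/2) log |x|²` is smooth off `0`; the support is contained in the compact shell `ℓ⁻¹(tsupport G)`.)
4. `G = e^{-βs} f(s)`: `G² = e^{-2βs} f²`, `G'² = e^{-2βs}(f' - βf)² ≤ e^{-2βs} (3 f'² + (β² + 1/2) f²)`  (`2|β f f'| ≤ f²/2 + 2β² f'²`, `β² ≤ 1`), and `e^{-2βℓ(x)}/|x|² = |x|^(3-k)`.
   `gmtSim_weighted` gives  `(3/2 - β²) ∫ f(ℓ)² w dμ ≤ 3 ∫ f'(ℓ)² w dμ`, hence `(1/2) ∫ f(ℓ)² w ≤ 3 ∫ f'(ℓ)² w`.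
5. `f = f₀(s/n)`, `f₀` a smooth bump: `f₀ = 1` on `[-1,1]`, support in `[-2,2]`, `|f₀'| ≤ C₀`.   `∫ f(ℓ)² w ≥ 2n m_0`, `∫ f'(ℓ)² w ≤ (C₀/n)² 4n m_0`.   So `n m_0 ≤ 12 C₀² m_0/n` for all `n`: `m_0 = 0`.
6. `w ≥ 0` continuous on `U`, `∫_{A_j} w dμ = 0` for all `j` `⟹ a = 0` `μ`-a.e. off `0` `⟹ a = 0` on `Σ \ 0`: if `a p > 0` then `a > 0` on a ball around `p`, which has positive `μ` measure (`gmtBd_iff_gmtMu`).

THIS FILE: steps 5, 6.
-/

set_option autoImplicit false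
open scoped ContDiff ENNReal RealInnerProductSpace Topology
open MeasureTheory Metric Set Filter

namespace Claimed.Agent.Gmt

variable {k : ℕ}

theorem gmtSimRad_shell_union (k : ℕ) {a b c : ℝ} (hab : a ≤ b) (hbc : b ≤ c) :
    gmtSimShell k a c = gmtSimShell k a b ∪ gmtSimShell k b c := by
  ext x
  unfold gmtSimShell
  simp only [mem_ofPred_eq, mem_union]
  constructor
  · rintro ⟨h0, h1, h2⟩
    rcases lt_or_ge (Real.log ‖x‖) b with h | h
    · exact Or.inl ⟨h0, h1, h⟩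
    · exact Or.inr ⟨h0, h, h2⟩
  · rintro (⟨h0, h1, h2⟩ | ⟨h0, h1, h2⟩)
    · exact ⟨h0, h1, h2.trans_le hbc⟩
    · exact ⟨h0, hab.trans h1, h2⟩

theorem gmtSimRad_shell_disjoint (k : ℕ) (a b c : ℝ) :
    Disjoint (gmtSimShell k a b) (gmtSimShell k b c) := by
  rw [Set.disjoint_left]
  intro x h1 h2
  exact absurd h1.2.2 (not_lt.mpr h2.2.1)

theorem gmtSimRad_shell_add {S U : Set (E k)} {u : E k → ℝ} (hmin : GmtMin univ S)
    (hc : GmtSimTube S U u) {a b c : ℝ} (hab : a ≤ b) (hbc : b ≤ c) :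
    ∫ x in gmtSimShell k a c, gmtSimW u x ∂(gmtMu S) =
      ∫ x in gmtSimShell k a b, gmtSimW u x ∂(gmtMu S) +
        ∫ x in gmtSimShell k b c, gmtSimW u x ∂(gmtMu S) := by
  rw [gmtSimRad_shell_union k hab hbc]
  exact setIntegral_union (gmtSimRad_shell_disjoint k a b c) (gmtSimRad_measurableSet_shell k b c)
    (gmtSimRad_integrableOn hmin hc a b) (gmtSimRad_integrableOn hmin hc b c)

theorem gmtSimRad_shell_sym {S U : Set (E k)} {u : E k → ℝ} (hmin : GmtMin univ S)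
    (hcone : GmtCone S) (hc : GmtSimCone S U u) (n : ℕ) :
    ∫ x in gmtSimShell k (-(n : ℝ)) n, gmtSimW u x ∂(gmtMu S) =
      2 * n * ∫ x in gmtSimShell k 0 1, gmtSimW u x ∂(gmtMu S) := by
  induction n with
  | zero =>
    have : gmtSimShell k (-((0 : ℕ) : ℝ)) ((0 : ℕ) : ℝ) = ∅ := by
      ext x
      simp only [gmtSimShell, mem_ofPred_eq, mem_empty_iff_false, iff_false, Nat.cast_zero, neg_zero]
      rintro ⟨-, h1, h2⟩
      exact absurd h2 (not_lt.mpr h1)
    rw [this]; simp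
  | succ n ih =>
    have h1 := gmtSimRad_shell_add hmin hc.toGmtSimTube (a := -((n + 1 : ℕ) : ℝ)) (b := -(n : ℝ))
      (c := ((n + 1 : ℕ) : ℝ)) (by push_cast; linarith)
      (by push_cast; have : (0 : ℝ) ≤ n := Nat.cast_nonneg n; linarith)
    have h2 := gmtSimRad_shell_add hmin hc.toGmtSimTube (a := -(n : ℝ)) (b := (n : ℝ))
      (c := ((n + 1 : ℕ) : ℝ)) (by have : (0 : ℝ) ≤ n := Nat.cast_nonneg n; linarith)
      (by push_cast; linarith)
    have h3 := (gmtSim_shell hmin hcone hc).2 (-((n : ℤ) + 1))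
    have h4 := (gmtSim_shell hmin hcone hc).2 (n : ℤ)
    have e3 : ((-((n : ℤ) + 1) : ℤ) : ℝ) = -((n + 1 : ℕ) : ℝ) := by push_cast; ring
    have e3' : -((n + 1 : ℕ) : ℝ) + 1 = -(n : ℝ) := by push_cast; ring
    have e4 : (((n : ℤ) : ℤ) : ℝ) = (n : ℝ) := by push_cast; ring
    have e4' : (n : ℝ) + 1 = ((n + 1 : ℕ) : ℝ) := by push_cast; ring
    rw [e3, e3'] at h3
    rw [e4, e4'] at h4
    rw [h1, h2, h3, h4, ih]
    push_cast
    ring

/-- 5. -/
theorem gmtSim_shell_zero {S U : Set (E k)} {u : E k → ℝ} (hk : 3 ≤ k) (hk' : k ≤ 7)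
    (hmin : GmtMin univ S) (hcone : GmtCone S) (hc : GmtSimCone S U u) :
    ∫ x in gmtSimShell k 0 1, gmtSimW u x ∂(gmtMu S) = 0 := by
  obtain ⟨m0, hm0⟩ : ∃ m0 : ℝ, m0 = ∫ x in gmtSimShell k 0 1, gmtSimW u x ∂(gmtMu S) := ⟨_, rfl⟩
  rw [← hm0]
  have hm0nn : 0 ≤ m0 := by
    rw [hm0]; exact integral_nonneg fun x => gmtSimRad_W_nonneg u x
  obtain ⟨f0, hf0, hf0c, hone, hts⟩ : ∃ f0 : ℝ → ℝ, ContDiff ℝ ∞ f0 ∧ HasCompactSupport f0 ∧
      (∀ s, |s| ≤ 1 → f0 s = 1) ∧ tsupport f0 ⊆ closedBall 0 2 := by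
    let b : ContDiffBump (0 : ℝ) := ⟨1, 2, one_pos, one_lt_two⟩
    refine ⟨b, b.contDiff, b.hasCompactSupport, fun s hs => ?_, ?_⟩
    · apply b.one_of_mem_closedBall
      rw [mem_closedBall_zero_iff, Real.norm_eq_abs]
      exact hs
    · rw [b.tsupport_eq]
  obtain ⟨C0, hC0⟩ := (hf0.continuous_deriv (by simp)).bounded_above_of_compact_support hf0c.deriv
  have hC0nn : 0 ≤ C0 := (norm_nonneg _).trans (hC0 0)
  -- the inequality for every `n ≥ 1`
  have key : ∀ n : ℕ, 1 ≤ n → (n : ℝ) ^ 2 * m0 ≤ 18 * C0 ^ 2 * m0 := by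
    intro n hn
    have hnpos : (0 : ℝ) < n := by exact_mod_cast hn
    obtain ⟨f, hfdef⟩ : ∃ f : ℝ → ℝ, f = fun s => f0 (s / n) := ⟨_, rfl⟩
    have hf : ContDiff ℝ ∞ f := by
      rw [hfdef]; exact hf0.comp (contDiff_id.div_const _)
    have hfz : ∀ s, 2 * (n : ℝ) < |s| → f s = 0 := by
      intro s hs
      rw [hfdef]
      apply image_eq_zero_of_notMem_tsupport
      intro hmem
      have := hts hmem
      rw [mem_closedBall_zero_iff, Real.norm_eq_abs, abs_div, abs_of_pos hnpos,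
        div_le_iff₀ hnpos] at this
      linarith
    have hfc : HasCompactSupport f := by
      refine HasCompactSupport.intro (isCompact_closedBall (0 : ℝ) (2 * n)) fun s hs => hfz s ?_
      rw [mem_closedBall_zero_iff, Real.norm_eq_abs, not_le] at hs
      exact hs
    have hdf : ∀ s, deriv f s = deriv f0 (s / n) / n := by
      intro s
      have h1 : HasDerivAt (fun s : ℝ => s / n) (1 / n) s := (hasDerivAt_id s).div_const _
      have h2 : HasDerivAt (f0 : ℝ → ℝ) (deriv f0 (s / n)) (s / n) :=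
        (hf0.differentiable (by simp) _).hasDerivAt
      have h3 : HasDerivAt (fun s => f0 (s / n)) (deriv f0 (s / n) * (1 / n)) s := h2.comp s h1
      rw [hfdef, h3.deriv]; ring
    have hineq := gmtSim_radial_ineq hk hk' hmin hc hf hfc
    have i0 := gmtSimRad_integrable hmin hc.toGmtSimTube hf.continuous hfc
    have i1 := gmtSimRad_integrable hmin hc.toGmtSimTube (hf.continuous_deriv (by simp)) hfc.deriv
    -- lower bound
    have hlow : 2 * n * m0 ≤ ∫ x, gmtSimRad f x ^ 2 * gmtSimW u x ∂(gmtMu S) := by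
      rw [hm0, ← gmtSimRad_shell_sym hmin hcone hc n,
        ← integral_indicator (gmtSimRad_measurableSet_shell k _ _)]
      refine integral_mono ((gmtSimRad_integrableOn hmin hc.toGmtSimTube _ _).integrable_indicator
        (gmtSimRad_measurableSet_shell k _ _)) i0 fun x => ?_
      by_cases hx : x ∈ gmtSimShell k (-(n : ℝ)) n
      · rw [indicator_of_mem hx]
        have h1 : f (Real.log ‖x‖) = 1 := by
          rw [hfdef]
          apply hone
          rw [abs_div, abs_of_pos hnpos, div_le_iff₀ hnpos, abs_le]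
          exact ⟨by have := hx.2.1; linarith, by have := hx.2.2; linarith⟩
        show gmtSimW u x ≤ gmtSimRad f x ^ 2 * gmtSimW u x
        rw [gmtSimRad_of_ne f hx.1, h1]; simp
      · rw [indicator_of_notMem hx]
        exact mul_nonneg (sq_nonneg _) (gmtSimRad_W_nonneg u x)
    -- upper bound
    have hup : ∫ x, gmtSimRad (deriv f) x ^ 2 * gmtSimW u x ∂(gmtMu S) ≤
        (C0 / n) ^ 2 * (2 * (3 * n : ℕ) * m0) := by
      rw [hm0, ← gmtSimRad_shell_sym hmin hcone hc (3 * n),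
        ← integral_indicator (gmtSimRad_measurableSet_shell k _ _), ← integral_const_mul]
      refine integral_mono i1 (((gmtSimRad_integrableOn hmin hc.toGmtSimTube _ _).integrable_indicator
        (gmtSimRad_measurableSet_shell k _ _)).const_mul _) fun x => ?_
      show gmtSimRad (deriv f) x ^ 2 * gmtSimW u x ≤ (C0 / n) ^ 2 *
        (gmtSimShell k (-((3 * n : ℕ) : ℝ)) ((3 * n : ℕ) : ℝ)).indicator (gmtSimW u) x
      by_cases hx0 : x = 0
      · rw [hx0, gmtSimRad_zero]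
        have : 0 ≤ (gmtSimShell k (-((3 * n : ℕ) : ℝ)) ((3 * n : ℕ) : ℝ)).indicator (gmtSimW u) 0 :=
          indicator_nonneg (fun y _ => gmtSimRad_W_nonneg u y) _
        have h2 : 0 ≤ (C0 / n) ^ 2 := sq_nonneg _
        nlinarith [mul_nonneg h2 this]
      · rw [gmtSimRad_of_ne _ hx0, hdf]
        by_cases hx : x ∈ gmtSimShell k (-((3 * n : ℕ) : ℝ)) ((3 * n : ℕ) : ℝ)
        · rw [indicator_of_mem hx]
          refine mul_le_mul_of_nonneg_right ?_ (gmtSimRad_W_nonneg u x)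
          rw [div_pow, div_pow]
          refine div_le_div_of_nonneg_right ?_ (by positivity)
          have := hC0 (Real.log ‖x‖ / n)
          rw [Real.norm_eq_abs] at this
          exact sq_le_sq' (by linarith [neg_abs_le (deriv f0 (Real.log ‖x‖ / n))])
            ((le_abs_self _).trans this)
        · rw [indicator_of_notMem hx, mul_zero]
          have h3 : 3 * (n : ℝ) ≤ |Real.log ‖x‖| := by
            by_contra hlt
            rw [not_le, abs_lt] at hlt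
            apply hx
            refine ⟨hx0, ?_, ?_⟩
            · push_cast; linarith [hlt.1]
            · push_cast; linarith [hlt.2]
          have h4 : deriv f0 (Real.log ‖x‖ / n) = 0 := by
            by_contra hne
            have h5 := hts (support_deriv_subset hne)
            rw [mem_closedBall_zero_iff, Real.norm_eq_abs, abs_div,
              abs_of_pos hnpos, div_le_iff₀ hnpos] at h5
            linarith
          rw [h4]; simp
    have e : (C0 / n) ^ 2 * (2 * (3 * n : ℕ) * m0) = 6 * C0 ^ 2 * m0 / n := by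
      push_cast
      field_simp
      ring
    rw [e] at hup
    have h7 : 2 * n * m0 ≤ 6 * (6 * C0 ^ 2 * m0 / n) := by linarith
    have h8 : 6 * (6 * C0 ^ 2 * m0 / n) = 36 * C0 ^ 2 * m0 / n := by ring
    rw [h8, le_div_iff₀ hnpos] at h7
    nlinarith
  by_contra hne
  have hpos : 0 < m0 := lt_of_le_of_ne hm0nn (Ne.symm hne)
  obtain ⟨n, hn⟩ := exists_nat_gt (18 * C0 ^ 2 + 1)
  have hn1 : 1 ≤ n := by
    have : (1 : ℝ) < n := by nlinarith [sq_nonneg C0]
    exact_mod_cast this.le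
  have h1 := key n hn1
  have h2 : (n : ℝ) ^ 2 ≤ 18 * C0 ^ 2 := le_of_mul_le_mul_right h1 hpos
  have h3 : (1 : ℝ) ≤ n := by exact_mod_cast hn1
  nlinarith

/-- 6. **the second fundamental form of a stable minimal cone vanishes** (`3 ≤ k ≤ 7`). -/
theorem gmtSim_A_zero {S U : Set (E k)} {u : E k → ℝ} (hk : 3 ≤ k) (hk' : k ≤ 7)
    (hmin : GmtMin univ S) (hcone : GmtCone S) (hc : GmtSimCone S U u) :
    ∀ x ∈ gmtBd S, x ≠ 0 → gmtSimA u x = 0 := by
  intro x hx hx0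
  have hz := gmtSim_shell_zero hk hk' hmin hcone hc
  have h1 : ∀ n : ℕ, ∀ᵐ y ∂(gmtMu S), y ∈ gmtSimShell k (-(n : ℝ)) n → gmtSimW u y = 0 := by
    intro n
    have h2 := gmtSimRad_shell_sym hmin hcone hc n
    rw [hz, mul_zero, setIntegral_eq_zero_iff_of_nonneg_ae
      (Eventually.of_forall fun y => gmtSimRad_W_nonneg u y)
      (gmtSimRad_integrableOn hmin hc.toGmtSimTube _ _)] at h2
    exact (ae_restrict_iff' (gmtSimRad_measurableSet_shell k _ _)).mp h2
  rw [← ae_all_iff] at h1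
  by_contra hne
  have hpos : 0 < gmtSimA u x := lt_of_le_of_ne (gmtSim_A_nonneg u x) (Ne.symm hne)
  have hxU : x ∈ U := hc.bd x hx hx0
  have hO : IsOpen (U ∩ gmtSimA u ⁻¹' Ioi 0) :=
    (gmtSim_contDiffOn_A hc.opn hc.smooth).continuousOn.isOpen_inter_preimage hc.opn isOpen_Ioi
  obtain ⟨r, hr, hball⟩ := Metric.isOpen_iff.mp hO x ⟨hxU, hpos⟩
  have hμ := (gmtBd_iff_gmtMu hmin.meas x).mp hx r hr
  have hnull : gmtMu S (ball x r) = 0 := by
    refine measure_mono_null ?_ (ae_iff.mp h1)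
    intro y hy
    have hyO := hball hy
    have hy0 : y ≠ 0 := fun h => hc.zero (h ▸ hyO.1)
    simp only [mem_ofPred_eq, not_forall]
    obtain ⟨n, hn⟩ := exists_nat_gt |Real.log ‖y‖|
    rw [abs_lt] at hn
    refine ⟨n, ⟨hy0, hn.1.le, hn.2⟩, ?_⟩
    have h3 : 0 < gmtSimW u y :=
      mul_pos hyO.2 (zpow_pos (norm_pos_iff.mpr hy0) _)
    exact h3.ne'
  rw [hnull] at hμ
  exact lt_irrefl _ hμ

end Claimed.Agent.Gmt
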