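import Claimed.Agent.Lib.Gmt.SimCalc

/-!
# Lib/Gmt [G7 Simons] `SimTwoC`: perimeter minimising cones in the plane are half planes.   (architect: helper257)

`S ⊆ E 2` minimising cone, `0 ∈ Σ`, flat near every point of `Σ \ 0` (`GmtSimFlat S`, free of charge in the plane: `gmtSim_A_zero_two`, `gmtSim_flat_local`).
`J` = rotation by `π/2`.   `gmtSimRay v` = arc length measure on the open ray `(0,∞) v`.

1. `gmtSim_half_mu`: for a unit vector `e`: `gmtMu (H_e)` = arc length on the line `ℝ Je`, `ν = e`.   By `gmtMu_gmtNu_unique` (`U = univ`) it suffices to prove Gauss-Green: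
   `∫_{H_e} div T = ∫_ℝ ⟪T(s Je), e⟫ ds`.   The map `(s,t) ↦ s Je + t e` is a linear isometry `ℝ × ℝ → E 2`, measure preserving; `div T = ∂_s ⟪T,Je⟫ + ∂_t ⟪T,e⟫` (trace in the orthonormal basis `Je, e`);
   Fubini; `∫_ℝ ∂_s(...) ds = 0` (compact support), `∫_{t<0} ∂_t ⟪T,e⟫ dt = ⟪T,e⟫(s,0)`.
2. `gmtSim_two_rays`: `F = Σ ∩ sphere 0 1` is finite (compact; every point is isolated: in `ball p ρ` the boundary is `e^⊥ ∩ ball p ρ`, by `gmtSim_mem_bd_of_half` and its converse), and `Σ \ 0 = ⋃_{v ∈ F} (0,∞) v` (`gmtSim_bd_smul`).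
3. `gmtSim_two_mu`: `μ` restricted to `{0}ᶜ` is `Σ_{v∈F} gmtSimRay v`, with `ν = e_v` on the ray, `e_v = ± J v`.   Local statement (`Measure.ext_iff_of_iUnion_eq_univ`-type argument with a countable cover of `{0}ᶜ`):
   off `Σ` both sides vanish near the point; near `q = t v` use flatness at `q` (the cone property transports flatness along the ray), `gmtMu_restrict_congr`, `gmtNu_congr` and 1.      `μ {0} = 0` by `gmtSim_scaling`-type homogeneity (`gmtMu_gmtDil`) and finiteness.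
4. `gmtSim_two_density`: `μ (closedBall 0 1) ≤ π`.   For a.e. `r`: compare `S` with `S ∪ ball 0 r` and `S \ ball 0 r` in `W = ball 0 (r+1)` (`gmtP_union_ball_le`, `gmtP_diff_ball_le`, `gmtMu_open`):
   `μ(closedBall 0 r) ≤ d/dr |B_r \ S| = 2r |B_1 \ S|` and `≤ 2r |B_1 ∩ S|` (cone: `|B_r ∩ S| = r² |B_1 ∩ S|`, `volume_gmtDil`).   Add: `2 μ(closedBall 0 r) ≤ 2 r |B_1| = 2π r` (`EuclideanSpace.volume_ball_fin_two`); scaling.
   With 3: `card F = μ(closedBall 0 1) ≤ π < 4`.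
5. `gmtSim_two_balance`: `Σ_{v∈F} v = 0`.   `gmt_min_fv` with `X = η(|x|²) b`, `η ∈ C_c^∞(ℝ)`, `η = 1` near `0`, `b` a constant vector.   On the ray `v`: `div X - ⟪ν, DX ν⟫ = ⟪DX v, v⟫ = d/ds ⟪X(sv), v⟫` (orthonormal basis `v, e_v`), whose integral over `(0,∞)` is `-⟪b, v⟫`.
6. `gmtSim_two_parity`: `Σ_{v∈F} ⟪e_v, Jv⟫ = 0`, hence `card F` is even.   `gmt_gauss_green` with `T = ρ(|x|²) Jx`, `ρ ∈ C_c^∞((0,∞))`, `ρ ≥ 0`, `ρ ≠ 0`: `div T = 0` (`⟪x, Jx⟫ = 0`, `tr J = 0`), `⟪T, ν⟫ = ρ(s²) s ⟪Jv, e_v⟫` on the ray.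
7. `card F ∈ {0,1,2,3}`, even, `≠ 0` (`gmtSim_exists_bd_ne_zero`): `F = {v, v'}`, `v' = -v` by 5.   So `Σ ⊆ ℝ v = e_v^⊥`; `gmtSim_half_of_bd_subset`.

THIS FILE: step 4.
-/

set_option autoImplicit false
open scoped ContDiff ENNReal RealInnerProductSpace Topology
open MeasureTheory Metric Set Filter

namespace Claimed.Agent.Gmt

theorem gmtSimC_cone_compl {k : ℕ} {S : Set (E k)} (hc : GmtCone S) : GmtCone Sᶜ := by
  intro ρ hρ
  have : (gmtDil 0 ρ Sᶜ : Set (E k)) = (gmtDil 0 ρ S)ᶜ := rfl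
  rw [this]
  exact (hc ρ hρ).compl

/-- volumes of balls in a cone. -/
theorem gmtSimC_volB {k : ℕ} {D : Set (E k)} (hc : GmtCone D) {s : ℝ} (hs : 0 < s) :
    gmtVolB D 0 s = s ^ k * gmtVolB D 0 1 := by
  unfold gmtVolB
  have e1 : gmtDil 0 s (D ∩ ball 0 s) = gmtDil 0 s D ∩ ball 0 1 := by
    have := gmtDil_ball (0 : E k) 0 hs 1
    rw [smul_zero, add_zero, mul_one] at this
    rw [← this]
    rfl
  have e2 : volume (gmtDil 0 s (D ∩ ball 0 s)) = volume (D ∩ ball 0 1) := by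
    rw [e1]
    exact measure_congr ((hc s hs).inter (ae_eq_refl _))
  rw [volume_gmtDil _ 0 hs] at e2
  rw [← e2, ENNReal.toReal_mul, ENNReal.toReal_ofReal (by positivity), ← mul_assoc,
    mul_inv_cancel₀ (by positivity), one_mul]

theorem gmtSimC_deriv {k : ℕ} {D D' : Set (E k)} (hc : GmtCone D) {r R : ℝ} (hr : 0 < r)
    (hrR : r < R) (hD : ∀ s < R, D' ∩ ball 0 s = D ∩ ball 0 s) :
    deriv (gmtVolB D' 0) r = k * r ^ (k - 1) * gmtVolB D 0 1 := by
  have h1 : HasDerivAt (fun s : ℝ => s ^ k * gmtVolB D 0 1) (k * r ^ (k - 1) * gmtVolB D 0 1) r :=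
    (hasDerivAt_pow k r).mul_const _
  have h2 : gmtVolB D' 0 =ᶠ[𝓝 r] fun s : ℝ => s ^ k * gmtVolB D 0 1 := by
    filter_upwards [Ioo_mem_nhds hr hrR] with s hs
    rw [← gmtSimC_volB hc hs.1]
    unfold gmtVolB
    rw [hD s hs.2]
  exact (h1.congr_of_eventuallyEq h2).deriv

theorem gmtSimC_mu_dil {k : ℕ} {S : Set (E k)} (hS : MeasurableSet S) (hc : GmtCone S) {ρ : ℝ}
    (hρ : 0 < ρ) : gmtMu (gmtDil 0 ρ S) = gmtMu S := by
  have h := gmtMu_restrict_congr isOpen_univ (measurableSet_gmtDil hS 0 ρ) hS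
    (by simpa using hc ρ hρ)
  simpa using h

/-- comparison with a competitor which differs from `S` in `closedBall 0 r`. -/
theorem gmtSimC_compare {k : ℕ} {S S' : Set (E k)} (hmin : GmtMin univ S) {r R c : ℝ}
    (hrR : r < R) (hS' : MeasurableSet S') (hsd : symmDiff S S' ⊆ closedBall 0 r)
    (hle : gmtP S' (ball 0 R) ≤ gmtP S (ball 0 R \ closedBall 0 r) + ENNReal.ofReal c) :
    gmtMu S (closedBall 0 r) ≤ ENNReal.ofReal c := by
  have hW : GmtCC (ball (0 : E k) R) univ :=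
    ⟨isOpen_ball, (isCompact_closedBall (0 : E k) R).of_isClosed_subset isClosed_closure
      closure_ball_subset_closedBall, subset_univ _⟩
  have hsub : closedBall (0 : E k) r ⊆ ball 0 R := closedBall_subset_ball hrR
  have hfinW : gmtP S (ball 0 R) ≠ ⊤ := hmin.fin _ hW
  have hopen : IsOpen (ball (0 : E k) R \ closedBall 0 r) := isOpen_ball.sdiff isClosed_closedBall
  have hfin1 : gmtP S (ball 0 R \ closedBall 0 r) ≠ ⊤ := by
    rw [← gmtMu_open S hopen]
    refine ne_top_of_le_ne_top ?_ (measure_mono sdiff_subset)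
    rw [gmtMu_open S isOpen_ball]
    exact hfinW
  have hfin' : gmtP S' (ball 0 R) ≠ ⊤ :=
    ne_top_of_le_ne_top (ENNReal.add_ne_top.2 ⟨hfin1, ENNReal.ofReal_ne_top⟩) hle
  have h := hmin.min (ball 0 R) S' hW hS' ⟨closedBall 0 r, isCompact_closedBall _ _, hsub, hsd⟩
    hfin'
  simp only [integral_zero, sub_zero] at h
  have h2 : gmtP S (ball 0 R) ≤ gmtP S' (ball 0 R) := (ENNReal.toReal_le_toReal hfinW hfin').1 h
  have h3 : gmtMu S (ball 0 R \ closedBall 0 r) + gmtMu S (closedBall 0 r) = gmtMu S (ball 0 R) := by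
    have := measure_sdiff_add_inter (μ := gmtMu S) (ball (0 : E k) R)
      (isClosed_closedBall (x := (0 : E k)) (ε := r)).measurableSet
    rwa [inter_eq_right.2 hsub] at this
  rw [gmtMu_open S isOpen_ball, gmtMu_open S hopen] at h3
  have h4 := h2.trans hle
  rw [← h3] at h4
  exact (ENNReal.add_le_add_iff_left hfin1).1 h4

theorem gmtSimC_om_two : gmtOm 2 = Real.pi := by
  unfold gmtOm
  rw [EuclideanSpace.volume_ball_fin_two]
  simp [Real.pi_pos.le]

theorem gmtSimC_dil_closedBall {k : ℕ} {r : ℝ} (hr : 0 < r) :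
    gmtDil (0 : E k) r (closedBall 0 r) = closedBall 0 1 := by
  ext z
  have h : z ∈ gmtDil (0 : E k) r (closedBall 0 r) ↔ (0 : E k) + r • z ∈ closedBall (0 : E k) r :=
    Iff.rfl
  rw [h, zero_add, mem_closedBall, mem_closedBall, dist_zero_right, dist_zero_right, norm_smul,
    Real.norm_eq_abs, abs_of_pos hr]
  constructor
  · intro h; nlinarith
  · intro h; nlinarith

/-- scaling of the mass of balls. -/
theorem gmtSimC_scale {S : Set (E 2)} (hS : MeasurableSet S) (hcone : GmtCone S) {r : ℝ}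
    (hr0 : 0 < r) (b4 : gmtMu S (closedBall 0 r) ≤ ENNReal.ofReal (r * Real.pi)) :
    gmtMu S (closedBall 0 1) ≤ ENNReal.ofReal Real.pi := by
  have hsc := gmtMu_gmtDil hS 0 hr0 (closedBall 0 r)
  rw [gmtSimC_mu_dil hS hcone hr0, gmtSimC_dil_closedBall hr0] at hsc
  have b5 : gmtMu S (closedBall 0 1) * ENNReal.ofReal (r ^ 2)
      ≤ ENNReal.ofReal Real.pi * ENNReal.ofReal (r ^ 2) := by
    rw [hsc]
    refine (mul_le_mul_right b4 _).trans (le_of_eq ?_)
    rw [← ENNReal.ofReal_mul hr0.le, ← ENNReal.ofReal_mul Real.pi_pos.le]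
    congr 1
    ring
  exact (ENNReal.mul_le_mul_iff_left (by simp [hr0.ne']) ENNReal.ofReal_ne_top).1 b5

/-- 4. the sharp upper density bound. -/
theorem gmtSim_two_density {S : Set (E 2)} (hmin : GmtMin univ S) (hcone : GmtCone S) :
    gmtMu S (closedBall 0 1) ≤ ENNReal.ofReal Real.pi := by
  have hS := hmin.meas
  have hW : GmtCC (ball (0 : E 2) 2) univ :=
    ⟨isOpen_ball, (isCompact_closedBall (0 : E 2) 2).of_isClosed_subset isClosed_closure
      closure_ball_subset_closedBall, subset_univ _⟩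
  have hfinW : gmtP S (ball 0 2) ≠ ⊤ := hmin.fin _ hW
  have h1 := gmtP_diff_ball_le isOpen_ball hS hfinW (0 : E 2)
  have h2 := gmtP_union_ball_le isOpen_ball hS hfinW (0 : E 2)
  have hne : (ae (volume.restrict (Ioo (0 : ℝ) 2))).NeBot := by
    rw [ae_neBot]
    intro h0
    have := congrArg (fun μ : Measure ℝ => μ univ) h0
    simp at this
  obtain ⟨r, hr, hr1, hr2⟩ := ((ae_restrict_mem (measurableSet_Ioo (a := (0 : ℝ)) (b := 2))).and
    ((ae_restrict_of_ae h1).and (ae_restrict_of_ae h2))).exists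
  have hr0 := hr.1
  set c₁ := gmtVolB S 0 1 with hc₁
  set c₂ := gmtVolB Sᶜ 0 1 with hc₂
  have hc12 : c₁ + c₂ = Real.pi := by
    rw [hc₂, gmtVolB_compl hS, gmtVolB_univ _ one_pos, gmtSimC_om_two]
    ring
  have d1 : deriv (gmtVolB (S ∩ ball 0 2) 0) r = 2 * r * c₁ := by
    rw [gmtSimC_deriv hcone hr0 hr.2 (fun s hs => by
      rw [inter_assoc, inter_eq_right.2 (ball_subset_ball hs.le)])]
    norm_num [hc₁]
  have d2 : deriv (gmtVolB (ball 0 2 \ S) 0) r = 2 * r * c₂ := by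
    rw [gmtSimC_deriv (gmtSimC_cone_compl hcone) hr0 hr.2 (fun s hs => by
      rw [Set.sdiff_eq, inter_comm (ball 0 2), inter_assoc,
        inter_eq_right.2 (ball_subset_ball hs.le)])]
    norm_num [hc₂]
  have b1 : gmtMu S (closedBall 0 r) ≤ ENNReal.ofReal (2 * r * c₁) := by
    refine gmtSimC_compare hmin hr.2 (hS.diff measurableSet_ball) ?_ (d1 ▸ hr1 hr0)
    intro x hx
    rcases hx with ⟨h, h'⟩ | ⟨h, h'⟩
    · by_contra hxb
      exact h' ⟨h, fun hb => hxb (ball_subset_closedBall hb)⟩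
    · exact absurd h.1 h'
  have b2 : gmtMu S (closedBall 0 r) ≤ ENNReal.ofReal (2 * r * c₂) := by
    refine gmtSimC_compare hmin hr.2 (hS.union measurableSet_ball) ?_ (d2 ▸ hr2 hr0)
    intro x hx
    rcases hx with ⟨h, h'⟩ | ⟨h, h'⟩
    · exact absurd (Or.inl h) h'
    · rcases h with h | h
      · exact absurd h h'
      · exact ball_subset_closedBall h
  have hc1 : 0 ≤ c₁ := ENNReal.toReal_nonneg
  have hc2 : 0 ≤ c₂ := ENNReal.toReal_nonneg
  have b3 : 2 * gmtMu S (closedBall 0 r) ≤ 2 * ENNReal.ofReal (r * Real.pi) := by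
    rw [two_mul]
    refine (add_le_add b1 b2).trans (le_of_eq ?_)
    rw [← ENNReal.ofReal_add (by positivity) (by positivity), ← hc12]
    have : (2 : ℝ≥0∞) = ENNReal.ofReal 2 := by simp
    rw [this, ← ENNReal.ofReal_mul (by norm_num)]
    congr 1
    ring
  have b4 : gmtMu S (closedBall 0 r) ≤ ENNReal.ofReal (r * Real.pi) :=
    (ENNReal.mul_le_mul_iff_right (by norm_num) (by norm_num)).1 b3
  exact gmtSimC_scale hS hcone hr0 b4

end Claimed.Agent.Gmt
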