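import Claimed.Agent.Lib.Gmt.SimTwoA
import Claimed.Agent.Lib.Gmt.Fv

/-!
# Lib/Gmt [G7 Simons] `SimTwoD`: perimeter minimising cones in the plane are half planes.   (architect: helper257)

`S ⊆ E 2` minimising cone, `0 ∈ Σ`, flat near every point of `Σ \ 0` (`GmtSimFlat S`, free of charge in the plane: `gmtSim_A_zero_two`, `gmtSim_flat_local`).
`J` = rotation by `π/2`.   `gmtSimRay v` = arc length measure on the open ray `(0,∞) v`.

1. `gmtSim_half_mu`: for a unit vector `e`: `gmtMu (H_e)` = arc length on the line `ℝ Je`, `ν = e`.   By `gmtMu_gmtNu_unique` (`U = univ`) it suffices to prove Gauss-Green: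
   `∫_{H_e} div T = ∫_ℝ ⟪T(s Je), e⟫ ds`.   The map `(s,t) ↦ s Je + t e` is a linear isometry `ℝ × ℝ → E 2`, measure preserving; `div T = ∂_s ⟪T,Je⟫ + ∂_t ⟪T,e⟫` (trace in the orthonormal basis `Je, e`);
   Fubini; `∫_ℝ ∂_s(...) ds = 0` (compact support), `∫_{t<0} ∂_t ⟪T,e⟫ dt = ⟪T,e⟫(s,0)`.
2. `gmtSim_two_rays`: `F = Σ ∩ sphere 0 1` is finite (compact; every point is isolated: in `ball p ρ` the boundary is `e^⊥ ∩ ball p ρ`, by `gmtSim_mem_bd_of_half` and its converse), and `Σ \ 0 = ⋃_{v ∈ F} (0,∞) v` (`gmtSim_bd_smul`).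
3. `gmtSim_two_mu`: `μ` restricted to `{0}ᶜ` is `Σ_{v∈F} gmtSimRay v`, with `ν = e_v` on the ray, `e_v = ± J v`.   Local statement (`Measure.ext_iff_of_iUnion_eq_univ`-type argument with a countable cover of `{0}ᶜ`):
   off `Σ` both sides vanish near the point; near `q = t v` use flatness at `q` (the cone property transports flatness along the ray), `gmtMu_restrict_congr`, `gmtNu_congr` and 1.      `μ {0} = 0` by `gmtSim_scaling`-type homogeneity (`gmtMu_gmtDil`) and finiteness.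
4. `gmtSim_two_density`: `μ (closedBall 0 1) ≤ π`.   For a.e. `r`: compare `S` with `S ∪ ball 0 r` and `S \ ball 0 r` in `W = ball 0 (r+1)` (`gmtP_union_ball_le`, `gmtP_diff_ball_le`, `gmtMu_open`):
   `μ(closedBall 0 r) ≤ d/dr |B_r \ S| = 2r |B_1 \ S|` and `≤ 2r |B_1 ∩ S|` (cone: `|B_r ∩ S| = r² |B_1 ∩ S|`, `volume_gmtDil`).   Add: `2 μ(closedBall 0 r) ≤ 2 r |B_1| = 2π r` (`EuclideanSpace.volume_ball_fin_two`); scaling.
   With 3: `card F = μ(closedBall 0 1) ≤ π < 4`.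
5. `gmtSim_two_balance`: `Σ_{v∈F} v = 0`.   `gmt_min_fv` with `X = η(|x|²) b`, `η ∈ C_c^∞(ℝ)`, `η = 1` near `0`, `b` a constant vector.   On the ray `v`: `div X - ⟪ν, DX ν⟫ = ⟪DX v, v⟫ = d/ds ⟪X(sv), v⟫` (orthonormal basis `v, e_v`), whose integral over `(0,∞)` is `-⟪b, v⟫`.
6. `gmtSim_two_parity`: `Σ_{v∈F} ⟪e_v, Jv⟫ = 0`, hence `card F` is even.   `gmt_gauss_green` with `T = ρ(|x|²) Jx`, `ρ ∈ C_c^∞((0,∞))`, `ρ ≥ 0`, `ρ ≠ 0`: `div T = 0` (`⟪x, Jx⟫ = 0`, `tr J = 0`), `⟪T, ν⟫ = ρ(s²) s ⟪Jv, e_v⟫` on the ray.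
7. `card F ∈ {0,1,2,3}`, even, `≠ 0` (`gmtSim_exists_bd_ne_zero`): `F = {v, v'}`, `v' = -v` by 5.   So `Σ ⊆ ℝ v = e_v^⊥`; `gmtSim_half_of_bd_subset`.

THIS FILE: steps 5, 6.
-/

set_option autoImplicit false
open scoped ContDiff ENNReal RealInnerProductSpace Topology
open MeasureTheory Metric Set Filter

namespace Claimed.Agent.Gmt

/-- the cut off `η`: `1` on `(-∞,1]`, `0` on `[2,∞)`. -/
noncomputable def gmtSimEta (t : ℝ) : ℝ := Real.smoothTransition (2 - t)

theorem gmtSimEta_contDiff : ContDiff ℝ ∞ gmtSimEta :=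
  Real.smoothTransition.contDiff.comp (contDiff_const.sub contDiff_id)

theorem gmtSimEta_zero : gmtSimEta 0 = 1 := by
  unfold gmtSimEta
  exact Real.smoothTransition.one_of_one_le (by norm_num)

theorem gmtSimEta_of_two_le {t : ℝ} (ht : 2 ≤ t) : gmtSimEta t = 0 := by
  unfold gmtSimEta
  exact Real.smoothTransition.zero_of_nonpos (by linarith)

theorem gmtSimEta_deriv_of_two_lt {t : ℝ} (ht : 2 < t) : deriv gmtSimEta t = 0 := by
  have : gmtSimEta =ᶠ[𝓝 t] fun _ => 0 := by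
    filter_upwards [Ioi_mem_nhds ht] with s hs
    exact gmtSimEta_of_two_le (le_of_lt hs)
  rw [this.deriv_eq]
  simp

theorem gmtSimEta_deriv_contDiff : ContDiff ℝ ∞ (deriv gmtSimEta) :=
  ((contDiff_infty_iff_deriv).1 gmtSimEta_contDiff).2

/-- the profile `h s = d/ds η(s²)`. -/
noncomputable def gmtSimEtaH (s : ℝ) : ℝ := 2 * s * deriv gmtSimEta (s ^ 2)

theorem gmtSimEtaH_continuous : Continuous gmtSimEtaH := by
  unfold gmtSimEtaH
  exact (continuous_const.mul continuous_id).mul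
    (gmtSimEta_deriv_contDiff.continuous.comp (continuous_pow 2))

theorem gmtSimEtaH_integrable : Integrable gmtSimEtaH := by
  refine gmtSimEtaH_continuous.integrable_of_hasCompactSupport
    (HasCompactSupport.intro (isCompact_Icc (a := (-2 : ℝ)) (b := 2)) fun s hs => ?_)
  unfold gmtSimEtaH
  rw [gmtSimEta_deriv_of_two_lt, mul_zero]
  by_contra h
  push Not at h
  exact hs ⟨by nlinarith, by nlinarith⟩

theorem gmtSimEtaH_integral : ∫ s in Ioi (0 : ℝ), gmtSimEtaH s = -1 := by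
  have hd : ∀ s ∈ Ioi (0 : ℝ), HasDerivAt (fun s => gmtSimEta (s ^ 2)) (gmtSimEtaH s) s := by
    intro s _
    have h1 : HasDerivAt gmtSimEta (deriv gmtSimEta (s ^ 2)) (s ^ 2) :=
      (gmtSimEta_contDiff.differentiable (by simp) _).hasDerivAt
    have h2 : HasDerivAt (fun s : ℝ => s ^ 2) (2 * s) s := by
      simpa using hasDerivAt_pow 2 s
    have := HasDerivAt.comp (h₂ := gmtSimEta) (h := fun s : ℝ => s ^ 2) s h1 h2
    have e : gmtSimEtaH s = deriv gmtSimEta (s ^ 2) * (2 * s) := by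
      unfold gmtSimEtaH
      ring
    rw [e]
    exact this
  have hc : ContinuousWithinAt (fun s => gmtSimEta (s ^ 2)) (Ici 0) 0 :=
    (gmtSimEta_contDiff.continuous.comp (continuous_pow 2)).continuousWithinAt
  have ht : Tendsto (fun s => gmtSimEta (s ^ 2)) atTop (𝓝 0) := by
    refine tendsto_const_nhds.congr' ?_
    filter_upwards [eventually_ge_atTop (2 : ℝ)] with s hs
    exact (gmtSimEta_of_two_le (by nlinarith)).symm
  rw [integral_Ioi_of_hasDerivAt_of_tendsto hc hd gmtSimEtaH_integrable.integrableOn ht]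
  simp [gmtSimEta_zero]

/-- integration of a function which is a multiple of the profile along the ray. -/
theorem gmtSimRay_key {v : E 2} {G G' : E 2 → ℝ} (hG' : Continuous G')
    (hae : ∀ᵐ x ∂(gmtSimRay v), G x = G' x) {c : ℝ}
    (hs : ∀ s : ℝ, 0 < s → G' (s • v) = c * gmtSimEtaH s) :
    Integrable G (gmtSimRay v) ∧ ∫ x, G x ∂(gmtSimRay v) = - c := by
  have hf : Measurable (fun s : ℝ => s • v) := (continuous_id.smul continuous_const).measurable
  have hi : Integrable G' (gmtSimRay v) := by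
    unfold gmtSimRay
    rw [integrable_map_measure hG'.aestronglyMeasurable hf.aemeasurable]
    have : IntegrableOn (fun s => c * gmtSimEtaH s) (Ioi 0) :=
      (gmtSimEtaH_integrable.const_mul c).integrableOn
    exact this.congr_fun (fun s hs' => (hs s hs').symm) measurableSet_Ioi
  refine ⟨hi.congr (hae.mono fun x hx => hx.symm), ?_⟩
  rw [integral_congr_ae hae]
  unfold gmtSimRay
  rw [integral_map hf.aemeasurable hG'.aestronglyMeasurable,
    setIntegral_congr_fun measurableSet_Ioi (fun s hs' => hs s hs'), integral_const_mul,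
    gmtSimEtaH_integral]
  ring

theorem gmtSimJ_inner_self (v : E 2) : ⟪v, gmtSimJ v⟫ = 0 := by
  rw [gmtSim_inner_eq_sum, Fin.sum_univ_two]
  simp [gmtSimJ]
  ring

theorem gmtSimJ_norm_sq (v : E 2) : ⟪gmtSimJ v, gmtSimJ v⟫ = ⟪v, v⟫ := by
  rw [gmtSim_inner_eq_sum, gmtSim_inner_eq_sum, Fin.sum_univ_two, Fin.sum_univ_two]
  simp [gmtSimJ]
  ring

/-- `J` as a continuous linear map. -/
noncomputable def gmtSimJL : E 2 →L[ℝ] E 2 :=
  LinearMap.toContinuousLinearMap
    { toFun := gmtSimJ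
      map_add' := by
        intro x y
        ext i
        fin_cases i <;> simp [gmtSimJ]
        ring
      map_smul' := by
        intro c x
        ext i
        fin_cases i <;> simp [gmtSimJ] }

theorem gmtSimJL_apply (v : E 2) : gmtSimJL v = gmtSimJ v := rfl

theorem gmtSimT_hasFDerivAt {φ : ℝ → ℝ} (hφ : Differentiable ℝ φ) (x : E 2) :
    HasFDerivAt (fun y : E 2 => φ (‖y‖ ^ 2)) (deriv φ (‖x‖ ^ 2) • (2 • innerSL ℝ x)) x :=
  (hφ (‖x‖ ^ 2)).hasDerivAt.comp_hasFDerivAt x (hasStrictFDerivAt_norm_sq x).hasFDerivAt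

theorem gmtSimT_contDiff {φ : ℝ → ℝ} (hφ : ContDiff ℝ ∞ φ) :
    ContDiff ℝ ∞ (fun y : E 2 => φ (‖y‖ ^ 2)) := hφ.comp (contDiff_norm_sq ℝ)

theorem gmtSimT_cpt {F : Type*} [NormedAddCommGroup F] {X : E 2 → F}
    (h : ∀ x, 2 < ‖x‖ ^ 2 → X x = 0) : HasCompactSupport X := by
  refine HasCompactSupport.intro (isCompact_closedBall (0 : E 2) 2) fun x hx => h x ?_
  rw [mem_closedBall, dist_zero_right, not_le] at hx
  nlinarith

/-- 5. balancing. -/
theorem gmtSim_two_balance {S : Set (E 2)} (hmin : GmtMin univ S) {F : Finset (E 2)}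
    (hF : ∀ v ∈ F, ‖v‖ = 1) (hμ : gmtMu S = ∑ v ∈ F, gmtSimRay v) {σ : E 2 → ℝ}
    (hσ : ∀ v ∈ F, σ v = 1 ∨ σ v = -1)
    (hν : ∀ v ∈ F, ∀ᵐ x ∂(gmtSimRay v), gmtNu S x = σ v • gmtSimJ v) :
    ∑ v ∈ F, v = 0 := by
  have hηd : Differentiable ℝ gmtSimEta := gmtSimEta_contDiff.differentiable (by simp)
  have key : ∀ b : E 2, ∑ v ∈ F, ⟪v, b⟫ = 0 := by
    intro b
    have hX : GmtTestS univ (fun x : E 2 => gmtSimEta (‖x‖ ^ 2) • b) :=
      ⟨(gmtSimT_contDiff gmtSimEta_contDiff).smul contDiff_const,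
        gmtSimT_cpt fun x hx => by rw [gmtSimEta_of_two_le hx.le, zero_smul], subset_univ _⟩
    have hfd : ∀ x w : E 2, fderiv ℝ (fun x : E 2 => gmtSimEta (‖x‖ ^ 2) • b) x w
        = (2 * deriv gmtSimEta (‖x‖ ^ 2) * ⟪x, w⟫) • b := by
      intro x w
      rw [((gmtSimT_hasFDerivAt hηd x).smul_const b).fderiv]
      simp only [ContinuousLinearMap.smulRight_apply, smul_apply, innerSL_apply_apply]
      congr 1
      simp
      ring
    have hdiv : ∀ x : E 2, gmtDiv (fun x : E 2 => gmtSimEta (‖x‖ ^ 2) • b) x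
        = 2 * deriv gmtSimEta (‖x‖ ^ 2) * ⟪x, b⟫ := by
      intro x
      unfold gmtDiv
      simp only [hfd, gmtSim_inner_eb]
      rw [gmtSim_inner_eq_sum, Finset.mul_sum]
      refine Finset.sum_congr rfl fun i _ => ?_
      simp
      ring
    have h0 := gmt_min_fv isOpen_univ hmin hX
    have hray : ∀ v ∈ F, Integrable (fun x => gmtDiv (fun x : E 2 => gmtSimEta (‖x‖ ^ 2) • b) x
          - ⟪gmtNu S x, fderiv ℝ (fun x : E 2 => gmtSimEta (‖x‖ ^ 2) • b) x (gmtNu S x)⟫)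
          (gmtSimRay v) ∧
        ∫ x, (gmtDiv (fun x : E 2 => gmtSimEta (‖x‖ ^ 2) • b) x
          - ⟪gmtNu S x, fderiv ℝ (fun x : E 2 => gmtSimEta (‖x‖ ^ 2) • b) x (gmtNu S x)⟫)
          ∂(gmtSimRay v) = - ⟪v, b⟫ := by
      intro v hv
      refine gmtSimRay_key (G' := fun x => 2 * deriv gmtSimEta (‖x‖ ^ 2) * ⟪x, b⟫
        - ⟪σ v • gmtSimJ v, (2 * deriv gmtSimEta (‖x‖ ^ 2) * ⟪x, σ v • gmtSimJ v⟫) • b⟫) ?_ ?_ ?_
      · have c1 : Continuous fun x : E 2 => deriv gmtSimEta (‖x‖ ^ 2) :=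
          gmtSimEta_deriv_contDiff.continuous.comp (continuous_norm.pow 2)
        have c2 : ∀ w : E 2, Continuous fun x : E 2 => ⟪x, w⟫ :=
          fun w => continuous_id.inner continuous_const
        exact ((continuous_const.mul c1).mul (c2 b)).sub
          (continuous_const.inner (((continuous_const.mul c1).mul (c2 _)).smul continuous_const))
      · filter_upwards [hν v hv] with x hx
        rw [hdiv, hfd, hx]
      · intro s hs
        have e1 : ‖s • v‖ ^ 2 = s ^ 2 := by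
          rw [norm_smul, hF v hv, mul_one, Real.norm_eq_abs, sq_abs]
        simp only [e1, inner_smul_left, inner_smul_right, gmtSimJ_inner_self, conj_trivial]
        unfold gmtSimEtaH
        ring
    rw [hμ, integral_finsetSum_measure fun v hv => (hray v hv).1,
      Finset.sum_congr rfl fun v hv => (hray v hv).2, Finset.sum_neg_distrib] at h0
    linarith
  have h1 := key (∑ v ∈ F, v)
  rw [← sum_inner] at h1
  exact inner_self_eq_zero.1 h1

/-- 6. parity. -/
theorem gmtSim_two_parity {S : Set (E 2)} (hS : GmtLF S univ) {F : Finset (E 2)}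
    (hF : ∀ v ∈ F, ‖v‖ = 1) (hμ : gmtMu S = ∑ v ∈ F, gmtSimRay v) {σ : E 2 → ℝ}
    (hν : ∀ v ∈ F, ∀ᵐ x ∂(gmtSimRay v), gmtNu S x = σ v • gmtSimJ v) :
    ∑ v ∈ F, σ v = 0 := by
  have hd : Differentiable ℝ (deriv gmtSimEta) := gmtSimEta_deriv_contDiff.differentiable (by simp)
  have hsm : ContDiff ℝ ∞ (fun x : E 2 => deriv gmtSimEta (‖x‖ ^ 2) • gmtSimJL x) :=
    (gmtSimT_contDiff gmtSimEta_deriv_contDiff).smul gmtSimJL.contDiff
  have hT : GmtTest univ (fun x : E 2 => deriv gmtSimEta (‖x‖ ^ 2) • gmtSimJL x) :=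
    ⟨hsm.of_le (by simp),
      gmtSimT_cpt fun x hx => by rw [gmtSimEta_deriv_of_two_lt hx, zero_smul], subset_univ _⟩
  have hdiv : ∀ x : E 2, gmtDiv (fun x : E 2 => deriv gmtSimEta (‖x‖ ^ 2) • gmtSimJL x) x = 0 := by
    intro x
    unfold gmtDiv
    have hfd : HasFDerivAt (fun x : E 2 => deriv gmtSimEta (‖x‖ ^ 2) • gmtSimJL x) _ x :=
      (gmtSimT_hasFDerivAt hd x).fun_smul gmtSimJL.hasFDerivAt
    rw [hfd.fderiv, Fin.sum_univ_two]
    have i0 : ⟪x, eb (0 : Fin 2)⟫ = x 0 := gmtSim_inner_eb x 0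
    have i1 : ⟪x, eb (1 : Fin 2)⟫ = x 1 := gmtSim_inner_eb x 1
    simp only [add_apply, smul_apply, ContinuousLinearMap.smulRight_apply, innerSL_apply_apply,
      i0, i1, gmtSimJL_apply]
    simp [gmtSimJ, eb]
    ring
  have h0 := gmt_gauss_green isOpen_univ hS hT
  simp only [hdiv, integral_zero] at h0
  have hray : ∀ v ∈ F, Integrable (fun x => ⟪deriv gmtSimEta (‖x‖ ^ 2) • gmtSimJL x, gmtNu S x⟫)
        (gmtSimRay v) ∧
      ∫ x, ⟪deriv gmtSimEta (‖x‖ ^ 2) • gmtSimJL x, gmtNu S x⟫ ∂(gmtSimRay v) = - (σ v / 2) := by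
    intro v hv
    refine gmtSimRay_key
      (G' := fun x => ⟪deriv gmtSimEta (‖x‖ ^ 2) • gmtSimJL x, σ v • gmtSimJ v⟫) ?_ ?_ ?_
    · exact hsm.continuous.inner continuous_const
    · filter_upwards [hν v hv] with x hx
      rw [hx]
    · intro s hs
      have e1 : ‖s • v‖ ^ 2 = s ^ 2 := by
        rw [norm_smul, hF v hv, mul_one, Real.norm_eq_abs, sq_abs]
      have e2 : ⟪gmtSimJ v, gmtSimJ v⟫ = 1 := by
        rw [gmtSimJ_norm_sq, real_inner_self_eq_norm_sq, hF v hv]; norm_num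
      simp only [e1, map_smul, gmtSimJL_apply, inner_smul_left, inner_smul_right, e2, conj_trivial]
      unfold gmtSimEtaH
      ring
  rw [hμ, integral_finsetSum_measure fun v hv => (hray v hv).1,
    Finset.sum_congr rfl fun v hv => (hray v hv).2, Finset.sum_neg_distrib,
    ← Finset.sum_div] at h0
  linarith

end Claimed.Agent.Gmt
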