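import Claimed.Agent.Lib.Gmt.SimTwoB
import Claimed.Agent.Lib.Gmt.SimTwoC
import Claimed.Agent.Lib.Gmt.SimTwoD

/-!
# Lib/Gmt [G7 Simons] `SimTwo`: perimeter minimising cones in the plane are half planes.   (architect: helper257)

`S ⊆ E 2` minimising cone, `0 ∈ Σ`, flat near every point of `Σ \ 0` (`GmtSimFlat S`, free of charge in the plane: `gmtSim_A_zero_two`, `gmtSim_flat_local`).
`J` = rotation by `π/2`.   `gmtSimRay v` = arc length measure on the open ray `(0,∞) v`.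

1. `gmtSim_half_mu`: for a unit vector `e`: `gmtMu (H_e)` = arc length on the line `ℝ Je`, `ν = e`.   By `gmtMu_gmtNu_unique` (`U = univ`) it suffices to prove Gauss-Green:
   `∫_{H_e} div T = ∫_ℝ ⟪T(s Je), e⟫ ds`.   The map `(s,t) ↦ s Je + t e` is a linear isometry `ℝ × ℝ → E 2`, measure preserving; `div T = ∂_s ⟪T,Je⟫ + ∂_t ⟪T,e⟫` (trace in the orthonormal basis `Je, e`);
   Fubini; `∫_ℝ ∂_s(...) ds = 0` (compact support), `∫_{t<0} ∂_t ⟪T,e⟫ dt = ⟪T,e⟫(s,0)`.
2. `gmtSim_two_rays`: `F = Σ ∩ sphere 0 1` is finite (compact; every point is isolated: in `ball p ρ` the boundary is `e^⊥ ∩ ball p ρ`, by `gmtSim_mem_bd_of_half` and its converse), and `Σ \ 0 = ⋃_{v ∈ F} (0,∞) v` (`gmtSim_bd_smul`).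
3. `gmtSim_two_mu`: `μ` restricted to `{0}ᶜ` is `Σ_{v∈F} gmtSimRay v`, with `ν = e_v` on the ray, `e_v = ± J v`.   Local statement (`Measure.ext_iff_of_iUnion_eq_univ`-type argument with a countable cover of `{0}ᶜ`):
   off `Σ` both sides vanish near the point; near `q = t v` use flatness at `q` (the cone property transports flatness along the ray), `gmtMu_restrict_congr`, `gmtNu_congr` and 1.      `μ {0} = 0` by `gmtSim_scaling`-type homogeneity (`gmtMu_gmtDil`) and finiteness.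
4. `gmtSim_two_density`: `μ (closedBall 0 1) ≤ π`.   For a.e. `r`: compare `S` with `S ∪ ball 0 r` and `S \ ball 0 r` in `W = ball 0 (r+1)` (`gmtP_union_ball_le`, `gmtP_diff_ball_le`, `gmtMu_open`):
   `μ(closedBall 0 r) ≤ d/dr |B_r \ S| = 2r |B_1 \ S|` and `≤ 2r |B_1 ∩ S|` (cone: `|B_r ∩ S| = r² |B_1 ∩ S|`, `volume_gmtDil`).   Add: `2 μ(closedBall 0 r) ≤ 2 r |B_1| = 2π r` (`EuclideanSpace.volume_ball_fin_two`); scaling.
   With 3: `card F = μ(closedBall 0 1) ≤ π < 4`.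
5. `gmtSim_two_balance`: `Σ_{v∈F} v = 0`.   `gmt_min_fv` with `X = η(|x|²) b`, `η ∈ C_c^∞(ℝ)`, `η = 1` near `0`, `b` a constant vector.   On the ray `v`: `div X - ⟪ν, DX ν⟫ = ⟪DX v, v⟫ = d/ds ⟪X(sv), v⟫` (orthonormal basis `v, e_v`), whose integral over `(0,∞)` is `-⟪b, v⟫`.
6. `gmtSim_two_parity`: `Σ_{v∈F} ⟪e_v, Jv⟫ = 0`, hence `card F` is even.   `gmt_gauss_green` with `T = ρ(|x|²) Jx`, `ρ ∈ C_c^∞((0,∞))`, `ρ ≥ 0`, `ρ ≠ 0`: `div T = 0` (`⟪x, Jx⟫ = 0`, `tr J = 0`), `⟪T, ν⟫ = ρ(s²) s ⟪Jv, e_v⟫` on the ray.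
7. `card F ∈ {0,1,2,3}`, even, `≠ 0` (`gmtSim_exists_bd_ne_zero`): `F = {v, v'}`, `v' = -v` by 5.   So `Σ ⊆ ℝ v = e_v^⊥`; `gmtSim_half_of_bd_subset`.

THIS FILE: step 7.
-/

set_option autoImplicit false
open scoped ContDiff ENNReal RealInnerProductSpace Topology
open MeasureTheory Metric Set Filter

namespace Claimed.Agent.Gmt

theorem gmtSimRay_closedBall {v : E 2} (hv : ‖v‖ = 1) : gmtSimRay v (closedBall 0 1) = 1 := by
  have hf : Measurable (fun s : ℝ => s • v) := (continuous_id.smul continuous_const).measurable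
  unfold gmtSimRay
  rw [Measure.map_apply hf isClosed_closedBall.measurableSet,
    Measure.restrict_apply (hf isClosed_closedBall.measurableSet)]
  have e : (fun s : ℝ => s • v) ⁻¹' closedBall 0 1 ∩ Ioi 0 = Ioc 0 1 := by
    ext s
    simp only [mem_inter_iff, mem_preimage, mem_closedBall, dist_zero_right, norm_smul, hv, mul_one,
      Real.norm_eq_abs, mem_Ioi, mem_Ioc]
    constructor
    · rintro ⟨h1, h2⟩; exact ⟨h2, (le_abs_self s).trans h1⟩
    · rintro ⟨h1, h2⟩; exact ⟨by rw [abs_of_pos h1]; exact h2, h1⟩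
  rw [e, Real.volume_Ioc]
  simp

theorem gmtSimTwo_parity {ι : Type*} (F : Finset ι) (σ : ι → ℝ)
    (hσ : ∀ v ∈ F, σ v = 1 ∨ σ v = -1) : ∃ n : ℕ, ∑ v ∈ F, σ v = (F.card : ℝ) - 2 * n := by
  classical
  induction F using Finset.induction_on with
  | empty => exact ⟨0, by simp⟩
  | insert a F ha ih =>
    obtain ⟨n, hn⟩ := ih fun v hv => hσ v (Finset.mem_insert_of_mem hv)
    rw [Finset.sum_insert ha, Finset.card_insert_of_notMem ha, hn]
    rcases hσ a (Finset.mem_insert_self _ _) with h | h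
    · exact ⟨n, by rw [h]; push_cast; ring⟩
    · exact ⟨n + 1, by rw [h]; push_cast; ring⟩

/-- 7. **minimising cones in the plane.** -/
theorem gmtSim_two {S : Set (E 2)} (hmin : GmtMin univ S) (hcone : GmtCone S)
    (h0 : (0 : E 2) ∈ gmtBd S) (hflat : GmtSimFlat S) :
    ∃ e : E 2, ‖e‖ = 1 ∧ S =ᵐ[volume] gmtHalf 0 e := by
  have hS := hmin.meas
  have hLF : GmtLF S univ := gmtSim_min_lf hmin
  obtain ⟨F, hF, hF'⟩ := gmtSim_two_rays hS hcone hflat
  obtain ⟨hμ, σ, hσ, hν, hloc⟩ := gmtSim_two_mu hLF hcone hflat hF hF'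
  have hbal := gmtSim_two_balance hmin hF hμ hσ hν
  have hpar := gmtSim_two_parity hLF hF hμ hν
  have hden := gmtSim_two_density hmin hcone
  have hcard : (F.card : ℝ) ≤ Real.pi := by
    rw [hμ, Measure.finsetSum_apply, Finset.sum_congr rfl fun v hv => gmtSimRay_closedBall (hF v hv),
      Finset.sum_const, nsmul_eq_mul, mul_one] at hden
    have h1 : ((F.card : ℝ≥0∞)) = ENNReal.ofReal (F.card : ℝ) := by simp
    rw [h1] at hden
    exact (ENNReal.ofReal_le_ofReal_iff Real.pi_pos.le).1 hden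
  have hcard3 : F.card ≤ 3 := by
    have : (F.card : ℝ) < 4 := hcard.trans_lt Real.pi_lt_four
    have : F.card < 4 := by exact_mod_cast this
    omega
  obtain ⟨n, hn⟩ := gmtSimTwo_parity F σ hσ
  rw [hpar] at hn
  have heven : F.card = 2 * n := by
    have : (F.card : ℝ) = 2 * n := by linarith
    exact_mod_cast this
  have hne : F.card ≠ 0 := by
    obtain ⟨p, hp, hp0⟩ := gmtSim_exists_bd_ne_zero le_rfl hS h0
    obtain ⟨v, hv, -⟩ := (hF' p hp0).1 hp
    exact Finset.card_ne_zero_of_mem hv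
  have h2 : F.card = 2 := by omega
  obtain ⟨v, v', hvv', rfl⟩ := Finset.card_eq_two.1 h2
  rw [Finset.sum_pair hvv'] at hbal
  have hv' : v' = -v := (neg_eq_of_add_eq_zero_right hbal).symm
  have hvF : v ∈ ({v, v'} : Finset (E 2)) := by simp
  have hv1 := hF v hvF
  obtain ⟨ρ, hρ, hae⟩ := hloc v hvF
  have hσ1 : |σ v| = 1 := by
    rcases hσ v hvF with h | h <;> rw [h] <;> simp
  have he : ‖σ v • gmtSimJ v‖ = 1 := by
    rw [norm_smul, gmtSimA2_norm_J, hv1, mul_one, Real.norm_eq_abs, hσ1]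
  have hve : ⟪v, σ v • gmtSimJ v⟫ = 0 := by
    rw [inner_smul_right, gmtSimJ_inner_self, mul_zero]
  refine ⟨σ v • gmtSimJ v, he, gmtSim_half_of_bd_subset hS he hρ hve (fun x hx => ?_) hae⟩
  by_cases hx0 : x = 0
  · rw [hx0, inner_zero_left]
  · obtain ⟨w, hw, t, -, rfl⟩ := (hF' x hx0).1 hx
    rw [Finset.mem_insert, Finset.mem_singleton] at hw
    rcases hw with rfl | rfl
    · rw [inner_smul_left, hve, mul_zero]
    · rw [hv', inner_smul_left, inner_neg_left, hve]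
      simp

end Claimed.Agent.Gmt
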