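import Claimed.Agent.Lib.Gmt.SimTube
import Claimed.Agent.Lib.Gmt.SimRad
import Claimed.Agent.Lib.Gmt.SimTwo
import Claimed.Agent.Lib.Gmt.SimFlat

/-!
# Lib/Gmt [G7] `SimTop`: SIMONS' THEOREM.   (architect: helper257)

A perimeter minimising cone in `E k`, `2 ≤ k ≤ 7`, which is regular away from its vertex, is a half space.
-/

set_option autoImplicit false
open scoped ContDiff ENNReal RealInnerProductSpace Topology
open MeasureTheory Metric Set Filter

namespace Claimed.Agent.Gmt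

theorem gmt_simons {k : ℕ} (hk : 2 ≤ k) (hk' : k ≤ 7) {S : Set (E k)} (hmin : GmtMin univ S)
    (hcone : GmtCone S) (hreg : ∀ x ∈ gmtBd S, x ≠ 0 → GmtReg S x) (h0 : (0 : E k) ∈ gmtBd S) :
    ∃ e : E k, ‖e‖ = 1 ∧ S =ᵐ[volume] gmtHalf 0 e := by
  obtain ⟨U, u, hc⟩ := gmtSim_cone_exists hmin hcone hreg
  rcases Nat.lt_or_ge k 3 with h3 | h3
  · obtain rfl : k = 2 := by omega
    exact gmtSim_two hmin hcone h0 (gmtSim_flat_local hc (gmtSim_A_zero_two hc))
  · exact gmtSim_flat_global h3 hmin.meas h0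
      (gmtSim_flat_local hc (gmtSim_A_zero h3 hk' hmin hcone hc))

end Claimed.Agent.Gmt
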