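import Claimed.Agent.Lib.Gmt.PcC
import Claimed.Agent.Lib.Gmt.SimTop

/-!
# Lib/Gmt: THE INTERFACE, part c = section 4b (size of the singular set) (consumers: import `Claimed.Agent.Lib.Gmt.IF`).
Sub-captain: helper184.   Glue on G6 (`SpB`, `PcC`) and G7 (Simons' theorem, helper257).
-/

set_option autoImplicit false
open scoped ContDiff ENNReal RealInnerProductSpace
open MeasureTheory Metric Set Filter

namespace Claimed.Agent.Gmt

variable {m : ℕ}

/-- SIMONS' THEOREM (`SimTop.gmt_simons`, helper257). -/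
theorem gmt_simons_all : ∀ k, 2 ≤ k → k ≤ 7 → GmtSimons k :=
  fun _ hk hk' _ hmin hcone hreg h0 => gmt_simons hk hk' hmin hcone hreg h0

/-- no singularities in ambient dimension at most seven. -/
theorem gmt_sing_empty {U : Set (E m)} {A : E m → Bil m} {f : E m → ℝ} {S : Set (E m)}
    (hm : 2 ≤ m) (hm' : m ≤ 7) (hd : GmtData U A f) (hS : GmtLAM A f U S) : gmtSing S U = ∅ :=
  gmt_sing_empty_of gmt_simons_all hm hm' hd hS

/-- **flat pieces** (`local:flat-pieces`). -/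
theorem gmt_sing_flat {U : Set (E m)} {A : E m → Bil m} {f : E m → ℝ} {S : Set (E m)}
    (hm : 8 ≤ m) (hd : GmtData U A f) (hS : GmtLAM A f U S) (η : ℝ) (hη : 0 < η) :
    ∃ (F : ℕ → Set (E m)) (ρ : ℕ → ℝ), (∀ k, IsCompact (F k) ∧ F k ⊆ gmtSing S U ∧ 0 < ρ k) ∧
      gmtSing S U ⊆ ⋃ k, F k ∧
      ∀ k, ∀ x ∈ F k, ∀ r, 0 < r → r < ρ k → ∃ L : Submodule ℝ (E m),
        Module.finrank ℝ L ≤ m - 8 ∧ ∀ z ∈ F k ∩ ball x r, infDist (z - x) (L : Set (E m)) < η * r :=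
  gmt_sing_flat_of gmt_simons_all hm hd hS η hη

/-- `H^{m-7}(Σ) = 0`. -/
theorem gmt_sing_null {U : Set (E m)} {A : E m → Bil m} {f : E m → ℝ} {S : Set (E m)}
    (hm : 8 ≤ m) (hd : GmtData U A f) (hS : GmtLAM A f U S) :
    μH[(m : ℝ) - 7] (gmtSing S U) = 0 :=
  gmt_sing_null_of gmt_simons_all hm hd hS

end Claimed.Agent.Gmt
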