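import Claimed.Agent.Lib.Gmt.IFa
import Claimed.Agent.Lib.Gmt.BvProd

/-!
# Lib/Gmt: THE INTERFACE, part p = section 5 (products; owner of the proofs: helper184) (consumers: import `Claimed.Agent.Lib.Gmt.IF`).  Sub-captain: helper184.

Every statement here is a TOP of the library.  REDIRECTED (helper75, 10:50Z) to `BvProd.lean` (no `sorry` in this file).
Source: paper P, App. B (`cut:bv-compactness`, `cut:gmt`), App. C.2 (`local:flat-pieces`);
textbook: Maggi, *Sets of finite perimeter and geometric variational problems*, Parts II-III.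

Dictionary.  In a chart with metric matrix `G`, weight `ω`, pressure `p`:
`A = ω² det G · G⁻¹` (as a bilinear form on covectors `ξ`), `f = p ω √(det G)`.  Then
`gmtPerM A S = ω H^{m-1}_g ⌞ ∂*S`, and `GmtLAM A f U S` is (B.5) of the paper in the chart.
-/

set_option autoImplicit false
open scoped ContDiff ENNReal RealInnerProductSpace
open MeasureTheory Metric Set Filter

namespace Claimed.Agent.Gmt

variable {m : ℕ}

/-! ### 5. products -/

/-- `S` minimises in `U` iff `S × ℝ` minimises in `U × ℝ` (any coefficient `c > 0` of `dt²`). -/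
theorem gmt_lam_prod {n : ℕ} {U : Set (E n)} {A : E n → Bil n} {f : E n → ℝ} {S : Set (E n)}
    (hd : GmtData U A f) (c : E n → ℝ) (hc : ContDiffOn ℝ ∞ c U) (hc0 : ∀ x ∈ U, 0 < c x) :
    GmtLAM A f U S ↔
      GmtLAM (gmtProdInt A c) (fun y => f (gmtHor y)) (gmtTimesR U) (gmtTimesR S) :=
  ⟨gmtLAM_timesR hd.opn hd.int hd.f.continuousOn hc hc0,
    gmtLAM_of_timesR hd.opn hd.int hd.f.continuousOn hc hc0⟩

theorem gmt_sing_prod {n : ℕ} (U S : Set (E n)) :
    gmtSing (gmtTimesR S) (gmtTimesR U) = gmtTimesR (gmtSing S U) :=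
  gmtSing_timesR U S

end Claimed.Agent.Gmt
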