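import Claimed.Agent.Lib.Gmt.LamBase
import Claimed.Agent.Lib.Gmt.QmCompact

/-!
# Lib/Gmt [LamCompactA = part 1/3 of the former LamCompact] G3e: compactness and closure of local absolute minimisers with varying data.
(architect: helper75; these are the tops of `IF.lean` §2 (`cut:bv-compactness`) under the weaker hypothesis `GmtCvg`: locally uniform convergence of the data)

PLAN OF PROOFS.  Fix `W ⋐ U'`.
* `GmtCvg.bounds`, `GmtCvg.ratio`: `gmtInt_bounds` for `A'` on the compact set `closure W`: `c²|ξ|² ≤ A' x ξ ξ ≤ C²|ξ|²`; uniform convergence: `|A i x ξ ξ - A' x ξ ξ| ≤ ‖A i x - A' x‖ |ξ|² ≤ η c² |ξ|² ≤ η A' x ξ ξ`.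
* `gmtLAM_eventually_QM`: `GmtLAM.mono` to `W`, `GmtLAM.toQM` with the uniform bounds.   `gmtLAM_bddPer`: `gmtQM_bddPer` (constant domains `V`, `W ⋐ V ⋐ U'`), after a shift of the sequence.
* `gmtLAM_compact`: `gmtP_compactness` (eventual local bounds).
* `gmtLAM_liminf`: `Per_{A'}(S';V) ≤ liminf Per_{A'}(S i;V) ≤ liminf (1+η) Per_{A i}(S i;V)` for `V ⋐ U'` (`gmtPer_lsc`, `gmtPer_le_mul_gmtPer`, `GmtCvg.ratio`); general open `V ⊆ U'` by `gmtPer_iUnion_mono`.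
* `gmtLAM_compare` (KEY).  `S''` measurable, `S' △ S'' ⊆ K₀` compact `⊆ U'`, `O ⊇ K₀` open, `O ⋐ U'`.  Take `g` smooth, `g = 0` on `K₀`, `g = 1` off a compact subset of `O`, `0 ≤ g ≤ 1`.
  `gmtPer_glue_seq` in `O` with `S₁ i = S''`, `S₂ i = S i`, levels `(0,1)` [on `{0 < g}` one has `S'' = S'`, so the interface integrals are `≤ sup|∇g| |(S' △ S i) ∩ closure O| → 0`]:
  subsequence `φ`, a.e. level `t`, `κ_i → 0`.  Minimality of `S (φ i)` in `O` against `F_i = gmtGlue g t S'' (S (φ i))` (`F_i △ S_i ⊆ {g ≤ t}` compact in `O`), superadditivity `gmtPer_add_le_union`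
  for `{g<t}`, `O ∩ {t<g}`, cancel the finite number `Per_{A_i}(S_i; O ∩ {t<g})`:
  `Per_{A_i}(S_i;{g<t}) - ∫_{S_i ∩ {g<t}} f_i ≤ Per_{A_i}(S'';{g<t}) + κ_i - ∫_{S'' ∩ {g<t}} f_i`     (here `{g<t}` means `O ∩ {g<t}`).
  Let `i → ∞` (`GmtCvg.ratio` for the fixed set `S''`; uniform convergence of `f_i` and `L¹` convergence of `S_i` for the volume terms).
* `gmtLAM_closure`: `gmtLAM_compare` + `gmtLAM_liminf` + `gmtLAM_of_cofinal`.
* `gmtLAM_limsup`: `gmtLAM_compare` with `S'' = S'` applied to subsequences realising the `limsup`; `K ⊆ {g<t} ⊆ O`, `Per_{A'}(S';O) ↓ gmtPerM A' S' K` by outer regularity.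
* `gmtLAM_wk`: `gmt_portmanteau`.
* boundaries: `gmtLAM_eventually_QM` + `gmtQM_bd_lim`, `gmt_bd_approx`, `gmtQM_bd_hausdorff` (constant domains, shifted sequences).
-/

set_option autoImplicit false
open scoped ContDiff ENNReal RealInnerProductSpace Topology
open MeasureTheory Metric Set Filter

namespace Claimed.Agent.Gmt

variable {m : ℕ}

/-- locally uniformly convergent data on exhausting open sets. -/
structure GmtCvg (U : ℕ → Set (E m)) (A : ℕ → E m → Bil m) (f : ℕ → E m → ℝ)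
    (U' : Set (E m)) (A' : E m → Bil m) (f' : E m → ℝ) : Prop where
  exh : GmtExh U U'
  int : ∀ i, GmtInt (U i) (A i)
  int' : GmtInt U' A'
  cf : ∀ i, ContinuousOn (f i) (U i)
  cf' : ContinuousOn f' U'
  convA : ∀ K, IsCompact K → K ⊆ U' → TendstoUniformlyOn A A' atTop K
  convf : ∀ K, IsCompact K → K ⊆ U' → TendstoUniformlyOn f f' atTop K

variable {U : ℕ → Set (E m)} {A : ℕ → E m → Bil m} {f : ℕ → E m → ℝ} {U' : Set (E m)}
  {A' : E m → Bil m} {f' : E m → ℝ}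

theorem GmtCvg.comp (h : GmtCvg U A f U' A' f') {φ : ℕ → ℕ} (hφ : StrictMono φ) :
    GmtCvg (fun i => U (φ i)) (fun i => A (φ i)) (fun i => f (φ i)) U' A' f' :=
  ⟨⟨h.exh.1, fun i => h.exh.2.1 (φ i),
      fun K hK hKU => hφ.tendsto_atTop.eventually (h.exh.2.2 K hK hKU)⟩,
    fun i => h.int (φ i), h.int', fun i => h.cf (φ i), h.cf',
    fun K hK hKU u hu => hφ.tendsto_atTop.eventually (h.convA K hK hKU u hu),
    fun K hK hKU u hu => hφ.tendsto_atTop.eventually (h.convf K hK hKU u hu)⟩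

/-- constant data. -/
theorem gmtCvg_const {U₀ : Set (E m)} {A₀ : E m → Bil m} {f₀ : E m → ℝ} (hU : IsOpen U₀)
    (hA : GmtInt U₀ A₀) (hf : ContinuousOn f₀ U₀) :
    GmtCvg (fun _ => U₀) (fun _ => A₀) (fun _ => f₀) U₀ A₀ f₀ :=
  ⟨⟨hU, fun _ => hU, fun _ _ hKU => Eventually.of_forall fun _ => hKU⟩,
    fun _ => hA, hA, fun _ => hf, hf,
    fun _ _ _ _ hu => Eventually.of_forall fun _ _ _ => refl_mem_uniformity hu,
    fun _ _ _ _ hu => Eventually.of_forall fun _ _ _ => refl_mem_uniformity hu⟩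

/-- uniform closeness of the quadratic forms. -/
theorem GmtCvg.close (h : GmtCvg U A f U' A' f') {W : Set (E m)} (hW : GmtCC W U') {ε : ℝ}
    (hε : 0 < ε) :
    ∀ᶠ i in atTop, ∀ x ∈ closure W, ∀ ξ : E m, |A i x ξ ξ - A' x ξ ξ| ≤ ε * ‖ξ‖ ^ 2 := by
  have h0 : @TendstoUniformlyOn _ _ _ PseudoMetricSpace.toUniformSpace A A' atTop (closure W) :=
    h.convA _ hW.2.1 hW.2.2
  have h1 := Metric.tendstoUniformlyOn_iff.1 h0 ε hε
  filter_upwards [h1] with i hi x hx ξ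
  have h2 : ‖A i x - A' x‖ ≤ ε := by
    have h4 := (hi x hx).le
    rw [dist_comm] at h4
    exact (dist_eq_norm (A i x) (A' x)).symm.trans_le h4
  have h3 : A i x ξ ξ - A' x ξ ξ = (A i x - A' x) ξ ξ := rfl
  rw [h3, ← Real.norm_eq_abs]
  calc ‖(A i x - A' x) ξ ξ‖ ≤ ‖A i x - A' x‖ * ‖ξ‖ * ‖ξ‖ := ContinuousLinearMap.le_opNorm₂ _ _ _
    _ ≤ ε * ‖ξ‖ * ‖ξ‖ := by gcongr
    _ = ε * ‖ξ‖ ^ 2 := by ring

theorem GmtCvg.bounds (h : GmtCvg U A f U' A' f') {W : Set (E m)} (hW : GmtCC W U') :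
    ∃ c C Λ₀ : ℝ, 0 < c ∧ c ≤ C ∧ 0 ≤ Λ₀ ∧ ∀ᶠ i in atTop, closure W ⊆ U i ∧
      ∀ x ∈ closure W, |f i x| ≤ Λ₀ ∧
        ∀ ξ : E m, c ^ 2 * ‖ξ‖ ^ 2 ≤ A i x ξ ξ ∧ A i x ξ ξ ≤ C ^ 2 * ‖ξ‖ ^ 2 := by
  obtain ⟨c, C, hc, hcC, hb⟩ := gmtInt_bounds h.exh.1 h.int' hW.2.1 hW.2.2
  obtain ⟨M, hM⟩ := hW.2.1.exists_bound_of_continuousOn (h.cf'.mono hW.2.2)
  refine ⟨c / 2, 2 * C, |M| + 1, by positivity, by linarith, by positivity, ?_⟩
  have hε : 0 < c ^ 2 / 2 := by positivity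
  have h1 := Metric.tendstoUniformlyOn_iff.1 (h.convf _ hW.2.1 hW.2.2) 1 one_pos
  filter_upwards [h.exh.2.2 _ hW.2.1 hW.2.2, h.close hW hε, h1] with i hi1 hi2 hi3
  refine ⟨hi1, fun x hx => ⟨?_, fun ξ => ?_⟩⟩
  · have h2 := hi3 x hx
    rw [Real.dist_eq] at h2
    have h3 := hM x hx
    rw [Real.norm_eq_abs] at h3
    have h4 : |f i x| ≤ |f' x| + |f' x - f i x| := by
      have := abs_sub_abs_le_abs_sub (f i x) (f' x)
      rw [abs_sub_comm (f i x)] at this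
      linarith
    have h5 := le_abs_self M
    linarith
  · have h2 := abs_le.1 (hi2 x hx ξ)
    have h3 := hb x hx ξ
    have h4 : 0 ≤ ‖ξ‖ ^ 2 := by positivity
    have h5 : c ^ 2 * ‖ξ‖ ^ 2 ≤ C ^ 2 * ‖ξ‖ ^ 2 := by
      have : c ^ 2 ≤ C ^ 2 := by gcongr
      gcongr
    constructor
    · nlinarith [h2.1, h3.1]
    · nlinarith [h2.2, h3.2]

theorem GmtCvg.ratio (h : GmtCvg U A f U' A' f') {W : Set (E m)} (hW : GmtCC W U') {η : ℝ}
    (hη : 0 < η) :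
    ∀ᶠ i in atTop, ∀ x ∈ closure W, ∀ ξ : E m,
      A i x ξ ξ ≤ (1 + η) ^ 2 * A' x ξ ξ ∧ A' x ξ ξ ≤ (1 + η) ^ 2 * A i x ξ ξ := by
  obtain ⟨c, C, hc, hcC, hb⟩ := gmtInt_bounds h.exh.1 h.int' hW.2.1 hW.2.2
  have hε : 0 < η / (1 + η) * c ^ 2 := by positivity
  filter_upwards [h.close hW hε] with i hi x hx ξ
  have h2 := abs_le.1 (hi x hx ξ)
  have h3 := (hb x hx ξ).1
  have h4 : 0 ≤ ‖ξ‖ ^ 2 := by positivity
  have h5 : 0 ≤ A' x ξ ξ := le_trans (by positivity) h3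
  obtain ⟨t, ht⟩ : ∃ t, t = η / (1 + η) := ⟨_, rfl⟩
  rw [← ht] at h2
  have ht0 : 0 < t := by rw [ht]; positivity
  have ht1 : (1 + η) * (1 - t) = 1 := by
    rw [ht]
    field_simp
    ring
  have htη : t ≤ η := by
    rw [ht]
    exact div_le_self hη.le (by linarith)
  have h6 : t * c ^ 2 * ‖ξ‖ ^ 2 ≤ t * A' x ξ ξ := by
    have := mul_le_mul_of_nonneg_left h3 ht0.le
    linarith
  have h7 : (1 - t) * A' x ξ ξ ≤ A i x ξ ξ := by linarith [h2.1]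
  have h8 : A' x ξ ξ ≤ (1 + η) * A i x ξ ξ := by
    have := mul_le_mul_of_nonneg_left h7 (by linarith : (0:ℝ) ≤ 1 + η)
    rw [← mul_assoc, ht1, one_mul] at this
    exact this
  have h9 : 0 ≤ A i x ξ ξ := by
    have h10 : 0 ≤ 1 - t := by
      have : t ≤ 1 := by
        rw [ht]
        exact (div_le_one (by linarith)).2 (by linarith)
      linarith
    exact le_trans (mul_nonneg h10 h5) h7
  constructor
  · have : A i x ξ ξ ≤ (1 + η) * A' x ξ ξ := by nlinarith [h2.2]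
    nlinarith
  · nlinarith

theorem gmt_exists_mul_lt {a b : ℝ≥0∞} (h : b < a) :
    ∃ η : ℝ, 0 < η ∧ ENNReal.ofReal (1 + η) * b < a := by
  have ht : Tendsto (fun η : ℝ => ENNReal.ofReal (1 + η) * b) (𝓝[>] 0) (𝓝 (1 * b)) := by
    refine ENNReal.Tendsto.mul_const ?_ (Or.inl one_ne_zero)
    have : Tendsto (fun η : ℝ => 1 + η) (𝓝[>] 0) (𝓝 1) := by
      have hc : Continuous fun η : ℝ => 1 + η := by fun_prop
      have := hc.tendsto 0
      simp only [add_zero] at this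
      exact this.mono_left nhdsWithin_le_nhds
    have h2 := (ENNReal.continuous_ofReal.tendsto 1).comp this
    rwa [ENNReal.ofReal_one] at h2
  rw [one_mul] at ht
  obtain ⟨η, h1, h2⟩ := ((ht.eventually (gt_mem_nhds h)).and self_mem_nhdsWithin).exists
  exact ⟨η, h2, h1⟩

/-- convergence of the perimeters of a FIXED set. -/
theorem GmtCvg.tendsto_gmtPer (h : GmtCvg U A f U' A' f') {W : Set (E m)} (hW : GmtCC W U')
    (S : Set (E m)) (hfin : gmtPer A' S W ≠ ⊤) :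
    Tendsto (fun i => gmtPer (A i) S W) atTop (𝓝 (gmtPer A' S W)) := by
  have key : ∀ η : ℝ, 0 < η → ∀ᶠ i in atTop,
      gmtPer (A i) S W ≤ ENNReal.ofReal (1 + η) * gmtPer A' S W ∧
      gmtPer A' S W ≤ ENNReal.ofReal (1 + η) * gmtPer (A i) S W := by
    intro η hη
    filter_upwards [h.ratio hW hη] with i hi
    exact ⟨gmtPer_le_mul_gmtPer (by linarith) (fun x hx ξ => (hi x (subset_closure hx) ξ).1) S,
      gmtPer_le_mul_gmtPer (by linarith) (fun x hx ξ => (hi x (subset_closure hx) ξ).2) S⟩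
  refine tendsto_order.2 ⟨fun a ha => ?_, fun a ha => ?_⟩
  · obtain ⟨η, hη, h1⟩ := gmt_exists_mul_lt ha
    filter_upwards [key η hη] with i hi
    exact lt_of_mul_lt_mul_left' (h1.trans_le hi.2)
  · obtain ⟨η, hη, h1⟩ := gmt_exists_mul_lt ha
    filter_upwards [key η hη] with i hi
    exact hi.1.trans_lt h1

variable {S : ℕ → Set (E m)}

theorem gmtLAM_eventually_QM (h : GmtCvg U A f U' A' f')
    (hS : ∀ i, GmtLAM (A i) (f i) (U i) (S i)) {W : Set (E m)} (hW : GmtCC W U') :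
    ∃ δ Λ : ℝ, 0 ≤ δ ∧ 0 ≤ Λ ∧ ∀ᶠ i in atTop, GmtQM δ Λ W (S i) := by
  obtain ⟨c, C, Λ₀, hc, hcC, hΛ, hb⟩ := h.bounds hW
  refine ⟨C / c - 1, Λ₀ / c, ?_, by positivity, ?_⟩
  · rw [sub_nonneg, le_div_iff₀ hc]
    linarith
  · filter_upwards [hb] with i hi
    have hWU : W ⊆ U i := subset_closure.trans hi.1
    exact ((hS i).mono hWU).toQM hW.1 ((h.cf i).mono hWU) hc hcC
      (fun x hx ξ => (hi.2 x (subset_closure hx)).2 ξ) (fun x hx => (hi.2 x (subset_closure hx)).1)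

theorem gmtLAM_bddPer (h : GmtCvg U A f U' A' f') (hS : ∀ i, GmtLAM (A i) (f i) (U i) (S i)) :
    GmtBddPer U' S := by
  intro W hW
  obtain ⟨V, hV, hWV⟩ := gmt_exists_cc hW.2.1 h.exh.1 hW.2.2
  obtain ⟨δ, Λ, hδ, hΛ, hQ⟩ := gmtLAM_eventually_QM h hS hV
  obtain ⟨N, hN⟩ := eventually_atTop.1 hQ
  obtain ⟨C, hC, hb⟩ := gmtQM_bddPer (U := fun _ => V) (U' := V)
    ⟨hV.1, fun _ => hV.1, fun _ _ hKU => Eventually.of_forall fun _ => hKU⟩
    (δ := fun _ => δ) (Λ := fun _ => Λ) (S := fun i => S (i + N))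
    (fun i => hN (i + N) (Nat.le_add_left _ _)) (δ₀ := δ) (Λ₀ := Λ)
    (fun _ => ⟨hδ, le_rfl⟩) (fun _ => ⟨hΛ, le_rfl⟩) (W := W) ⟨hW.1, hW.2.1, hWV⟩
  refine ⟨C, hC, ?_⟩
  obtain ⟨M, hM⟩ := eventually_atTop.1 hb
  refine eventually_atTop.2 ⟨M + N, fun j hj => ?_⟩
  have := hM (j - N) (by omega)
  rwa [Nat.sub_add_cancel (by omega)] at this

/-- COMPACTNESS (`IF.gmt_lam_compact`). -/
theorem gmtLAM_compact (h : GmtCvg U A f U' A' f') (hS : ∀ i, GmtLAM (A i) (f i) (U i) (S i)) :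
    ∃ φ : ℕ → ℕ, StrictMono φ ∧ ∃ S' : Set (E m), MeasurableSet S' ∧
      GmtConv U' (fun i => S (φ i)) S' := by
  obtain ⟨φ, S', hφ, hS', -, hc⟩ := gmtP_compactness h.exh.1 (fun i => (hS i).meas) (by
    intro x hx
    obtain ⟨r, hr, hrU⟩ := Metric.nhds_basis_closedBall.mem_iff.1 (h.exh.1.mem_nhds hx)
    obtain ⟨C, hC, hb⟩ := gmtLAM_bddPer h hS (ball x r) ⟨isOpen_ball,
      (isCompact_closedBall x r).of_isClosed_subset isClosed_closure closure_ball_subset_closedBall,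
      closure_ball_subset_closedBall.trans hrU⟩
    exact ⟨r, hr, C, hC, hb⟩)
  exact ⟨φ, hφ, S', hS', hc⟩

end Claimed.Agent.Gmt
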