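import Claimed.Agent.Lib.Gmt.LamCompactA

/-!
# Lib/Gmt [LamCompactB = part 2/3 of the former LamCompact] G3e: compactness and closure of local absolute minimisers with varying data.
(architect: helper75; these are the tops of `IF.lean` §2 (`cut:bv-compactness`) under the weaker hypothesis `GmtCvg`: locally uniform convergence of the data)

PLAN OF PROOFS.  Fix `W ⋐ U'`.
* `GmtCvg.bounds`, `GmtCvg.ratio`: `gmtInt_bounds` for `A'` on the compact set `closure W`: `c²|ξ|² ≤ A' x ξ ξ ≤ C²|ξ|²`; uniform convergence: `|A i x ξ ξ - A' x ξ ξ| ≤ ‖A i x - A' x‖ |ξ|² ≤ η c² |ξ|² ≤ η A' x ξ ξ`.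
* `gmtLAM_eventually_QM`: `GmtLAM.mono` to `W`, `GmtLAM.toQM` with the uniform bounds.   `gmtLAM_bddPer`: `gmtQM_bddPer` (constant domains `V`, `W ⋐ V ⋐ U'`), after a shift of the sequence.
* `gmtLAM_compact`: `gmtP_compactness` (eventual local bounds).
* `gmtLAM_liminf`: `Per_{A'}(S';V) ≤ liminf Per_{A'}(S i;V) ≤ liminf (1+η) Per_{A i}(S i;V)` for `V ⋐ U'` (`gmtPer_lsc`, `gmtPer_le_mul_gmtPer`, `GmtCvg.ratio`); general open `V ⊆ U'` by `gmtPer_iUnion_mono`.
* `gmtLAM_compare` (KEY).  `S''` measurable, `S' △ S'' ⊆ K₀` compact `⊆ U'`, `O ⊇ K₀` open, `O ⋐ U'`.  Take `g` smooth, `g = 0` on `K₀`, `g = 1` off a compact subset of `O`, `0 ≤ g ≤ 1`.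
  `gmtPer_glue_seq` in `O` with `S₁ i = S''`, `S₂ i = S i`, levels `(0,1)` [on `{0 < g}` one has `S'' = S'`, so the interface integrals are `≤ sup|∇g| |(S' △ S i) ∩ closure O| → 0`]:
  subsequence `φ`, a.e. level `t`, `κ_i → 0`.  Minimality of `S (φ i)` in `O` against `F_i = gmtGlue g t S'' (S (φ i))` (`F_i △ S_i ⊆ {g ≤ t}` compact in `O`), superadditivity `gmtPer_add_le_union`
  for `{g<t}`, `O ∩ {t<g}`, cancel the finite number `Per_{A_i}(S_i; O ∩ {t<g})`:
  `Per_{A_i}(S_i;{g<t}) - ∫_{S_i ∩ {g<t}} f_i ≤ Per_{A_i}(S'';{g<t}) + κ_i - ∫_{S'' ∩ {g<t}} f_i`     (here `{g<t}` means `O ∩ {g<t}`).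
  Let `i → ∞` (`GmtCvg.ratio` for the fixed set `S''`; uniform convergence of `f_i` and `L¹` convergence of `S_i` for the volume terms).
* `gmtLAM_closure`: `gmtLAM_compare` + `gmtLAM_liminf` + `gmtLAM_of_cofinal`.
* `gmtLAM_limsup`: `gmtLAM_compare` with `S'' = S'` applied to subsequences realising the `limsup`; `K ⊆ {g<t} ⊆ O`, `Per_{A'}(S';O) ↓ gmtPerM A' S' K` by outer regularity.
* `gmtLAM_wk`: `gmt_portmanteau`.
* boundaries: `gmtLAM_eventually_QM` + `gmtQM_bd_lim`, `gmt_bd_approx`, `gmtQM_bd_hausdorff` (constant domains, shifted sequences).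
-/

set_option autoImplicit false
open scoped ContDiff ENNReal RealInnerProductSpace Topology
open MeasureTheory Metric Set Filter

namespace Claimed.Agent.Gmt

variable {m : ℕ}

variable {U : ℕ → Set (E m)} {A : ℕ → E m → Bil m} {f : ℕ → E m → ℝ} {U' : Set (E m)}
  {A' : E m → Bil m} {f' : E m → ℝ}

variable {S : ℕ → Set (E m)}

/-- lower semicontinuity with varying integrands (no minimality). -/
theorem gmtLAM_liminf (h : GmtCvg U A f U' A' f') (hS : ∀ i, MeasurableSet (S i))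
    {S' : Set (E m)} (hS' : MeasurableSet S') (hc : GmtConv U' S S') {V : Set (E m)}
    (hV : IsOpen V) (hVU : V ⊆ U') :
    gmtPer A' S' V ≤ liminf (fun i => gmtPer (A i) (S i) V) atTop := by
  obtain ⟨L, hL⟩ : ∃ L, L = liminf (fun i => gmtPer (A i) (S i) V) atTop := ⟨_, rfl⟩
  rw [← hL]
  have key : ∀ W, GmtCC W V → gmtPer A' S' W ≤ L := by
    intro W hW
    have hWU : GmtCC W U' := ⟨hW.1, hW.2.1, hW.2.2.trans hVU⟩
    have hWV : W ⊆ V := subset_closure.trans hW.2.2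
    by_contra hlt
    rw [not_le] at hlt
    obtain ⟨η, hη, h1⟩ := gmt_exists_mul_lt hlt
    have h2 : gmtPer A' S' W ≤ liminf (fun i => gmtPer A' (S i) W) atTop :=
      gmtPer_lsc A' hW.1 hS hS' (hc.mono (hWV.trans hVU))
    have h3 : liminf (fun i => gmtPer A' (S i) W) atTop ≤
        liminf (fun i => ENNReal.ofReal (1 + η) * gmtPer (A i) (S i) V) atTop := by
      refine liminf_le_liminf ?_
      filter_upwards [h.ratio hWU hη] with i hi
      refine (gmtPer_le_mul_gmtPer (by linarith)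
        (fun x hx ξ => (hi x (subset_closure hx) ξ).2) (S i)).trans ?_
      gcongr
      exact gmtPer_mono _ _ hWV
    rw [ENNReal.liminf_const_mul_of_ne_top ENNReal.ofReal_ne_top, ← hL] at h3
    exact absurd (h2.trans h3) (not_le.2 h1)
  conv_lhs => unfold gmtPer
  refine iSup_le fun T => iSup_le fun hT => iSup_le fun h1 => ?_
  obtain ⟨W, hW, hKW⟩ := gmt_exists_cc hT.cpt.isCompact hV hT.sub
  exact (integral_le_gmtPer ⟨hT.c1, hT.cpt, hKW⟩ h1).trans (key W hW)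

/-- set integrals of a bounded function depend continuously on the set. -/
theorem gmt_abs_setIntegral_sub_le {g : E m → ℝ} {M : ℝ} (hM0 : 0 ≤ M) {B P Q : Set (E m)}
    (hP : MeasurableSet P) (hQ : MeasurableSet Q) (hBfin : volume B ≠ ⊤)
    (hg : IntegrableOn g B) (hM : ∀ x ∈ B, |g x| ≤ M) :
    |(∫ x in P ∩ B, g x) - ∫ x in Q ∩ B, g x| ≤ 2 * M * (volume (symmDiff P Q ∩ B)).toReal := by
  have e1 := integral_inter_add_sdiff (μ := volume) (s := P ∩ B) (t := Q) (f := g) hQ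
    (hg.mono_set inter_subset_right)
  have e2 := integral_inter_add_sdiff (μ := volume) (s := Q ∩ B) (t := P) (f := g) hP
    (hg.mono_set inter_subset_right)
  have e3 : P ∩ B ∩ Q = Q ∩ B ∩ P := by
    ext x
    simp only [mem_inter_iff]
    tauto
  rw [e3] at e1
  have hfin : volume (symmDiff P Q ∩ B) ≠ ⊤ :=
    ((measure_mono inter_subset_right).trans_lt hBfin.lt_top).ne
  have hb : ∀ D : Set (E m), D ⊆ symmDiff P Q ∩ B →
      |∫ x in D, g x| ≤ M * (volume (symmDiff P Q ∩ B)).toReal := by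
    intro D hD
    have h1 := norm_setIntegral_le_of_norm_le_const (μ := volume) (s := D) (f := g) (C := M)
      ((measure_mono hD).trans_lt hfin.lt_top) (fun x hx => hM x (hD hx).2)
    rw [Real.norm_eq_abs] at h1
    refine h1.trans (mul_le_mul_of_nonneg_left ?_ hM0)
    exact ENNReal.toReal_mono hfin (measure_mono hD)
  have h1 := hb ((P ∩ B) \ Q) (fun x hx => ⟨Or.inl ⟨hx.1.1, hx.2⟩, hx.1.2⟩)
  have h2 := hb ((Q ∩ B) \ P) (fun x hx => ⟨Or.inr ⟨hx.1.1, hx.2⟩, hx.1.2⟩)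
  have e4 : (∫ x in P ∩ B, g x) - ∫ x in Q ∩ B, g x
      = (∫ x in (P ∩ B) \ Q, g x) - ∫ x in (Q ∩ B) \ P, g x := by linarith
  rw [e4]
  have h3 := abs_sub (∫ x in (P ∩ B) \ Q, g x) (∫ x in (Q ∩ B) \ P, g x)
  linarith

/-- convergence of the volume terms. -/
theorem GmtCvg.tendsto_setIntegral (h : GmtCvg U A f U' A' f') (hS : ∀ i, MeasurableSet (S i))
    {S' : Set (E m)} (hS' : MeasurableSet S') (hc : GmtConv U' S S') {V : Set (E m)}
    (hV : GmtCC V U') :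
    Tendsto (fun i => ∫ x in S i ∩ V, f i x) atTop (𝓝 (∫ x in S' ∩ V, f' x)) := by
  obtain ⟨M, hM⟩ := hV.2.1.exists_bound_of_continuousOn (h.cf'.mono hV.2.2)
  have hVfin : volume V ≠ ⊤ :=
    ((measure_mono subset_closure).trans_lt hV.2.1.measure_lt_top).ne
  have hf'V : IntegrableOn f' V :=
    ((h.cf'.mono hV.2.2).integrableOn_compact hV.2.1).mono_set subset_closure
  -- the second part
  have h2 : Tendsto (fun i => ∫ x in S i ∩ V, f' x) atTop (𝓝 (∫ x in S' ∩ V, f' x)) := by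
    rw [tendsto_iff_norm_sub_tendsto_zero]
    have hz : Tendsto (fun i => 2 * |M| * (volume (symmDiff (S i) S' ∩ closure V)).toReal) atTop
        (𝓝 0) := by
      have := (ENNReal.tendsto_toReal ENNReal.zero_ne_top).comp (hc _ hV.2.1 hV.2.2)
      have h3 := this.const_mul (2 * |M|)
      simpa using h3
    refine squeeze_zero (fun _ => norm_nonneg _) (fun i => ?_) hz
    rw [Real.norm_eq_abs]
    refine (gmt_abs_setIntegral_sub_le (abs_nonneg M) (hS i) hS' hVfin hf'V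
      (fun x hx => ((hM x (subset_closure hx)).trans (le_abs_self M)))).trans ?_
    refine mul_le_mul_of_nonneg_left ?_ (by positivity)
    refine ENNReal.toReal_mono ?_ (measure_mono (inter_subset_inter_right _ subset_closure))
    exact ((measure_mono inter_subset_right).trans_lt hV.2.1.measure_lt_top).ne
  -- the first part
  have h1 : Tendsto (fun i => (∫ x in S i ∩ V, f i x) - ∫ x in S i ∩ V, f' x) atTop (𝓝 0) := by
    rw [Metric.tendsto_atTop]
    intro ε hε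
    have hε' : 0 < ε / ((volume V).toReal + 1) := by positivity
    have hu := Metric.tendstoUniformlyOn_iff.1 (h.convf _ hV.2.1 hV.2.2) _ hε'
    obtain ⟨N, hN⟩ := eventually_atTop.1 (hu.and (h.exh.2.2 _ hV.2.1 hV.2.2))
    refine ⟨N, fun i hi => ?_⟩
    obtain ⟨hi1, hi2⟩ := hN i hi
    have hfiV : IntegrableOn (f i) V :=
      (((h.cf i).mono hi2).integrableOn_compact hV.2.1).mono_set subset_closure
    rw [dist_zero_right, ← integral_sub (hfiV.mono_set inter_subset_right)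
      (hf'V.mono_set inter_subset_right)]
    have h3 := norm_setIntegral_le_of_norm_le_const (μ := volume) (s := S i ∩ V)
      (f := fun x => f i x - f' x) (C := ε / ((volume V).toReal + 1))
      ((measure_mono inter_subset_right).trans_lt hVfin.lt_top) (fun x hx => by
        have := hi1 x (subset_closure hx.2)
        rw [dist_comm, Real.dist_eq] at this
        exact this.le)
    refine h3.trans_lt ?_
    have h4 : volume.real (S i ∩ V) ≤ (volume V).toReal :=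
      ENNReal.toReal_mono hVfin (measure_mono inter_subset_right)
    have h5 : 0 ≤ (volume V).toReal := ENNReal.toReal_nonneg
    calc ε / ((volume V).toReal + 1) * volume.real (S i ∩ V)
        ≤ ε / ((volume V).toReal + 1) * (volume V).toReal :=
          mul_le_mul_of_nonneg_left h4 hε'.le
      _ < ε / ((volume V).toReal + 1) * ((volume V).toReal + 1) :=
          mul_lt_mul_of_pos_left (by linarith) hε'
      _ = ε := by field_simp
  have h3 := h1.add h2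
  simpa using h3

/-- one index: minimality against the glued competitor. -/
theorem gmtLAM_glue_ineq {A₀ : E m → Bil m} {f₀ : E m → ℝ} {U₀ S₀ S'' O : Set (E m)}
    {g : E m → ℝ} {t : ℝ} {κ : ℝ≥0∞} (h : GmtLAM A₀ f₀ U₀ S₀) (hf : ContinuousOn f₀ U₀)
    (hO : GmtCC O U₀) (hS'' : MeasurableSet S'') (hg : Continuous g)
    (hKt : IsCompact {x | g x ≤ t}) (hKtO : {x | g x ≤ t} ⊆ O)
    (hglue : gmtPer A₀ (gmtGlue g t S'' S₀) O ≤
      gmtPer A₀ S'' {x | g x < t} + gmtPer A₀ S₀ (O ∩ {x | t < g x}) + κ)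
    (hκ : κ ≠ ⊤) (hp : gmtPer A₀ S'' {x | g x < t} ≠ ⊤) :
    (gmtPer A₀ S₀ {x | g x < t}).toReal ≤ (gmtPer A₀ S'' {x | g x < t}).toReal + κ.toReal +
      (∫ x in S₀ ∩ {x | g x < t}, f₀ x) - ∫ x in S'' ∩ {x | g x < t}, f₀ x := by
  obtain ⟨V, hVdef⟩ : ∃ V : Set (E m), V = {x | g x < t} := ⟨_, rfl⟩
  obtain ⟨R, hRdef⟩ : ∃ R : Set (E m), R = O ∩ {x | t < g x} := ⟨_, rfl⟩
  obtain ⟨F, hFdef⟩ : ∃ F : Set (E m), F = gmtGlue g t S'' S₀ := ⟨_, rfl⟩
  have hFmem : ∀ x, x ∈ F ↔ (x ∈ S'' ∧ x ∈ V) ∨ (x ∈ S₀ ∧ x ∉ V) := by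
    intro x
    rw [hFdef, hVdef]
    rfl
  rw [← hVdef, ← hRdef, ← hFdef] at hglue
  rw [← hVdef] at hp ⊢
  have hVo : IsOpen V := by
    rw [hVdef]
    exact isOpen_lt hg continuous_const
  have hVO : V ⊆ O := by
    rw [hVdef]
    exact fun x (hx : g x < t) => hKtO (show g x ≤ t from hx.le)
  have hRo : IsOpen R := by
    rw [hRdef]
    exact hO.1.inter (isOpen_lt continuous_const hg)
  have hRO : R ⊆ O := by
    rw [hRdef]
    exact inter_subset_left
  have hdisj : Disjoint V R := by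
    rw [Set.disjoint_left, hVdef, hRdef]
    intro x (hx : g x < t) hx'
    exact lt_asymm hx (show t < g x from hx'.2)
  have hsup : gmtPer A₀ S₀ V + gmtPer A₀ S₀ R ≤ gmtPer A₀ S₀ O :=
    (gmtPer_add_le_union A₀ h.meas hVo hRo hdisj).trans
      (gmtPer_mono A₀ S₀ (union_subset hVO hRO))
  have hfinO := h.fin O hO
  have hb : gmtPer A₀ S₀ R ≠ ⊤ := ne_top_of_le_ne_top hfinO (gmtPer_mono A₀ S₀ hRO)
  have ha : gmtPer A₀ S₀ V ≠ ⊤ := ne_top_of_le_ne_top hfinO (gmtPer_mono A₀ S₀ hVO)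
  have hFm : MeasurableSet F := by
    rw [hFdef]
    exact measurableSet_gmtGlue hg.measurable t hS'' h.meas
  have hsum : gmtPer A₀ S'' V + gmtPer A₀ S₀ R + κ ≠ ⊤ :=
    ENNReal.add_ne_top.2 ⟨ENNReal.add_ne_top.2 ⟨hp, hb⟩, hκ⟩
  have hFfin : gmtPer A₀ F O ≠ ⊤ := ne_top_of_le_ne_top hsum hglue
  have hCD : GmtCD S₀ F O := by
    refine ⟨{x | g x ≤ t}, hKt, hKtO, fun x hx => ?_⟩
    by_contra hxt
    have hxV : x ∉ V := by
      rw [hVdef]
      exact fun (hh : g x < t) => hxt (show g x ≤ t from hh.le)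
    rcases hx with ⟨h1, h2⟩ | ⟨h1, h2⟩
    · exact h2 ((hFmem x).2 (Or.inr ⟨h1, hxV⟩))
    · rcases (hFmem x).1 h1 with h3 | h3
      · exact hxV h3.2
      · exact h2 h3.1
  have hmin := h.min O F hO hFm hCD hFfin
  have r1 : (gmtPer A₀ S₀ V).toReal + (gmtPer A₀ S₀ R).toReal ≤ (gmtPer A₀ S₀ O).toReal := by
    rw [← ENNReal.toReal_add ha hb]
    exact ENNReal.toReal_mono hfinO hsup
  have r2 : (gmtPer A₀ F O).toReal ≤
      (gmtPer A₀ S'' V).toReal + (gmtPer A₀ S₀ R).toReal + κ.toReal := by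
    rw [← ENNReal.toReal_add hp hb, ← ENNReal.toReal_add (ENNReal.add_ne_top.2 ⟨hp, hb⟩) hκ]
    exact ENNReal.toReal_mono hsum hglue
  have hfO : IntegrableOn f₀ O :=
    ((hf.mono hO.2.2).integrableOn_compact hO.2.1).mono_set subset_closure
  have i1 := integral_inter_add_sdiff (μ := volume) (s := S₀ ∩ O) (t := V) (f := f₀)
    hVo.measurableSet (hfO.mono_set inter_subset_right)
  have i2 := integral_inter_add_sdiff (μ := volume) (s := F ∩ O) (t := V) (f := f₀)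
    hVo.measurableSet (hfO.mono_set inter_subset_right)
  have s1 : S₀ ∩ O ∩ V = S₀ ∩ V := by
    ext x
    simp only [mem_inter_iff]
    exact ⟨fun hx => ⟨hx.1.1, hx.2⟩, fun hx => ⟨⟨hx.1, hVO hx.2⟩, hx.2⟩⟩
  have s2 : F ∩ O ∩ V = S'' ∩ V := by
    ext x
    simp only [mem_inter_iff, hFmem]
    constructor
    · rintro ⟨⟨h1 | h1, -⟩, h3⟩
      · exact h1
      · exact absurd h3 h1.2
    · intro hx
      exact ⟨⟨Or.inl hx, hVO hx.2⟩, hx.2⟩
  have s3 : (F ∩ O) \ V = (S₀ ∩ O) \ V := by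
    ext x
    simp only [Set.mem_sdiff, mem_inter_iff, hFmem]
    constructor
    · rintro ⟨⟨h1 | h1, h2⟩, h3⟩
      · exact absurd h1.2 h3
      · exact ⟨⟨h1.1, h2⟩, h3⟩
    · rintro ⟨⟨h1, h2⟩, h3⟩
      exact ⟨⟨Or.inr ⟨h1, h3⟩, h2⟩, h3⟩
  rw [s1] at i1
  rw [s2, s3] at i2
  linarith

/-- `gmtLAM_compare` when the bounds hold for all indices. -/
theorem gmtLAM_compare_aux (h : GmtCvg U A f U' A' f')
    (hS : ∀ i, GmtLAM (A i) (f i) (U i) (S i))
    {S' S'' K₀ O : Set (E m)} (hS' : MeasurableSet S') (hc : GmtConv U' S S')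
    (hS'' : MeasurableSet S'') (hK₀ : IsCompact K₀) (hd : symmDiff S' S'' ⊆ K₀) (hO : GmtCC O U')
    (hKO : K₀ ⊆ O) (hfin : gmtPer A' S'' O ≠ ⊤) {C : ℝ} (hC : 0 ≤ C)
    (hOU : ∀ i, closure O ⊆ U i)
    (hb : ∀ i, ∀ x ∈ O, ∀ ξ : E m, A i x ξ ξ ≤ C ^ 2 * ‖ξ‖ ^ 2) :
    ∃ V : Set (E m), GmtCC V U' ∧ K₀ ⊆ V ∧ V ⊆ O ∧ ∃ φ : ℕ → ℕ, StrictMono φ ∧
      limsup (fun i => gmtPer (A (φ i)) (S (φ i)) V) atTop ≤
        gmtPer A' S'' V + ENNReal.ofReal ((∫ x in S' ∩ V, f' x) - ∫ x in S'' ∩ V, f' x) ∧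
      (limsup (fun i => gmtPer (A (φ i)) (S (φ i)) V) atTop).toReal - ∫ x in S' ∩ V, f' x ≤
        (gmtPer A' S'' V).toReal - ∫ x in S'' ∩ V, f' x := by
  obtain ⟨χ, hχ, hχc, hχO, hχ01, hχ1⟩ := gmt_exists_cutoff hK₀ hO.1 hKO
  obtain ⟨g, hgdef⟩ : ∃ g : E m → ℝ, g = fun x => 1 - χ x := ⟨_, rfl⟩
  have hgx : ∀ x, g x = 1 - χ x := fun x => by rw [hgdef]
  have hg : ContDiff ℝ ∞ g := by
    rw [hgdef]
    exact contDiff_const.sub hχ
  have h1le : ((1 : ℕ∞) : WithTop ℕ∞) ≤ ((⊤ : ℕ∞) : WithTop ℕ∞) := by exact_mod_cast le_top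
  have hgK : ∀ x ∈ K₀, g x = 0 := by
    intro x hx
    rw [hgx, hχ1.self_of_nhdsSet x hx, sub_self]
  have hgL : ∀ x, g x < 1 → x ∈ tsupport χ := by
    intro x hx
    apply subset_tsupport
    intro h0
    rw [hgx, h0, sub_zero] at hx
    exact lt_irrefl _ hx
  obtain ⟨M, hM⟩ : ∃ M : ℝ, ∀ x, ‖fderiv ℝ g x‖ ≤ M := by
    obtain ⟨M, hM⟩ := (hχ.continuous_fderiv (by simp)).bounded_above_of_compact_support
      (hχc.fderiv (𝕜 := ℝ))
    refine ⟨M, fun x => ?_⟩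
    rw [hgdef, fderiv_const_sub, norm_neg]
    exact hM x
  have hlim : Tendsto (fun i => ∫⁻ x in (symmDiff S'' (S i) ∩ O) ∩ g ⁻¹' Ioo 0 1,
      ‖fderiv ℝ g x‖ₑ) atTop (𝓝 0) := by
    have hz : Tendsto (fun i => ENNReal.ofReal M * volume (symmDiff (S i) S' ∩ closure O)) atTop
        (𝓝 0) := by
      have := ENNReal.Tendsto.const_mul (a := ENNReal.ofReal M) (hc _ hO.2.1 hO.2.2)
        (Or.inr ENNReal.ofReal_ne_top)
      simpa using this
    refine tendsto_of_tendsto_of_tendsto_of_le_of_le tendsto_const_nhds hz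
      (fun _ => zero_le) (fun i => ?_)
    calc ∫⁻ x in (symmDiff S'' (S i) ∩ O) ∩ g ⁻¹' Ioo 0 1, ‖fderiv ℝ g x‖ₑ
        ≤ ∫⁻ _ in (symmDiff S'' (S i) ∩ O) ∩ g ⁻¹' Ioo 0 1, ENNReal.ofReal M := by
          refine lintegral_mono fun x => ?_
          rw [← ofReal_norm]
          exact ENNReal.ofReal_le_ofReal (hM x)
      _ = ENNReal.ofReal M * volume ((symmDiff S'' (S i) ∩ O) ∩ g ⁻¹' Ioo 0 1) :=
          setLIntegral_const _ _
      _ ≤ ENNReal.ofReal M * volume (symmDiff (S i) S' ∩ closure O) := by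
          refine mul_le_mul' le_rfl (measure_mono ?_)
          rintro x ⟨⟨hx1, hx2⟩, hx3⟩
          have hx3' : 0 < g x := hx3.1
          have hxK : x ∉ K₀ := fun hh => by
            rw [hgK x hh] at hx3'
            exact lt_irrefl _ hx3'
          have hiff : x ∈ S' ↔ x ∈ S'' := by
            constructor
            · intro h1
              by_contra h2
              exact hxK (hd (Or.inl ⟨h1, h2⟩))
            · intro h1
              by_contra h2
              exact hxK (hd (Or.inr ⟨h1, h2⟩))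
          refine ⟨?_, subset_closure hx2⟩
          rcases hx1 with ⟨a, b⟩ | ⟨a, b⟩
          · exact Or.inr ⟨hiff.2 a, b⟩
          · exact Or.inl ⟨a, fun hh => b (hiff.1 hh)⟩
  obtain ⟨φ, hφ, hae⟩ := gmtPer_glue_seq hO.1 hC hb hg.continuous (a := 0) (b := 1)
    ((hg.of_le h1le).contDiffOn) (S₁ := fun _ => S'') (S₂ := S) (fun _ => hS'')
    (fun i => (hS i).meas) hlim
  obtain ⟨t, ht, κ, hκ, hglue⟩ : ∃ t ∈ Ioo (0 : ℝ) 1, ∃ κ : ℕ → ℝ≥0∞,
      Tendsto κ atTop (𝓝 0) ∧ ∀ i,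
        gmtPer (A (φ i)) (gmtGlue g t S'' (S (φ i))) O ≤
          gmtPer (A (φ i)) S'' (O ∩ {x | g x < t}) +
          gmtPer (A (φ i)) (S (φ i)) (O ∩ {x | t < g x}) + κ i := by
    have h1 : ∀ᵐ t ∂(volume.restrict (Ioo (0 : ℝ) 1)), t ∈ Ioo (0 : ℝ) 1 ∧ ∃ κ : ℕ → ℝ≥0∞,
        Tendsto κ atTop (𝓝 0) ∧ ∀ i,
          gmtPer (A (φ i)) (gmtGlue g t S'' (S (φ i))) O ≤
            gmtPer (A (φ i)) S'' (O ∩ {x | g x < t}) +
            gmtPer (A (φ i)) (S (φ i)) (O ∩ {x | t < g x}) + κ i := by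
      filter_upwards [ae_restrict_mem measurableSet_Ioo, ae_restrict_of_ae hae] with t h1 h2
      exact ⟨h1, h2 h1⟩
    have : NeBot (ae (volume.restrict (Ioo (0 : ℝ) 1))) := by
      rw [ae_neBot]
      simp [Measure.restrict_eq_zero]
    obtain ⟨t, ht, hh⟩ := h1.exists
    exact ⟨t, ht, hh⟩
  have hKt : IsCompact {x | g x ≤ t} :=
    hχc.isCompact.of_isClosed_subset (isClosed_le hg.continuous continuous_const)
      (fun x (hx : g x ≤ t) => hgL x (lt_of_le_of_lt hx ht.2))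
  have hKtO : {x | g x ≤ t} ⊆ O := fun x (hx : g x ≤ t) => hχO (hgL x (lt_of_le_of_lt hx ht.2))
  have hOV : O ∩ {x | g x < t} = {x | g x < t} :=
    inter_eq_right.2 fun x (hx : g x < t) => hKtO (show g x ≤ t from hx.le)
  simp only [hOV] at hglue
  obtain ⟨V, hVdef⟩ : ∃ V : Set (E m), V = {x | g x < t} := ⟨_, rfl⟩
  have hVo : IsOpen V := by
    rw [hVdef]
    exact isOpen_lt hg.continuous continuous_const
  have hVK : V ⊆ {x | g x ≤ t} := by
    rw [hVdef]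
    exact fun x (hx : g x < t) => (show g x ≤ t from hx.le)
  have hVO : V ⊆ O := hVK.trans hKtO
  have hclV : closure V ⊆ {x | g x ≤ t} := closure_minimal hVK hKt.isClosed
  have hV : GmtCC V U' := ⟨hVo, hKt.of_isClosed_subset isClosed_closure hclV,
    hclV.trans (hKtO.trans (subset_closure.trans hO.2.2))⟩
  have hK₀V : K₀ ⊆ V := by
    intro x hx
    rw [hVdef]
    show g x < t
    rw [hgK x hx]
    exact ht.1
  refine ⟨V, hV, hK₀V, hVO, φ, hφ, ?_⟩
  have hPfin : gmtP S'' O ≠ ⊤ := (gmtPer_ne_top_iff h.exh.1 h.int' hO S'').1 hfin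
  have hp : ∀ j, gmtPer (A j) S'' V ≠ ⊤ := fun j =>
    ne_top_of_le_ne_top (ENNReal.mul_ne_top ENNReal.ofReal_ne_top hPfin)
      ((gmtPer_mono _ _ hVO).trans (gmtPer_le_mul_gmtP hC (hb j) S''))
  have hOj : ∀ j, GmtCC O (U j) := fun j => ⟨hO.1, hO.2.1, hOU j⟩
  have ha : ∀ j, gmtPer (A j) (S j) V ≠ ⊤ := fun j =>
    ne_top_of_le_ne_top ((hS j).fin O (hOj j)) (gmtPer_mono _ _ hVO)
  have hev : ∀ᶠ i in atTop, (gmtPer (A (φ i)) (S (φ i)) V).toReal ≤
      (gmtPer (A (φ i)) S'' V).toReal + (κ i).toReal + (∫ x in S (φ i) ∩ V, f (φ i) x) -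
        ∫ x in S'' ∩ V, f (φ i) x := by
    have hκfin : ∀ᶠ i in atTop, κ i ≠ ⊤ :=
      (hκ.eventually (gt_mem_nhds ENNReal.zero_lt_top)).mono fun i hi => hi.ne
    filter_upwards [hκfin] with i hi
    have := gmtLAM_glue_ineq (hS (φ i)) (h.cf (φ i)) (hOj (φ i)) hS'' hg.continuous hKt hKtO
      (hglue i) hi (by rw [← hVdef]; exact hp (φ i))
    rw [← hVdef] at this
    exact this
  have hfinV : gmtPer A' S'' V ≠ ⊤ := ne_top_of_le_ne_top hfin (gmtPer_mono _ _ hVO)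
  have hcφ := h.comp hφ
  have T1 : Tendsto (fun i => (gmtPer (A (φ i)) S'' V).toReal) atTop
      (𝓝 (gmtPer A' S'' V).toReal) :=
    (ENNReal.tendsto_toReal hfinV).comp (hcφ.tendsto_gmtPer hV S'' hfinV)
  have T2 : Tendsto (fun i => (κ i).toReal) atTop (𝓝 0) := by
    have := (ENNReal.tendsto_toReal ENNReal.zero_ne_top).comp hκ
    rw [ENNReal.toReal_zero] at this
    exact this
  have T3 : Tendsto (fun i => ∫ x in S (φ i) ∩ V, f (φ i) x) atTop (𝓝 (∫ x in S' ∩ V, f' x)) :=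
    hcφ.tendsto_setIntegral (S := fun i => S (φ i)) (fun i => (hS (φ i)).meas) hS'
      (hc.comp hφ) hV
  have T4 : Tendsto (fun i => ∫ x in S'' ∩ V, f (φ i) x) atTop (𝓝 (∫ x in S'' ∩ V, f' x)) :=
    hcφ.tendsto_setIntegral (S := fun _ => S'') (fun _ => hS'') hS'' (fun K _ _ => by simp) hV
  have T := ((T1.add T2).add T3).sub T4
  obtain ⟨Y, hY⟩ : ∃ Y, Y = (gmtPer A' S'' V).toReal + 0 + (∫ x in S' ∩ V, f' x) -
      ∫ x in S'' ∩ V, f' x := ⟨_, rfl⟩
  rw [← hY] at T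
  have hY0 : 0 ≤ Y := ge_of_tendsto T (hev.mono fun i hi => ENNReal.toReal_nonneg.trans hi)
  have hls : limsup (fun i => gmtPer (A (φ i)) (S (φ i)) V) atTop ≤ ENNReal.ofReal Y := by
    rw [← (ENNReal.tendsto_ofReal T).limsup_eq]
    refine limsup_le_limsup ?_
    filter_upwards [hev] with i hi
    rw [← ENNReal.ofReal_toReal (ha (φ i))]
    exact ENNReal.ofReal_le_ofReal hi
  constructor
  · refine hls.trans ?_
    have e : Y = (gmtPer A' S'' V).toReal + ((∫ x in S' ∩ V, f' x) - ∫ x in S'' ∩ V, f' x) := by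
      rw [hY]
      ring
    rw [e]
    refine ENNReal.ofReal_add_le.trans ?_
    rw [ENNReal.ofReal_toReal hfinV]
  · have h2 := ENNReal.toReal_mono ENNReal.ofReal_ne_top hls
    rw [ENNReal.toReal_ofReal hY0] at h2
    linarith

/-- KEY COMPARISON: for a competitor `S''` of the limit there are arbitrarily small windows `V`
around the compact set `K₀` in which the energies of a subsequence are asymptotically below that of `S''`. -/
theorem gmtLAM_compare (h : GmtCvg U A f U' A' f') (hS : ∀ i, GmtLAM (A i) (f i) (U i) (S i))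
    {S' S'' K₀ O : Set (E m)} (hS' : MeasurableSet S') (hc : GmtConv U' S S')
    (hS'' : MeasurableSet S'') (hK₀ : IsCompact K₀) (hd : symmDiff S' S'' ⊆ K₀) (hO : GmtCC O U')
    (hKO : K₀ ⊆ O) (hfin : gmtPer A' S'' O ≠ ⊤) :
    ∃ V : Set (E m), GmtCC V U' ∧ K₀ ⊆ V ∧ V ⊆ O ∧ ∃ φ : ℕ → ℕ, StrictMono φ ∧
      limsup (fun i => gmtPer (A (φ i)) (S (φ i)) V) atTop ≤
        gmtPer A' S'' V + ENNReal.ofReal ((∫ x in S' ∩ V, f' x) - ∫ x in S'' ∩ V, f' x) ∧
      (limsup (fun i => gmtPer (A (φ i)) (S (φ i)) V) atTop).toReal - ∫ x in S' ∩ V, f' x ≤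
        (gmtPer A' S'' V).toReal - ∫ x in S'' ∩ V, f' x := by
  obtain ⟨c, C, Λ₀, hc0, hcC, hΛ, hb⟩ := h.bounds hO
  obtain ⟨N, hN⟩ := eventually_atTop.1 hb
  have hψ : StrictMono (fun i : ℕ => i + N) := fun a b hab => Nat.add_lt_add_right hab N
  obtain ⟨V, hV, hKV, hVO, φ, hφ, h1, h2⟩ := gmtLAM_compare_aux (h.comp hψ)
    (S := fun i => S (i + N)) (fun i => hS (i + N)) hS' (hc.comp hψ) hS'' hK₀ hd hO hKO hfin
    (C := C) (hc0.le.trans hcC) (fun i => (hN (i + N) (Nat.le_add_left _ _)).1)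
    (fun i x hx ξ => (((hN (i + N) (Nat.le_add_left _ _)).2 x (subset_closure hx)).2 ξ).2)
  exact ⟨V, hV, hKV, hVO, fun i => φ i + N, hψ.comp hφ, h1, h2⟩

/-- CLOSURE (`IF.gmt_lam_closure`). -/
theorem gmtLAM_closure (h : GmtCvg U A f U' A' f') (hS : ∀ i, GmtLAM (A i) (f i) (U i) (S i))
    {S' : Set (E m)} (hS' : MeasurableSet S') (hc : GmtConv U' S S') : GmtLAM A' f' U' S' := by
  have hSm := fun i => (hS i).meas
  have hfin : ∀ W, GmtCC W U' → gmtPer A' S' W ≠ ⊤ := by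
    intro W hW
    obtain ⟨c, C, Λ₀, hc0, hcC, hΛ, hb⟩ := h.bounds hW
    obtain ⟨C', hC', hb'⟩ := gmtLAM_bddPer h hS W hW
    have h1 := gmtLAM_liminf h hSm hS' hc hW.1 (subset_closure.trans hW.2.2)
    have h2 : liminf (fun i => gmtPer (A i) (S i) W) atTop ≤ ENNReal.ofReal C * C' := by
      refine liminf_le_of_frequently_le' (Eventually.frequently ?_)
      filter_upwards [hb, hb'] with i hi hi'
      refine (gmtPer_le_mul_gmtP (hc0.le.trans hcC)
        (fun x hx ξ => ((hi.2 x (subset_closure hx)).2 ξ).2) (S i)).trans ?_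
      exact mul_le_mul' le_rfl hi'
    exact ne_top_of_le_ne_top (ENNReal.mul_ne_top ENNReal.ofReal_ne_top hC') (h1.trans h2)
  refine gmtLAM_of_cofinal h.exh.1 h.int' h.cf' hS' hfin ?_
  intro K hK hKU S'' hS'' hd
  obtain ⟨O, hO, hKO⟩ := gmt_exists_cc hK h.exh.1 hKU
  by_cases hfO : gmtPer A' S'' O = ⊤
  · exact ⟨O, hO, hKO, fun hne => absurd hfO hne⟩
  obtain ⟨V, hV, hKV, hVO, φ, hφ, h1, h2⟩ := gmtLAM_compare h hS hS' hc hS'' hK hd hO hKO hfO
  refine ⟨V, hV, hKV, fun hne => ?_⟩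
  have h3 := gmtLAM_liminf (h.comp hφ) (S := fun i => S (φ i)) (fun i => hSm (φ i)) hS'
    (hc.comp hφ) hV.1 (subset_closure.trans hV.2.2)
  have h4 : gmtPer A' S' V ≤ limsup (fun i => gmtPer (A (φ i)) (S (φ i)) V) atTop :=
    h3.trans liminf_le_limsup
  have h5 : limsup (fun i => gmtPer (A (φ i)) (S (φ i)) V) atTop ≠ ⊤ :=
    ne_top_of_le_ne_top (ENNReal.add_ne_top.2 ⟨hne, ENNReal.ofReal_ne_top⟩) h1
  have h6 := ENNReal.toReal_mono h5 h4
  linarith

/-- upper semicontinuity on compact sets. -/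
theorem gmtLAM_limsup (h : GmtCvg U A f U' A' f') (hS : ∀ i, GmtLAM (A i) (f i) (U i) (S i))
    {S' : Set (E m)} (hS' : MeasurableSet S') (hc : GmtConv U' S S') {K : Set (E m)}
    (hK : IsCompact K) (hKU : K ⊆ U') :
    limsup (fun i => gmtPerM (A i) (S i) K) atTop ≤ gmtPerM A' S' K := by
  have hreg : (gmtPerM A' S').OuterRegular := (gmtPerM_spec A' S').1
  by_contra hlt
  rw [not_le] at hlt
  obtain ⟨r, hr1, hr2⟩ := exists_between hlt
  obtain ⟨O', hKO', hO'o, hO'r⟩ := K.exists_isOpen_lt_of_lt r hr1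
  obtain ⟨O, hO, hKO⟩ := gmt_exists_cc hK (hO'o.inter h.exh.1) (subset_inter hKO' hKU)
  have hOU : GmtCC O U' := ⟨hO.1, hO.2.1, hO.2.2.trans inter_subset_right⟩
  have hOr : gmtPer A' S' O < r := by
    rw [← gmtPerM_open A' S' hO.1]
    exact (measure_mono ((subset_closure.trans hO.2.2).trans inter_subset_left)).trans_lt hO'r
  have hfreq := frequently_lt_of_lt_limsup (by isBoundedDefault) hr2
  obtain ⟨ψ, hψ, hψr⟩ := extraction_of_frequently_atTop hfreq
  obtain ⟨V, hV, hKV, hVO, φ, hφ, h1, -⟩ := gmtLAM_compare (h.comp hψ) (S := fun i => S (ψ i))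
    (fun i => hS (ψ i)) hS' (hc.comp hψ) hS' hK (by simp) hOU hKO hOr.ne_top
  rw [sub_self, ENNReal.ofReal_zero, add_zero] at h1
  have h2 : r ≤ limsup (fun i => gmtPer (A (ψ (φ i))) (S (ψ (φ i))) V) atTop := by
    refine le_limsup_of_frequently_le' (Eventually.frequently (Eventually.of_forall fun i => ?_))
    rw [← gmtPerM_open _ _ hV.1]
    exact (hψr (φ i)).le.trans (measure_mono hKV)
  exact absurd (h2.trans (h1.trans (gmtPer_mono _ _ hVO))) (not_le.2 hOr)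

end Claimed.Agent.Gmt
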