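import Claimed.Agent.Lib.Gmt.Defs

/-!
# Lib/Gmt G6 MONOTONICITY [part A]: the fixed cut-off and the radial field.   (architect: helper184)

We use the SMOOTHED density ratio `I(x,ρ) = ρ^{1-m} ∫ φ(|y-x|/ρ) dμ_S(y)` with one fixed smooth nonincreasing cut-off `φ = gmtPhi`
(`= 1` on `[0,1/2]`, `= 0` on `[1,∞)`): no a.e. radii, no traces on spheres, no cone competitors.  This file is pure calculus.

PLAN OF PROOFS
* `gmtPhi s = Real.smoothTransition (2 - 2 s)`.  On `(0,1)`: `smoothTransition x = e(x)/(e(x) + e(1-x))`, `e = expNegInvGlue`, `e(x) = exp(-1/x)`, `e' > 0`: the derivative is `(e'(x) e(1-x) + e(x) e'(1-x))/(..)² > 0`.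
  Off `(1/2,1)` the function `gmtPhi` is locally constant or (at the end points) has derivative `0` since it is `C¹` with a one-sided constant germ.
  `gmtPhi_deriv_bound`: `deriv gmtPhi` is continuous with compact support.
* `gmtRad x ρ y = φ(|y-x|/ρ) (y-x)` is smooth: near `y = x` it equals `y - x`; away from `x` the norm is smooth (`contDiffAt_norm`).
  `D(gmtRad)(y) v = φ v + φ'(|y-x|/ρ) ⟪y-x,v⟫/(ρ|y-x|) (y-x)`.
-/

set_option autoImplicit false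
open scoped ContDiff ENNReal RealInnerProductSpace Topology
open MeasureTheory Metric Set Filter

namespace Claimed.Agent.Gmt

variable {m : ℕ}

/-- the fixed cut-off. -/
noncomputable def gmtPhi (s : ℝ) : ℝ := Real.smoothTransition (2 - 2 * s)

theorem gmtPhi_contDiff : ContDiff ℝ ∞ gmtPhi :=
  Real.smoothTransition.contDiff.comp (contDiff_const.sub (contDiff_const.mul contDiff_id))

theorem gmtPhi_nonneg (s : ℝ) : 0 ≤ gmtPhi s := Real.smoothTransition.nonneg _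

theorem gmtPhi_le_one (s : ℝ) : gmtPhi s ≤ 1 := Real.smoothTransition.le_one _

theorem gmtPhi_eq_one {s : ℝ} (hs : s ≤ 1 / 2) : gmtPhi s = 1 :=
  Real.smoothTransition.one_of_one_le (by linarith)

theorem gmtPhi_eq_zero {s : ℝ} (hs : 1 ≤ s) : gmtPhi s = 0 :=
  Real.smoothTransition.zero_of_nonpos (by linarith)

theorem gmtPhi_pos {s : ℝ} (hs : s < 1) : 0 < gmtPhi s :=
  Real.smoothTransition.pos_of_pos (by linarith)

theorem gmtMoA_glue_hasDerivAt (x : ℝ) :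
    HasDerivAt expNegInvGlue ((x⁻¹) ^ 2 * expNegInvGlue x) x := by
  have h := expNegInvGlue.hasDerivAt_polynomial_eval_inv_mul 1 x
  simpa using h

/-- the derivative of the smooth transition -/
noncomputable def gmtMoAK (x : ℝ) : ℝ :=
  expNegInvGlue x * expNegInvGlue (1 - x) * ((x⁻¹) ^ 2 + ((1 - x)⁻¹) ^ 2) /
    (expNegInvGlue x + expNegInvGlue (1 - x)) ^ 2

theorem gmtMoA_st_hasDerivAt (x : ℝ) : HasDerivAt Real.smoothTransition (gmtMoAK x) x := by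
  have h1 := gmtMoA_glue_hasDerivAt x
  have h2 : HasDerivAt (fun x => expNegInvGlue (1 - x))
      ((((1 - x)⁻¹) ^ 2 * expNegInvGlue (1 - x)) * (-1)) x := by
    have h3 : HasDerivAt (fun x : ℝ => 1 - x) (-1) x := by
      simpa using (hasDerivAt_id x).const_sub 1
    exact (gmtMoA_glue_hasDerivAt (1 - x)).comp x h3
  have h4 := h1.div (h1.add h2) (Real.smoothTransition.pos_denom x).ne'
  have e : gmtMoAK x = ((x⁻¹) ^ 2 * expNegInvGlue x * (expNegInvGlue x + expNegInvGlue (1 - x)) -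
      expNegInvGlue x * ((x⁻¹) ^ 2 * expNegInvGlue x + (((1 - x)⁻¹) ^ 2 * expNegInvGlue (1 - x)) * (-1))) /
      (expNegInvGlue x + expNegInvGlue (1 - x)) ^ 2 := by
    unfold gmtMoAK
    congr 1
    ring
  rw [e]
  exact h4

theorem gmtMoAK_nonneg (x : ℝ) : 0 ≤ gmtMoAK x := by
  unfold gmtMoAK
  have h1 := expNegInvGlue.nonneg x
  have h2 := expNegInvGlue.nonneg (1 - x)
  positivity

theorem gmtMoAK_pos {x : ℝ} (h0 : 0 < x) (h1 : x < 1) : 0 < gmtMoAK x := by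
  unfold gmtMoAK
  have h2 := expNegInvGlue.pos_of_pos h0
  have h3 := expNegInvGlue.pos_of_pos (show 0 < 1 - x by linarith)
  have h4 : 0 < x⁻¹ := inv_pos.2 h0
  positivity

theorem gmtMoAK_eq_zero {x : ℝ} (h : x ≤ 0 ∨ 1 ≤ x) : gmtMoAK x = 0 := by
  unfold gmtMoAK
  rcases h with h | h
  · rw [expNegInvGlue.zero_of_nonpos h]
    simp
  · rw [expNegInvGlue.zero_of_nonpos (show 1 - x ≤ 0 by linarith)]
    simp

theorem gmtPhi_hasDerivAt (s : ℝ) : HasDerivAt gmtPhi (gmtMoAK (2 - 2 * s) * (-2)) s := by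
  have h3 : HasDerivAt (fun s : ℝ => 2 - 2 * s) (-2) s := by
    simpa using ((hasDerivAt_id s).const_mul 2).const_sub 2
  exact (gmtMoA_st_hasDerivAt (2 - 2 * s)).comp s h3

theorem gmtPhi_deriv_eq (s : ℝ) : deriv gmtPhi s = gmtMoAK (2 - 2 * s) * (-2) :=
  (gmtPhi_hasDerivAt s).deriv

theorem gmtPhi_deriv_nonpos (s : ℝ) : deriv gmtPhi s ≤ 0 := by
  rw [gmtPhi_deriv_eq]
  have := gmtMoAK_nonneg (2 - 2 * s)
  linarith

theorem gmtPhi_deriv_neg {s : ℝ} (hs : 1 / 2 < s) (hs' : s < 1) : deriv gmtPhi s < 0 := by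
  rw [gmtPhi_deriv_eq]
  have := gmtMoAK_pos (x := 2 - 2 * s) (by linarith) (by linarith)
  linarith

theorem gmtPhi_deriv_eq_zero {s : ℝ} (hs : s ≤ 1 / 2 ∨ 1 ≤ s) : deriv gmtPhi s = 0 := by
  rw [gmtPhi_deriv_eq, gmtMoAK_eq_zero, zero_mul]
  rcases hs with h | h
  · right; linarith
  · left; linarith

theorem gmtPhi_antitone : Antitone gmtPhi := by
  intro a b hab
  exact Real.smoothTransition.monotone (by linarith)

theorem gmtPhi_deriv_bound : ∃ C : ℝ, 0 ≤ C ∧ ∀ s, |deriv gmtPhi s| ≤ C := by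
  have hc : Continuous (deriv gmtPhi) := gmtPhi_contDiff.continuous_deriv (by simp)
  obtain ⟨C, hC⟩ := (isCompact_Icc (a := (1 / 2 : ℝ)) (b := 1)).exists_bound_of_continuousOn hc.continuousOn
  refine ⟨max C 0, le_max_right _ _, fun s => ?_⟩
  by_cases hs : s ∈ Icc (1 / 2 : ℝ) 1
  · exact (hC s hs).trans (le_max_left _ _)
  · rw [gmtPhi_deriv_eq_zero, abs_zero]
    · exact le_max_right _ _
    · rw [mem_Icc, not_and_or, not_le, not_le] at hs
      rcases hs with h | h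
      · left; exact h.le
      · right; exact h.le

/-- the radial field `φ(|y-x|/ρ) (y-x)`. -/
noncomputable def gmtRad (x : E m) (ρ : ℝ) (y : E m) : E m := gmtPhi (‖y - x‖ / ρ) • (y - x)

theorem gmtMoA_near (x : E m) {ρ : ℝ} (hρ : 0 < ρ) :
    ∀ᶠ z in 𝓝 x, gmtPhi (‖z - x‖ / ρ) = 1 := by
  filter_upwards [ball_mem_nhds x (half_pos hρ)] with z hz
  apply gmtPhi_eq_one
  rw [mem_ball, dist_eq_norm] at hz
  rw [div_le_iff₀ hρ]
  linarith

theorem gmtMoA_g_contDiff (x : E m) {ρ : ℝ} (hρ : 0 < ρ) :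
    ContDiff ℝ ∞ (fun y : E m => gmtPhi (‖y - x‖ / ρ)) := by
  rw [contDiff_iff_contDiffAt]
  intro y
  by_cases h : y = x
  · subst h
    have : (fun z : E m => gmtPhi (‖z - y‖ / ρ)) =ᶠ[𝓝 y] fun _ => 1 := gmtMoA_near y hρ
    exact contDiffAt_const.congr_of_eventuallyEq this
  · have h1 : ContDiffAt ℝ ∞ (fun z : E m => ‖z - x‖) y :=
      (contDiffAt_id.sub contDiffAt_const).norm ℝ (sub_ne_zero.2 h)
    exact gmtPhi_contDiff.contDiffAt.comp y (h1.div_const ρ)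

theorem gmtRad_contDiff (x : E m) {ρ : ℝ} (hρ : 0 < ρ) : ContDiff ℝ ∞ (gmtRad x ρ) :=
  (gmtMoA_g_contDiff x hρ).smul (contDiff_id.sub contDiff_const)

theorem gmtRad_tsupport (x : E m) {ρ : ℝ} (hρ : 0 < ρ) :
    tsupport (gmtRad x ρ) ⊆ closedBall x ρ := by
  refine closure_minimal ?_ isClosed_closedBall
  intro y hy
  by_contra hcon
  apply hy
  rw [mem_closedBall, dist_eq_norm, not_le] at hcon
  unfold gmtRad
  rw [gmtPhi_eq_zero, zero_smul]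
  rw [le_div_iff₀ hρ]
  linarith

theorem gmtRad_test (x : E m) {ρ R : ℝ} (hρ : 0 < ρ) (hR : ρ < R) :
    GmtTestS (ball x R) (gmtRad x ρ) where
  smooth := gmtRad_contDiff x hρ
  cpt := (isCompact_closedBall x ρ).of_isClosed_subset (isClosed_tsupport _) (gmtRad_tsupport x hρ)
  sub := (gmtRad_tsupport x hρ).trans (closedBall_subset_ball hR)

theorem gmtMoA_norm_hasFDerivAt (x : E m) {y : E m} (h : y ≠ x) :
    HasFDerivAt (fun y : E m => ‖y - x‖) ((‖y - x‖)⁻¹ • innerSL ℝ (y - x)) y := by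
  have h0 : HasFDerivAt (fun y : E m => y - x) (ContinuousLinearMap.id ℝ (E m)) y :=
    (hasFDerivAt_id y).sub_const x
  have h1 := h0.norm_sq
  have hn : ‖y - x‖ ≠ 0 := norm_ne_zero_iff.2 (sub_ne_zero.2 h)
  have h2 := h1.sqrt (pow_ne_zero 2 hn)
  have e1 : (fun y : E m => ‖y - x‖) = fun y : E m => √(‖y - x‖ ^ 2) := by
    funext z
    rw [Real.sqrt_sq (norm_nonneg _)]
  rw [e1]
  have e2 : ((‖y - x‖)⁻¹ • innerSL ℝ (y - x) : E m →L[ℝ] ℝ) =
      (1 / (2 * √(‖y - x‖ ^ 2))) • (2 • (innerSL ℝ (y - x)).comp (ContinuousLinearMap.id ℝ (E m))) := by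
    rw [Real.sqrt_sq (norm_nonneg _), ContinuousLinearMap.comp_id, two_smul, ← two_smul ℝ, smul_smul]
    congr 1
    field_simp
  rw [e2]
  exact h2

theorem gmtRad_hasFDerivAt (x : E m) {ρ : ℝ} (hρ : 0 < ρ) {y : E m} (h : y ≠ x) :
    HasFDerivAt (gmtRad x ρ) (gmtPhi (‖y - x‖ / ρ) • ContinuousLinearMap.id ℝ (E m) +
      (deriv gmtPhi (‖y - x‖ / ρ) • (ρ⁻¹ • ((‖y - x‖)⁻¹ • innerSL ℝ (y - x)))).smulRight (y - x)) y := by
  have h0 : HasFDerivAt (fun y : E m => y - x) (ContinuousLinearMap.id ℝ (E m)) y :=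
    (hasFDerivAt_id y).sub_const x
  have h1 : HasFDerivAt (fun y : E m => ‖y - x‖ / ρ) (ρ⁻¹ • ((‖y - x‖)⁻¹ • innerSL ℝ (y - x))) y := by
    have := (gmtMoA_norm_hasFDerivAt x h).const_smul ρ⁻¹
    refine this.congr_of_eventuallyEq (Eventually.of_forall fun z => ?_)
    simp only [Pi.smul_apply, smul_eq_mul]
    rw [div_eq_inv_mul]
  have h2 : HasDerivAt gmtPhi (deriv gmtPhi (‖y - x‖ / ρ)) (‖y - x‖ / ρ) :=
    (gmtPhi_contDiff.differentiable (by simp) _).hasDerivAt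
  have h3 := h2.comp_hasFDerivAt y h1
  exact h3.smul h0

theorem gmtRad_fderiv (x : E m) {ρ : ℝ} (hρ : 0 < ρ) (y v : E m) :
    fderiv ℝ (gmtRad x ρ) y v = gmtPhi (‖y - x‖ / ρ) • v +
      (deriv gmtPhi (‖y - x‖ / ρ) * ⟪y - x, v⟫ / (ρ * ‖y - x‖)) • (y - x) := by
  by_cases h : y = x
  · subst h
    have h1 : gmtRad y ρ =ᶠ[𝓝 y] fun z => z - y := by
      filter_upwards [gmtMoA_near y hρ] with z hz
      unfold gmtRad
      rw [hz, one_smul]
    have h0 : HasFDerivAt (fun z : E m => z - y) (ContinuousLinearMap.id ℝ (E m)) y :=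
      (hasFDerivAt_id y).sub_const y
    rw [(h0.congr_of_eventuallyEq h1).fderiv]
    simp [gmtPhi_eq_one]
  · rw [(gmtRad_hasFDerivAt x hρ h).fderiv]
    simp only [ContinuousLinearMap.add_apply, ContinuousLinearMap.smul_apply, ContinuousLinearMap.id_apply,
      ContinuousLinearMap.smulRight_apply, innerSL_apply_apply, smul_eq_mul]
    congr 2
    have hn : ‖y - x‖ ≠ 0 := norm_ne_zero_iff.2 (sub_ne_zero.2 h)
    field_simp

theorem gmtRad_div (x : E m) {ρ : ℝ} (hρ : 0 < ρ) (y : E m) :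
    gmtDiv (gmtRad x ρ) y =
      m * gmtPhi (‖y - x‖ / ρ) + deriv gmtPhi (‖y - x‖ / ρ) * (‖y - x‖ / ρ) := by
  unfold gmtDiv
  have h1 : ∀ i : Fin m, fderiv ℝ (gmtRad x ρ) y (eb i) i = gmtPhi (‖y - x‖ / ρ) +
      (deriv gmtPhi (‖y - x‖ / ρ) / (ρ * ‖y - x‖)) * ((y - x) i) ^ 2 := by
    intro i
    rw [gmtRad_fderiv x hρ]
    have e1 : ⟪y - x, eb i⟫ = (y - x) i := by
      simp [eb, EuclideanSpace.inner_single_right]
    rw [e1]
    simp only [PiLp.add_apply, PiLp.smul_apply, smul_eq_mul, eb, EuclideanSpace.single_apply, if_true]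
    ring
  rw [Finset.sum_congr rfl (fun i _ => h1 i), Finset.sum_add_distrib, ← Finset.mul_sum]
  have h2 : ∑ i : Fin m, ((y - x) i) ^ 2 = ‖y - x‖ ^ 2 := by
    rw [EuclideanSpace.norm_sq_eq]
    simp
  rw [h2]
  simp only [Finset.sum_const, Finset.card_univ, Fintype.card_fin, nsmul_eq_mul]
  congr 1
  by_cases hn : ‖y - x‖ = 0
  · rw [hn]; simp
  · field_simp

theorem gmtRad_quad (x : E m) {ρ : ℝ} (hρ : 0 < ρ) (y ν : E m) :
    ⟪ν, fderiv ℝ (gmtRad x ρ) y ν⟫ = gmtPhi (‖y - x‖ / ρ) * ‖ν‖ ^ 2 +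
      deriv gmtPhi (‖y - x‖ / ρ) * ⟪y - x, ν⟫ ^ 2 / (ρ * ‖y - x‖) := by
  rw [gmtRad_fderiv x hρ, inner_add_right, inner_smul_right, inner_smul_right, real_inner_self_eq_norm_sq,
    real_inner_comm (y - x) ν]
  ring

theorem gmtRad_norm_le (x : E m) {ρ : ℝ} (hρ : 0 < ρ) (y : E m) : ‖gmtRad x ρ y‖ ≤ ρ := by
  unfold gmtRad
  rw [norm_smul, Real.norm_of_nonneg (gmtPhi_nonneg _)]
  by_cases h : ‖y - x‖ ≤ ρ
  · calc gmtPhi (‖y - x‖ / ρ) * ‖y - x‖ ≤ 1 * ρ :=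
        mul_le_mul (gmtPhi_le_one _) h (norm_nonneg _) zero_le_one
      _ = ρ := one_mul _
  · rw [gmtPhi_eq_zero, zero_mul]
    · exact hρ.le
    · rw [le_div_iff₀ hρ]
      linarith

theorem gmtRad_fderiv_le : ∃ C : ℝ, 0 ≤ C ∧ ∀ (m : ℕ) (x : E m) (ρ : ℝ), 0 < ρ → ∀ y : E m,
    ‖fderiv ℝ (gmtRad x ρ) y‖ ≤ C := by
  obtain ⟨C, hC0, hC⟩ := gmtPhi_deriv_bound
  refine ⟨1 + C, by linarith, fun m x ρ hρ y => ?_⟩
  refine ContinuousLinearMap.opNorm_le_bound _ (by linarith) fun v => ?_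
  rw [gmtRad_fderiv x hρ]
  have h1 : ‖gmtPhi (‖y - x‖ / ρ) • v‖ ≤ 1 * ‖v‖ := by
    rw [norm_smul, Real.norm_of_nonneg (gmtPhi_nonneg _)]
    exact mul_le_mul_of_nonneg_right (gmtPhi_le_one _) (norm_nonneg _)
  have h2 : ‖(deriv gmtPhi (‖y - x‖ / ρ) * ⟪y - x, v⟫ / (ρ * ‖y - x‖)) • (y - x)‖ ≤ C * ‖v‖ := by
    by_cases hn : ‖y - x‖ = 0
    · rw [hn]
      simp only [mul_zero, div_zero, zero_smul, norm_zero]
      positivity
    have hn' : 0 < ‖y - x‖ := lt_of_le_of_ne (norm_nonneg _) (Ne.symm hn)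
    by_cases hr : ‖y - x‖ ≤ ρ
    · rw [norm_smul, Real.norm_eq_abs, abs_div, abs_mul, abs_of_pos (mul_pos hρ hn')]
      have h3 : |⟪y - x, v⟫| ≤ ‖y - x‖ * ‖v‖ := abs_real_inner_le_norm _ _
      have h4 : |deriv gmtPhi (‖y - x‖ / ρ)| * |⟪y - x, v⟫| ≤ C * (‖y - x‖ * ‖v‖) :=
        mul_le_mul (hC _) h3 (abs_nonneg _) hC0
      calc |deriv gmtPhi (‖y - x‖ / ρ)| * |⟪y - x, v⟫| / (ρ * ‖y - x‖) * ‖y - x‖
          ≤ C * (‖y - x‖ * ‖v‖) / (ρ * ‖y - x‖) * ‖y - x‖ := by gcongr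
        _ = C * ‖v‖ * (‖y - x‖ / ρ) := by field_simp
        _ ≤ C * ‖v‖ * 1 := by
            apply mul_le_mul_of_nonneg_left _ (by positivity)
            rw [div_le_one hρ]
            exact hr
        _ = C * ‖v‖ := mul_one _
    · rw [gmtPhi_deriv_eq_zero]
      · simp only [zero_mul, zero_div, zero_smul, norm_zero]
        positivity
      · right
        rw [le_div_iff₀ hρ]
        linarith
  calc _ ≤ _ + _ := norm_add_le _ _
    _ ≤ 1 * ‖v‖ + C * ‖v‖ := add_le_add h1 h2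
    _ = (1 + C) * ‖v‖ := by ring

/-- derivative in `ρ` of the kernel `ρ^{1-m} φ(d/ρ)`. -/
theorem gmtPhi_kernel_hasDerivAt (hm : 1 ≤ m) (d : ℝ) {ρ : ℝ} (hρ : 0 < ρ) :
    HasDerivAt (fun ρ : ℝ => (ρ ^ (m - 1))⁻¹ * gmtPhi (d / ρ))
      (-(ρ ^ m)⁻¹ * (((m : ℝ) - 1) * gmtPhi (d / ρ) + deriv gmtPhi (d / ρ) * (d / ρ))) ρ := by
  obtain ⟨k, rfl⟩ : ∃ k, m = k + 1 := ⟨m - 1, by omega⟩
  simp only [Nat.add_sub_cancel]
  have h1 : HasDerivAt (fun ρ : ℝ => (ρ ^ k)⁻¹) (-((k : ℝ) * ρ ^ (k - 1) * 1) / (ρ ^ k) ^ 2) ρ :=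
    ((hasDerivAt_id ρ).pow k).inv (pow_ne_zero k hρ.ne')
  have h2 : HasDerivAt (fun ρ : ℝ => d / ρ) (-d / ρ ^ 2) ρ := by
    have := (hasDerivAt_const ρ d).div (hasDerivAt_id ρ) hρ.ne'
    refine this.congr_deriv ?_
    simp
  have h3 : HasDerivAt gmtPhi (deriv gmtPhi (d / ρ)) (d / ρ) :=
    (gmtPhi_contDiff.differentiable (by simp) _).hasDerivAt
  have h4 : HasDerivAt (fun ρ : ℝ => (ρ ^ k)⁻¹ * gmtPhi (d / ρ))
      (-((k : ℝ) * ρ ^ (k - 1) * 1) / (ρ ^ k) ^ 2 * gmtPhi (d / ρ) +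
        (ρ ^ k)⁻¹ * (deriv gmtPhi (d / ρ) * (-d / ρ ^ 2))) ρ := h1.mul (h3.comp ρ h2)
  refine h4.congr_deriv ?_
  push_cast
  rcases Nat.eq_zero_or_pos k with rfl | hk
  · simp
    field_simp
  · obtain ⟨j, rfl⟩ : ∃ j, k = j + 1 := ⟨k - 1, by omega⟩
    simp only [Nat.add_sub_cancel]
    push_cast
    field_simp
    ring

end Claimed.Agent.Gmt
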