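import Claimed.Agent.Lib.Gmt.MoA
import Claimed.Agent.Lib.Gmt.FrE

/-!
# Lib/Gmt G6 MONOTONICITY [part B]: the smoothed density ratio and its derivative.   (architect: helper184)

`I(x,ρ) = gmtI S x ρ = ρ^{1-m} ∫ φ(|y-x|/ρ) dμ_S(y)`.    IDENTITY (`gmtI_hasDerivAt`), valid for EVERY set of locally finite perimeter:
`d/dρ I(x,ρ) = ρ^{-m} ( D(x,ρ) - δS(X_ρ) )`,  `X_ρ = gmtRad x ρ`,  `δS(X) = ∫ (div X - ν·DX ν) dμ_S` (first variation),
`D(x,ρ) = ∫ (-φ'(|y-x|/ρ)) ⟪y-x,ν⟫² / (ρ|y-x|) dμ_S ≥ 0` (radial defect).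

PLAN OF PROOFS
* `gmtI_hasDerivAt`: differentiate under the integral sign (`hasDerivAt_integral_of_dominated_loc_of_deriv_le`) on `ρ ∈ (ρ/2, (ρ+R)/2)`: the kernel and its `ρ`-derivative (`gmtPhi_kernel_hasDerivAt`) are bounded and vanish off
  `closedBall x ((ρ+R)/2)`, a compact subset of `ball x R`, which has finite `μ_S` measure (`gmtMu_compact_ne_top`).  Then
  `div X_ρ - ν·DX_ρ ν = (m-1) φ + φ' |y-x|/ρ - φ' ⟪y-x,ν⟫²/(ρ|y-x|)` for `|ν| = 1` (`gmtRad_div`, `gmtRad_quad`, `norm_gmtNu_ae`).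
* invariances: `integral_gmtMu_gmtBlow`, `gmtMu_restrict_congr`.
* `gmtI_continuous`: dominated convergence.  `gmtI_wk`: definition of `GmtWk` (the kernel is continuous with compact support).
-/

set_option autoImplicit false
open scoped ContDiff ENNReal RealInnerProductSpace Topology
open MeasureTheory Metric Set Filter

namespace Claimed.Agent.Gmt

variable {m : ℕ}

/-- the smoothed density ratio. -/
noncomputable def gmtI (S : Set (E m)) (x : E m) (ρ : ℝ) : ℝ :=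
  (ρ ^ (m - 1))⁻¹ * ∫ y, gmtPhi (‖y - x‖ / ρ) ∂(gmtMu S)

/-- the radial defect. -/
noncomputable def gmtDef (S : Set (E m)) (x : E m) (ρ : ℝ) : ℝ :=
  ∫ y, -deriv gmtPhi (‖y - x‖ / ρ) * ⟪y - x, gmtNu S y⟫ ^ 2 / (ρ * ‖y - x‖) ∂(gmtMu S)

/-- the first variation of the Euclidean perimeter. -/
noncomputable def gmtDelta (S : Set (E m)) (X : E m → E m) : ℝ :=
  ∫ y, (gmtDiv X y - ⟪gmtNu S y, fderiv ℝ X y (gmtNu S y)⟫) ∂(gmtMu S)

theorem gmtMoB_kernel_continuous (x : E m) (ρ : ℝ) :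
    Continuous fun y : E m => gmtPhi (‖y - x‖ / ρ) :=
  gmtPhi_contDiff.continuous.comp ((continuous_id.sub continuous_const).norm.div_const ρ)

theorem gmtMoB_dkernel_continuous (x : E m) (ρ : ℝ) :
    Continuous fun y : E m => deriv gmtPhi (‖y - x‖ / ρ) :=
  (gmtPhi_contDiff.continuous_deriv (by simp)).comp
    ((continuous_id.sub continuous_const).norm.div_const ρ)

theorem gmtMoB_kernel_zero {x y : E m} {ρ : ℝ} (hρ : 0 < ρ) (hy : y ∉ closedBall x ρ) :
    gmtPhi (‖y - x‖ / ρ) = 0 := by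
  rw [mem_closedBall, dist_eq_norm, not_le] at hy
  apply gmtPhi_eq_zero
  rw [le_div_iff₀ hρ]
  linarith

theorem gmtMoB_dkernel_zero {x y : E m} {ρ : ℝ} (hρ : 0 < ρ) (hy : y ∉ closedBall x ρ) :
    deriv gmtPhi (‖y - x‖ / ρ) = 0 := by
  rw [mem_closedBall, dist_eq_norm, not_le] at hy
  apply gmtPhi_deriv_eq_zero
  right
  rw [le_div_iff₀ hρ]
  linarith

theorem gmtI_nonneg (S : Set (E m)) (x : E m) {ρ : ℝ} (hρ : 0 < ρ) : 0 ≤ gmtI S x ρ := by
  unfold gmtI
  have h1 : 0 ≤ ∫ y, gmtPhi (‖y - x‖ / ρ) ∂(gmtMu S) := integral_nonneg fun y => gmtPhi_nonneg _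
  positivity

theorem gmtMoB_def_nonneg (S : Set (E m)) (x : E m) {ρ : ℝ} (hρ : 0 < ρ) (y : E m) :
    0 ≤ -deriv gmtPhi (‖y - x‖ / ρ) * ⟪y - x, gmtNu S y⟫ ^ 2 / (ρ * ‖y - x‖) := by
  have h1 : 0 ≤ -deriv gmtPhi (‖y - x‖ / ρ) := by
    have := gmtPhi_deriv_nonpos (‖y - x‖ / ρ)
    linarith
  positivity

theorem gmtDef_nonneg (S : Set (E m)) (x : E m) {ρ : ℝ} (hρ : 0 < ρ) : 0 ≤ gmtDef S x ρ :=
  integral_nonneg fun y => gmtMoB_def_nonneg S x hρ y

/-- integrability of the kernel. -/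
theorem gmtI_integrable {S : Set (E m)} {x : E m} {R : ℝ} (hS : GmtLF S (ball x R)) {ρ : ℝ}
    (hρ : 0 < ρ) (hR : ρ < R) : Integrable (fun y => gmtPhi (‖y - x‖ / ρ)) (gmtMu S) := by
  refine gmtMu_integrable_of_cpt isOpen_ball hS (isCompact_closedBall x ρ)
    (closedBall_subset_ball hR) (gmtMoB_kernel_continuous x ρ).measurable (C := 1) ?_ ?_
  · intro y _
    rw [abs_of_nonneg (gmtPhi_nonneg _)]
    exact gmtPhi_le_one _
  · intro y hy
    exact gmtMoB_kernel_zero hρ hy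

theorem gmtMoB_def_measurable (S : Set (E m)) (x : E m) (ρ : ℝ) :
    Measurable fun y => -deriv gmtPhi (‖y - x‖ / ρ) * ⟪y - x, gmtNu S y⟫ ^ 2 / (ρ * ‖y - x‖) := by
  have h1 : Measurable fun y : E m => deriv gmtPhi (‖y - x‖ / ρ) :=
    (gmtMoB_dkernel_continuous x ρ).measurable
  have h2 : Measurable fun y : E m => ⟪y - x, gmtNu S y⟫ :=
    (measurable_id.sub measurable_const).inner (measurable_gmtNu S)
  have h3 : Measurable fun y : E m => ρ * ‖y - x‖ :=
    ((measurable_id.sub measurable_const).norm).const_mul ρ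
  exact ((h1.neg).mul (h2.pow_const 2)).div h3

theorem gmtDef_integrable {S : Set (E m)} {x : E m} {R : ℝ} (hS : GmtLF S (ball x R)) {ρ : ℝ}
    (hρ : 0 < ρ) (hR : ρ < R) :
    Integrable (fun y => -deriv gmtPhi (‖y - x‖ / ρ) * ⟪y - x, gmtNu S y⟫ ^ 2 / (ρ * ‖y - x‖))
      (gmtMu S) := by
  obtain ⟨C, hC0, hC⟩ := gmtPhi_deriv_bound
  refine gmtMu_integrable_of_cpt isOpen_ball hS (isCompact_closedBall x ρ)
    (closedBall_subset_ball hR) (gmtMoB_def_measurable S x ρ) (C := C) ?_ ?_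
  · intro y hy
    rw [mem_closedBall, dist_eq_norm] at hy
    rw [abs_of_nonneg (gmtMoB_def_nonneg S x hρ y)]
    by_cases hn : ‖y - x‖ = 0
    · rw [hn]
      simpa using hC0
    have hn' : 0 < ‖y - x‖ := lt_of_le_of_ne (norm_nonneg _) (Ne.symm hn)
    have h1 : -deriv gmtPhi (‖y - x‖ / ρ) ≤ C := (neg_le_abs _).trans (hC _)
    have h1' : 0 ≤ -deriv gmtPhi (‖y - x‖ / ρ) := by
      have := gmtPhi_deriv_nonpos (‖y - x‖ / ρ)
      linarith
    have h2 : ⟪y - x, gmtNu S y⟫ ^ 2 ≤ ‖y - x‖ ^ 2 := by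
      have h3 : |⟪y - x, gmtNu S y⟫| ≤ ‖y - x‖ * ‖gmtNu S y‖ := abs_real_inner_le_norm _ _
      have h4 : |⟪y - x, gmtNu S y⟫| ≤ ‖y - x‖ :=
        h3.trans (mul_le_of_le_one_right (norm_nonneg _) (norm_gmtNu_le_one S y))
      rw [← sq_abs]
      exact pow_le_pow_left₀ (abs_nonneg _) h4 2
    calc -deriv gmtPhi (‖y - x‖ / ρ) * ⟪y - x, gmtNu S y⟫ ^ 2 / (ρ * ‖y - x‖)
        ≤ C * ‖y - x‖ ^ 2 / (ρ * ‖y - x‖) := by
          apply div_le_div_of_nonneg_right _ (by positivity)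
          exact mul_le_mul h1 h2 (by positivity) hC0
      _ = C * (‖y - x‖ / ρ) := by field_simp
      _ ≤ C * 1 := by
          apply mul_le_mul_of_nonneg_left _ hC0
          rw [div_le_one hρ]
          exact hy
      _ = C := mul_one _
  · intro y hy
    rw [gmtMoB_dkernel_zero hρ hy]
    simp

/-- the `ρ`-derivative of the kernel. -/
noncomputable def gmtMoBK (m : ℕ) (x : E m) (ρ : ℝ) (y : E m) : ℝ :=
  -(ρ ^ m)⁻¹ * (((m : ℝ) - 1) * gmtPhi (‖y - x‖ / ρ) +
    deriv gmtPhi (‖y - x‖ / ρ) * (‖y - x‖ / ρ))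

theorem gmtMoBK_continuous (x : E m) (ρ : ℝ) : Continuous (gmtMoBK m x ρ) := by
  unfold gmtMoBK
  exact continuous_const.mul ((continuous_const.mul (gmtMoB_kernel_continuous x ρ)).add
    ((gmtMoB_dkernel_continuous x ρ).mul ((continuous_id.sub continuous_const).norm.div_const ρ)))

theorem gmtMoB_sderiv_bound : ∃ C : ℝ, 0 ≤ C ∧ ∀ s : ℝ, 0 ≤ s → |deriv gmtPhi s * s| ≤ C := by
  obtain ⟨C, hC0, hC⟩ := gmtPhi_deriv_bound
  refine ⟨C, hC0, fun s hs => ?_⟩
  by_cases h1 : s ≤ 1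
  · rw [abs_mul, abs_of_nonneg hs]
    calc |deriv gmtPhi s| * s ≤ C * 1 := mul_le_mul (hC s) h1 hs hC0
      _ = C := mul_one _
  · rw [gmtPhi_deriv_eq_zero (Or.inr (not_le.1 h1).le)]
    simpa using hC0

/-- the pointwise identity behind the monotonicity formula. -/
theorem gmtMoB_pointwise (x : E m) {ρ : ℝ} (hρ : 0 < ρ) (y ν : E m)
    (hν : ‖ν‖ = 1 ∨ y ∉ closedBall x ρ) :
    (ρ ^ m)⁻¹ * (-deriv gmtPhi (‖y - x‖ / ρ) * ⟪y - x, ν⟫ ^ 2 / (ρ * ‖y - x‖) -
      (gmtDiv (gmtRad x ρ) y - ⟪ν, fderiv ℝ (gmtRad x ρ) y ν⟫)) = gmtMoBK m x ρ y := by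
  rw [gmtRad_div x hρ, gmtRad_quad x hρ]
  unfold gmtMoBK
  rcases hν with hν | hy
  · rw [hν]
    ring
  · rw [gmtMoB_kernel_zero hρ hy, gmtMoB_dkernel_zero hρ hy]
    ring

theorem gmtMoB_delta_integrable {S : Set (E m)} {x : E m} {R : ℝ} (hS : GmtLF S (ball x R))
    {ρ : ℝ} (hρ : 0 < ρ) (hR : ρ < R) :
    Integrable (fun y => gmtDiv (gmtRad x ρ) y -
      ⟪gmtNu S y, fderiv ℝ (gmtRad x ρ) y (gmtNu S y)⟫) (gmtMu S) := by
  obtain ⟨C, hC0, hC⟩ := gmtMoB_sderiv_bound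
  have e : (fun y => gmtDiv (gmtRad x ρ) y -
      ⟪gmtNu S y, fderiv ℝ (gmtRad x ρ) y (gmtNu S y)⟫) = fun y =>
      ((m * gmtPhi (‖y - x‖ / ρ) + deriv gmtPhi (‖y - x‖ / ρ) * (‖y - x‖ / ρ)) -
        gmtPhi (‖y - x‖ / ρ) * ‖gmtNu S y‖ ^ 2) +
      (-deriv gmtPhi (‖y - x‖ / ρ) * ⟪y - x, gmtNu S y⟫ ^ 2 / (ρ * ‖y - x‖)) := by
    funext y
    rw [gmtRad_div x hρ, gmtRad_quad x hρ]
    ring
  rw [e]
  refine Integrable.add ?_ (gmtDef_integrable hS hρ hR)
  have hk := (gmtMoB_kernel_continuous x ρ).measurable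
  have hd := (gmtMoB_dkernel_continuous x ρ).measurable
  have hn : Measurable fun y : E m => ‖y - x‖ / ρ :=
    ((measurable_id.sub measurable_const).norm).div_const ρ
  refine gmtMu_integrable_of_cpt isOpen_ball hS (isCompact_closedBall x ρ)
    (closedBall_subset_ball hR) (C := m + C + 1) ?_ ?_ ?_
  · exact ((hk.const_mul (m : ℝ)).add (hd.mul hn)).sub (hk.mul ((measurable_gmtNu S).norm.pow_const 2))
  · intro y _
    have h0 := gmtPhi_nonneg (‖y - x‖ / ρ)
    have h1 := gmtPhi_le_one (‖y - x‖ / ρ)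
    have h2 := hC (‖y - x‖ / ρ) (by positivity)
    have h3 : ‖gmtNu S y‖ ^ 2 ≤ 1 := pow_le_one₀ (norm_nonneg _) (norm_gmtNu_le_one S y)
    have h4 : 0 ≤ ‖gmtNu S y‖ ^ 2 := by positivity
    have h5 : gmtPhi (‖y - x‖ / ρ) * ‖gmtNu S y‖ ^ 2 ≤ 1 := by nlinarith
    have h6 : 0 ≤ gmtPhi (‖y - x‖ / ρ) * ‖gmtNu S y‖ ^ 2 := by positivity
    have h7 : (m : ℝ) * gmtPhi (‖y - x‖ / ρ) ≤ m := by
      have : (0 : ℝ) ≤ m := Nat.cast_nonneg m
      nlinarith
    have h8 : 0 ≤ (m : ℝ) * gmtPhi (‖y - x‖ / ρ) := by positivity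
    rw [abs_le] at h2 ⊢
    constructor <;> linarith [h2.1, h2.2]
  · intro y hy
    rw [gmtMoB_kernel_zero hρ hy, gmtMoB_dkernel_zero hρ hy]
    ring

/-- THE MONOTONICITY IDENTITY. -/
theorem gmtI_hasDerivAt (hm : 1 ≤ m) {S : Set (E m)} {x : E m} {R : ℝ}
    (hS : GmtLF S (ball x R)) {ρ : ℝ} (hρ : 0 < ρ) (hR : ρ < R) :
    HasDerivAt (gmtI S x) ((ρ ^ m)⁻¹ * (gmtDef S x ρ - gmtDelta S (gmtRad x ρ))) ρ := by
  obtain ⟨C, hC0, hC⟩ := gmtMoB_sderiv_bound
  -- the value of the derivative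
  have hval : (ρ ^ m)⁻¹ * (gmtDef S x ρ - gmtDelta S (gmtRad x ρ)) =
      ∫ y, gmtMoBK m x ρ y ∂(gmtMu S) := by
    unfold gmtDef gmtDelta
    rw [← integral_sub (gmtDef_integrable hS hρ hR) (gmtMoB_delta_integrable hS hρ hR),
      ← integral_const_mul]
    apply integral_congr_ae
    have h1 := (ae_restrict_iff' (measurableSet_ball (x := x) (ε := R))).1
      (norm_gmtNu_ae isOpen_ball hS)
    filter_upwards [h1] with y hy
    apply gmtMoB_pointwise x hρ
    by_cases hyb : y ∈ closedBall x ρ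
    · left
      exact hy (closedBall_subset_ball hR hyb)
    · right
      exact hyb
  rw [hval]
  have hfun : gmtI S x = fun ρ' => ∫ y, (ρ' ^ (m - 1))⁻¹ * gmtPhi (‖y - x‖ / ρ') ∂(gmtMu S) := by
    funext ρ'
    unfold gmtI
    rw [integral_const_mul]
  rw [hfun]
  set ρ₁ : ℝ := (ρ + R) / 2 with hρ₁
  have hρ₁R : ρ₁ < R := by rw [hρ₁]; linarith
  have hρρ₁ : ρ < ρ₁ := by rw [hρ₁]; linarith
  have hs : Ioo (ρ / 2) ρ₁ ∈ 𝓝 ρ := Ioo_mem_nhds (by linarith) hρρ₁
  set B : ℝ := ((ρ / 2) ^ m)⁻¹ * (((m : ℝ) - 1) + C) with hB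
  have hm1 : (0 : ℝ) ≤ (m : ℝ) - 1 := by
    have : (1 : ℝ) ≤ m := by exact_mod_cast hm
    linarith
  have hB0 : 0 ≤ B := by rw [hB]; positivity
  have hbi : Integrable (indicator (closedBall x ρ₁) fun _ : E m => B) (gmtMu S) := by
    rw [integrable_indicator_iff measurableSet_closedBall]
    exact integrableOn_const (gmtMu_compact_ne_top isOpen_ball hS (isCompact_closedBall x ρ₁)
      (closedBall_subset_ball hρ₁R))
  refine (hasDerivAt_integral_of_dominated_loc_of_deriv_le (μ := gmtMu S)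
    (F := fun ρ' y => (ρ' ^ (m - 1))⁻¹ * gmtPhi (‖y - x‖ / ρ')) (F' := fun ρ' y => gmtMoBK m x ρ' y)
    (bound := indicator (closedBall x ρ₁) fun _ : E m => B) hs ?_ ?_ ?_ ?_ hbi ?_).2
  · exact Eventually.of_forall fun ρ' =>
      (continuous_const.mul (gmtMoB_kernel_continuous x ρ')).aestronglyMeasurable
  · exact (gmtI_integrable hS hρ hR).const_mul _
  · exact (gmtMoBK_continuous x ρ).aestronglyMeasurable
  · refine Eventually.of_forall fun y ρ' hρ' => ?_
    have hρ'0 : 0 < ρ' := by linarith [hρ'.1]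
    by_cases hy : y ∈ closedBall x ρ₁
    · rw [indicator_of_mem hy]
      unfold gmtMoBK
      rw [norm_mul, norm_neg, Real.norm_eq_abs, Real.norm_eq_abs, abs_of_nonneg (by positivity), hB]
      apply mul_le_mul
      · apply inv_anti₀ (by positivity)
        exact pow_le_pow_left₀ (by linarith) hρ'.1.le m
      · refine (abs_add_le _ _).trans (add_le_add ?_ (hC _ (by positivity)))
        rw [abs_mul, abs_of_nonneg hm1, abs_of_nonneg (gmtPhi_nonneg _)]
        exact mul_le_of_le_one_right hm1 (gmtPhi_le_one _)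
      · exact abs_nonneg _
      · positivity
    · rw [indicator_of_notMem hy]
      have hy' : y ∉ closedBall x ρ' := fun h => hy (closedBall_subset_closedBall hρ'.2.le h)
      unfold gmtMoBK
      rw [gmtMoB_kernel_zero hρ'0 hy', gmtMoB_dkernel_zero hρ'0 hy']
      simp
  · refine Eventually.of_forall fun y ρ' hρ' => ?_
    have hρ'0 : 0 < ρ' := by linarith [hρ'.1]
    exact gmtPhi_kernel_hasDerivAt hm (‖y - x‖) hρ'0

/-- comparison with the mass of balls. -/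
theorem gmtI_le_ball {S : Set (E m)} {x : E m} {ρ : ℝ} (hρ : 0 < ρ)
    (hfin : gmtMu S (closedBall x ρ) ≠ ⊤) :
    gmtI S x ρ ≤ (ρ ^ (m - 1))⁻¹ * (gmtMu S (closedBall x ρ)).toReal := by
  unfold gmtI
  apply mul_le_mul_of_nonneg_left _ (by positivity)
  have hbi : Integrable (indicator (closedBall x ρ) fun _ : E m => (1 : ℝ)) (gmtMu S) := by
    rw [integrable_indicator_iff measurableSet_closedBall]
    exact integrableOn_const hfin
  have h1 : ∫ y, gmtPhi (‖y - x‖ / ρ) ∂(gmtMu S) ≤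
      ∫ y, indicator (closedBall x ρ) (fun _ : E m => (1 : ℝ)) y ∂(gmtMu S) := by
    apply integral_mono_of_nonneg (Eventually.of_forall fun y => gmtPhi_nonneg _) hbi
    refine Eventually.of_forall fun y => ?_
    by_cases hy : y ∈ closedBall x ρ
    · simp only [indicator_of_mem hy]
      exact gmtPhi_le_one _
    · simp only [indicator_of_notMem hy]
      exact (gmtMoB_kernel_zero hρ hy).le
  refine h1.trans (le_of_eq ?_)
  rw [integral_indicator measurableSet_closedBall, setIntegral_const]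
  simp [Measure.real]

theorem ball_le_gmtI {S : Set (E m)} {x : E m} {R : ℝ} (hS : GmtLF S (ball x R)) {ρ : ℝ}
    (hρ : 0 < ρ) (hR : ρ < R) :
    (ρ ^ (m - 1))⁻¹ * (gmtMu S (closedBall x (ρ / 2))).toReal ≤ gmtI S x ρ := by
  unfold gmtI
  apply mul_le_mul_of_nonneg_left _ (by positivity)
  have h1 : ∫ y, indicator (closedBall x (ρ / 2)) (fun _ : E m => (1 : ℝ)) y ∂(gmtMu S) ≤
      ∫ y, gmtPhi (‖y - x‖ / ρ) ∂(gmtMu S) := by
    apply integral_mono_of_nonneg (Eventually.of_forall fun y => indicator_nonneg (by simp) y)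
      (gmtI_integrable hS hρ hR)
    refine Eventually.of_forall fun y => ?_
    by_cases hy : y ∈ closedBall x (ρ / 2)
    · simp only [indicator_of_mem hy]
      rw [mem_closedBall, dist_eq_norm] at hy
      rw [gmtPhi_eq_one]
      rw [div_le_iff₀ hρ]
      linarith
    · simp only [indicator_of_notMem hy]
      exact gmtPhi_nonneg _
  refine (le_of_eq ?_).trans h1
  rw [integral_indicator measurableSet_closedBall, setIntegral_const]
  simp [Measure.real]

/-! ### invariances -/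

theorem gmtI_congr {S S' : Set (E m)} (hS : MeasurableSet S) (hS' : MeasurableSet S')
    (h : S =ᵐ[volume] S') (x : E m) (ρ : ℝ) : gmtI S x ρ = gmtI S' x ρ := by
  have h1 := gmtMu_restrict_congr isOpen_univ hS hS' (by simpa using h)
  rw [Measure.restrict_univ, Measure.restrict_univ] at h1
  unfold gmtI
  rw [h1]

/-- similarities. -/
theorem gmtI_gmtBlow (O : E m ≃ₗᵢ[ℝ] E m) (z : E m) {r : ℝ} (hr : 0 < r) {S : Set (E m)}
    (hS : MeasurableSet S) (y : E m) (σ : ℝ) :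
    gmtI (gmtBlow O.toContinuousLinearEquiv z r S) y σ =
      gmtI S (gmtAff O.toContinuousLinearEquiv z r y) (r * σ) := by
  unfold gmtI
  rw [integral_gmtMu_gmtBlow O z hr hS]
  have h1 : ∀ y' : E m, gmtPhi (‖gmtAff O.toContinuousLinearEquiv z r y' -
      gmtAff O.toContinuousLinearEquiv z r y‖ / (r * σ)) = gmtPhi (‖y' - y‖ / σ) := by
    intro y'
    have h2 : gmtAff O.toContinuousLinearEquiv z r y' - gmtAff O.toContinuousLinearEquiv z r y =
        r • O.symm (y' - y) := by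
      unfold gmtAff
      rw [map_sub, smul_sub]
      simp
    rw [h2, norm_smul, Real.norm_of_nonneg hr.le, LinearIsometryEquiv.norm_map,
      mul_div_mul_left _ _ hr.ne']
  simp only [h1]
  rw [mul_pow, mul_inv, ← mul_assoc]
  congr 1
  have : r ^ (m - 1) ≠ 0 := pow_ne_zero _ hr.ne'
  field_simp

theorem gmtI_gmtDil (z : E m) {r : ℝ} (hr : 0 < r) {S : Set (E m)} (hS : MeasurableSet S)
    (y : E m) (σ : ℝ) : gmtI (gmtDil z r S) y σ = gmtI S (z + r • y) (r * σ) := by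
  have h := gmtI_gmtBlow (LinearIsometryEquiv.refl ℝ (E m)) z hr hS y σ
  have e : (LinearIsometryEquiv.refl ℝ (E m)).toContinuousLinearEquiv =
      ContinuousLinearEquiv.refl ℝ (E m) := by
    ext v
    rfl
  rw [e, gmtBlow_refl] at h
  exact h

/-- two frames of the same form give the same density ratios. -/
theorem gmtI_frame (hm : 2 ≤ m) {B : Bil m} {T T' : E m ≃L[ℝ] E m} (hT : GmtFrame B T)
    (hT' : GmtFrame B T') (z : E m) {r : ℝ} (hr : 0 < r) {S : Set (E m)} (hS : MeasurableSet S)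
    (σ : ℝ) : gmtI (gmtBlow T' z r S) 0 σ = gmtI (gmtBlow T z r S) 0 σ := by
  obtain ⟨O, hO⟩ := gmt_frame_unique hm hT hT'
  have e1 : T' = T.trans O.toContinuousLinearEquiv := by
    ext1
    funext v
    exact hO v
  have e2 : gmtBlow T' z r S = gmtBlow O.toContinuousLinearEquiv 0 1 (gmtBlow T z r S) := by
    rw [gmtBlow_gmtBlow, e1]
    simp [gmtAff]
  rw [e2, gmtI_gmtBlow O 0 one_pos (measurableSet_gmtBlow T z r hS)]
  simp [gmtAff]

/-- scaling in a frame. -/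
theorem gmtI_gmtBlow_scale (T : E m ≃L[ℝ] E m) (z : E m) {r s : ℝ} (hr : 0 < r) (hs : 0 < s)
    {S : Set (E m)} (hS : MeasurableSet S) (σ : ℝ) :
    gmtI (gmtBlow T z (r * s) S) 0 σ = gmtI (gmtBlow T z r S) 0 (s * σ) := by
  rw [← gmtDil_gmtBlow, gmtI_gmtDil 0 hs (measurableSet_gmtBlow T z r hS)]
  simp

/-! ### continuity -/

theorem gmtI_continuous {S : Set (E m)} (hS : GmtLF S univ) {ρ : ℝ} (hρ : 0 < ρ) :
    Continuous fun x => gmtI S x ρ := by
  unfold gmtI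
  refine continuous_const.mul ?_
  rw [continuous_iff_continuousAt]
  intro x₀
  have hbi : Integrable (indicator (closedBall x₀ (ρ + 1)) fun _ : E m => (1 : ℝ)) (gmtMu S) := by
    rw [integrable_indicator_iff measurableSet_closedBall]
    exact integrableOn_const (gmtMu_compact_ne_top isOpen_univ hS (isCompact_closedBall x₀ (ρ + 1))
      (subset_univ _))
  refine continuousAt_of_dominated (bound := indicator (closedBall x₀ (ρ + 1)) fun _ : E m => (1 : ℝ))
    ?_ ?_ hbi ?_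
  · exact Eventually.of_forall fun x => (gmtMoB_kernel_continuous x ρ).aestronglyMeasurable
  · filter_upwards [ball_mem_nhds x₀ one_pos] with x hx
    refine Eventually.of_forall fun y => ?_
    rw [Real.norm_of_nonneg (gmtPhi_nonneg _)]
    by_cases hy : y ∈ closedBall x₀ (ρ + 1)
    · rw [indicator_of_mem hy]
      exact gmtPhi_le_one _
    · rw [indicator_of_notMem hy]
      refine (gmtMoB_kernel_zero hρ ?_).le
      intro hy'
      apply hy
      rw [mem_closedBall] at hy' ⊢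
      rw [mem_ball] at hx
      linarith [dist_triangle y x x₀]
  · refine Eventually.of_forall fun y => ?_
    exact (gmtPhi_contDiff.continuous.comp
      ((continuous_const.sub continuous_id).norm.div_const ρ)).continuousAt

/-- convergence of the density ratios under weak convergence of the perimeter measures. -/
theorem gmtI_wk {S : ℕ → Set (E m)} {S' : Set (E m)}
    (hw : GmtWk univ (fun i => gmtMu (S i)) (gmtMu S')) (x : E m) {ρ : ℝ} (hρ : 0 < ρ) :
    Tendsto (fun i => gmtI (S i) x ρ) atTop (𝓝 (gmtI S' x ρ)) := by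
  unfold gmtI
  refine Tendsto.const_mul _ (hw _ (gmtMoB_kernel_continuous x ρ) ?_ (subset_univ _))
  refine HasCompactSupport.of_support_subset_isCompact (isCompact_closedBall x ρ) ?_
  intro y hy
  by_contra hcon
  exact hy (gmtMoB_kernel_zero hρ hcon)

end Claimed.Agent.Gmt
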