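import Claimed.Agent.Lib.Gmt.MoB
import Claimed.Agent.Lib.Gmt.LamBase

/-!
# Lib/Gmt G6 MONOTONICITY [part C]: monotonicity, density, rigidity.   (architect: helper184)

PLAN OF PROOFS
* `gmtI_mono_min`: `gmtI_hasDerivAt`, `gmtDelta S (gmtRad x ρ) = 0` (`gmt_min_fv`, `gmtRad_test`), `gmtDef_nonneg`; `monotoneOn_of_deriv_nonneg` on the convex set `Ioo 0 R`.
* `gmtI_mono_am`: axiom `GmtAM.fv` with `r = min (2ρ) R ∈ (ρ, R]`:
  `|δS(X_ρ)| ≤ ∫ (2 κ ρ ‖DX_ρ‖ + (κ+Λ) ‖X_ρ‖) dμ ≤ (2 κ C₀ + κ + Λ) ρ μ(closedBall x ρ)` (`gmtRad_fderiv_le`, `gmtRad_norm_le`, `gmtRad_tsupport`) and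
  `μ(closedBall x ρ) ≤ C₁ ρ^{m-1}` (`GmtAM.toQM`, `GmtQM.per_ball_le` on slightly larger balls, `gmtMu_open`; uses `κ R ≤ 1`, `Λ R ≤ 1`).  So `I' ≥ -C (κ+Λ)`.
* `gmtTh`: a function `g` on `(0,R)` with `g + Cρ` nondecreasing and `g ≥ 0` has a limit at `0+` (`tendsto_order`/`Monotone.tendsto_nhdsGT`, `MonotoneOn`), equal to `inf (g + Cρ)`.
* `gmtI_const_radial`: if `I(x,·)` is constant on `(0,∞)` then `gmtDef S x ρ = 0` for all `ρ`; the integrand is `≥ 0`, so it vanishes a.e. (`integral_eq_zero_iff_of_nonneg`);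
  `-φ'(|y-x|/ρ) > 0` for `ρ/2 < |y-x| < ρ` (`gmtPhi_deriv_neg`); the countably many annuli with `ρ ∈ ℚ` cover `E m \ {x}`; at `y = x` the claim is trivial.
-/

set_option autoImplicit false
open scoped ContDiff ENNReal RealInnerProductSpace Topology
open MeasureTheory Metric Set Filter

namespace Claimed.Agent.Gmt

variable {m : ℕ}

/-- MONOTONICITY for Euclidean minimisers. -/
theorem gmtI_mono_min (hm : 1 ≤ m) {S : Set (E m)} {x : E m} {R : ℝ}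
    (hS : GmtMin (ball x R) S) : MonotoneOn (gmtI S x) (Ioo 0 R) := by
  have hlf : GmtLF S (ball x R) := GmtLAM.lf isOpen_ball (gmtInt_eu _) hS
  have hder : ∀ ρ ∈ Ioo 0 R, HasDerivAt (gmtI S x) ((ρ ^ m)⁻¹ * gmtDef S x ρ) ρ := by
    intro ρ hρ
    have h1 := gmtI_hasDerivAt hm hlf hρ.1 hρ.2
    have h2 : gmtDelta S (gmtRad x ρ) = 0 := gmt_min_fv isOpen_ball hS (gmtRad_test x hρ.1 hρ.2)
    rwa [h2, sub_zero] at h1
  refine monotoneOn_of_deriv_nonneg (convex_Ioo 0 R)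
    (fun ρ hρ => (hder ρ hρ).continuousAt.continuousWithinAt) ?_ ?_
  · rw [interior_Ioo]
    exact fun ρ hρ => (hder ρ hρ).differentiableAt.differentiableWithinAt
  · rw [interior_Ioo]
    intro ρ hρ
    rw [(hder ρ hρ).deriv]
    exact mul_nonneg (inv_nonneg.2 (pow_nonneg hρ.1.le _)) (gmtDef_nonneg S x hρ.1)

theorem gmtI_mono_min_univ (hm : 1 ≤ m) {S : Set (E m)} (hS : GmtMin univ S) (x : E m) :
    MonotoneOn (gmtI S x) (Ioi 0) := by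
  intro a ha b hb hab
  have h1 : GmtMin (ball x (b + 1)) S := GmtLAM.mono hS (subset_univ _)
  exact gmtI_mono_min hm h1 ⟨ha, by linarith⟩ ⟨hb, by linarith⟩ hab

/-- upper mass bound at the centre of the class. -/
theorem gmtAM_upper (m : ℕ) (hm : 1 ≤ m) : ∃ C : ℝ, 0 < C ∧ ∀ (κ Λ : ℝ) (x : E m) (R : ℝ) (S : Set (E m)),
    0 ≤ κ → 0 ≤ Λ → κ * R ≤ 1 → Λ * R ≤ 1 → GmtAM κ Λ x R S → ∀ ρ, 0 < ρ → ρ < R →
      gmtMu S (closedBall x ρ) ≤ ENNReal.ofReal (C * ρ ^ (m - 1)) := by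
  have hom : 0 ≤ gmtOm m := ENNReal.toReal_nonneg
  refine ⟨(2 * m + 1) * gmtOm m * 2 ^ (m - 1) + 1, by positivity, ?_⟩
  intro κ Λ x R S hκ hΛ hκR hΛR hAM ρ hρ hρR
  set r : ℝ := min (2 * ρ) ((ρ + R) / 2) with hr
  have hρr : ρ < r := lt_min (by linarith) (by linarith)
  have hrR : r < R := (min_le_right _ _).trans_lt (by linarith)
  have hr2 : r ≤ 2 * ρ := min_le_left _ _
  have hr0 : 0 < r := hρ.trans hρr
  have hQM := hAM.toQM (le_refl R)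
  have h1 := hQM.per_ball_le (mul_nonneg hκ (hρ.trans hρR).le) hΛ isOpen_ball hr0
    (closedBall_subset_ball hrR)
  rw [← gmtMu_open S isOpen_ball] at h1
  refine (measure_mono (closedBall_subset_ball hρr)).trans (h1.trans ?_)
  apply ENNReal.ofReal_le_ofReal
  have hpow : r ^ m = r ^ (m - 1) * r := by
    rw [← pow_succ]; congr 1; omega
  have hrp : 0 ≤ r ^ (m - 1) := pow_nonneg hr0.le _
  have hΛr : Λ * r ≤ 1 := (mul_le_mul_of_nonneg_left hrR.le hΛ).trans hΛR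
  have h2 : r ^ (m - 1) ≤ 2 ^ (m - 1) * ρ ^ (m - 1) := by
    rw [← mul_pow]; exact pow_le_pow_left₀ hr0.le hr2 _
  have hm0 : (0 : ℝ) ≤ m := Nat.cast_nonneg m
  have h3 : (1 + κ * R) * m * gmtOm m * r ^ (m - 1) ≤ 2 * m * gmtOm m * r ^ (m - 1) := by
    have : (1 + κ * R) ≤ 2 := by linarith
    gcongr
  have h4 : Λ * gmtOm m * r ^ m ≤ gmtOm m * r ^ (m - 1) := by
    rw [hpow]
    calc Λ * gmtOm m * (r ^ (m - 1) * r) = (Λ * r) * (gmtOm m * r ^ (m - 1)) := by ring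
      _ ≤ 1 * (gmtOm m * r ^ (m - 1)) := by gcongr
      _ = _ := one_mul _
  have h5 : (2 * m + 1) * gmtOm m * r ^ (m - 1) ≤
      (2 * m + 1) * gmtOm m * (2 ^ (m - 1) * ρ ^ (m - 1)) := by gcongr
  have h6 : 0 ≤ ρ ^ (m - 1) := pow_nonneg hρ.le _
  nlinarith

/-- bound of the first variation of the radial field. -/
theorem gmtAM_delta_rad (m : ℕ) (hm : 1 ≤ m) : ∃ C : ℝ, 0 < C ∧ ∀ (κ Λ : ℝ) (x : E m) (R : ℝ) (S : Set (E m)),
    0 ≤ κ → 0 ≤ Λ → κ * R ≤ 1 → Λ * R ≤ 1 → GmtAM κ Λ x R S → ∀ ρ, 0 < ρ → ρ < R →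
      |gmtDelta S (gmtRad x ρ)| ≤ C * (κ + Λ) * ρ ^ m := by
  obtain ⟨C₁, hC₁, hup⟩ := gmtAM_upper m hm
  obtain ⟨C₀, hC₀, hfd⟩ := gmtRad_fderiv_le
  refine ⟨(2 * C₀ + 1) * C₁, by positivity, ?_⟩
  intro κ Λ x R S hκ hΛ hκR hΛR hAM ρ hρ hρR
  set r : ℝ := min (2 * ρ) R with hr
  have hρr : ρ < r := lt_min (by linarith) hρR
  have hr2 : r ≤ 2 * ρ := min_le_left _ _
  have h1 := hAM.fv r (min_le_right _ _) (gmtRad x ρ) (gmtRad_test x hρ hρr)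
  have hμ := hup κ Λ x R S hκ hΛ hκR hΛR hAM ρ hρ hρR
  have hμfin : gmtMu S (closedBall x ρ) ≠ ⊤ := (hμ.trans_lt ENNReal.ofReal_lt_top).ne
  set c : ℝ := (2 * C₀ + 1) * (κ + Λ) * ρ with hc
  have hc0 : 0 ≤ c := by positivity
  have hint : Integrable ((closedBall x ρ).indicator fun _ => c) (gmtMu S) := by
    rw [integrable_indicator_iff measurableSet_closedBall]
    exact integrableOn_const hμfin
  have h2 : ∫ y, (κ * r * ‖fderiv ℝ (gmtRad x ρ) y‖ + (κ + Λ) * ‖gmtRad x ρ y‖) ∂(gmtMu S) ≤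
      ∫ y, (closedBall x ρ).indicator (fun _ => c) y ∂(gmtMu S) := by
    refine integral_mono_of_nonneg (Eventually.of_forall fun y => ?_) hint
      (Eventually.of_forall fun y => ?_)
    · have : 0 ≤ r := (hρ.trans hρr).le
      simp only [Pi.zero_apply]
      positivity
    · by_cases hy : y ∈ closedBall x ρ
      · simp only [indicator_of_mem hy]
        have e1 := hfd m x ρ hρ y
        have e2 := gmtRad_norm_le x hρ y
        have e3 : κ * r * ‖fderiv ℝ (gmtRad x ρ) y‖ ≤ κ * (2 * ρ) * C₀ := by gcongr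
        have e4 : (κ + Λ) * ‖gmtRad x ρ y‖ ≤ (κ + Λ) * ρ := by gcongr
        have e5 : 0 ≤ Λ * ρ * C₀ := by positivity
        rw [hc]; nlinarith
      · have hy' : y ∉ tsupport (gmtRad x ρ) := fun h => hy (gmtRad_tsupport x hρ h)
        have hfd0 : fderiv ℝ (gmtRad x ρ) y = 0 := fderiv_of_notMem_tsupport ℝ hy'
        simp only [indicator_of_notMem hy, hfd0,
          image_eq_zero_of_notMem_tsupport hy', norm_zero, mul_zero, add_zero, le_refl]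
  rw [integral_indicator_const _ measurableSet_closedBall] at h2
  have h3 : (gmtMu S).real (closedBall x ρ) ≤ C₁ * ρ ^ (m - 1) := by
    have := ENNReal.toReal_mono ENNReal.ofReal_ne_top hμ
    rwa [ENNReal.toReal_ofReal (by positivity)] at this
  have hpow : ρ ^ m = ρ ^ (m - 1) * ρ := by
    rw [← pow_succ]; congr 1; omega
  calc |gmtDelta S (gmtRad x ρ)| ≤ _ := h1
    _ ≤ (gmtMu S).real (closedBall x ρ) • c := h2
    _ ≤ (C₁ * ρ ^ (m - 1)) * c := by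
        rw [smul_eq_mul]; exact mul_le_mul_of_nonneg_right h3 hc0
    _ = (2 * C₀ + 1) * C₁ * (κ + Λ) * ρ ^ m := by rw [hc, hpow]; ring

/-- ALMOST MONOTONICITY at the centre of the class `GmtAM`. -/
theorem gmtI_mono_am (m : ℕ) (hm : 1 ≤ m) : ∃ C : ℝ, 0 < C ∧
    ∀ (κ Λ : ℝ) (x : E m) (R : ℝ) (S : Set (E m)),
    0 ≤ κ → 0 ≤ Λ → κ * R ≤ 1 → Λ * R ≤ 1 → GmtAM κ Λ x R S →
      MonotoneOn (fun ρ => gmtI S x ρ + C * (κ + Λ) * ρ) (Ioo 0 R) := by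
  obtain ⟨C, hC, hδ⟩ := gmtAM_delta_rad m hm
  refine ⟨C, hC, ?_⟩
  intro κ Λ x R S hκ hΛ hκR hΛR hAM
  have hder : ∀ ρ ∈ Ioo 0 R, HasDerivAt (fun ρ => gmtI S x ρ + C * (κ + Λ) * ρ)
      ((ρ ^ m)⁻¹ * (gmtDef S x ρ - gmtDelta S (gmtRad x ρ)) + C * (κ + Λ)) ρ := by
    intro ρ hρ
    have h1 := gmtI_hasDerivAt hm hAM.lf hρ.1 hρ.2
    have h2 : HasDerivAt (fun ρ : ℝ => C * (κ + Λ) * ρ) (C * (κ + Λ)) ρ := by
      simpa using (hasDerivAt_id ρ).const_mul (C * (κ + Λ))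
    exact h1.add h2
  refine monotoneOn_of_deriv_nonneg (convex_Ioo 0 R)
    (fun ρ hρ => (hder ρ hρ).continuousAt.continuousWithinAt) ?_ ?_
  · rw [interior_Ioo]
    exact fun ρ hρ => (hder ρ hρ).differentiableAt.differentiableWithinAt
  · rw [interior_Ioo]
    intro ρ hρ
    rw [(hder ρ hρ).deriv]
    have h1 := hδ κ Λ x R S hκ hΛ hκR hΛR hAM ρ hρ.1 hρ.2
    have h2 := gmtDef_nonneg S x hρ.1
    have h3 : 0 < ρ ^ m := pow_pos hρ.1 _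
    have h4 : -(C * (κ + Λ) * ρ ^ m) ≤ gmtDef S x ρ - gmtDelta S (gmtRad x ρ) := by
      have := (abs_le.1 h1).2
      linarith
    have h5 : (ρ ^ m)⁻¹ * -(C * (κ + Λ) * ρ ^ m) ≤
        (ρ ^ m)⁻¹ * (gmtDef S x ρ - gmtDelta S (gmtRad x ρ)) :=
      mul_le_mul_of_nonneg_left h4 (inv_nonneg.2 h3.le)
    have h6 : (ρ ^ m)⁻¹ * -(C * (κ + Λ) * ρ ^ m) = -(C * (κ + Λ)) := by
      field_simp
    linarith

/-- the (unnormalised) density `Θ(S,x) = lim_{ρ→0} I(x,ρ)`. -/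
noncomputable def gmtTh (S : Set (E m)) (x : E m) : ℝ := limUnder (𝓝[>] (0 : ℝ)) (gmtI S x)

/-- elementary: existence of the limit. -/
theorem gmt_almost_mono_limit {g : ℝ → ℝ} {R C : ℝ} (hR : 0 < R) (hg : ∀ ρ ∈ Ioo 0 R, 0 ≤ g ρ)
    (hmono : MonotoneOn (fun ρ => g ρ + C * ρ) (Ioo 0 R)) :
    ∃ θ : ℝ, Tendsto g (𝓝[>] 0) (𝓝 θ) ∧ 0 ≤ θ ∧ ∀ ρ ∈ Ioo 0 R, θ ≤ g ρ + C * ρ := by
  have hne : (Ioo 0 R).Nonempty := nonempty_Ioo.2 hR
  have hbdd : BddBelow ((fun ρ => g ρ + C * ρ) '' Ioo 0 R) := by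
    refine ⟨-(|C| * R), ?_⟩
    rintro _ ⟨ρ, hρ, rfl⟩
    have h1 := hg ρ hρ
    have h2 : |C * ρ| ≤ |C| * R := by
      rw [abs_mul, abs_of_pos hρ.1]
      exact mul_le_mul_of_nonneg_left hρ.2.le (abs_nonneg _)
    have := (abs_le.1 h2).1
    simp only
    linarith
  have h1 := hmono.tendsto_nhdsWithin_Ioo_right hne hbdd
  set θ := sInf ((fun ρ => g ρ + C * ρ) '' Ioo 0 R) with hθ
  have h2 : Tendsto (fun ρ : ℝ => C * ρ) (𝓝[>] 0) (𝓝 0) := by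
    have : Tendsto (fun ρ : ℝ => C * ρ) (𝓝 0) (𝓝 (C * 0)) := (continuous_const_mul C).tendsto 0
    rw [mul_zero] at this
    exact this.mono_left nhdsWithin_le_nhds
  have h3 : Tendsto g (𝓝[>] 0) (𝓝 θ) := by
    have := h1.sub h2
    simpa using this
  refine ⟨θ, h3, ?_, fun ρ hρ => csInf_le hbdd (mem_image_of_mem _ hρ)⟩
  refine ge_of_tendsto h3 ?_
  filter_upwards [Ioo_mem_nhdsGT hR] with ρ hρ
  exact hg ρ hρ

theorem gmtTh_tendsto (hm : 1 ≤ m) {κ Λ : ℝ} {x : E m} {R : ℝ} {S : Set (E m)} (hκ : 0 ≤ κ)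
    (hΛ : 0 ≤ Λ) (hR : 0 < R) (hS : GmtAM κ Λ x R S) :
    Tendsto (gmtI S x) (𝓝[>] 0) (𝓝 (gmtTh S x)) := by
  obtain ⟨C, -, hmono⟩ := gmtI_mono_am m hm
  set R' : ℝ := min R (1 / (κ + Λ + 1)) with hR'
  have hden : 0 < κ + Λ + 1 := by positivity
  have hR'0 : 0 < R' := lt_min hR (one_div_pos.2 hden)
  have hR'R : R' ≤ R := min_le_left _ _
  have hR'1 : R' ≤ 1 / (κ + Λ + 1) := min_le_right _ _
  have hκR : κ * R' ≤ 1 := by
    calc κ * R' ≤ κ * (1 / (κ + Λ + 1)) := mul_le_mul_of_nonneg_left hR'1 hκ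
      _ = κ / (κ + Λ + 1) := by ring
      _ ≤ 1 := by rw [div_le_one hden]; linarith
  have hΛR : Λ * R' ≤ 1 := by
    calc Λ * R' ≤ Λ * (1 / (κ + Λ + 1)) := mul_le_mul_of_nonneg_left hR'1 hΛ
      _ = Λ / (κ + Λ + 1) := by ring
      _ ≤ 1 := by rw [div_le_one hden]; linarith
  have hS' : GmtAM κ Λ x R' S :=
    ⟨hS.lf.mono (ball_subset_ball hR'R), fun r hr => hS.am r (hr.trans hR'R),
      fun r hr => hS.fv r (hr.trans hR'R)⟩
  obtain ⟨θ, hθ, -, -⟩ := gmt_almost_mono_limit (g := gmtI S x) (C := C * (κ + Λ)) hR'0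
    (fun ρ hρ => gmtI_nonneg S x hρ.1) (hmono κ Λ x R' S hκ hΛ hκR hΛR hS')
  rw [gmtTh, hθ.limUnder_eq]
  exact hθ

theorem gmtTh_le (m : ℕ) (hm : 1 ≤ m) : ∃ C : ℝ, 0 < C ∧
    ∀ (κ Λ : ℝ) (x : E m) (R : ℝ) (S : Set (E m)),
    0 ≤ κ → 0 ≤ Λ → κ * R ≤ 1 → Λ * R ≤ 1 → GmtAM κ Λ x R S → ∀ ρ, 0 < ρ → ρ < R →
      gmtTh S x ≤ gmtI S x ρ + C * (κ + Λ) * ρ := by
  obtain ⟨C, hC, hmono⟩ := gmtI_mono_am m hm
  refine ⟨C, hC, ?_⟩
  intro κ Λ x R S hκ hΛ hκR hΛR hAM ρ hρ hρR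
  obtain ⟨θ, hθ, -, hle⟩ := gmt_almost_mono_limit (g := gmtI S x) (C := C * (κ + Λ))
    (hρ.trans hρR) (fun ρ hρ => gmtI_nonneg S x hρ.1) (hmono κ Λ x R S hκ hΛ hκR hΛR hAM)
  rw [gmtTh, hθ.limUnder_eq]
  exact hle ρ ⟨hρ, hρR⟩

theorem gmtTh_le_min (hm : 1 ≤ m) {S : Set (E m)} (hS : GmtMin univ S) (x : E m) {ρ : ℝ}
    (hρ : 0 < ρ) : gmtTh S x ≤ gmtI S x ρ := by
  obtain ⟨C, -, hle⟩ := gmtTh_le m hm
  have h1 : GmtAM 0 0 x (ρ + 1) S := GmtMin.toAM (GmtLAM.mono hS (subset_univ _))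
  have := hle 0 0 x (ρ + 1) S le_rfl le_rfl (by simp) (by simp) h1 ρ hρ (by linarith)
  simpa using this

theorem gmtTh_tendsto_min (hm : 1 ≤ m) {S : Set (E m)} (hS : GmtMin univ S) (x : E m) :
    Tendsto (gmtI S x) (𝓝[>] 0) (𝓝 (gmtTh S x)) :=
  gmtTh_tendsto hm le_rfl le_rfl one_pos (GmtMin.toAM (GmtLAM.mono hS (subset_univ _)))

/-- RIGIDITY: constant density ratio forces the normal to be orthogonal to the radial direction. -/
theorem gmtI_const_radial (hm : 1 ≤ m) {S : Set (E m)} (hS : GmtMin univ S) {x : E m} {c : ℝ}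
    (hc : ∀ ρ, 0 < ρ → gmtI S x ρ = c) : ∀ᵐ y ∂(gmtMu S), ⟪y - x, gmtNu S y⟫ = 0 := by
  have hdef : ∀ ρ, 0 < ρ → gmtDef S x ρ = 0 := by
    intro ρ hρ
    have hmin : GmtMin (ball x (ρ + 1)) S := GmtLAM.mono hS (subset_univ _)
    have hlf : GmtLF S (ball x (ρ + 1)) := GmtLAM.lf isOpen_ball (gmtInt_eu _) hmin
    have h1 := gmtI_hasDerivAt hm hlf hρ (by linarith : ρ < ρ + 1)
    have h2 : gmtDelta S (gmtRad x ρ) = 0 :=
      gmt_min_fv isOpen_ball hmin (gmtRad_test x hρ (by linarith))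
    rw [h2, sub_zero] at h1
    have h3 : HasDerivAt (gmtI S x) 0 ρ := by
      refine (hasDerivAt_const ρ c).congr_of_eventuallyEq ?_
      filter_upwards [Ioi_mem_nhds hρ] with σ hσ
      exact hc σ hσ
    have h4 := h1.unique h3
    have h5 : (ρ ^ m)⁻¹ ≠ 0 := inv_ne_zero (pow_pos hρ _).ne'
    exact (mul_eq_zero.1 h4).resolve_left h5
  have hae : ∀ q : ℚ, ∀ᵐ y ∂(gmtMu S), 0 < (q : ℝ) →
      -deriv gmtPhi (‖y - x‖ / q) * ⟪y - x, gmtNu S y⟫ ^ 2 / (q * ‖y - x‖) = 0 := by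
    intro q
    by_cases hq : 0 < (q : ℝ)
    · have hlf : GmtLF S (ball x ((q : ℝ) + 1)) :=
        GmtLAM.lf isOpen_ball (gmtInt_eu _) (GmtLAM.mono hS (subset_univ _))
      have hint := gmtDef_integrable hlf hq (by linarith : (q : ℝ) < q + 1)
      have hnn : 0 ≤ fun y => -deriv gmtPhi (‖y - x‖ / q) * ⟪y - x, gmtNu S y⟫ ^ 2 /
          (q * ‖y - x‖) := by
        intro y
        have := gmtPhi_deriv_nonpos (‖y - x‖ / q)
        simp only [Pi.zero_apply]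
        apply div_nonneg (mul_nonneg (by linarith) (sq_nonneg _))
        positivity
      have := (integral_eq_zero_iff_of_nonneg hnn hint).1 (hdef q hq)
      filter_upwards [this] with y hy _
      exact hy
    · exact Eventually.of_forall fun y h => absurd h hq
  rw [← ae_all_iff] at hae
  filter_upwards [hae] with y hy
  by_cases hyx : y = x
  · simp [hyx]
  have hn : 0 < ‖y - x‖ := norm_pos_iff.2 (sub_ne_zero.2 hyx)
  obtain ⟨q, hq1, hq2⟩ := exists_rat_btwn (show ‖y - x‖ < 2 * ‖y - x‖ by linarith)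
  have hq0 : 0 < (q : ℝ) := hn.trans hq1
  have h1 := hy q hq0
  have h2 : deriv gmtPhi (‖y - x‖ / q) < 0 := by
    apply gmtPhi_deriv_neg
    · rw [lt_div_iff₀ hq0]; linarith
    · rw [div_lt_one hq0]; exact hq1
  rw [div_eq_zero_iff] at h1
  rcases h1 with h1 | h1
  · rcases mul_eq_zero.1 h1 with h3 | h3
    · linarith
    · exact pow_eq_zero_iff (two_ne_zero) |>.1 h3
  · exact absurd h1 (mul_pos hq0 hn).ne'

end Claimed.Agent.Gmt
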