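import Claimed.Agent.Lib.Gmt.SpB

/-!
# Lib/Gmt G6 PIECES [part A: `gmt_plane_at`]: compact pieces with one-sided flatness (paper P, Lemma C.2 `local:flat-pieces`).   (architect: helper184)

PLAN OF PROOFS
* `gmt_plane_at` (by contradiction).  Fix the frame `T = gmtFr (A x)`.  If the claim fails for `d = r₀ = 1/(i+1)` there is `r i ∈ (0, 1/(i+1))` such that for EVERY subspace `L` with `finrank L ≤ m - 8` some
  `z ∈ Σ ∩ ball x (r i)` has `Θ(z) ≥ Θ(x) - 1/(i+1)` and `infDist (z - x) L ≥ η r i`.  Pass to a tangent cone `C` along a subsequence (`gmt_tangent_exists`); it is a singular cone (`gmt_tangent_singcone`), so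
  `finrank (gmtSpine C) ≤ m - 8` (`gmt_spine_bound`).  Take `L = (gmtSpine C).map T.symm` (same finrank), get `z i`.  `w i = (r i)⁻¹ T (z i - x)` is bounded by `‖T‖`: a further subsequence converges to `w`.
  `gmt_usc_spine`: `w ∈ gmtSpine C`, so `T.symm w ∈ L`.  But `infDist (T.symm (w i)) L = (r i)⁻¹ infDist (z i - x) L ≥ η` (`L` is a cone), and `infDist (·) L` is continuous: `infDist (T.symm w) L ≥ η > 0`.  Contradiction.
* `gmt_group_flat` (pure metric topology; paper's "countable decomposition, including its closure step").  For `a, b ∈ ℕ`, `q ∈ ℤ`, put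
  `G(a,b,q) = {x ∈ Σ | the plane property holds at x with d = 1/(b+1), r₀ = 1/(a+1), and q ≤ 4(b+1) Θ(x) < q + 1}`.  Two points `x, z` of the same group satisfy `Θ(z) > Θ(x) - 1/(b+1)`.
  Let `Q j` be a compact exhaustion of `U` (`exists_compact_exhaustion`-type: `CompactExhaustion` of the open subspace, or `Q j = {x | dist x Uᶜ ≥ 1/(j+1)} ∩ closedBall 0 j`), `F = closure (Q j ∩ G(a,b,q))`, `ρ = 1/(3(a+1))`.
  `F ⊆ Q j ∩ Σ` since `Q j ∩ Σ = Q j \ (U \ Σ)` is closed.   CLOSURE STEP (no compactness of the Grassmannian): let `x ∈ F`, `0 < r < ρ`.  Choose a group point `x'` with `|x - x'| < min (η r/3) (r/2)` and the subspace `L` of `x'` at radius `2r`.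
  For `z ∈ F ∩ ball x r` choose group points `z_j → z`; eventually `z_j ∈ ball x' (2r)`, so `infDist (z_j - x') L < (η/3) 2r`, `infDist (z_j - x) L < 2ηr/3 + |x - x'|`; in the limit `infDist (z - x) L ≤ 2ηr/3 + |x-x'| < η r`.
  Enumerate `ℕ × ℕ × ℤ × ℕ` by `ℕ`.
-/

set_option autoImplicit false
open scoped ContDiff ENNReal RealInnerProductSpace Topology
open MeasureTheory Metric Set Filter

namespace Claimed.Agent.Gmt

variable {m : ℕ}

/-- near a singular point the singular points of almost the same density lie near a subspace of dimension `≤ m - 8`. -/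
theorem gmt_plane_at (hSim : ∀ k, 2 ≤ k → k ≤ 7 → GmtSimons k) (hm : 2 ≤ m) {U S : Set (E m)}
    {A : E m → Bil m} {f : E m → ℝ} (hd : GmtData U A f) (hS : GmtLAM A f U S) {x : E m}
    (hx : x ∈ gmtSing S U) {η : ℝ} (hη : 0 < η) :
    ∃ d > 0, ∃ r₀ > 0, ∀ r, 0 < r → r < r₀ → ∃ L : Submodule ℝ (E m),
      Module.finrank ℝ L ≤ m - 8 ∧ ∀ z ∈ gmtSing S U ∩ ball x r,
        gmtThA A S x - d ≤ gmtThA A S z → infDist (z - x) (L : Set (E m)) < η * r := by
  by_contra hcon
  push Not at hcon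
  have hpos : ∀ i : ℕ, 0 < 1 / ((i : ℝ) + 1) := fun i => Nat.one_div_pos_of_nat
  have hlim0 : Tendsto (fun i : ℕ => 1 / ((i : ℝ) + 1)) atTop (𝓝 0) :=
    tendsto_one_div_add_atTop_nhds_zero_nat
  choose r hr hr1 hL using fun i : ℕ => hcon _ (hpos i) _ (hpos i)
  have hr0 : Tendsto r atTop (𝓝 0) :=
    squeeze_zero (fun i => (hr i).le) (fun i => (hr1 i).le) hlim0
  obtain ⟨c, C₀, hc, -, hell⟩ :=
    gmtInt_ell hd.opn hd.int (isCompact_singleton (x := x)) (Set.singleton_subset_iff.2 hx.1)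
  have hT : GmtFrame (A x) (gmtFr (A x)) := gmtFr_spec hm hc (hell x rfl)
  set T := gmtFr (A x) with hTdef
  obtain ⟨φ, C, hφ, hC, hcv⟩ := gmt_tangent_exists hm hd hS hx.1 hT hr hr0
  have hrφ : ∀ i, 0 < r (φ i) := fun i => hr (φ i)
  have hrφ0 : Tendsto (fun i => r (φ i)) atTop (𝓝 0) := hr0.comp hφ.tendsto_atTop
  have hsc : GmtSingCone C := gmt_tangent_singcone hm hd hS hx hT hrφ hrφ0 hC hcv
  have hsp := (gmt_spine_bound hSim hsc).2
  set L : Submodule ℝ (E m) := (gmtSpine C).map (T.symm : E m →ₗ[ℝ] E m) with hLdef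
  have hLr : Module.finrank ℝ L ≤ m - 8 := (Submodule.finrank_map_le _ _).trans hsp
  choose z hz hzθ hzd using fun i : ℕ => hL (φ i) L hLr
  set w : ℕ → E m := fun i => (r (φ i))⁻¹ • T (z i - x) with hw
  have hwb : ∀ i, w i ∈ closedBall (0 : E m) ‖(T : E m →L[ℝ] E m)‖ := by
    intro i
    rw [mem_closedBall_zero_iff, hw]
    simp only [norm_smul, norm_inv, Real.norm_eq_abs, abs_of_pos (hrφ i)]
    have h1 : ‖T (z i - x)‖ ≤ ‖(T : E m →L[ℝ] E m)‖ * ‖z i - x‖ :=
      (T : E m →L[ℝ] E m).le_opNorm _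
    have h2 : ‖z i - x‖ ≤ r (φ i) := by
      have := (hz i).2
      rw [mem_ball, dist_eq_norm] at this
      exact this.le
    rw [inv_mul_le_iff₀ (hrφ i)]
    calc ‖T (z i - x)‖ ≤ ‖(T : E m →L[ℝ] E m)‖ * ‖z i - x‖ := h1
      _ ≤ ‖(T : E m →L[ℝ] E m)‖ * r (φ i) := mul_le_mul_of_nonneg_left h2 (norm_nonneg _)
      _ = r (φ i) * ‖(T : E m →L[ℝ] E m)‖ := mul_comm _ _
  obtain ⟨w', -, ψ, hψ, hwlim⟩ := (isCompact_closedBall (0 : E m) _).tendsto_subseq hwb
  have hspine : w' ∈ gmtSpine C := by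
    refine gmt_usc_spine hm hd hS hx.1 hT (r := fun i => r (φ (ψ i))) (fun i => hrφ (ψ i))
      (hrφ0.comp hψ.tendsto_atTop) hC (GmtConv.comp hcv hψ) (z := fun i => z (ψ i)) hwlim ?_
    intro ε hε
    have h1 : Tendsto (fun i : ℕ => 1 / (((φ (ψ i) : ℕ) : ℝ) + 1)) atTop (𝓝 0) :=
      hlim0.comp (hφ.tendsto_atTop.comp hψ.tendsto_atTop)
    filter_upwards [h1.eventually (gt_mem_nhds hε)] with i hi
    have := hzθ (ψ i)
    linarith
  have hmem : T.symm w' ∈ (L : Set (E m)) := by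
    rw [hLdef]
    exact Submodule.mem_map_of_mem hspine
  have hzero : infDist (T.symm w') (L : Set (E m)) = 0 := infDist_zero_of_mem hmem
  have hge : ∀ i, η ≤ infDist (T.symm (w i)) (L : Set (E m)) := by
    intro i
    have hne : (L : Set (E m)).Nonempty := ⟨0, L.zero_mem⟩
    rw [le_infDist hne]
    intro p hp
    have h1 : T.symm (w i) = (r (φ i))⁻¹ • (z i - x) := by
      rw [hw]; simp
    have h2 : η * r (φ i) ≤ dist (z i - x) (r (φ i) • p) :=
      (hzd i).trans (infDist_le_dist_of_mem (L.smul_mem _ hp))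
    have h3 : dist (T.symm (w i)) p = (r (φ i))⁻¹ * dist (z i - x) (r (φ i) • p) := by
      rw [h1, dist_eq_norm, dist_eq_norm]
      have : (r (φ i))⁻¹ • (z i - x) - p = (r (φ i))⁻¹ • (z i - x - r (φ i) • p) := by
        rw [smul_sub (r (φ i))⁻¹ (z i - x), smul_smul, inv_mul_cancel₀ (hrφ i).ne', one_smul]
      rw [this, norm_smul, norm_inv, Real.norm_eq_abs, abs_of_pos (hrφ i)]
    rw [h3, le_inv_mul_iff₀ (hrφ i)]
    linarith
  have hcont : Tendsto (fun i => infDist (T.symm (w (ψ i))) (L : Set (E m))) atTop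
      (𝓝 (infDist (T.symm w') (L : Set (E m)))) :=
    ((continuous_infDist_pt _).comp T.symm.continuous).continuousAt.tendsto.comp hwlim
  have := ge_of_tendsto' hcont (fun i => hge (ψ i))
  rw [hzero] at this
  linarith

end Claimed.Agent.Gmt
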