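import Claimed.Agent.Lib.Gmt.Defs

/-!
# Lib/Gmt G6 PIECES [part B]: covering numbers of one-sidedly flat sets; Hausdorff measure.   (architect: helper184)

Pure metric geometry in `E m` (no perimeters).  Also used by paper P, Lemma C.4 (tube volume estimate).

`GmtFlat s η ρ F`: for `x ∈ F`, `0 < r < ρ` the set `F ∩ ball x r` lies within `η r` of `x + L` for a subspace `L` of dimension `≤ s` (depending on `x, r`).

PLAN OF PROOFS
* `gmt_packing`: in a subspace `L` with `finrank L = d ≤ s`: points `p_1..p_N ∈ L ∩ closedBall 0 R` with `|p_i - p_j| ≥ δ` (`0 < δ ≤ R`): the balls `ball p_i (δ/2)` of `L` are disjoint and contained in `ball 0 (R + δ/2)`;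
  Haar measure on `L` (`MeasureTheory.Measure.addHaar_ball`: `μ(ball x r) = r^d μ(ball 0 1)`): `N (δ/2)^d ≤ (R + δ/2)^d`, so `N ≤ (1 + 2R/δ)^d ≤ (3R/δ)^s`.  (Compare `Besicovitch.card_le_of_separated`.)
* `gmt_flat_cover_step`: let `λ = 8η ≤ 1`.  Every finite `λ r`-separated subset `t ⊆ F ∩ ball x r` has `card ≤ N₀ := (3·2r/(6ηr))^s = η^{-s}`: choose `p_z ∈ L` with `|z - x - p_z| < η r` (`infDist_lt_iff`); `|p_z| < 2r`,
  `|p_z - p_{z'}| ≥ λ r - 2 η r = 6 η r`; `gmt_packing`.  Take such a `t` of maximal cardinality: it is maximal, hence `F ∩ ball x r ⊆ ⋃_{c ∈ t} ball c (λ r)`... (use `closedBall`/strict inequalities consistently: separated means `λ r ≤ dist`).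
* `gmt_flat_cover_iter`: induction on `j`: `F ∩ ball x r ⊆ ⋃_{c ∈ t_j} ball c (λ^j r)`, `card t_j ≤ η^{-s j}`, centres in `F`, `λ^j r < ρ`.
* `gmt_flat_null`: choose `η₀` with `λ = 8 η₀`, `η₀^{-s} λ^{s+1} = 8^{s+1} η₀ ≤ 1/2`.  Then `∑_{c ∈ t_j} diam(ball c (λ^j r))^{s+1} ≤ (2r)^{s+1} (η₀^{-s} λ^{s+1})^j ≤ (2r)^{s+1} 2^{-j} → 0` and the diameters tend to `0`:
  `MeasureTheory.Measure.hausdorffMeasure_le_liminf_sum` (or `mkMetric_le_liminf_sum`) gives `μH[s+1] (F ∩ ball x r) = 0`.  `F` is covered by countably many such balls (second countable / Lindelöf; no compactness needed).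
-/

set_option autoImplicit false
open scoped ContDiff ENNReal RealInnerProductSpace Topology
open MeasureTheory Metric Set Filter

namespace Claimed.Agent.Gmt

variable {m : ℕ}

/-- one-sided flatness of `F` of dimension `s` at all scales `< ρ`. -/
def GmtFlat (s : ℕ) (η ρ : ℝ) (F : Set (E m)) : Prop :=
  ∀ x ∈ F, ∀ r, 0 < r → r < ρ → ∃ L : Submodule ℝ (E m),
    Module.finrank ℝ L ≤ s ∧ ∀ z ∈ F ∩ ball x r, infDist (z - x) (L : Set (E m)) < η * r

theorem GmtFlat.mono {s : ℕ} {η η' ρ ρ' : ℝ} {F : Set (E m)} (h : GmtFlat s η ρ F) (hη : η ≤ η')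
    (hρ : ρ' ≤ ρ) : GmtFlat s η' ρ' F := by
  intro x hx r hr hr'
  obtain ⟨L, hL, H⟩ := h x hx r hr (hr'.trans_le hρ)
  exact ⟨L, hL, fun z hz => (H z hz).trans_le (mul_le_mul_of_nonneg_right hη hr.le)⟩

/-- volume packing bound in a finite dimensional normed space -/
theorem gmt_pcb_pack {V : Type*} [NormedAddCommGroup V] [NormedSpace ℝ V] [FiniteDimensional ℝ V]
    {R δ : ℝ} (hδ : 0 < δ) (hR : 0 ≤ R) (t : Finset V) (htR : ∀ p ∈ t, ‖p‖ ≤ R)
    (hsep : ∀ p ∈ t, ∀ p' ∈ t, p ≠ p' → δ ≤ ‖p - p'‖) :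
    (t.card : ℝ) * (δ / 2) ^ Module.finrank ℝ V ≤ (R + δ / 2) ^ Module.finrank ℝ V := by
  borelize V
  let μ : Measure V := Measure.addHaar
  have hδ2 : 0 < δ / 2 := by positivity
  have ρpos : 0 < R + δ / 2 := by positivity
  set A := ⋃ c ∈ t, ball (c : V) (δ / 2) with hA
  have D : Set.Pairwise (t : Set V) (Function.onFun Disjoint fun c => ball (c : V) (δ / 2)) := by
    rintro c hc d hd hcd
    apply ball_disjoint_ball
    rw [dist_eq_norm]
    have := hsep c hc d hd hcd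
    linarith
  have A_subset : A ⊆ ball (0 : V) (R + δ / 2) := by
    refine iUnion₂_subset fun x hx => ?_
    apply ball_subset_ball'
    rw [dist_zero_right]
    linarith [htR x hx]
  have I : (t.card : ℝ≥0∞) * ENNReal.ofReal ((δ / 2) ^ Module.finrank ℝ V) * μ (ball 0 1) ≤
      ENNReal.ofReal ((R + δ / 2) ^ Module.finrank ℝ V) * μ (ball 0 1) :=
    calc (t.card : ℝ≥0∞) * ENNReal.ofReal ((δ / 2) ^ Module.finrank ℝ V) * μ (ball 0 1) = μ A := by
          rw [hA, measure_biUnion_finset D fun c _ => measurableSet_ball]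
          simp only [μ.addHaar_ball_of_pos _ hδ2]
          simp only [Finset.sum_const, nsmul_eq_mul, mul_assoc]
      _ ≤ μ (ball (0 : V) (R + δ / 2)) := measure_mono A_subset
      _ = ENNReal.ofReal ((R + δ / 2) ^ Module.finrank ℝ V) * μ (ball 0 1) := by
          simp only [μ.addHaar_ball_of_pos _ ρpos]
  have J : (t.card : ℝ≥0∞) * ENNReal.ofReal ((δ / 2) ^ Module.finrank ℝ V) ≤
      ENNReal.ofReal ((R + δ / 2) ^ Module.finrank ℝ V) :=
    (ENNReal.mul_le_mul_iff_left (measure_ball_pos _ _ zero_lt_one).ne' measure_ball_lt_top.ne).1 I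
  have := ENNReal.toReal_le_of_le_ofReal (pow_nonneg ρpos.le _) J
  rw [ENNReal.toReal_mul, ENNReal.toReal_natCast, ENNReal.toReal_ofReal (by positivity)] at this
  exact this

/-- packing bound in a subspace of dimension `≤ s`. -/
theorem gmt_packing {s : ℕ} {L : Submodule ℝ (E m)} (hL : Module.finrank ℝ L ≤ s) {R δ : ℝ}
    (hδ : 0 < δ) (hδR : δ ≤ R) (t : Finset (E m)) (htL : ∀ p ∈ t, p ∈ L) (htR : ∀ p ∈ t, ‖p‖ ≤ R)
    (hsep : ∀ p ∈ t, ∀ p' ∈ t, p ≠ p' → δ ≤ ‖p - p'‖) : (t.card : ℝ) ≤ (3 * R / δ) ^ s := by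
  classical
  have hR : 0 ≤ R := hδ.le.trans hδR
  set t' : Finset L := t.subtype (· ∈ L) with ht'
  have hcard : t'.card = t.card := by
    rw [ht', Finset.card_subtype, Finset.filter_true_of_mem htL]
  have h1 := gmt_pcb_pack (V := L) hδ hR t'
    (fun p hp => by
      have := htR p.1 (Finset.mem_subtype.1 hp)
      simpa using this)
    (fun p hp p' hp' hne => by
      have := hsep p.1 (Finset.mem_subtype.1 hp) p'.1 (Finset.mem_subtype.1 hp')
        (fun h => hne (Subtype.ext h))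
      simpa using this)
  rw [hcard] at h1
  set d := Module.finrank ℝ L with hd
  have hδ2 : 0 < δ / 2 := by positivity
  have h2 : (t.card : ℝ) ≤ ((R + δ / 2) / (δ / 2)) ^ d := by
    rw [div_pow, le_div_iff₀ (by positivity)]
    exact h1
  have h3 : (R + δ / 2) / (δ / 2) ≤ 3 * R / δ := by
    rw [div_le_div_iff₀ hδ2 hδ]
    nlinarith
  have h4 : 1 ≤ 3 * R / δ := by
    rw [le_div_iff₀ hδ]
    linarith
  calc (t.card : ℝ) ≤ ((R + δ / 2) / (δ / 2)) ^ d := h2
    _ ≤ (3 * R / δ) ^ d := pow_le_pow_left₀ (by positivity) h3 d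
    _ ≤ (3 * R / δ) ^ s := pow_le_pow_right₀ h4 hL

/-- separated subsets of `F ∩ ball x r` are small -/
theorem gmt_pcb_sep_card {s : ℕ} {η ρ : ℝ} (hη : 0 < η) (hη' : 8 * η ≤ 1) {F : Set (E m)}
    (hF : GmtFlat s η ρ F) {x : E m} (hx : x ∈ F) {r : ℝ} (hr : 0 < r) (hrρ : r < ρ)
    (t : Finset (E m)) (ht : ∀ c ∈ t, c ∈ F ∩ ball x r)
    (hsep : ∀ c ∈ t, ∀ c' ∈ t, c ≠ c' → 8 * η * r ≤ dist c c') : (t.card : ℝ) ≤ (η⁻¹) ^ s := by
  classical
  obtain ⟨L, hL, H⟩ := hF x hx r hr hrρ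
  have hne : (L : Set (E m)).Nonempty := ⟨0, L.zero_mem⟩
  have hex : ∀ z ∈ t, ∃ p ∈ (L : Set (E m)), dist (z - x) p < η * r := fun z hz =>
    (infDist_lt_iff hne).1 (H z (ht z hz))
  choose! p hpL hp using hex
  have hηr : 0 < η * r := by positivity
  have hpp : ∀ z ∈ t, ∀ z' ∈ t, z ≠ z' → 6 * η * r ≤ ‖p z - p z'‖ := by
    intro z hz z' hz' hne
    have h1 := hsep z hz z' hz' hne
    have h2 := hp z hz
    have h3 := hp z' hz'
    rw [dist_eq_norm] at h1 h2 h3
    have h4 : z - z' = (z - x - p z) - (z' - x - p z') + (p z - p z') := by abel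
    have h5 : ‖z - z'‖ ≤ ‖z - x - p z‖ + ‖z' - x - p z'‖ + ‖p z - p z'‖ := by
      rw [h4]
      exact (norm_add_le _ _).trans (add_le_add_left (norm_sub_le _ _) _)
    linarith
  have hinj : Set.InjOn p t := by
    intro z hz z' hz' he
    by_contra hne
    have := hpp z hz z' hz' hne
    rw [he, sub_self, norm_zero] at this
    nlinarith
  have hcard : (t.image p).card = t.card := Finset.card_image_of_injOn hinj
  have h6 := gmt_packing (s := s) (L := L) hL (R := 2 * r) (δ := 6 * η * r) (by positivity)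
    (by nlinarith) (t.image p)
    (by
      intro q hq
      obtain ⟨z, hz, rfl⟩ := Finset.mem_image.1 hq
      exact hpL z hz)
    (by
      intro q hq
      obtain ⟨z, hz, rfl⟩ := Finset.mem_image.1 hq
      have h2 := hp z hz
      have h3 : dist z x < r := (ht z hz).2
      rw [dist_eq_norm] at h2 h3
      have h4 : p z = (z - x) - (z - x - p z) := by abel
      have h5 : ‖p z‖ ≤ ‖z - x‖ + ‖z - x - p z‖ := by
        conv_lhs => rw [h4]
        exact norm_sub_le _ _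
      nlinarith)
    (by
      intro q hq q' hq' hne
      obtain ⟨z, hz, rfl⟩ := Finset.mem_image.1 hq
      obtain ⟨z', hz', rfl⟩ := Finset.mem_image.1 hq'
      exact hpp z hz z' hz' (fun h => hne (by rw [h])))
  rw [hcard] at h6
  have h7 : 3 * (2 * r) / (6 * η * r) = η⁻¹ := by
    field_simp
    ring
  rwa [h7] at h6

/-- one step: `F ∩ ball x r` is covered by `≤ η^{-s}` balls of radius `8 η r` centred in `F`. -/
theorem gmt_flat_cover_step {s : ℕ} {η ρ : ℝ} (hη : 0 < η) (hη' : 8 * η ≤ 1) {F : Set (E m)}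
    (hF : GmtFlat s η ρ F) {x : E m} (hx : x ∈ F) {r : ℝ} (hr : 0 < r) (hrρ : r < ρ) :
    ∃ t : Finset (E m), (∀ c ∈ t, c ∈ F) ∧ (t.card : ℝ) ≤ (η⁻¹) ^ s ∧
      F ∩ ball x r ⊆ ⋃ c ∈ t, ball c (8 * η * r) := by
  classical
  set P : Finset (E m) → Prop := fun t => (∀ c ∈ t, c ∈ F ∩ ball x r) ∧
    ∀ c ∈ t, ∀ c' ∈ t, c ≠ c' → 8 * η * r ≤ dist c c' with hP
  set N : Set ℕ := {k | ∃ t, P t ∧ t.card = k} with hN
  have hNne : N.Nonempty := ⟨0, ∅, ⟨by simp, by simp⟩, rfl⟩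
  have hNb : BddAbove N := by
    refine ⟨⌊(η⁻¹) ^ s⌋₊, ?_⟩
    rintro k ⟨t, ht, rfl⟩
    exact Nat.le_floor (gmt_pcb_sep_card hη hη' hF hx hr hrρ t ht.1 ht.2)
  obtain ⟨t, ht, htc⟩ := Nat.sSup_mem hNne hNb
  refine ⟨t, fun c hc => (ht.1 c hc).1, gmt_pcb_sep_card hη hη' hF hx hr hrρ t ht.1 ht.2, ?_⟩
  intro z hz
  by_contra hcon
  simp only [mem_iUnion, mem_ball, exists_prop, not_exists, not_and, not_lt] at hcon
  have hzt : z ∉ t := by
    intro hzt
    have := hcon z hzt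
    rw [dist_self] at this
    have : 0 < 8 * η * r := by positivity
    linarith
  have hPi : P (insert z t) := by
    refine ⟨?_, ?_⟩
    · intro c hc
      rcases Finset.mem_insert.1 hc with rfl | hc
      · exact hz
      · exact ht.1 c hc
    · intro c hc c' hc' hne
      rcases Finset.mem_insert.1 hc with h1 | h1
      · rcases Finset.mem_insert.1 hc' with h2 | h2
        · exact absurd (h1.trans h2.symm) hne
        · rw [h1]; exact hcon c' h2
      · rcases Finset.mem_insert.1 hc' with h2 | h2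
        · rw [h2, dist_comm]; exact hcon c h1
        · exact ht.2 c h1 c' h2 hne
  have h1 : (insert z t).card ∈ N := ⟨_, hPi, rfl⟩
  have h2 := le_csSup hNb h1
  rw [Finset.card_insert_of_notMem hzt, ← htc] at h2
  omega

/-- iteration. -/
theorem gmt_flat_cover_iter {s : ℕ} {η ρ : ℝ} (hη : 0 < η) (hη' : 8 * η ≤ 1) {F : Set (E m)}
    (hF : GmtFlat s η ρ F) {x : E m} (hx : x ∈ F) {r : ℝ} (hr : 0 < r) (hrρ : r < ρ) (j : ℕ) :
    ∃ t : Finset (E m), (∀ c ∈ t, c ∈ F) ∧ (t.card : ℝ) ≤ ((η⁻¹) ^ s) ^ j ∧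
      F ∩ ball x r ⊆ ⋃ c ∈ t, ball c ((8 * η) ^ j * r) := by
  classical
  induction j with
  | zero =>
    refine ⟨{x}, by simpa using hx, by simp, ?_⟩
    intro z hz
    simpa using hz.2
  | succ j ih =>
    obtain ⟨t, htF, htc, hcov⟩ := ih
    have hrj : 0 < (8 * η) ^ j * r := by positivity
    have hrj' : (8 * η) ^ j * r < ρ := by
      have : (8 * η) ^ j ≤ 1 := pow_le_one₀ (by positivity) hη'
      nlinarith
    have hstep : ∀ c ∈ t, ∃ t' : Finset (E m), (∀ c' ∈ t', c' ∈ F) ∧ (t'.card : ℝ) ≤ (η⁻¹) ^ s ∧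
        F ∩ ball c ((8 * η) ^ j * r) ⊆ ⋃ c' ∈ t', ball c' (8 * η * ((8 * η) ^ j * r)) :=
      fun c hc => gmt_flat_cover_step hη hη' hF (htF c hc) hrj hrj'
    choose! T hTF hTc hTcov using hstep
    refine ⟨t.biUnion T, ?_, ?_, ?_⟩
    · intro c hc
      obtain ⟨a, ha, hca⟩ := Finset.mem_biUnion.1 hc
      exact hTF a ha c hca
    · have h1 : ((t.biUnion T).card : ℝ) ≤ ∑ a ∈ t, ((T a).card : ℝ) := by
        exact_mod_cast Finset.card_biUnion_le
      have h2 : ∑ a ∈ t, ((T a).card : ℝ) ≤ ∑ _a ∈ t, (η⁻¹) ^ s := Finset.sum_le_sum hTc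
      rw [Finset.sum_const, nsmul_eq_mul] at h2
      have h3 : 0 ≤ (η⁻¹) ^ s := by positivity
      calc ((t.biUnion T).card : ℝ) ≤ (t.card : ℝ) * (η⁻¹) ^ s := h1.trans h2
        _ ≤ ((η⁻¹) ^ s) ^ j * (η⁻¹) ^ s := mul_le_mul_of_nonneg_right htc h3
        _ = ((η⁻¹) ^ s) ^ (j + 1) := (pow_succ _ _).symm
    · intro z hz
      have h1 := hcov hz
      simp only [mem_iUnion, exists_prop] at h1
      obtain ⟨c, hc, hzc⟩ := h1
      have h2 := hTcov c hc ⟨hz.1, hzc⟩
      simp only [mem_iUnion, exists_prop] at h2 ⊢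
      obtain ⟨c', hc', hzc'⟩ := h2
      refine ⟨c', Finset.mem_biUnion.2 ⟨c, hc, hc'⟩, ?_⟩
      rw [pow_succ, show (8 * η) ^ j * (8 * η) * r = 8 * η * ((8 * η) ^ j * r) by ring]
      exact hzc'

/-- a set which is flat of dimension `s` with a small constant is `H^{s+1}`-null. -/
theorem gmt_flat_null (s : ℕ) : ∃ η₀ : ℝ, 0 < η₀ ∧ ∀ (m : ℕ) (F : Set (E m)) (ρ : ℝ), 0 < ρ →
    GmtFlat s η₀ ρ F → μH[(s : ℝ) + 1] F = 0 := by
  set η₀ : ℝ := 1 / (2 * 8 ^ (s + 1)) with hη₀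
  have hpos : 0 < η₀ := by positivity
  have h8 : 8 * η₀ ≤ 1 := by
    rw [hη₀, mul_one_div, div_le_one (by positivity), pow_succ]
    have : (1 : ℝ) ≤ 8 ^ s := one_le_pow₀ (by norm_num)
    linarith
  have h8lt : 8 * η₀ < 1 := by
    rw [hη₀, mul_one_div, div_lt_one (by positivity), pow_succ]
    have : (1 : ℝ) ≤ 8 ^ s := one_le_pow₀ (by norm_num)
    linarith
  have hkey : (η₀⁻¹) ^ s * (8 * η₀) ^ (s + 1) = 1 / 2 := by
    have h1 : (η₀⁻¹) ^ s * (8 * η₀) ^ (s + 1) = 8 ^ (s + 1) * η₀ := by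
      rw [mul_pow, pow_succ η₀ s, inv_pow]
      field_simp
    rw [h1, hη₀]
    field_simp
  refine ⟨η₀, hpos, fun m F ρ hρ hF => ?_⟩
  refine measure_null_of_locally_null F fun x hx => ⟨F ∩ ball x (ρ / 2), ?_, ?_⟩
  · exact inter_mem_nhdsWithin F (ball_mem_nhds x (by positivity))
  · set r := ρ / 2 with hr
    have hr0 : 0 < r := by positivity
    have hrρ : r < ρ := by rw [hr]; linarith
    choose t htF htc hcov using fun j => gmt_flat_cover_iter hpos h8 hF hx hr0 hrρ j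
    have hρj : ∀ j : ℕ, 0 ≤ (8 * η₀) ^ j * r := fun j => by positivity
    have hdiam : ∀ (j : ℕ) (c : E m),
        ediam (ball c ((8 * η₀) ^ j * r)) ≤ ENNReal.ofReal (2 * ((8 * η₀) ^ j * r)) := by
      intro j c
      refine ediam_le_of_forall_dist_le fun y hy z hz => ?_
      have h1 : dist y c < _ := hy
      have h2 : dist z c < _ := hz
      have h3 := dist_triangle_right y z c
      linarith
    have hlim : Tendsto (fun j : ℕ => ENNReal.ofReal (2 * ((8 * η₀) ^ j * r))) atTop (𝓝 0) := by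
      have h1 : Tendsto (fun j : ℕ => 2 * ((8 * η₀) ^ j * r)) atTop (𝓝 (2 * (0 * r))) :=
        ((tendsto_pow_atTop_nhds_zero_of_lt_one (by positivity) h8lt).mul_const r).const_mul 2
      have h2 := ENNReal.tendsto_ofReal h1
      simpa using h2
    have hmain := Measure.hausdorffMeasure_le_liminf_sum ((s : ℝ) + 1) (F ∩ ball x r) (l := atTop)
      (fun j : ℕ => ENNReal.ofReal (2 * ((8 * η₀) ^ j * r))) hlim
      (fun (j : ℕ) (i : t j) => ball (i : E m) ((8 * η₀) ^ j * r))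
      (Eventually.of_forall fun j i => hdiam j i)
      (Eventually.of_forall fun j => by
        intro z hz
        have := hcov j hz
        simp only [mem_iUnion, exists_prop] at this
        obtain ⟨c, hc, hzc⟩ := this
        exact mem_iUnion.2 ⟨⟨c, hc⟩, hzc⟩)
    have hb : ∀ j : ℕ, ∑ i : t j, ediam (ball (i : E m) ((8 * η₀) ^ j * r)) ^ ((s : ℝ) + 1) ≤
        ENNReal.ofReal ((2 * r) ^ (s + 1) * (1 / 2) ^ j) := by
      intro j
      have h1 : ∀ i : t j, ediam (ball (i : E m) ((8 * η₀) ^ j * r)) ^ ((s : ℝ) + 1) ≤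
          ENNReal.ofReal ((2 * ((8 * η₀) ^ j * r)) ^ (s + 1)) := by
        intro i
        refine (ENNReal.rpow_le_rpow (hdiam j i) (by positivity)).trans ?_
        rw [ENNReal.ofReal_rpow_of_nonneg (by positivity) (by positivity)]
        have : ((s : ℝ) + 1) = ((s + 1 : ℕ) : ℝ) := by push_cast; ring
        rw [this, Real.rpow_natCast]
      calc ∑ i : t j, ediam (ball (i : E m) ((8 * η₀) ^ j * r)) ^ ((s : ℝ) + 1)
          ≤ ∑ _i : t j, ENNReal.ofReal ((2 * ((8 * η₀) ^ j * r)) ^ (s + 1)) :=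
            Finset.sum_le_sum fun i _ => h1 i
        _ = ENNReal.ofReal (((t j).card : ℝ) * (2 * ((8 * η₀) ^ j * r)) ^ (s + 1)) := by
            rw [Finset.sum_const, Finset.card_univ, Fintype.card_coe, nsmul_eq_mul,
              ENNReal.ofReal_mul (by positivity), ENNReal.ofReal_natCast]
        _ ≤ ENNReal.ofReal ((2 * r) ^ (s + 1) * (1 / 2) ^ j) := by
            refine ENNReal.ofReal_le_ofReal ?_
            calc ((t j).card : ℝ) * (2 * ((8 * η₀) ^ j * r)) ^ (s + 1)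
                ≤ ((η₀⁻¹) ^ s) ^ j * (2 * ((8 * η₀) ^ j * r)) ^ (s + 1) :=
                  mul_le_mul_of_nonneg_right (htc j) (by positivity)
              _ = (2 * r) ^ (s + 1) * ((η₀⁻¹) ^ s * (8 * η₀) ^ (s + 1)) ^ j := by
                  have e1 : ((8 * η₀) ^ j) ^ (s + 1) = ((8 * η₀) ^ (s + 1)) ^ j := by
                    rw [← pow_mul, ← pow_mul, Nat.mul_comm]
                  rw [mul_pow ((η₀⁻¹) ^ s) _ j,
                    show 2 * ((8 * η₀) ^ j * r) = (8 * η₀) ^ j * (2 * r) by ring, mul_pow, e1]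
                  ring
              _ = (2 * r) ^ (s + 1) * (1 / 2) ^ j := by rw [hkey]
    have hlim2 : Tendsto (fun j : ℕ => ENNReal.ofReal ((2 * r) ^ (s + 1) * (1 / 2) ^ j)) atTop
        (𝓝 0) := by
      have h1 : Tendsto (fun j : ℕ => (2 * r) ^ (s + 1) * (1 / 2 : ℝ) ^ j) atTop
          (𝓝 ((2 * r) ^ (s + 1) * 0)) :=
        (tendsto_pow_atTop_nhds_zero_of_lt_one (by norm_num) (by norm_num)).const_mul _
      have h2 := ENNReal.tendsto_ofReal h1
      simpa using h2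
    have h3 := liminf_le_liminf (f := atTop) (Eventually.of_forall hb)
    rw [hlim2.liminf_eq] at h3
    exact le_antisymm (hmain.trans h3) zero_le

end Claimed.Agent.Gmt
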