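import Claimed.Agent.Lib.Gmt.Defs

/-!
# Lib/Gmt G6 PIECES [part D: `gmt_group_flat`]: compact pieces with one-sided flatness (paper P, Lemma C.2 `local:flat-pieces`).   (architect: helper184)

PLAN OF PROOFS
* `gmt_plane_at` (by contradiction).  Fix the frame `T = gmtFr (A x)`.  If the claim fails for `d = r₀ = 1/(i+1)` there is `r i ∈ (0, 1/(i+1))` such that for EVERY subspace `L` with `finrank L ≤ m - 8` some
  `z ∈ Σ ∩ ball x (r i)` has `Θ(z) ≥ Θ(x) - 1/(i+1)` and `infDist (z - x) L ≥ η r i`.  Pass to a tangent cone `C` along a subsequence (`gmt_tangent_exists`); it is a singular cone (`gmt_tangent_singcone`), so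
  `finrank (gmtSpine C) ≤ m - 8` (`gmt_spine_bound`).  Take `L = (gmtSpine C).map T.symm` (same finrank), get `z i`.  `w i = (r i)⁻¹ T (z i - x)` is bounded by `‖T‖`: a further subsequence converges to `w`.
  `gmt_usc_spine`: `w ∈ gmtSpine C`, so `T.symm w ∈ L`.  But `infDist (T.symm (w i)) L = (r i)⁻¹ infDist (z i - x) L ≥ η` (`L` is a cone), and `infDist (·) L` is continuous: `infDist (T.symm w) L ≥ η > 0`.  Contradiction.
* `gmt_group_flat` (pure metric topology; paper's "countable decomposition, including its closure step").  For `a, b ∈ ℕ`, `q ∈ ℤ`, put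
  `G(a,b,q) = {x ∈ Σ | the plane property holds at x with d = 1/(b+1), r₀ = 1/(a+1), and q ≤ 4(b+1) Θ(x) < q + 1}`.  Two points `x, z` of the same group satisfy `Θ(z) > Θ(x) - 1/(b+1)`.
  Let `Q j` be a compact exhaustion of `U` (`exists_compact_exhaustion`-type: `CompactExhaustion` of the open subspace, or `Q j = {x | dist x Uᶜ ≥ 1/(j+1)} ∩ closedBall 0 j`), `F = closure (Q j ∩ G(a,b,q))`, `ρ = 1/(3(a+1))`.
  `F ⊆ Q j ∩ Σ` since `Q j ∩ Σ = Q j \ (U \ Σ)` is closed.   CLOSURE STEP (no compactness of the Grassmannian): let `x ∈ F`, `0 < r < ρ`.  Choose a group point `x'` with `|x - x'| < min (η r/3) (r/2)` and the subspace `L` of `x'` at radius `2r`.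
  For `z ∈ F ∩ ball x r` choose group points `z_j → z`; eventually `z_j ∈ ball x' (2r)`, so `infDist (z_j - x') L < (η/3) 2r`, `infDist (z_j - x) L < 2ηr/3 + |x - x'|`; in the limit `infDist (z - x) L ≤ 2ηr/3 + |x-x'| < η r`.
  Enumerate `ℕ × ℕ × ℤ × ℕ` by `ℕ`.
-/

set_option autoImplicit false
open scoped ContDiff ENNReal RealInnerProductSpace Topology
open MeasureTheory Metric Set Filter

namespace Claimed.Agent.Gmt

variable {m : ℕ}

/-- countable decomposition with closure step (pure metric topology). -/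
theorem gmt_group_flat {Sg U : Set (E m)} (hU : IsOpen U) (hSgU : Sg ⊆ U) (hcl : IsOpen (U \ Sg))
    (Θ : E m → ℝ) (s : ℕ) {η : ℝ} (hη : 0 < η)
    (h : ∀ x ∈ Sg, ∃ d > 0, ∃ r₀ > 0, ∀ r, 0 < r → r < r₀ → ∃ L : Submodule ℝ (E m),
      Module.finrank ℝ L ≤ s ∧ ∀ z ∈ Sg ∩ ball x r,
        Θ x - d ≤ Θ z → infDist (z - x) (L : Set (E m)) < η / 3 * r) :
    ∃ (F : ℕ → Set (E m)) (ρ : ℕ → ℝ), (∀ k, IsCompact (F k) ∧ F k ⊆ Sg ∧ 0 < ρ k) ∧
      Sg ⊆ ⋃ k, F k ∧
      ∀ k, ∀ x ∈ F k, ∀ r, 0 < r → r < ρ k → ∃ L : Submodule ℝ (E m),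
        Module.finrank ℝ L ≤ s ∧ ∀ z ∈ F k ∩ ball x r, infDist (z - x) (L : Set (E m)) < η * r := by
  obtain ⟨C, hCc, hCU, hCun, -⟩ := hU.exists_iUnion_isClosed
  -- the groups
  set G : ℕ → ℕ → ℤ → Set (E m) := fun a b q => {x | x ∈ Sg ∧
    (∀ r, 0 < r → r < 1 / ((a : ℝ) + 1) → ∃ L : Submodule ℝ (E m),
      Module.finrank ℝ L ≤ s ∧ ∀ z ∈ Sg ∩ ball x r,
        Θ x - 1 / ((b : ℝ) + 1) ≤ Θ z → infDist (z - x) (L : Set (E m)) < η / 3 * r) ∧
    (q : ℝ) ≤ ((b : ℝ) + 1) * Θ x ∧ ((b : ℝ) + 1) * Θ x < q + 1} with hG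
  set Q : ℕ → ℕ → Set (E m) := fun j i => C j ∩ closedBall 0 i with hQ
  have hQc : ∀ j i, IsCompact (Q j i) := fun j i =>
    (isCompact_closedBall 0 (i : ℝ)).inter_left (hCc j)
  have hQU : ∀ j i, Q j i ⊆ U := fun j i => inter_subset_left.trans (hCU j)
  obtain ⟨e, he⟩ := exists_surjective_nat (ℕ × ℕ × ℤ × ℕ × ℕ)
  set FF : ℕ × ℕ × ℤ × ℕ × ℕ → Set (E m) := fun k =>
    closure (Q k.2.2.2.1 k.2.2.2.2 ∩ G k.1 k.2.1 k.2.2.1) with hFF
  have hsame : ∀ a b q, ∀ x ∈ G a b q, ∀ z ∈ G a b q, Θ x - 1 / ((b : ℝ) + 1) ≤ Θ z := by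
    intro a b q x hx z hz
    have hb : (0 : ℝ) < (b : ℝ) + 1 := by positivity
    have h1 := hx.2.2.2
    have h2 := hz.2.2.1
    have h3 : ((b : ℝ) + 1) * (Θ x - 1 / ((b : ℝ) + 1)) ≤ ((b : ℝ) + 1) * Θ z := by
      rw [mul_sub, mul_one_div_cancel hb.ne']
      linarith
    exact le_of_mul_le_mul_left h3 hb
  refine ⟨fun k => FF (e k), fun k => 1 / (3 * (((e k).1 : ℝ) + 1)), fun k => ⟨?_, ?_, by positivity⟩,
    ?_, ?_⟩
  · exact (hQc _ _).of_isClosed_subset isClosed_closure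
      (closure_minimal inter_subset_left (hQc _ _).isClosed)
  · have hclosed : IsClosed (Q (e k).2.2.2.1 (e k).2.2.2.2 ∩ Sg) := by
      have : Q (e k).2.2.2.1 (e k).2.2.2.2 ∩ Sg = Q (e k).2.2.2.1 (e k).2.2.2.2 ∩ (U \ Sg)ᶜ := by
        ext y
        constructor
        · rintro ⟨h1, h2⟩
          exact ⟨h1, fun h3 => h3.2 h2⟩
        · rintro ⟨h1, h2⟩
          refine ⟨h1, ?_⟩
          by_contra h3
          exact h2 ⟨hQU _ _ h1, h3⟩
      rw [this]
      exact (hQc _ _).isClosed.inter hcl.isClosed_compl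
    have hsub : Q (e k).2.2.2.1 (e k).2.2.2.2 ∩ G (e k).1 (e k).2.1 (e k).2.2.1 ⊆
        Q (e k).2.2.2.1 (e k).2.2.2.2 ∩ Sg := fun y hy => ⟨hy.1, hy.2.1⟩
    exact (closure_minimal hsub hclosed).trans inter_subset_right
  · intro x hx
    obtain ⟨d, hd, r₀, hr₀, H⟩ := h x hx
    obtain ⟨a, ha⟩ := exists_nat_one_div_lt hr₀
    obtain ⟨b, hb⟩ := exists_nat_one_div_lt hd
    have hxU : x ∈ ⋃ n, C n := by rw [hCun]; exact hSgU hx
    obtain ⟨j, hj⟩ := mem_iUnion.1 hxU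
    obtain ⟨i, hi⟩ := exists_nat_ge ‖x‖
    obtain ⟨k, hk⟩ := he (a, b, ⌊((b : ℝ) + 1) * Θ x⌋, j, i)
    refine mem_iUnion.2 ⟨k, subset_closure ?_⟩
    rw [hk]
    refine ⟨⟨hj, by simpa using hi⟩, hx, ?_, Int.floor_le _, Int.lt_floor_add_one _⟩
    intro r hr hra
    obtain ⟨L, hL, HL⟩ := H r hr (hra.trans ha)
    exact ⟨L, hL, fun z hz hΘ => HL z hz (by linarith)⟩
  · intro k x hx r hr hrρ
    replace hrρ : r < 1 / (3 * (((e k).1 : ℝ) + 1)) := hrρ
    replace hx : x ∈ closure (Q (e k).2.2.2.1 (e k).2.2.2.2 ∩ G (e k).1 (e k).2.1 (e k).2.2.1) := hx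
    set a := (e k).1 with ha
    set b := (e k).2.1 with hb
    set q := (e k).2.2.1 with hq
    set QQ := Q (e k).2.2.2.1 (e k).2.2.2.2 with hQQ
    have ha0 : (0 : ℝ) < (a : ℝ) + 1 := by positivity
    have h2r : 2 * r < 1 / ((a : ℝ) + 1) := by
      have : 1 / (3 * ((a : ℝ) + 1)) = 1 / ((a : ℝ) + 1) / 3 := by
        field_simp
      rw [this] at hrρ
      have h0 : 0 < 1 / ((a : ℝ) + 1) := by positivity
      linarith
    have hηr : 0 < η * r := by positivity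
    obtain ⟨x', hx', hxx'⟩ := Metric.mem_closure_iff.1 hx (min (η * r / 3) (r / 2))
      (lt_min (by positivity) (by positivity))
    have hδ1 : dist x x' < η * r / 3 := hxx'.trans_le (min_le_left _ _)
    have hδ2 : dist x x' < r / 2 := hxx'.trans_le (min_le_right _ _)
    obtain ⟨L, hL, HL⟩ := hx'.2.2.1 (2 * r) (by positivity) h2r
    refine ⟨L, hL, fun z hz => ?_⟩
    have hz1 : z ∈ closure (QQ ∩ G a b q) := hz.1
    obtain ⟨z', hz', hzz'⟩ := Metric.mem_closure_iff.1 hz1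
      (min ((η * r / 3 - dist x x') / 2) (r / 2)) (lt_min (by linarith) (by positivity))
    have hε1 : dist z z' < (η * r / 3 - dist x x') / 2 := hzz'.trans_le (min_le_left _ _)
    have hε2 : dist z z' < r / 2 := hzz'.trans_le (min_le_right _ _)
    have hzx : dist z x < r := hz.2
    have hz'b : z' ∈ ball x' (2 * r) := by
      rw [mem_ball]
      have h1 := dist_triangle z' z x'
      have h2 := dist_triangle z x x'
      rw [dist_comm z' z] at h1
      linarith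
    have h3 := HL z' ⟨hz'.2.1, hz'b⟩ (hsame a b q x' hx'.2 z' hz'.2)
    have h4 := Metric.infDist_le_infDist_add_dist (s := (L : Set (E m))) (x := z - x) (y := z' - x')
    have h5 : dist (z - x) (z' - x') ≤ dist z z' + dist x x' := dist_sub_sub_le _ _ _ _
    linarith

end Claimed.Agent.Gmt
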