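import Claimed.Agent.Lib.Gmt.PcA
import Claimed.Agent.Lib.Gmt.PcB
import Claimed.Agent.Lib.Gmt.PcD

/-!
# Lib/Gmt G6 PIECES [part C]: glue: flat pieces, `H^{m-7}(Sing) = 0`.   (architect: helper184)
`gmt_sing_flat_of` with `η = η₀(m-8)` of `gmt_flat_null`, countable union (`measure_iUnion_null`, `measure_mono_null`), `((m - 8 : ℕ) : ℝ) + 1 = m - 7`.
-/

set_option autoImplicit false
open scoped ContDiff ENNReal RealInnerProductSpace Topology
open MeasureTheory Metric Set Filter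

namespace Claimed.Agent.Gmt

variable {m : ℕ}

/-- **flat pieces** (`local:flat-pieces`). -/
theorem gmt_sing_flat_of (hSim : ∀ k, 2 ≤ k → k ≤ 7 → GmtSimons k) {U : Set (E m)}
    {A : E m → Bil m} {f : E m → ℝ} {S : Set (E m)}
    (hm : 8 ≤ m) (hd : GmtData U A f) (hS : GmtLAM A f U S) (η : ℝ) (hη : 0 < η) :
    ∃ (F : ℕ → Set (E m)) (ρ : ℕ → ℝ), (∀ k, IsCompact (F k) ∧ F k ⊆ gmtSing S U ∧ 0 < ρ k) ∧
      gmtSing S U ⊆ ⋃ k, F k ∧
      ∀ k, ∀ x ∈ F k, ∀ r, 0 < r → r < ρ k → ∃ L : Submodule ℝ (E m),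
        Module.finrank ℝ L ≤ m - 8 ∧ ∀ z ∈ F k ∩ ball x r, infDist (z - x) (L : Set (E m)) < η * r :=
  gmt_group_flat hd.opn (fun _ hx => hx.1) (gmt_sing_closed hd hS) (gmtThA A S) (m - 8) hη
    (fun _ hx => gmt_plane_at hSim (by omega) hd hS hx (by positivity))

theorem gmt_sing_null_of (hSim : ∀ k, 2 ≤ k → k ≤ 7 → GmtSimons k) {U : Set (E m)}
    {A : E m → Bil m} {f : E m → ℝ} {S : Set (E m)}
    (hm : 8 ≤ m) (hd : GmtData U A f) (hS : GmtLAM A f U S) :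
    μH[(m : ℝ) - 7] (gmtSing S U) = 0 := by
  obtain ⟨η₀, hη₀, hnull⟩ := gmt_flat_null (m - 8)
  obtain ⟨F, ρ, hF, hcov, hflat⟩ := gmt_sing_flat_of hSim hm hd hS η₀ hη₀
  have hd' : ((m - 8 : ℕ) : ℝ) + 1 = (m : ℝ) - 7 := by
    rw [Nat.cast_sub hm]; push_cast; ring
  refine measure_mono_null hcov (measure_iUnion_null fun k => ?_)
  rw [← hd']
  exact hnull m (F k) (ρ k) (hF k).2.2 (fun x hx r hr hr' => hflat k x hx r hr hr')

end Claimed.Agent.Gmt
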