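import Claimed.Agent.Lib.Gmt.IFc

/-!
# Lib/Gmt PcE: the singular set carries no perimeter.   (architect: helper184)

PLAN OF PROOFS
* `gmtMu_null_of_hausdorff`.  `c, C, r₀` from `gmt_lam_area` for the compact set `K`.  Let `ε > 0`.  By `MeasureTheory.Measure.hausdorffMeasure_apply` and `μH[m-1] N = 0`: for `r = r₀/2` there are sets `t n` with `N ⊆ ⋃ t n`, `diam (t n) ≤ r`, `∑' diam (t n)^(m-1) < ε`
  (`iSup = 0 ⇒ iInf = 0 ⇒` a cover with small sum: `ENNReal.iInf_lt_iff`/`exists_lt_of_csInf_lt`).  Discard the `t n` which do not meet `N`; pick `x n ∈ t n ∩ N ⊆ K`: `t n ⊆ closedBall (x n) (diam) ⊆ ball (x n) (2 diam (t n) + δ_n)`,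
  `gmtMu S (t n ∩ N) ≤ C (2 diam + δ_n)^(m-1)` with `δ_n` so small that the sum of the errors is `< ε` (if `diam (t n) = 0` the set is one point: `gmtMu S {x} ≤ C ρ^(m-1)` for all small `ρ`, so `= 0`; uses `m ≥ 2`).  So `gmtMu S N ≤ C 2^(m-1) · 2ε`.
* `gmt_sing_perM_null`.  `m ≤ 7`: `gmt_sing_empty`.  `m ≥ 8`: `μH[m-1] Σ ≤ μH[m-7] Σ = 0` (`Measure.hausdorffMeasure_mono`, `gmt_sing_null`).  `U = ⋃ K_j` compact (`IsOpen` ⇒ σ-compact: `isSigmaCompact`/`exists compactCovering` of the subtype, or `K_j = {x | dist x Uᶜ ≥ 1/j} ∩ closedBall 0 j`);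
  `gmtMu S (Σ ∩ K_j) = 0`; `gmtPerM A S` restricted to `U` is `(gmtMu S).restrict U` with a density (`gmt_perM_eq`, `gmt_lam_lf`): `withDensity_absolutelyContinuous`; `Σ ⊆ U`.
-/

set_option autoImplicit false
open scoped ContDiff ENNReal RealInnerProductSpace Topology
open MeasureTheory Metric Set Filter

namespace Claimed.Agent.Gmt

variable {m : ℕ}

/-- a measure with an upper `(m-1)`-density bound at the points of `K` is dominated by `H^{m-1}` on `K`. -/
theorem pce_le_hausdorff (hm : 2 ≤ m) {μ : Measure (E m)} {K : Set (E m)} (hK : MeasurableSet K) {C r₀ : ℝ} (hC : 0 < C)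
    (hr₀ : 0 < r₀) (h : ∀ x ∈ K, ∀ r, 0 < r → r < r₀ → μ (ball x r) ≤ ENNReal.ofReal (C * r ^ (m - 1))) :
    μ.restrict K ≤ ENNReal.ofReal (C * 2 ^ (m - 1)) • μH[(m : ℝ) - 1] := by
  have hd : (m : ℝ) - 1 = ((m - 1 : ℕ) : ℝ) := by
    rw [Nat.cast_sub (by omega)]; simp
  set c : ℝ≥0∞ := ENNReal.ofReal (C * 2 ^ (m - 1)) with hc
  have hc0 : c ≠ 0 := by rw [hc]; simp only [ne_eq, ENNReal.ofReal_eq_zero, not_le]; positivity
  have hct : c ≠ ⊤ := ENNReal.ofReal_ne_top
  have key : c⁻¹ • μ.restrict K ≤ μH[(m : ℝ) - 1] := by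
    refine Measure.le_hausdorffMeasure _ _ (ENNReal.ofReal (r₀ / 4)) (by simp only [ENNReal.ofReal_pos]; positivity) ?_
    intro s hs
    rw [Measure.smul_apply, smul_eq_mul, Measure.restrict_apply' hK, ENNReal.inv_mul_le_iff hc0 hct, hd,
      ENNReal.rpow_natCast]
    rcases (s ∩ K).eq_empty_or_nonempty with he | ⟨x, hxs, hxK⟩
    · rw [he, measure_empty]; exact zero_le
    have hfin : ediam s ≠ ⊤ := ne_top_of_le_ne_top ENNReal.ofReal_ne_top hs
    set δ : ℝ := (ediam s).toReal with hδ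
    have hδ0 : 0 ≤ δ := ENNReal.toReal_nonneg
    have hδe : ediam s = ENNReal.ofReal δ := (ENNReal.ofReal_toReal hfin).symm
    have hδr : δ ≤ r₀ / 4 := by
      rw [hδe] at hs
      exact (ENNReal.ofReal_le_ofReal_iff (by positivity)).1 hs
    have hsub : ∀ ρ, δ < ρ → s ⊆ ball x ρ := by
      intro ρ hρ y hy
      have h1 : edist y x ≤ ediam s := edist_le_ediam_of_mem hy hxs
      rw [hδe, edist_dist, ENNReal.ofReal_le_ofReal_iff hδ0] at h1
      exact lt_of_le_of_lt h1 hρ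
    -- bound with any radius in `(δ, r₀)`
    have hb : ∀ ρ, δ < ρ → ρ < r₀ → μ (s ∩ K) ≤ ENNReal.ofReal (C * ρ ^ (m - 1)) := fun ρ h1 h2 =>
      (measure_mono (inter_subset_left.trans (hsub ρ h1))).trans (h x hxK ρ (lt_of_le_of_lt hδ0 h1) h2)
    rcases hδ0.eq_or_lt with h0 | h0
    · -- one point
      have hlim : Tendsto (fun ρ : ℝ => ENNReal.ofReal (C * ρ ^ (m - 1))) (𝓝[>] 0) (𝓝 (ENNReal.ofReal (C * 0 ^ (m - 1)))) := by
        apply Tendsto.mono_left _ nhdsWithin_le_nhds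
        exact (ENNReal.continuous_ofReal.comp (by fun_prop)).tendsto _
      rw [zero_pow (by omega), mul_zero, ENNReal.ofReal_zero] at hlim
      have : μ (s ∩ K) ≤ 0 := by
        refine ge_of_tendsto hlim ?_
        filter_upwards [Ioo_mem_nhdsGT hr₀] with ρ hρ
        exact hb ρ (h0 ▸ hρ.1) hρ.2
      exact this.trans zero_le
    · refine (hb (2 * δ) (by linarith) (by linarith)).trans (le_of_eq ?_)
      rw [hδe, hc, ← ENNReal.ofReal_pow hδ0, ← ENNReal.ofReal_mul (by positivity)]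
      congr 1
      rw [mul_pow]; ring
  intro B
  have h1 := key B
  rw [Measure.smul_apply, smul_eq_mul, ENNReal.inv_mul_le_iff hc0 hct] at h1
  simpa using h1

/-- `|Dχ_S| ≪ H^{m-1}` on compact subsets, for minimisers. -/
theorem gmtMu_null_of_hausdorff {U : Set (E m)} {A : E m → Bil m} {f : E m → ℝ} {S : Set (E m)}
    (hm : 2 ≤ m) (hd : GmtData U A f) (hS : GmtLAM A f U S) {K N : Set (E m)} (hK : IsCompact K)
    (hKU : K ⊆ U) (hNK : N ⊆ K) (hN : μH[(m : ℝ) - 1] N = 0) : gmtMu S N = 0 := by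
  obtain ⟨c, C, r₀, -, hC, hr₀, h⟩ := gmt_lam_area hm hd hS K hK hKU
  have h1 := pce_le_hausdorff hm hK.measurableSet hC hr₀ (fun x hx r h0 h1 => (h x hx r h0 h1).1) N
  rw [Measure.restrict_apply' hK.measurableSet, inter_eq_left.2 hNK, Measure.smul_apply, hN, smul_zero] at h1
  exact le_antisymm h1 zero_le

/-- the singular set carries no perimeter. -/
theorem gmt_sing_perM_null {U : Set (E m)} {A : E m → Bil m} {f : E m → ℝ} {S : Set (E m)}
    (hm : 2 ≤ m) (hd : GmtData U A f) (hS : GmtLAM A f U S) :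
    gmtPerM A S (gmtSing S U) = 0 := by
  by_cases hm7 : m ≤ 7
  · rw [gmt_sing_empty hm hm7 hd hS, measure_empty]
  have hm8 : 8 ≤ m := by omega
  have hH : μH[(m : ℝ) - 1] (gmtSing S U) = 0 :=
    le_antisymm ((Measure.hausdorffMeasure_mono (by linarith) _).trans (gmt_sing_null hm8 hd hS).le) zero_le
  have hsubU : gmtSing S U ⊆ U := fun x hx => hx.1
  -- `gmtMu S` vanishes on the singular set
  have hmu : gmtMu S (gmtSing S U) = 0 := by
    obtain ⟨Kc, hKc, -, -, hKU⟩ := gmt_exists_exhaustion hd.opn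
    have hcov : gmtSing S U ⊆ ⋃ j, gmtSing S U ∩ Kc j := by
      intro x hx
      have : x ∈ ⋃ j, Kc j := hKU ▸ hsubU hx
      obtain ⟨j, hj⟩ := mem_iUnion.1 this
      exact mem_iUnion.2 ⟨j, hx, hj⟩
    refine measure_mono_null hcov (measure_iUnion_null fun j => ?_)
    exact gmtMu_null_of_hausdorff hm hd hS (hKc j) (hKU ▸ subset_iUnion Kc j) inter_subset_right
      (measure_mono_null inter_subset_left hH)
  have hac : (gmtPerM A S).restrict U ≪ gmtMu S := by
    rw [gmt_perM_eq hd.opn hd.int (gmt_lam_lf hd hS)]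
    exact (withDensity_absolutelyContinuous _ _).trans Measure.absolutelyContinuous_restrict
  have h0 := hac hmu
  rwa [Measure.restrict_apply' hd.opn.measurableSet, inter_eq_left.2 hsubU] at h0

end Claimed.Agent.Gmt
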