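import Claimed.Agent.Lib.Gmt.QmDens
import Claimed.Agent.Lib.Gmt.GgConv

/-!
# Lib/Gmt [QmCompactA = part 1/3 of the former QmCompact] G3b: compactness and closure of quasi-minimisers; convergence of boundaries and of perimeters.
(architect: helper75)                              Maggi Ch. 21 (Thm 21.14), on exhausting domains `U i → U'`.

`GmtExh U U'`: every compact subset of the open set `U'` is eventually contained in `U i`.

PLAN OF PROOFS
* `gmtQM_bddPer`, `gmtQM_compact`: `GmtQM.per_ball_le` + finite covers + `gmtP_compactness` (drop finitely many indices on each compact set; diagonal over an exhaustion of `U'`).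
* `gmtQM_limsup_le` (key).  Let `K ⊆ U'` compact, `O ⊇ K` open, `O ⋐ U'`; take `f` smooth, `f = 0` on `K`, `f = 1` off a compact subset of `O`.  Pass to a subsequence realising the `limsup`.
  `gmtPer_glue_seq` (with `S₁ i = S'`, `S₂ i = S i`, levels in `(0,1)`) gives a further subsequence and a level `t` with interface costs `κ_i → 0`.  For `t < t' < 1` apply the quasi-minimality of `S i` in `W = {f < t'}` to the competitor `gmtGlue f t S' (S i)`:
  `μ_i(W) ≤ (1+δ_i)[μ'({f<t}) + μ_i(W ∩ {t<f}) + κ_i] + Λ_i |(S i △ S') ∩ {f<t}|`; subtract `μ_i(W ∩ {t<f})` (finite), let `t' ↓ t`: `μ_i({f ≤ t}) ≤ (1+δ_i)(μ'(O) + κ_i) + o(1)`.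
  Finally `μ'(O) ↓ μ'(K)` (outer regularity).
* `gmtQM_closure`: same gluing with a competitor `S''` of `S'` inside; see the computation in helper75's notes reproduced here:
  `μ'({f<t}) ≤ liminf μ_i({f<t}) ≤ (1+δ) P(S'';{f<t}) + Λ|S'△S''|`, and `P(S';W) = μ'({f<t}) + μ'(W ∩ {t<f})` for a level `t` not charged by `μ'` (`gmtPer_level_null`),
  `P(S'';W) ≥ P(S'';{f<t}) + P(S''; W ∩ {t<f})`, `S'' = S'` on `{t<f}`.
* `gmtQM_bd_lim`: uniform volume density estimates `gmtQM_volume` pass to the limit (`GmtConv.tendsto_volume`).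
* `gmt_bd_approx`: no minimality: if `ball x r` misses `gmtBd (S i)` for infinitely many `i`, then `S i ∩ ball x r` is null or full (constancy), hence so is the limit.
-/

set_option autoImplicit false
open scoped ContDiff ENNReal RealInnerProductSpace Topology
open MeasureTheory Metric Set Filter

namespace Claimed.Agent.Gmt

variable {m : ℕ}

/-- the open sets `U i` exhaust `U'`. -/
def GmtExh (U : ℕ → Set (E m)) (U' : Set (E m)) : Prop :=
  IsOpen U' ∧ (∀ i, IsOpen (U i)) ∧ ∀ K, IsCompact K → K ⊆ U' → ∀ᶠ i in atTop, K ⊆ U i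

theorem GmtExh.comp {U : ℕ → Set (E m)} {U' : Set (E m)} (h : GmtExh U U') {ψ : ℕ → ℕ}
    (hψ : StrictMono ψ) : GmtExh (fun i => U (ψ i)) U' :=
  ⟨h.1, fun _ => h.2.1 _, fun K hK hKU => hψ.tendsto_atTop.eventually (h.2.2 K hK hKU)⟩

/-- outer regularity inside an affine inequality. -/
theorem gmtqc_outer {μ : Measure (E m)} [μ.OuterRegular] {K U : Set (E m)} (hU : IsOpen U)
    (hKU : K ⊆ U) {a b y : ℝ≥0∞} (ha0 : a ≠ 0) (ha : a ≠ ⊤)
    (h : ∀ O, IsOpen O → K ⊆ O → O ⊆ U → y ≤ a * μ O + b) : y ≤ a * μ K + b := by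
  by_cases hK : μ K = ⊤
  · rw [hK, ENNReal.mul_top ha0, top_add]
    exact le_top
  have ht : Tendsto (fun r : ℝ≥0∞ => a * r + b) (𝓝[>] (μ K)) (𝓝 (a * μ K + b)) := by
    refine Tendsto.mono_left ?_ nhdsWithin_le_nhds
    exact (ENNReal.Tendsto.const_mul tendsto_id (Or.inr ha)).add tendsto_const_nhds
  have : (𝓝[>] (μ K)).NeBot := nhdsGT_neBot_of_exists_gt ⟨⊤, lt_top_iff_ne_top.2 hK⟩
  refine ge_of_tendsto ht ?_
  filter_upwards [self_mem_nhdsWithin] with r hr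
  obtain ⟨O, hKO, hO, hlt⟩ := K.exists_isOpen_lt_of_lt r hr
  refine (h (O ∩ U) (hO.inter hU) (subset_inter hKO hKU) inter_subset_right).trans ?_
  gcongr
  exact (measure_mono inter_subset_left).trans hlt.le

theorem gmtqc_ofReal_ne_zero {δ : ℝ} (hδ : 0 ≤ δ) : ENNReal.ofReal (1 + δ) ≠ 0 := by
  rw [Ne, ENNReal.ofReal_eq_zero, not_le]
  linarith

/-- the quasi-minimality inequality on a compact set which contains the perturbation. -/
theorem GmtQM.mu_compact_le {δ Λ : ℝ} (hδ : 0 ≤ δ) {U S : Set (E m)} (hU : IsOpen U)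
    (h : GmtQM δ Λ U S) {K S' : Set (E m)} (hK : IsCompact K) (hKU : K ⊆ U)
    (hS' : MeasurableSet S') (hd : symmDiff S S' ⊆ K) :
    gmtMu S K ≤
      ENNReal.ofReal (1 + δ) * gmtMu S' K + ENNReal.ofReal Λ * volume (symmDiff S S') := by
  have : (gmtMu S').OuterRegular := (gmtPerM_spec _ _).1
  refine gmtqc_outer hU hKU (gmtqc_ofReal_ne_zero hδ) ENNReal.ofReal_ne_top fun O hO hKO hOU => ?_
  obtain ⟨W, hW, hKW⟩ := gmt_exists_cc hK hO hKO
  have hWU : GmtCC W U := ⟨hW.1, hW.2.1, hW.2.2.trans hOU⟩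
  calc gmtMu S K ≤ gmtMu S W := measure_mono hKW
    _ = gmtP S W := gmtMu_open S hW.1
    _ ≤ ENNReal.ofReal (1 + δ) * gmtP S' W + ENNReal.ofReal Λ * volume (symmDiff S S') :=
        h.qm W S' hWU hS' ⟨K, hK, hKW, hd⟩
    _ ≤ ENNReal.ofReal (1 + δ) * gmtMu S' O + ENNReal.ofReal Λ * volume (symmDiff S S') := by
        gcongr
        rw [← gmtMu_open S' hW.1]
        exact measure_mono (subset_closure.trans hW.2.2)

/-- the gluing inequality, read on the closed sublevel set. -/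
theorem gmtqc_glue_mu {W : Set (E m)} (hW : IsOpen W) {f : E m → ℝ} (hf : Continuous f) {t : ℝ}
    {S₁ S₂ : Set (E m)} (h₁ : MeasurableSet S₁) (h₂ : MeasurableSet S₂) {κ : ℝ≥0∞}
    (hfin : gmtP S₂ (W ∩ {x | t < f x}) ≠ ⊤)
    (h : gmtP (gmtGlue f t S₁ S₂) W ≤
      gmtP S₁ (W ∩ {x | f x < t}) + gmtP S₂ (W ∩ {x | t < f x}) + κ) :
    gmtMu (gmtGlue f t S₁ S₂) (W ∩ {x | f x ≤ t}) ≤ gmtP S₁ (W ∩ {x | f x < t}) + κ := by
  have hG := measurableSet_gmtGlue hf.measurable t h₁ h₂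
  have ho : IsOpen (W ∩ {x | t < f x}) := hW.inter (isOpen_lt continuous_const hf)
  have e1 : gmtMu (gmtGlue f t S₁ S₂) (W ∩ {x | t < f x}) = gmtP S₂ (W ∩ {x | t < f x}) := by
    rw [gmtMu_open _ ho]
    have e : gmtGlue f t S₁ S₂ ∩ (W ∩ {x | t < f x}) = S₂ ∩ (W ∩ {x | t < f x}) := by
      ext x
      simp only [gmtGlue, mem_inter_iff, mem_union, Set.mem_sdiff, mem_ofPred_eq]
      constructor
      · rintro ⟨h1 | h1, h2, h3⟩
        · exact absurd h1.2 (not_lt.2 h3.le)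
        · exact ⟨h1.1, h2, h3⟩
      · rintro ⟨h1, h2, h3⟩
        exact ⟨Or.inr ⟨h1, not_lt.2 h3.le⟩, h2, h3⟩
    exact gmtP_congr hG h₂ (by rw [e]; exact ae_eq_refl _)
  have e2 : gmtMu (gmtGlue f t S₁ S₂) W = gmtMu (gmtGlue f t S₁ S₂) (W ∩ {x | f x ≤ t}) +
      gmtMu (gmtGlue f t S₁ S₂) (W ∩ {x | t < f x}) := by
    rw [← measure_inter_add_sdiff W (measurableSet_le hf.measurable measurable_const)]
    congr 2
    ext x
    simp only [Set.mem_sdiff, mem_inter_iff, mem_ofPred_eq, not_le]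
  rw [← gmtMu_open _ hW, e2, e1, add_right_comm] at h
  exact (ENNReal.add_le_add_iff_right hfin).1 h

/-- subsequence principle for upper limits. -/
theorem gmtqc_limsup_le_of_subseq {a : ℕ → ℝ≥0∞} {B : ℝ≥0∞}
    (h : ∀ ψ : ℕ → ℕ, StrictMono ψ → ∃ φ : ℕ → ℕ, StrictMono φ ∧
      liminf (fun i => a (ψ (φ i))) atTop ≤ B) : limsup a atTop ≤ B := by
  by_contra hlt
  rw [not_le] at hlt
  obtain ⟨c, hBc, hc⟩ := exists_between hlt
  have hfr : ∃ᶠ i in atTop, c < a i := frequently_lt_of_lt_limsup (by isBoundedDefault) hc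
  obtain ⟨ψ, hψ, hψc⟩ := extraction_of_frequently_atTop hfr
  obtain ⟨φ, -, hle⟩ := h ψ hψ
  have h2 : c ≤ liminf (fun i => a (ψ (φ i))) atTop :=
    le_liminf_of_le (by isBoundedDefault) (Eventually.of_forall fun i => (hψc _).le)
  exact absurd (h2.trans hle) (not_le.2 hBc)

/-- an almost everywhere statement on `(0,1)` has a witness. -/
theorem gmtqc_exists_level {P : ℝ → Prop} (h : ∀ᵐ t : ℝ, t ∈ Ioo (0 : ℝ) 1 → P t) :
    ∃ t ∈ Ioo (0 : ℝ) 1, P t := by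
  by_contra hn
  push Not at hn
  have h0 : volume (Ioo (0 : ℝ) 1) = 0 := by
    refine measure_mono_null (fun t ht => ?_) (ae_iff.1 h)
    exact fun hh => hn t ht (hh ht)
  rw [Real.volume_Ioo] at h0
  simp at h0

/-- KEY ESTIMATE: gluing a competitor `S''` of the limit into `S i` along a good level. -/
theorem gmtqc_key {U : ℕ → Set (E m)} {U' : Set (E m)} (hU : GmtExh U U') {δ Λ : ℕ → ℝ}
    {S : ℕ → Set (E m)} (hS : ∀ i, GmtQM (δ i) (Λ i) (U i) (S i)) (hδ0 : ∀ i, 0 ≤ δ i)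
    {S' S'' : Set (E m)} (hS'' : MeasurableSet S'')
    (hc : GmtConv U' S S') {K O : Set (E m)} (hK : IsCompact K) (hO : IsOpen O) (hKO : K ⊆ O)
    (hOU : O ⊆ U') (hd : symmDiff S' S'' ⊆ K) :
    ∃ (φ : ℕ → ℕ) (C V : Set (E m)) (κ ε : ℕ → ℝ≥0∞), StrictMono φ ∧ IsCompact C ∧ IsOpen V ∧
      K ⊆ V ∧ V ⊆ C ∧ C ⊆ O ∧ Tendsto κ atTop (𝓝 0) ∧ Tendsto ε atTop (𝓝 0) ∧
      ∀ᶠ i in atTop, gmtMu (S (φ i)) C ≤ ENNReal.ofReal (1 + δ (φ i)) * (gmtMu S'' V + κ i) +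
        ENNReal.ofReal (Λ (φ i)) * (ε i + volume (symmDiff S' S'')) := by
  obtain ⟨W, hW, hKW⟩ := gmt_exists_cc hK hO hKO
  obtain ⟨χ, hχs, hχc, hχW, hχ01, hχ1⟩ := gmt_exists_cutoff hK hW.1 hKW
  set f : E m → ℝ := fun x => 1 - χ x with hf
  have hfs : ContDiff ℝ ∞ f := contDiff_const.sub hχs
  have hfc : Continuous f := hfs.continuous
  have hfK : ∀ x ∈ K, f x = 0 := fun x hx => by
    simp only [hf, hχ1.self_of_nhdsSet x hx, sub_self]
  have hL : IsCompact (tsupport χ) := hχc.isCompact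
  have hWO : W ⊆ O := subset_closure.trans hW.2.2
  have hLU : tsupport χ ⊆ U' := hχW.trans (hWO.trans hOU)
  have hsub : ∀ x, f x < 1 → x ∈ tsupport χ := fun x hx => subset_tsupport χ fun h0 => by
    simp only [hf, h0, sub_zero, lt_self_iff_false] at hx
  obtain ⟨M, hM⟩ : ∃ M : ℝ, ∀ x, ‖fderiv ℝ f x‖ ≤ M := by
    have h1 : Continuous (fderiv ℝ χ) := hχs.continuous_fderiv (by simp)
    obtain ⟨M, hM⟩ := h1.bounded_above_of_compact_support (hχc.fderiv ℝ)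
    refine ⟨M, fun x => ?_⟩
    have e : fderiv ℝ f x = -fderiv ℝ χ x := fderiv_const_sub 1
    rw [e, norm_neg]
    exact hM x
  have hlim : Tendsto (fun i => ∫⁻ x in (symmDiff S'' (S i) ∩ W) ∩ f ⁻¹' Ioo 0 1,
      ‖fderiv ℝ f x‖ₑ) atTop (𝓝 0) := by
    have h0 : Tendsto (fun i => ENNReal.ofReal M * volume (symmDiff (S i) S' ∩ tsupport χ)) atTop
        (𝓝 0) := by
      have := ENNReal.Tendsto.const_mul (a := ENNReal.ofReal M) (hc _ hL hLU)
        (Or.inr ENNReal.ofReal_ne_top)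
      simpa using this
    refine tendsto_of_tendsto_of_tendsto_of_le_of_le tendsto_const_nhds h0 (fun _ => zero_le)
      fun i => ?_
    calc ∫⁻ x in (symmDiff S'' (S i) ∩ W) ∩ f ⁻¹' Ioo 0 1, ‖fderiv ℝ f x‖ₑ
        ≤ ∫⁻ _ in (symmDiff S'' (S i) ∩ W) ∩ f ⁻¹' Ioo 0 1, ENNReal.ofReal M :=
          lintegral_mono fun x => by
            rw [← ofReal_norm]
            exact ENNReal.ofReal_le_ofReal (hM x)
      _ = ENNReal.ofReal M * volume ((symmDiff S'' (S i) ∩ W) ∩ f ⁻¹' Ioo 0 1) :=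
          setLIntegral_const _ _
      _ ≤ ENNReal.ofReal M * volume (symmDiff (S i) S' ∩ tsupport χ) := by
          refine mul_le_mul' le_rfl (measure_mono ?_)
          intro x hx'
          obtain ⟨⟨hx, -⟩, hx01⟩ := hx'
          have hx0 : 0 < f x := hx01.1
          have hx1 : f x < 1 := hx01.2
          have hxK : x ∉ symmDiff S' S'' := fun h => by
            rw [hfK x (hd h)] at hx0
            exact lt_irrefl _ hx0
          refine ⟨?_, hsub x hx1⟩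
          simp only [mem_symmDiff] at hx hxK ⊢
          tauto
  obtain ⟨φ, hφ, hae⟩ := gmtPer_glue_seq (A := fun _ _ => gmtEu m) hW.1 zero_le_one
    (fun _ => gmtEu_le_one W) hfc (a := 0) (b := 1) (hfs.of_le (by simp)).contDiffOn
    (S₁ := fun _ => S'') (S₂ := S) (fun _ => hS'') (fun i => (hS i).lf.1) hlim
  obtain ⟨t, ht, κ, hκ, hglue⟩ := gmtqc_exists_level hae
  have hCL : {x | f x ≤ t} ⊆ tsupport χ := fun x hx => hsub x (lt_of_le_of_lt hx ht.2)
  have hC : IsCompact {x | f x ≤ t} :=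
    hL.of_isClosed_subset (isClosed_le hfc continuous_const) hCL
  have hCW : {x | f x ≤ t} ⊆ W := hCL.trans hχW
  have hV : IsOpen {x | f x < t} := isOpen_lt hfc continuous_const
  refine ⟨φ, {x | f x ≤ t}, {x | f x < t}, κ,
    fun i => volume (symmDiff (S (φ i)) S' ∩ {x | f x ≤ t}), hφ, hC, hV, ?_, ?_, hCW.trans hWO, hκ,
    (hc _ hC (hCL.trans hLU)).comp hφ.tendsto_atTop, ?_⟩
  · intro x hx
    show f x < t
    rw [hfK x hx]
    exact ht.1
  · intro x hx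
    have hx' : f x < t := hx
    exact hx'.le
  filter_upwards [hφ.tendsto_atTop.eventually (hU.2.2 _ hW.2.1 (hW.2.2.trans hOU))] with i hi
  have hWi : GmtCC W (U (φ i)) := ⟨hW.1, hW.2.1, hi⟩
  have hfin : gmtP (S (φ i)) (W ∩ {x | t < f x}) ≠ ⊤ :=
    ne_top_of_le_ne_top ((hS _).lf.2 W hWi) (gmtPer_mono _ _ inter_subset_left)
  have hG := measurableSet_gmtGlue hfc.measurable t hS'' (hS (φ i)).lf.1
  have hB := gmtqc_glue_mu hW.1 hfc hS'' (hS (φ i)).lf.1 hfin (hglue i)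
  have hdG : symmDiff (S (φ i)) (gmtGlue f t S'' (S (φ i))) ⊆
      (symmDiff (S (φ i)) S' ∩ {x | f x ≤ t}) ∪ symmDiff S' S'' := by
    intro x hx
    simp only [gmtGlue, mem_symmDiff, mem_union, mem_inter_iff, Set.mem_sdiff, mem_ofPred_eq] at hx ⊢
    by_cases hxt : f x < t
    · have := hxt.le
      tauto
    · tauto
  have hdC : symmDiff (S (φ i)) (gmtGlue f t S'' (S (φ i))) ⊆ {x | f x ≤ t} := by
    intro x hx
    simp only [gmtGlue, mem_symmDiff, mem_union, mem_inter_iff, Set.mem_sdiff, mem_ofPred_eq] at hx ⊢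
    by_cases hxt : f x < t
    · exact hxt.le
    · tauto
  have hA := (hS (φ i)).mu_compact_le (hδ0 _) (hU.2.1 _) hC
    ((hCW.trans subset_closure).trans hi) hG hdC
  refine hA.trans ?_
  gcongr
  · calc gmtMu (gmtGlue f t S'' (S (φ i))) {x | f x ≤ t}
        ≤ gmtMu (gmtGlue f t S'' (S (φ i))) (W ∩ {x | f x ≤ t}) :=
          measure_mono (subset_inter hCW subset_rfl)
      _ ≤ gmtP S'' (W ∩ {x | f x < t}) + κ i := hB
      _ ≤ gmtMu S'' {x | f x < t} + κ i := by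
          gcongr
          rw [gmtMu_open S'' hV]
          exact gmtPer_mono _ _ inter_subset_right
  · exact (measure_mono hdG).trans (measure_union_le _ _)

/-- local uniform perimeter bounds (eventually). -/
theorem gmtQM_bddPer {U : ℕ → Set (E m)} {U' : Set (E m)} (hU : GmtExh U U') {δ Λ : ℕ → ℝ}
    {S : ℕ → Set (E m)} (hS : ∀ i, GmtQM (δ i) (Λ i) (U i) (S i)) {δ₀ Λ₀ : ℝ}
    (hδ : ∀ i, 0 ≤ δ i ∧ δ i ≤ δ₀) (hΛ : ∀ i, 0 ≤ Λ i ∧ Λ i ≤ Λ₀) {W : Set (E m)}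
    (hW : GmtCC W U') : ∃ C : ℝ≥0∞, C ≠ ⊤ ∧ ∀ᶠ i in atTop, gmtP (S i) W ≤ C := by
  have hcov : ∀ x ∈ closure W, ∃ r > 0, closedBall x r ⊆ U' := fun x hx =>
    nhds_basis_closedBall.mem_iff.1 (hU.1.mem_nhds (hW.2.2 hx))
  choose! r hr hrU using hcov
  obtain ⟨T, hT, hTc⟩ := hW.2.1.elim_nhds_subcover (fun x => ball x (r x))
    (fun x hx => ball_mem_nhds x (hr x hx))
  refine ⟨∑ x ∈ T, ENNReal.ofReal ((1 + δ₀) * m * gmtOm m * r x ^ (m - 1) +
    Λ₀ * gmtOm m * r x ^ m), ENNReal.sum_ne_top.2 fun _ _ => ENNReal.ofReal_ne_top, ?_⟩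
  have hev : ∀ᶠ i in atTop, ∀ x ∈ T, closedBall x (r x) ⊆ U i :=
    (eventually_all_finset T).2 fun x hx =>
      hU.2.2 _ (isCompact_closedBall x _) (hrU x (hT x hx))
  filter_upwards [hev] with i hi
  calc gmtP (S i) W = gmtMu (S i) W := (gmtMu_open _ hW.1).symm
    _ ≤ gmtMu (S i) (⋃ x ∈ T, ball x (r x)) := measure_mono (subset_closure.trans hTc)
    _ ≤ ∑ x ∈ T, gmtMu (S i) (ball x (r x)) := measure_biUnion_finset_le _ _
    _ ≤ _ := Finset.sum_le_sum fun x hx => by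
        rw [gmtMu_open _ isOpen_ball]
        refine ((hS i).per_ball_le (hδ i).1 (hΛ i).1 (hU.2.1 i) (hr x (hT x hx)) (hi x hx)).trans ?_
        have h1 := (hδ i).2
        have h2 := (hΛ i).2
        have h3 := gmtOm_nonneg m
        have h4 := (hr x (hT x hx)).le
        gcongr

/-- COMPACTNESS. -/
theorem gmtQM_compact {U : ℕ → Set (E m)} {U' : Set (E m)} (hU : GmtExh U U') {δ Λ : ℕ → ℝ}
    {S : ℕ → Set (E m)} (hS : ∀ i, GmtQM (δ i) (Λ i) (U i) (S i)) {δ₀ Λ₀ : ℝ}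
    (hδ : ∀ i, 0 ≤ δ i ∧ δ i ≤ δ₀) (hΛ : ∀ i, 0 ≤ Λ i ∧ Λ i ≤ Λ₀) :
    ∃ (φ : ℕ → ℕ) (S' : Set (E m)), StrictMono φ ∧ MeasurableSet S' ∧ GmtLF S' U' ∧
      GmtConv U' (fun i => S (φ i)) S' := by
  refine gmtP_compactness hU.1 (fun i => (hS i).lf.1) fun x hx => ?_
  obtain ⟨r, hr, hrU⟩ := nhds_basis_closedBall.mem_iff.1 (hU.1.mem_nhds hx)
  refine ⟨r, hr, ENNReal.ofReal ((1 + δ₀) * m * gmtOm m * r ^ (m - 1) + Λ₀ * gmtOm m * r ^ m),
    ENNReal.ofReal_ne_top, ?_⟩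
  filter_upwards [hU.2.2 _ (isCompact_closedBall x r) hrU] with i hi
  refine ((hS i).per_ball_le (hδ i).1 (hΛ i).1 (hU.2.1 i) hr hi).trans ?_
  have h1 := (hδ i).2
  have h2 := (hΛ i).2
  have h3 := gmtOm_nonneg m
  have h4 := hr.le
  gcongr

/-- upper semicontinuity of the perimeter on compact sets, up to the factor `1 + δ`. -/
theorem gmtQM_limsup_le {U : ℕ → Set (E m)} {U' : Set (E m)} (hU : GmtExh U U') {δ Λ : ℕ → ℝ}
    {S : ℕ → Set (E m)} (hS : ∀ i, GmtQM (δ i) (Λ i) (U i) (S i)) {δ' Λ₀ : ℝ}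
    (hδ0 : ∀ i, 0 ≤ δ i) (hδ : Tendsto δ atTop (𝓝 δ')) (hΛ : ∀ i, 0 ≤ Λ i ∧ Λ i ≤ Λ₀)
    {S' : Set (E m)} (hS' : MeasurableSet S') (hc : GmtConv U' S S') {K : Set (E m)}
    (hK : IsCompact K) (hKU : K ⊆ U') :
    limsup (fun i => gmtMu (S i) K) atTop ≤ ENNReal.ofReal (1 + δ') * gmtMu S' K := by
  have hδ' : 0 ≤ δ' := ge_of_tendsto' hδ hδ0
  have : (gmtMu S').OuterRegular := (gmtPerM_spec _ _).1
  have key : ∀ O, IsOpen O → K ⊆ O → O ⊆ U' → limsup (fun i => gmtMu (S i) K) atTop ≤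
      ENNReal.ofReal (1 + δ') * gmtMu S' O + 0 := by
    intro O hO hKO hOU
    refine gmtqc_limsup_le_of_subseq fun ψ hψ => ?_
    obtain ⟨φ, C, V, κ, ε, hφ, hC, hV, hKV, hVC, hCO, hκ, hε, hev⟩ :=
      gmtqc_key (hU.comp hψ) (fun i => hS (ψ i)) (fun i => hδ0 _) hS' (hc.comp hψ) hK hO hKO hOU
        (by simp)
    refine ⟨φ, hφ, ?_⟩
    have hδl : Tendsto (fun i => ENNReal.ofReal (1 + δ (ψ (φ i)))) atTop
        (𝓝 (ENNReal.ofReal (1 + δ'))) :=
      (ENNReal.continuous_ofReal.tendsto _).comp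
        ((hδ.comp (hψ.comp hφ).tendsto_atTop).const_add 1)
    have hlim : Tendsto (fun i => ENNReal.ofReal (1 + δ (ψ (φ i))) * (gmtMu S' O + κ i) +
        ENNReal.ofReal Λ₀ * ε i) atTop (𝓝 (ENNReal.ofReal (1 + δ') * gmtMu S' O + 0)) := by
      refine Tendsto.add ?_ ?_
      · have h1 : Tendsto (fun i => gmtMu S' O + κ i) atTop (𝓝 (gmtMu S' O)) := by
          simpa using tendsto_const_nhds.add hκ
        exact ENNReal.Tendsto.mul hδl (Or.inl (gmtqc_ofReal_ne_zero hδ')) h1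
          (Or.inr ENNReal.ofReal_ne_top)
      · have := ENNReal.Tendsto.const_mul (a := ENNReal.ofReal Λ₀) hε
          (Or.inr ENNReal.ofReal_ne_top)
        simpa using this
    rw [← hlim.liminf_eq]
    refine liminf_le_liminf ?_
    filter_upwards [hev] with i hi
    calc gmtMu (S (ψ (φ i))) K ≤ gmtMu (S (ψ (φ i))) C := measure_mono (hKV.trans hVC)
      _ ≤ _ := hi
      _ ≤ _ := by
        rw [symmDiff_self, bot_eq_empty, measure_empty, add_zero]
        have h1 := (hΛ (ψ (φ i))).2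
        have h2 : gmtMu S' V ≤ gmtMu S' O := measure_mono (hVC.trans hCO)
        gcongr
  simpa using gmtqc_outer hU.1 hKU (gmtqc_ofReal_ne_zero hδ') ENNReal.ofReal_ne_top key

/-- CLOSURE. -/
theorem gmtQM_closure {U : ℕ → Set (E m)} {U' : Set (E m)} (hU : GmtExh U U') {δ Λ : ℕ → ℝ}
    {S : ℕ → Set (E m)} (hS : ∀ i, GmtQM (δ i) (Λ i) (U i) (S i)) {δ' Λ' : ℝ}
    (hδ0 : ∀ i, 0 ≤ δ i) (hδ : Tendsto δ atTop (𝓝 δ')) (hΛ0 : ∀ i, 0 ≤ Λ i)
    (hΛ : Tendsto Λ atTop (𝓝 Λ')) {S' : Set (E m)} (hS' : MeasurableSet S')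
    (hc : GmtConv U' S S') : GmtQM δ' Λ' U' S' := by
  have hδ' : 0 ≤ δ' := ge_of_tendsto' hδ hδ0
  obtain ⟨δ₀, hδ₀⟩ := hδ.bddAbove_range
  obtain ⟨Λ₀, hΛ₀⟩ := hΛ.bddAbove_range
  refine ⟨⟨hS', fun W hW => ?_⟩, ?_⟩
  · obtain ⟨C, hC, hev⟩ := gmtQM_bddPer hU hS (fun i => ⟨hδ0 i, hδ₀ ⟨i, rfl⟩⟩)
      (fun i => ⟨hΛ0 i, hΛ₀ ⟨i, rfl⟩⟩) hW
    have h1 := gmtP_lsc hW.1 (fun i => (hS i).lf.1) hS' (hc.mono (subset_closure.trans hW.2.2))
    refine ne_top_of_le_ne_top hC (h1.trans ?_)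
    exact (liminf_le_liminf hev).trans (liminf_const C).le
  rintro W S'' hW hS'' ⟨K, hK, hKW, hd⟩
  have hWU : W ⊆ U' := subset_closure.trans hW.2.2
  obtain ⟨φ, C, V, κ, ε, hφ, hC, hV, hKV, hVC, hCW, hκ, hε, hev⟩ :=
    gmtqc_key hU hS hδ0 hS'' hc hK hW.1 hKW hWU hd
  have hvol : volume (symmDiff S' S'') ≠ ⊤ :=
    ((measure_mono hd).trans_lt hK.measure_lt_top).ne
  have h1 : gmtMu S' V ≤ ENNReal.ofReal (1 + δ') * gmtMu S'' V +
      ENNReal.ofReal Λ' * volume (symmDiff S' S'') := by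
    have hδl : Tendsto (fun i => ENNReal.ofReal (1 + δ (φ i))) atTop
        (𝓝 (ENNReal.ofReal (1 + δ'))) :=
      (ENNReal.continuous_ofReal.tendsto _).comp ((hδ.comp hφ.tendsto_atTop).const_add 1)
    have hΛl : Tendsto (fun i => ENNReal.ofReal (Λ (φ i))) atTop (𝓝 (ENNReal.ofReal Λ')) :=
      (ENNReal.continuous_ofReal.tendsto _).comp (hΛ.comp hφ.tendsto_atTop)
    have hlim : Tendsto (fun i => ENNReal.ofReal (1 + δ (φ i)) * (gmtMu S'' V + κ i) +
        ENNReal.ofReal (Λ (φ i)) * (ε i + volume (symmDiff S' S''))) atTop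
        (𝓝 (ENNReal.ofReal (1 + δ') * gmtMu S'' V +
          ENNReal.ofReal Λ' * volume (symmDiff S' S''))) := by
      refine Tendsto.add ?_ ?_
      · have h1 : Tendsto (fun i => gmtMu S'' V + κ i) atTop (𝓝 (gmtMu S'' V)) := by
          simpa using tendsto_const_nhds.add hκ
        exact ENNReal.Tendsto.mul hδl (Or.inl (gmtqc_ofReal_ne_zero hδ')) h1
          (Or.inr ENNReal.ofReal_ne_top)
      · have h1 : Tendsto (fun i => ε i + volume (symmDiff S' S'')) atTop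
            (𝓝 (volume (symmDiff S' S''))) := by
          simpa using hε.add tendsto_const_nhds
        exact ENNReal.Tendsto.mul hΛl (Or.inr hvol) h1 (Or.inr ENNReal.ofReal_ne_top)
    rw [← hlim.liminf_eq, gmtMu_open S' hV]
    refine (gmtP_lsc hV (fun i => (hS (φ i)).lf.1) hS'
      ((hc.comp hφ).mono ((hVC.trans hCW).trans hWU))).trans (liminf_le_liminf ?_)
    filter_upwards [hev] with i hi
    rw [← gmtMu_open _ hV]
    exact (measure_mono hVC).trans hi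
  have h2 : gmtMu S' (W \ V) = gmtMu S'' (W \ V) := by
    have ho : IsOpen (W \ K) := hW.1.sdiff hK.isClosed
    have e0 : S' ∩ (W \ K) = S'' ∩ (W \ K) := by
      ext x
      have := @hd x
      simp only [mem_symmDiff, mem_inter_iff, Set.mem_sdiff] at this ⊢
      tauto
    have e := gmtMu_restrict_congr ho hS' hS'' (by rw [e0]; exact ae_eq_refl _)
    have hm : MeasurableSet (W \ V) := hW.1.measurableSet.diff hV.measurableSet
    have hsub : W \ V ⊆ W \ K := sdiff_subset_sdiff_right hKV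
    have := congrArg (fun μ : Measure (E m) => μ (W \ V)) e
    simpa only [Measure.restrict_apply hm, inter_eq_self_of_subset_left hsub] using this
  have hone : (1 : ℝ≥0∞) ≤ ENNReal.ofReal (1 + δ') := by
    rw [← ENNReal.ofReal_one]
    exact ENNReal.ofReal_le_ofReal (by linarith)
  rw [← gmtMu_open S' hW.1, ← gmtMu_open S'' hW.1, ← measure_inter_add_sdiff W hV.measurableSet,
    ← measure_inter_add_sdiff (μ := gmtMu S'') W hV.measurableSet,
    inter_eq_self_of_subset_right (hVC.trans hCW), h2]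
  calc gmtMu S' V + gmtMu S'' (W \ V)
      ≤ (ENNReal.ofReal (1 + δ') * gmtMu S'' V + ENNReal.ofReal Λ' * volume (symmDiff S' S'')) +
        ENNReal.ofReal (1 + δ') * gmtMu S'' (W \ V) :=
        add_le_add h1 (le_mul_of_one_le_left zero_le hone)
    _ = _ := by ring

/-- NO LOSS OF PERIMETER when the multiplicative error tends to zero. -/
theorem gmtQM_wk {U : ℕ → Set (E m)} {U' : Set (E m)} (hU : GmtExh U U') {δ Λ : ℕ → ℝ}
    {S : ℕ → Set (E m)} (hS : ∀ i, GmtQM (δ i) (Λ i) (U i) (S i)) {Λ₀ : ℝ}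
    (hδ0 : ∀ i, 0 ≤ δ i) (hδ : Tendsto δ atTop (𝓝 0)) (hΛ : ∀ i, 0 ≤ Λ i ∧ Λ i ≤ Λ₀)
    {S' : Set (E m)} (hS' : MeasurableSet S') (hc : GmtConv U' S S') :
    GmtWk U' (fun i => gmtMu (S i)) (gmtMu S') := by
  obtain ⟨δ₀, hδ₀⟩ := hδ.bddAbove_range
  have hLF : GmtLF S' U' := by
    refine ⟨hS', fun W hW => ?_⟩
    obtain ⟨C, hC, hev⟩ := gmtQM_bddPer hU hS (fun i => ⟨hδ0 i, hδ₀ ⟨i, rfl⟩⟩) hΛ hW
    have h1 := gmtP_lsc hW.1 (fun i => (hS i).lf.1) hS' (hc.mono (subset_closure.trans hW.2.2))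
    refine ne_top_of_le_ne_top hC (h1.trans ?_)
    exact (liminf_le_liminf hev).trans (liminf_const C).le
  refine gmt_portmanteau hU.1 (fun K hK hKU => gmtMu_compact_ne_top hU.1 hLF hK hKU)
    (fun W hW hWU => ?_) (fun K hK hKU => ?_)
  · simp only [gmtMu_open _ hW]
    exact gmtP_lsc hW (fun i => (hS i).lf.1) hS' (hc.mono hWU)
  · have := gmtQM_limsup_le hU hS hδ0 hδ hΛ hS' hc hK hKU
    simpa using this

end Claimed.Agent.Gmt
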