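import Claimed.Agent.Lib.Gmt.QmCompactA

/-!
# Lib/Gmt [QmCompactB = part 2/3 of the former QmCompact] G3b: compactness and closure of quasi-minimisers; convergence of boundaries and of perimeters.
(architect: helper75)                              Maggi Ch. 21 (Thm 21.14), on exhausting domains `U i → U'`.

`GmtExh U U'`: every compact subset of the open set `U'` is eventually contained in `U i`.

PLAN OF PROOFS
* `gmtQM_bddPer`, `gmtQM_compact`: `GmtQM.per_ball_le` + finite covers + `gmtP_compactness` (drop finitely many indices on each compact set; diagonal over an exhaustion of `U'`).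
* `gmtQM_limsup_le` (key).  Let `K ⊆ U'` compact, `O ⊇ K` open, `O ⋐ U'`; take `f` smooth, `f = 0` on `K`, `f = 1` off a compact subset of `O`.  Pass to a subsequence realising the `limsup`.
  `gmtPer_glue_seq` (with `S₁ i = S'`, `S₂ i = S i`, levels in `(0,1)`) gives a further subsequence and a level `t` with interface costs `κ_i → 0`.  For `t < t' < 1` apply the quasi-minimality of `S i` in `W = {f < t'}` to the competitor `gmtGlue f t S' (S i)`:
  `μ_i(W) ≤ (1+δ_i)[μ'({f<t}) + μ_i(W ∩ {t<f}) + κ_i] + Λ_i |(S i △ S') ∩ {f<t}|`; subtract `μ_i(W ∩ {t<f})` (finite), let `t' ↓ t`: `μ_i({f ≤ t}) ≤ (1+δ_i)(μ'(O) + κ_i) + o(1)`.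
  Finally `μ'(O) ↓ μ'(K)` (outer regularity).
* `gmtQM_closure`: same gluing with a competitor `S''` of `S'` inside; see the computation in helper75's notes reproduced here:
  `μ'({f<t}) ≤ liminf μ_i({f<t}) ≤ (1+δ) P(S'';{f<t}) + Λ|S'△S''|`, and `P(S';W) = μ'({f<t}) + μ'(W ∩ {t<f})` for a level `t` not charged by `μ'` (`gmtPer_level_null`),
  `P(S'';W) ≥ P(S'';{f<t}) + P(S''; W ∩ {t<f})`, `S'' = S'` on `{t<f}`.
* `gmtQM_bd_lim`: uniform volume density estimates `gmtQM_volume` pass to the limit (`GmtConv.tendsto_volume`).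
* `gmt_bd_approx`: no minimality: if `ball x r` misses `gmtBd (S i)` for infinitely many `i`, then `S i ∩ ball x r` is null or full (constancy), hence so is the limit.
-/

set_option autoImplicit false
open scoped ContDiff ENNReal RealInnerProductSpace Topology
open MeasureTheory Metric Set Filter

namespace Claimed.Agent.Gmt

variable {m : ℕ}

/-- limits of boundary points are boundary points. -/
theorem gmtQM_bd_lim (hm : 1 ≤ m) {U : ℕ → Set (E m)} {U' : Set (E m)} (hU : GmtExh U U')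
    {δ Λ : ℕ → ℝ} {S : ℕ → Set (E m)} (hS : ∀ i, GmtQM (δ i) (Λ i) (U i) (S i)) {δ₀ Λ₀ : ℝ}
    (hδ : ∀ i, 0 ≤ δ i ∧ δ i ≤ δ₀) (hΛ : ∀ i, 0 ≤ Λ i ∧ Λ i ≤ Λ₀) {S' : Set (E m)}
    (hc : GmtConv U' S S') {x : ℕ → E m} {x' : E m} (hx' : x' ∈ U')
    (hx : ∀ i, x i ∈ gmtBd (S i)) (hlim : Tendsto x atTop (𝓝 x')) : x' ∈ gmtBd S' := by
  obtain ⟨c, hc0, ε₀, hε₀, hvol⟩ := gmtQM_volume m hm δ₀
  intro r hr
  obtain ⟨r₁, hr₁, hr₁U⟩ := nhds_basis_closedBall.mem_iff.1 (hU.1.mem_nhds hx')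
  set ρ := min (min (r / 2) (r₁ / 2)) (ε₀ / (|Λ₀| + 1)) with hρ
  have hΛp : 0 < |Λ₀| + 1 := by positivity
  have hρ0 : 0 < ρ := lt_min (lt_min (by positivity) (by positivity)) (by positivity)
  have hρr : 2 * ρ ≤ r := by
    have : ρ ≤ r / 2 := (min_le_left _ _).trans (min_le_left _ _)
    linarith
  have hρr₁ : 2 * ρ ≤ r₁ := by
    have : ρ ≤ r₁ / 2 := (min_le_left _ _).trans (min_le_right _ _)
    linarith
  have hρΛ : ∀ i, Λ i * ρ ≤ ε₀ := by
    intro i
    have h1 : Λ i ≤ |Λ₀| + 1 := by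
      have := (hΛ i).2
      have := le_abs_self Λ₀
      linarith
    have h2 : ρ ≤ ε₀ / (|Λ₀| + 1) := min_le_right _ _
    calc Λ i * ρ ≤ (|Λ₀| + 1) * (ε₀ / (|Λ₀| + 1)) := mul_le_mul h1 h2 hρ0.le hΛp.le
      _ = ε₀ := by field_simp
  have hKc : IsCompact (closedBall x' (2 * ρ)) := isCompact_closedBall _ _
  have hKU : closedBall x' (2 * ρ) ⊆ U' := (closedBall_subset_closedBall hρr₁).trans hr₁U
  have hev : ∀ᶠ i in atTop, ENNReal.ofReal (c * ρ ^ m) ≤ volume (S i ∩ ball x' (2 * ρ)) ∧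
      ENNReal.ofReal (c * ρ ^ m) ≤ volume ((S i)ᶜ ∩ ball x' (2 * ρ)) := by
    filter_upwards [hU.2.2 _ hKc hKU, hlim.eventually (ball_mem_nhds x' hρ0)] with i hi hxi
    have hd : dist (x i) x' < ρ := mem_ball.1 hxi
    have hsub : closedBall (x i) ρ ⊆ closedBall x' (2 * ρ) :=
      closedBall_subset_closedBall' (by linarith)
    have hsub' : ball (x i) ρ ⊆ ball x' (2 * ρ) := ball_subset_ball' (by linarith)
    obtain ⟨h1, h2⟩ := hvol (δ i) (Λ i) (U i) (S i) (x i) ρ (hδ i).1 (hδ i).2 (hΛ i).1 (hU.2.1 i)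
      (hS i) (hx i) hρ0 (hsub.trans hi) (hρΛ i)
    refine ⟨h1.trans (measure_mono (inter_subset_inter_right _ hsub')),
      h2.trans (measure_mono ?_)⟩
    rintro y ⟨hy1, hy2⟩
    exact ⟨hy2, hsub' hy1⟩
  have hpos : 0 < ENNReal.ofReal (c * ρ ^ m) := ENNReal.ofReal_pos.2 (by positivity)
  have t1 := hc.tendsto_volume hKc hKU (ball_subset_closedBall : ball x' (2 * ρ) ⊆ _)
  have t2 := hc.compl.tendsto_volume hKc hKU (ball_subset_closedBall : ball x' (2 * ρ) ⊆ _)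
  have l1 := ge_of_tendsto t1 (hev.mono fun i h => h.1)
  have l2 := ge_of_tendsto t2 (hev.mono fun i h => h.2)
  constructor
  · exact hpos.trans_le (l1.trans (measure_mono (inter_subset_inter_right _
      (ball_subset_ball hρr))))
  · refine hpos.trans_le (l2.trans (measure_mono ?_))
    rintro y ⟨hy1, hy2⟩
    exact ⟨ball_subset_ball hρr hy2, hy1⟩

/-- every ball around a boundary point of the limit eventually meets the boundaries. -/
theorem gmtqc_bd_meets {U' : Set (E m)} (hU' : IsOpen U') {S : ℕ → Set (E m)} {S' : Set (E m)}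
    (hS : ∀ i, MeasurableSet (S i)) (hc : GmtConv U' S S') {x' : E m} (hx' : x' ∈ U')
    (hb : x' ∈ gmtBd S') {r : ℝ} (hr : 0 < r) :
    ∀ᶠ i in atTop, (gmtBd (S i) ∩ ball x' r).Nonempty := by
  obtain ⟨r₁, hr₁, hr₁U⟩ := nhds_basis_closedBall.mem_iff.1 (hU'.mem_nhds hx')
  set ρ := min r r₁ with hρ
  have hρ0 : 0 < ρ := lt_min hr hr₁
  have hKU : closedBall x' ρ ⊆ U' := (closedBall_subset_closedBall (min_le_right _ _)).trans hr₁U
  have t1 := hc.tendsto_volume (isCompact_closedBall x' ρ) hKU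
    (ball_subset_closedBall : ball x' ρ ⊆ _)
  have t2 := hc.compl.tendsto_volume (isCompact_closedBall x' ρ) hKU
    (ball_subset_closedBall : ball x' ρ ⊆ _)
  have ecomp : ∀ T : Set (E m), Tᶜ ∩ ball x' ρ = ball x' ρ \ T := fun T => by
    ext y
    simp only [mem_inter_iff, mem_compl_iff, Set.mem_sdiff]
    tauto
  simp only [ecomp] at t2
  obtain ⟨p1, p2⟩ := hb ρ hρ0
  filter_upwards [(tendsto_order.1 t1).1 0 p1, (tendsto_order.1 t2).1 0 p2] with i h1 h2
  by_contra hne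
  rw [not_nonempty_iff_eq_empty] at hne
  have hsub : ball x' ρ ⊆ (gmtBd (S i))ᶜ := by
    intro y hy hyb
    have : y ∈ gmtBd (S i) ∩ ball x' r := ⟨hyb, ball_subset_ball (min_le_left _ _) hy⟩
    rw [hne] at this
    exact this
  have h0 : gmtP (S i) (ball x' ρ) = 0 := by
    rw [← gmtMu_open _ isOpen_ball]
    exact measure_mono_null hsub (gmtMu_compl_gmtBd (hS i))
  rcases gmtP_eq_zero_const isOpen_ball (convex_ball x' ρ).isPreconnected (hS i) h0 with h | h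
  · exact h1.ne' h
  · exact h2.ne' h

/-- boundary points of the limit are limits of boundary points (no minimality). -/
theorem gmt_bd_approx {U' : Set (E m)} (hU' : IsOpen U') {S : ℕ → Set (E m)} {S' : Set (E m)}
    (hS : ∀ i, MeasurableSet (S i)) (hc : GmtConv U' S S') {x' : E m} (hx' : x' ∈ U')
    (hb : x' ∈ gmtBd S') :
    ∃ x : ℕ → E m, (∀ᶠ i in atTop, x i ∈ gmtBd (S i)) ∧ Tendsto x atTop (𝓝 x') := by
  have hex : ∀ i, ∃ y : E m, (gmtBd (S i)).Nonempty →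
      (y ∈ gmtBd (S i) ∧ infDist x' (gmtBd (S i)) = dist x' y) := by
    intro i
    by_cases h : (gmtBd (S i)).Nonempty
    · obtain ⟨y, hy, hd⟩ := (isClosed_gmtBd (S i)).exists_infDist_eq_dist h x'
      exact ⟨y, fun _ => ⟨hy, hd⟩⟩
    · exact ⟨x', fun h' => absurd h' h⟩
  choose x hx using hex
  refine ⟨x, ?_, ?_⟩
  · filter_upwards [gmtqc_bd_meets hU' hS hc hx' hb one_pos] with i hi
    exact (hx i (hi.mono inter_subset_left)).1
  · rw [Metric.tendsto_nhds]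
    intro ε hε
    filter_upwards [gmtqc_bd_meets hU' hS hc hx' hb hε] with i hi
    obtain ⟨y, hy1, hy2⟩ := hi
    have h1 := (hx i ⟨y, hy1⟩).2
    rw [dist_comm, ← h1]
    refine (infDist_le_dist_of_mem hy1).trans_lt ?_
    rw [dist_comm]
    exact hy2

/-- extraction of a convergent sequence of witnesses in a compact set. -/
theorem gmtqc_extract {K : Set (E m)} (hK : IsCompact K) {Q : ℕ → E m → Prop}
    (h : ∃ᶠ i in atTop, ∃ x ∈ K, Q i x) :
    ∃ (ψ : ℕ → ℕ) (x : ℕ → E m) (x' : E m), StrictMono ψ ∧ x' ∈ K ∧ Tendsto x atTop (𝓝 x') ∧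
      ∀ j, Q (ψ j) (x j) := by
  obtain ⟨ψ₀, hψ₀, hq⟩ := extraction_of_frequently_atTop h
  choose y hyK hyQ using hq
  obtain ⟨x', hx', φ, hφ, hlim⟩ := hK.tendsto_subseq hyK
  exact ⟨ψ₀ ∘ φ, y ∘ φ, x', hψ₀.comp hφ, hx', hlim, fun j => hyQ (φ j)⟩

/-- uniform version: on a compact set the boundaries converge in the Hausdorff sense. -/
theorem gmtQM_bd_hausdorff (hm : 1 ≤ m) {U : ℕ → Set (E m)} {U' : Set (E m)} (hU : GmtExh U U')
    {δ Λ : ℕ → ℝ} {S : ℕ → Set (E m)} (hS : ∀ i, GmtQM (δ i) (Λ i) (U i) (S i)) {δ₀ Λ₀ : ℝ}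
    (hδ : ∀ i, 0 ≤ δ i ∧ δ i ≤ δ₀) (hΛ : ∀ i, 0 ≤ Λ i ∧ Λ i ≤ Λ₀) {S' : Set (E m)}
    (hc : GmtConv U' S S') {K : Set (E m)} (hK : IsCompact K) (hKU : K ⊆ U') {η : ℝ}
    (hη : 0 < η) :
    ∀ᶠ i in atTop, (gmtBd (S i) ∩ K ⊆ thickening η (gmtBd S')) ∧
      (gmtBd S' ∩ K ⊆ thickening η (gmtBd (S i))) := by
  refine Filter.Eventually.and ?_ ?_
  · by_contra hcon
    rw [Filter.not_eventually] at hcon
    have hfr : ∃ᶠ i in atTop, ∃ x ∈ K, x ∈ gmtBd (S i) ∧ x ∉ thickening η (gmtBd S') := by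
      refine hcon.mono fun i hi => ?_
      rw [not_subset] at hi
      obtain ⟨x, ⟨hx1, hx2⟩, hx3⟩ := hi
      exact ⟨x, hx2, hx1, hx3⟩
    obtain ⟨ψ, x, x', hψ, hx', hlim, hQ⟩ := gmtqc_extract hK hfr
    have hb : x' ∈ gmtBd S' := gmtQM_bd_lim hm (hU.comp hψ) (fun i => hS (ψ i)) (fun i => hδ _)
      (fun i => hΛ _) (hc.comp hψ) (hKU hx') (fun i => (hQ i).1) hlim
    obtain ⟨j, hj⟩ := (hlim.eventually (ball_mem_nhds x' hη)).exists
    exact (hQ j).2 (mem_thickening_iff.2 ⟨x', hb, hj⟩)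
  · by_contra hcon
    rw [Filter.not_eventually] at hcon
    have hfr : ∃ᶠ i in atTop, ∃ x ∈ K, x ∈ gmtBd S' ∧ x ∉ thickening η (gmtBd (S i)) := by
      refine hcon.mono fun i hi => ?_
      rw [not_subset] at hi
      obtain ⟨x, ⟨hx1, hx2⟩, hx3⟩ := hi
      exact ⟨x, hx2, hx1, hx3⟩
    obtain ⟨ψ, x, x', hψ, hx', hlim, hQ⟩ := gmtqc_extract hK hfr
    have hb : x' ∈ gmtBd S' :=
      (isClosed_gmtBd S').mem_of_tendsto hlim (Eventually.of_forall fun j => (hQ j).1)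
    obtain ⟨z, hz, hzlim⟩ := gmt_bd_approx hU.1 (fun i => (hS (ψ i)).lf.1) (hc.comp hψ)
      (hKU hx') hb
    have hd : Tendsto (fun j => dist (x j) (z j)) atTop (𝓝 0) := by
      have := hlim.dist hzlim
      simpa using this
    obtain ⟨j, hj1, hj2⟩ := (hz.and ((tendsto_order.1 hd).2 η hη)).exists
    exact (hQ j).2 (mem_thickening_iff.2 ⟨z j, hj1, hj2⟩)

end Claimed.Agent.Gmt
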