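import Claimed.Agent.Lib.Gmt.QmDensA

/-!
# Lib/Gmt [QmDens = part 2/2 of the former QmDens] G3a: quasi-minimisers at one scale: definition, sources, density estimates.
(architect: helper75; PROVED: helper35)                              Maggi Ch. 21 (Thm 21.11), with a multiplicative error.

`GmtQM δ Λ U S`:  `P(S;W) ≤ (1+δ) P(S';W) + Λ |S △ S'|` whenever `S △ S' ⊂⊂ W ⊂⊂ U`.
`GmtAM κ Λ x₀ R S` gives `GmtQM (κ r) Λ (ball x₀ r) S` for `r ≤ R`; a `GmtLAM` with `c|ξ| ≤ √(A ξ ξ) ≤ C|ξ|`, `|f| ≤ Λ₀` is `GmtQM (C/c - 1) (Λ₀/c)`.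

PLAN OF PROOFS (fix `x`, `closedBall x r ⊆ U`, `μ = gmtMu S`, `v(s) = gmtVolB S x s`).
* `GmtQM.mu_closedBall_le`: for a.e. `s < r`: `μ(closedBall x s) ≤ (1+δ) v'(s) + Λ v(s)`.   Compare with `S' = S \ ball x s` in `W = ball x s'`, `s < s' < r`:
  `μ(W) ≤ (1+δ)[μ(W \ closedBall x s) + v'(s)] + Λ v(s)` by `gmtP_diff_ball_le` (with `U := W`; `gmtVolB (S ∩ W) x` and `gmtVolB S x` agree on `(0,s')`); subtract the finite number `μ(W \ closedBall x s)` and let `s' ↓ s` (`δ μ(W \ closedBall) → 0`).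
  [choose the a.e. set of `s` for a countable dense set of `s'`.]
* `GmtQM.per_ball_le`: `v'(s) ≤ m ω_m s^{m-1}` (`deriv_gmtVolB_le`), `v(s) ≤ ω_m s^m`; a.e. `s`, then all `s` by monotonicity/inner regularity.
* `gmtQM_volume`: `P(S ∩ B_s) ≤ μ(B_s) + v'(s) ≤ (2+δ) v'(s) + Λ v(s)` (`gmtP_inter_ball_le`), isoperimetric inequality `c₀ v^{(m-1)/m} ≤ P(S∩B_s)`,
  `Λ v ≤ Λ ω_m^{1/m} s v^{(m-1)/m} ≤ (c₀/2) v^{(m-1)/m}` if `Λ r ≤ ε₀`; `v > 0` on `(0,r)` since `x ∈ gmtBd S`; so `(v^{1/m})' ≥ c₀/(2(2+δ₀)m)` a.e.; integrate with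
  `MonotoneOn.intervalIntegral_deriv_mem_uIcc`.  The complement is again a quasi-minimiser.
  DIMENSION ONE (`m = 1`): same proof with `gmt_isoperimetric_one` (`1 ≤ P(S ∩ B_s)` as `v(s) > 0`): `1 ≤ (2+δ) v' + Λ v`, `v ≤ 2s`, so `v' ≥ 1/(2(2+δ₀))` if `Λ r ≤ 1/4`.
* `gmtQM_per_lower`: WEAK relative isoperimetric inequality `gmt_rel_iso_weak` (`min(|S∩B_r|,|B_r\S|) ≤ C r P(S;B_r)`) + `gmtQM_volume`.
* `GmtQM.volume_gmtBd`: by `gmtQM_volume` no point of `gmtBd S ∩ U` is a Lebesgue density point of `S` or of `Sᶜ` (Mathlib: `Besicovitch.ae_tendsto_measure_inter_div` / `IsUnifLocDoublingMeasure.ae_tendsto_measure_inter_div`).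
-/

set_option autoImplicit false
open scoped ContDiff ENNReal RealInnerProductSpace Topology
open MeasureTheory Metric Set Filter

namespace Claimed.Agent.Gmt

variable {m : ℕ}

theorem gmtQd_cc_ball {U : Set (E m)} {x : E m} {q r : ℝ} (hq : q ≤ r) (hr : closedBall x r ⊆ U) :
    GmtCC (ball x q) U := by
  have hsub : closure (ball x q) ⊆ closedBall x q := closure_ball_subset_closedBall
  exact ⟨isOpen_ball, (isCompact_closedBall x q).of_isClosed_subset isClosed_closure hsub,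
    hsub.trans ((closedBall_subset_closedBall hq).trans hr)⟩

theorem gmtQd_volB_nonneg (D : Set (E m)) (x : E m) (s : ℝ) : 0 ≤ gmtVolB D x s :=
  ENNReal.toReal_nonneg

theorem gmtQd_ofReal_volB (D : Set (E m)) (x : E m) (s : ℝ) :
    ENNReal.ofReal (gmtVolB D x s) = volume (D ∩ ball x s) :=
  ENNReal.ofReal_toReal (gmtVolB_ne_top D x s)

theorem gmtQd_volB_le_univ (D : Set (E m)) (x : E m) (s : ℝ) : gmtVolB D x s ≤ gmtVolB univ x s := by
  unfold gmtVolB
  exact ENNReal.toReal_mono (gmtVolB_ne_top univ x s)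
    (measure_mono (inter_subset_inter_left _ (subset_univ _)))

/-- one step, outer radius `q`. -/
theorem gmtQd_step {δ Λ : ℝ} (hδ : 0 ≤ δ) (hΛ : 0 ≤ Λ) {U S : Set (E m)}
    (h : GmtQM δ Λ U S) {x : E m} {r : ℝ} (hr : closedBall x r ⊆ U) {q : ℝ} (hq : q ≤ r) :
    ∀ᵐ s : ℝ, 0 < s → s < q →
      gmtMu S (closedBall x s) ≤ ENNReal.ofReal δ * gmtMu S (ball x q \ closedBall x s) +
        ENNReal.ofReal ((1 + δ) * deriv (gmtVolB S x) s + Λ * gmtVolB S x s) := by
  have hS := h.lf.1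
  have hW : GmtCC (ball x q) U := gmtQd_cc_ball hq hr
  have hp : gmtP S (ball x q) ≠ ⊤ := h.lf.2 _ hW
  filter_upwards [gmtP_diff_ball_le isOpen_ball hS hp x] with s hs hs0 hsq
  have h1 := hs hs0
  have hder : deriv (gmtVolB (S ∩ ball x q) x) s = deriv (gmtVolB S x) s := by
    apply Filter.EventuallyEq.deriv_eq
    filter_upwards [Iio_mem_nhds hsq] with t ht
    unfold gmtVolB
    rw [inter_assoc, inter_eq_right.2 (ball_subset_ball (le_of_lt ht))]
  rw [hder] at h1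
  have hsd : symmDiff S (S \ ball x s) = S ∩ ball x s := by
    ext y
    simp only [mem_symmDiff, Set.mem_sdiff, mem_inter_iff]
    tauto
  have h2 := h.qm (ball x q) (S \ ball x s) hW (hS.diff measurableSet_ball)
    ⟨closedBall x s, isCompact_closedBall x s, closedBall_subset_ball hsq, by
      rw [hsd]; exact inter_subset_right.trans ball_subset_closedBall⟩
  rw [hsd, ← gmtQd_ofReal_volB] at h2
  have hopen : IsOpen (ball x q \ closedBall x s) := isOpen_ball.sdiff isClosed_closedBall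
  rw [← gmtMu_open S hopen] at h1
  rw [← gmtMu_open S isOpen_ball] at h2 hp
  have hsplit : gmtMu S (closedBall x s) + gmtMu S (ball x q \ closedBall x s)
      = gmtMu S (ball x q) := by
    have := measure_inter_add_sdiff (μ := gmtMu S) (ball x q)
      (measurableSet_closedBall (x := x) (ε := s))
    rwa [inter_eq_right.2 (closedBall_subset_ball hsq)] at this
  set a := gmtMu S (ball x q \ closedBall x s) with ha
  have hafin : a ≠ ⊤ := ne_top_of_le_ne_top hp (measure_mono sdiff_subset)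
  have hd0 := deriv_gmtVolB_nonneg S x s
  have hv0 := gmtQd_volB_nonneg S x s
  have h3 : gmtMu S (closedBall x s) + a ≤
      (ENNReal.ofReal δ * a +
        ENNReal.ofReal ((1 + δ) * deriv (gmtVolB S x) s + Λ * gmtVolB S x s)) + a := by
    rw [hsplit]
    refine h2.trans ?_
    calc ENNReal.ofReal (1 + δ) * gmtP (S \ ball x s) (ball x q)
          + ENNReal.ofReal Λ * ENNReal.ofReal (gmtVolB S x s)
        ≤ ENNReal.ofReal (1 + δ) * (a + ENNReal.ofReal (deriv (gmtVolB S x) s))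
          + ENNReal.ofReal Λ * ENNReal.ofReal (gmtVolB S x s) := by gcongr
      _ = (ENNReal.ofReal δ * a +
        ENNReal.ofReal ((1 + δ) * deriv (gmtVolB S x) s + Λ * gmtVolB S x s)) + a := by
          rw [ENNReal.ofReal_add (p := (1 + δ) * deriv (gmtVolB S x) s) (by positivity)
              (by positivity),
            ENNReal.ofReal_mul (p := 1 + δ) (by positivity), ENNReal.ofReal_mul hΛ,
            ENNReal.ofReal_add zero_le_one hδ, ENNReal.ofReal_one]
          ring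
  exact (ENNReal.add_le_add_iff_right hafin).1 h3

/-- the basic differential inequality. -/
theorem GmtQM.mu_closedBall_le {δ Λ : ℝ} (hδ : 0 ≤ δ) (hΛ : 0 ≤ Λ) {U S : Set (E m)}
    (hU : IsOpen U) (h : GmtQM δ Λ U S) {x : E m} {r : ℝ} (hr : closedBall x r ⊆ U) :
    ∀ᵐ s : ℝ, s ∈ Ioo 0 r →
      gmtMu S (closedBall x s) ≤
        ENNReal.ofReal ((1 + δ) * deriv (gmtVolB S x) s + Λ * gmtVolB S x s) := by
  have key : ∀ q : ℚ, ∀ᵐ s : ℝ, (q : ℝ) ≤ r → 0 < s → s < q →
      gmtMu S (closedBall x s) ≤ ENNReal.ofReal δ * gmtMu S (ball x q \ closedBall x s) +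
        ENNReal.ofReal ((1 + δ) * deriv (gmtVolB S x) s + Λ * gmtVolB S x s) := by
    intro q
    by_cases hq : (q : ℝ) ≤ r
    · filter_upwards [gmtQd_step hδ hΛ h hr hq] with s hs _ using hs
    · exact Eventually.of_forall fun s hq' => absurd hq' hq
  rw [← ae_all_iff] at key
  filter_upwards [key] with s hs hsr
  obtain ⟨hs0, hsr⟩ := hsr
  have hfinr : gmtMu S (ball x r) ≠ ⊤ := by
    rw [gmtMu_open S isOpen_ball]
    exact h.lf.2 _ (gmtQd_cc_ball le_rfl hr)
  -- the shells shrink to the empty set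
  set A : ℕ → Set (E m) := fun n => (ball x (s + 1 / ((n : ℝ) + 1)) ∩ ball x r) \ closedBall x s
    with hA
  have hAanti : Antitone A := by
    intro n k hnk
    apply sdiff_subset_sdiff_left
    apply inter_subset_inter_left
    apply ball_subset_ball
    have : (1 : ℝ) / ((k : ℝ) + 1) ≤ 1 / ((n : ℝ) + 1) := by
      apply one_div_le_one_div_of_le (by positivity)
      have : (n : ℝ) ≤ k := by exact_mod_cast hnk
      linarith
    linarith
  have hAempty : ⋂ n, A n = ∅ := by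
    rw [eq_empty_iff_forall_notMem]
    intro y hy
    rw [mem_iInter] at hy
    have h0 := (hy 0).2
    rw [mem_closedBall, not_le] at h0
    obtain ⟨n, hn⟩ := exists_nat_one_div_lt (sub_pos.2 h0)
    have h1 := (hy n).1.1
    rw [mem_ball] at h1
    linarith
  have htend : Tendsto (fun n => gmtMu S (A n)) atTop (𝓝 0) := by
    have := tendsto_measure_iInter_atTop (μ := gmtMu S) (s := A)
      (fun n => ((measurableSet_ball.inter measurableSet_ball).diff
        measurableSet_closedBall).nullMeasurableSet) hAanti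
      ⟨0, ne_top_of_le_ne_top hfinr (measure_mono (sdiff_subset.trans inter_subset_right))⟩
    rw [hAempty, measure_empty] at this
    exact this
  have htend2 : Tendsto (fun n => ENNReal.ofReal δ * gmtMu S (A n)) atTop (𝓝 0) := by
    have := ENNReal.Tendsto.const_mul (a := ENNReal.ofReal δ) htend
      (Or.inr ENNReal.ofReal_ne_top)
    rwa [mul_zero] at this
  refine ENNReal.le_of_forall_pos_le_add fun ε hε _ => ?_
  have hε' : (0 : ℝ≥0∞) < ε := by exact_mod_cast hε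
  obtain ⟨n, hn⟩ := (htend2.eventually (gt_mem_nhds hε')).exists
  obtain ⟨q, hq1, hq2⟩ := exists_rat_btwn
    (lt_min (lt_add_of_pos_right s (by positivity : (0 : ℝ) < 1 / ((n : ℝ) + 1))) hsr)
  have hq3 := lt_min_iff.1 hq2
  have h4 := hs q hq3.2.le hs0 hq1
  refine h4.trans ?_
  rw [add_comm]
  gcongr
  refine le_trans ?_ hn.le
  gcongr
  intro y hy
  exact ⟨⟨ball_subset_ball hq3.1.le hy.1, ball_subset_ball hq3.2.le hy.1⟩, hy.2⟩

theorem gmtQd_exists_good {t r : ℝ} (ht : t < r) {P : ℝ → Prop} (h : ∀ᵐ s : ℝ, P s) :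
    ∃ s ∈ Ioo t r, P s := by
  have hpos : volume (Ioo t r) ≠ 0 := by
    rw [Real.volume_Ioo]
    simpa using ht
  obtain ⟨s, hs, hP⟩ := Measure.exists_mem_of_measure_ne_zero_of_ae hpos (ae_restrict_of_ae h)
  exact ⟨s, hs, hP⟩

/-- UPPER PERIMETER BOUND (all centres). -/
theorem GmtQM.per_ball_le {δ Λ : ℝ} (hδ : 0 ≤ δ) (hΛ : 0 ≤ Λ) {U S : Set (E m)} (hU : IsOpen U)
    (h : GmtQM δ Λ U S) {x : E m} {r : ℝ} (hr0 : 0 < r) (hr : closedBall x r ⊆ U) :
    gmtP S (ball x r) ≤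
      ENNReal.ofReal ((1 + δ) * m * gmtOm m * r ^ (m - 1) + Λ * gmtOm m * r ^ m) := by
  have hS := h.lf.1
  set B : ℝ := (1 + δ) * m * gmtOm m * r ^ (m - 1) + Λ * gmtOm m * r ^ m with hB
  have hω := gmtOm_nonneg m
  have good : ∀ᵐ s : ℝ, s ∈ Ioo 0 r → gmtMu S (closedBall x s) ≤ ENNReal.ofReal B := by
    filter_upwards [h.mu_closedBall_le hδ hΛ hU hr, deriv_gmtVolB_le hS x] with s h1 h2 hs
    refine (h1 hs).trans (ENNReal.ofReal_le_ofReal ?_)
    have h3 := h2 hs.1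
    have h4 : gmtVolB S x s ≤ gmtOm m * s ^ m := by
      rw [← gmtVolB_univ x hs.1]
      exact gmtQd_volB_le_univ S x s
    have h5 : s ^ (m - 1) ≤ r ^ (m - 1) := pow_le_pow_left₀ hs.1.le hs.2.le _
    have h6 : s ^ m ≤ r ^ m := pow_le_pow_left₀ hs.1.le hs.2.le _
    calc (1 + δ) * deriv (gmtVolB S x) s + Λ * gmtVolB S x s
        ≤ (1 + δ) * (m * gmtOm m * r ^ (m - 1)) + Λ * (gmtOm m * r ^ m) := by
          gcongr
          · exact h3.trans (by gcongr)
          · exact h4.trans (by gcongr)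
      _ = B := by rw [hB]; ring
  rw [← gmtMu_open S isOpen_ball, gmt_ball_eq_iUnion x r, (gmt_ball_mono x r).measure_iUnion]
  refine iSup_le fun n => ?_
  have hlt : max 0 (r - 1 / ((n : ℝ) + 1)) < r := by
    apply max_lt hr0
    have : (0 : ℝ) < 1 / ((n : ℝ) + 1) := by positivity
    linarith
  obtain ⟨s, hs, hP⟩ := gmtQd_exists_good hlt good
  have hs1 := max_lt_iff.1 hs.1
  refine le_trans (measure_mono ?_) (hP ⟨hs1.1, hs.2⟩)
  exact (ball_subset_ball hs1.2.le).trans ball_subset_closedBall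

/-- isoperimetric inequality in all dimensions `m ≥ 1`, for sets of positive finite volume. -/
theorem gmtQd_iso (m : ℕ) (hm : 1 ≤ m) :
    ∃ c > 0, ∀ S : Set (E m), MeasurableSet S → volume S ≠ ⊤ → volume S ≠ 0 →
      ENNReal.ofReal (c * (volume S).toReal ^ (((m : ℝ) - 1) / m)) ≤ gmtP S univ := by
  rcases Nat.lt_or_ge m 2 with h | h
  · obtain rfl : m = 1 := by omega
    refine ⟨1, one_pos, fun S hS h1 h0 => ?_⟩
    have := gmt_isoperimetric_one S hS h0 h1
    simpa using this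
  · obtain ⟨c, hc, H⟩ := gmt_isoperimetric m h
    exact ⟨c, hc, fun S hS h1 _ => H S hS h1⟩

theorem gmtQd_gmtOm_pos (m : ℕ) : 0 < gmtOm m := by
  unfold gmtOm
  exact ENNReal.toReal_pos (measure_ball_pos volume _ one_pos).ne' measure_ball_lt_top.ne

/-- a monotone function whose derivative is a.e. at least `κ` on `(0,r)` grows at least linearly. -/
theorem gmtQd_growth {w : ℝ → ℝ} (hw : Monotone w) {κ r : ℝ} (hr : 0 ≤ r)
    (h : ∀ᵐ s : ℝ, s ∈ Ioo 0 r → κ ≤ deriv w s) : κ * r ≤ w r - w 0 := by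
  have hmono : MonotoneOn w (uIcc 0 r) := hw.monotoneOn _
  have hI := hmono.intervalIntegral_deriv_mem_uIcc
  rw [uIcc_of_le (sub_nonneg.2 (hw hr))] at hI
  have h1 : ∫ _s in (0 : ℝ)..r, κ ≤ ∫ s in (0 : ℝ)..r, deriv w s := by
    apply intervalIntegral.integral_mono_ae_restrict hr intervalIntegrable_const
      hmono.intervalIntegrable_deriv
    rw [← Measure.restrict_congr_set Ioo_ae_eq_Icc]
    exact (ae_restrict_iff' measurableSet_Ioo).2 h
  rw [intervalIntegral.integral_const, sub_zero, smul_eq_mul, mul_comm] at h1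
  exact h1.trans hI.2

theorem gmtQd_volume_half (m : ℕ) (hm : 1 ≤ m) (δ₀ : ℝ) :
    ∃ c > 0, ∃ ε₀ > 0, ∀ (δ Λ : ℝ) (U S : Set (E m)) (x : E m) (r : ℝ), 0 ≤ δ → δ ≤ δ₀ → 0 ≤ Λ →
      IsOpen U → GmtQM δ Λ U S → x ∈ gmtBd S → 0 < r → closedBall x r ⊆ U → Λ * r ≤ ε₀ →
        ENNReal.ofReal (c * r ^ m) ≤ volume (S ∩ ball x r) := by
  obtain ⟨c₀, hc₀, Hiso⟩ := gmtQd_iso m hm
  have hω := gmtQd_gmtOm_pos m
  have hm0 : m ≠ 0 := by omega
  have hmR : (0 : ℝ) < m := by exact_mod_cast (by omega : 0 < m)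
  set p : ℝ := (m : ℝ)⁻¹ with hp
  have hp0 : 0 < p := inv_pos.2 hmR
  set q : ℝ := ((m : ℝ) - 1) / m with hq
  have hpq : p + q = 1 := by rw [hp, hq]; field_simp; ring
  set Ω : ℝ := gmtOm m ^ p with hΩ
  have hΩ0 : 0 < Ω := Real.rpow_pos_of_pos hω p
  set D : ℝ := 2 + |δ₀| with hD
  have hD0 : 0 < D := by positivity
  set κ : ℝ := c₀ / (2 * D * m) with hκ
  have hκ0 : 0 < κ := by positivity
  refine ⟨κ ^ m, by positivity, c₀ / (2 * Ω), by positivity, ?_⟩
  intro δ Λ U S x r hδ hδ₀ hΛ hU h hx hr0 hr hΛr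
  have hS := h.lf.1
  have hvpos : ∀ s, 0 < s → 0 < gmtVolB S x s := fun s hs =>
    ENNReal.toReal_pos (hx s hs).1.ne' (gmtVolB_ne_top S x s)
  set w : ℝ → ℝ := fun s => gmtVolB S x s ^ p with hw
  have hwmono : Monotone w := fun a b hab =>
    Real.rpow_le_rpow (gmtQd_volB_nonneg S x a) (gmtVolB_mono S x hab) hp0.le
  have hae : ∀ᵐ s : ℝ, s ∈ Ioo 0 r → κ ≤ deriv w s := by
    filter_upwards [h.mu_closedBall_le hδ hΛ hU hr, gmtP_inter_ball_le hS x,
      (gmtVolB_mono S x).ae_differentiableAt] with s h1 h2 h3 hs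
    have hv := hvpos s hs.1
    set v : ℝ := gmtVolB S x s with hvdef
    set v' : ℝ := deriv (gmtVolB S x) s with hv'def
    have hv'0 : 0 ≤ v' := deriv_gmtVolB_nonneg S x s
    have hiso := Hiso (S ∩ ball x s) (hS.inter measurableSet_ball) (gmtVolB_ne_top S x s)
      (hx s hs.1).1.ne'
    have h4 : gmtP (S ∩ ball x s) univ ≤ ENNReal.ofReal ((2 + δ) * v' + Λ * v) := by
      refine (h2 hs.1).trans ?_
      have h5 : gmtP S (ball x s) ≤ ENNReal.ofReal ((1 + δ) * v' + Λ * v) := by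
        rw [← gmtMu_open S isOpen_ball]
        exact (measure_mono ball_subset_closedBall).trans (h1 hs)
      refine (add_le_add_left h5 _).trans ?_
      rw [← ENNReal.ofReal_add (by positivity) hv'0]
      apply ENNReal.ofReal_le_ofReal
      linarith
    have h5 : c₀ * v ^ q ≤ (2 + δ) * v' + Λ * v :=
      (ENNReal.ofReal_le_ofReal_iff (by positivity)).1 (hiso.trans h4)
    have hvq : 0 < v ^ q := Real.rpow_pos_of_pos hv q
    have hsplit : v = v ^ p * v ^ q := by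
      rw [← Real.rpow_add hv, hpq, Real.rpow_one]
    have hvp : v ^ p ≤ Ω * s := by
      have h6 : v ≤ gmtOm m * s ^ m := by
        rw [← gmtVolB_univ x hs.1]
        exact gmtQd_volB_le_univ S x s
      calc v ^ p ≤ (gmtOm m * s ^ m) ^ p := Real.rpow_le_rpow hv.le h6 hp0.le
        _ = Ω * s := by
          rw [Real.mul_rpow hω.le (pow_nonneg hs.1.le m), hp, Real.pow_rpow_inv_natCast hs.1.le hm0]
    have h7 : Λ * v ≤ c₀ / 2 * v ^ q := by
      calc Λ * v = Λ * v ^ p * v ^ q := by rw [mul_assoc, ← hsplit]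
        _ ≤ Λ * (Ω * r) * v ^ q := by
          gcongr
          exact hvp.trans (by gcongr; exact hs.2.le)
        _ = (Λ * r) * Ω * v ^ q := by ring
        _ ≤ (c₀ / (2 * Ω)) * Ω * v ^ q := by gcongr
        _ = c₀ / 2 * v ^ q := by field_simp
    have h8 : c₀ / 2 * v ^ q ≤ D * v' := by
      have : (2 + δ) * v' ≤ D * v' := by
        gcongr
        rw [hD]
        linarith [le_abs_self δ₀]
      linarith
    have hder : deriv w s = v' * p * v ^ (p - 1) :=
      (h3.hasDerivAt.rpow_const (Or.inl hv.ne')).deriv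
    have hone : v ^ q * v ^ (p - 1) = 1 := by
      rw [← Real.rpow_add hv, show q + (p - 1) = 0 by linarith, Real.rpow_zero]
    have hvp1 : 0 < v ^ (p - 1) := Real.rpow_pos_of_pos hv _
    have h9 : c₀ / 2 ≤ D * (v' * v ^ (p - 1)) := by
      have := mul_le_mul_of_nonneg_right h8 hvp1.le
      calc c₀ / 2 = c₀ / 2 * (v ^ q * v ^ (p - 1)) := by rw [hone, mul_one]
        _ = c₀ / 2 * v ^ q * v ^ (p - 1) := by ring
        _ ≤ D * v' * v ^ (p - 1) := this
        _ = D * (v' * v ^ (p - 1)) := by ring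
    rw [hder, hκ, hp, div_le_iff₀ (by positivity)]
    calc c₀ = 2 * (c₀ / 2) := by ring
      _ ≤ 2 * (D * (v' * v ^ ((m : ℝ)⁻¹ - 1))) := by gcongr
      _ = v' * (m : ℝ)⁻¹ * v ^ ((m : ℝ)⁻¹ - 1) * (2 * D * m) := by field_simp
  have hgrow := gmtQd_growth hwmono hr0.le hae
  have hw0 : w 0 = 0 := by
    simp only [hw]
    unfold gmtVolB
    rw [ball_zero, inter_empty, measure_empty, ENNReal.toReal_zero, Real.zero_rpow hp0.ne']
  rw [hw0, sub_zero] at hgrow
  have hfin : (κ * r) ^ m ≤ gmtVolB S x r := by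
    calc (κ * r) ^ m ≤ (w r) ^ m := pow_le_pow_left₀ (by positivity) hgrow m
      _ = gmtVolB S x r := by
        simp only [hw, hp]
        exact Real.rpow_inv_natCast_pow (gmtQd_volB_nonneg S x r) hm0
  rw [← gmtQd_ofReal_volB, ← mul_pow]
  exact ENNReal.ofReal_le_ofReal hfin

/-- VOLUME DENSITY ESTIMATES at boundary points (constants depend on `m` and the bound `δ₀`). -/
theorem gmtQM_volume (m : ℕ) (hm : 1 ≤ m) (δ₀ : ℝ) :
    ∃ c > 0, ∃ ε₀ > 0, ∀ (δ Λ : ℝ) (U S : Set (E m)) (x : E m) (r : ℝ), 0 ≤ δ → δ ≤ δ₀ → 0 ≤ Λ →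
      IsOpen U → GmtQM δ Λ U S → x ∈ gmtBd S → 0 < r → closedBall x r ⊆ U → Λ * r ≤ ε₀ →
        ENNReal.ofReal (c * r ^ m) ≤ volume (S ∩ ball x r) ∧
        ENNReal.ofReal (c * r ^ m) ≤ volume (ball x r \ S) := by
  obtain ⟨c, hc, ε₀, hε₀, H⟩ := gmtQd_volume_half m hm δ₀
  refine ⟨c, hc, ε₀, hε₀, ?_⟩
  intro δ Λ U S x r hδ hδ₀ hΛ hU h hx hr0 hr hΛr
  refine ⟨H δ Λ U S x r hδ hδ₀ hΛ hU h hx hr0 hr hΛr, ?_⟩
  have h2 := H δ Λ U Sᶜ x r hδ hδ₀ hΛ hU h.compl (by rwa [gmtBd_compl h.lf.1]) hr0 hr hΛr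
  have e : Sᶜ ∩ ball x r = ball x r \ S := by
    ext y
    simp [and_comm]
  rwa [e] at h2

/-- LOWER PERIMETER BOUND at boundary points. -/
theorem gmtQM_per_lower (m : ℕ) (hm : 1 ≤ m) (δ₀ : ℝ) :
    ∃ c > 0, ∃ ε₀ > 0, ∀ (δ Λ : ℝ) (U S : Set (E m)) (x : E m) (r : ℝ), 0 ≤ δ → δ ≤ δ₀ → 0 ≤ Λ →
      IsOpen U → GmtQM δ Λ U S → x ∈ gmtBd S → 0 < r → closedBall x r ⊆ U → Λ * r ≤ ε₀ →
        ENNReal.ofReal (c * r ^ (m - 1)) ≤ gmtP S (ball x r) := by
  obtain ⟨c, hc, ε₀, hε₀, H⟩ := gmtQM_volume m hm δ₀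
  obtain ⟨C, hC, HC⟩ := gmt_rel_iso_weak m
  refine ⟨c / C, by positivity, ε₀, hε₀, ?_⟩
  intro δ Λ U S x r hδ hδ₀ hΛ hU h hx hr0 hr hΛr
  obtain ⟨h1, h2⟩ := H δ Λ U S x r hδ hδ₀ hΛ hU h hx hr0 hr hΛr
  have h3 := HC S x r h.lf.1 hr0
  have h4 : ENNReal.ofReal (c * r ^ m) ≤ ENNReal.ofReal (C * r) * gmtP S (ball x r) :=
    (le_min h1 h2).trans h3
  have e : c * r ^ m = (C * r) * (c / C * r ^ (m - 1)) := by
    obtain ⟨k, rfl⟩ : ∃ k, m = k + 1 := ⟨m - 1, by omega⟩
    simp only [Nat.add_sub_cancel]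
    field_simp
    ring
  rw [e, ENNReal.ofReal_mul (by positivity)] at h4
  exact (ENNReal.mul_le_mul_iff_right (ENNReal.ofReal_pos.2 (by positivity)).ne'
    ENNReal.ofReal_ne_top).1 h4

/-- the boundary is negligible. -/
theorem GmtQM.volume_gmtBd (hm : 1 ≤ m) {δ Λ : ℝ} (hδ : 0 ≤ δ) (hΛ : 0 ≤ Λ)
    {U S : Set (E m)} (hU : IsOpen U) (h : GmtQM δ Λ U S) : volume (gmtBd S ∩ U) = 0 := by
  have hS := h.lf.1
  obtain ⟨c, hc, ε₀, hε₀, H⟩ := gmtQM_volume m hm δ
  have hdens := Besicovitch.ae_tendsto_measure_inter_div_of_measurableSet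
    (volume : Measure (E m)) hS
  refine measure_mono_null ?_ (ae_iff.1 hdens)
  rintro x ⟨hx, hxU⟩ htend
  have hω := gmtQd_gmtOm_pos m
  set θ : ℝ := c / gmtOm m with hθ
  have hθ0 : 0 < θ := by positivity
  obtain ⟨ρ, hρ, hball⟩ := Metric.isOpen_iff.1 hU x hxU
  have hev : ∀ᶠ r : ℝ in 𝓝[>] 0, ENNReal.ofReal θ ≤
      volume (S ∩ closedBall x r) / volume (closedBall x r) ∧
      volume (S ∩ closedBall x r) / volume (closedBall x r) + ENNReal.ofReal θ ≤ 1 := by
    have hε1 : 0 < ε₀ / (Λ + 1) := by positivity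
    filter_upwards [self_mem_nhdsWithin, mem_nhdsWithin_of_mem_nhds (Iio_mem_nhds hρ),
      mem_nhdsWithin_of_mem_nhds (Iio_mem_nhds hε1)] with r hr0 hrρ hrε
    have hr0' : 0 < r := hr0
    have hsub : closedBall x r ⊆ U := (closedBall_subset_ball hrρ).trans hball
    have hΛr : Λ * r ≤ ε₀ := by
      have h1 : r * (Λ + 1) < ε₀ := (lt_div_iff₀ (by positivity)).1 hrε
      nlinarith
    obtain ⟨h1, h2⟩ := H δ Λ U S x r hδ le_rfl hΛ hU h hx hr0' hsub hΛr
    have hV : volume (closedBall x r) = ENNReal.ofReal (gmtOm m * r ^ m) := by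
      rw [Measure.addHaar_closedBall volume x hr0'.le, finrank_euclideanSpace_fin,
        mul_comm (gmtOm m), ENNReal.ofReal_mul (by positivity)]
      unfold gmtOm
      rw [ENNReal.ofReal_toReal measure_ball_lt_top.ne]
    have hV0 : volume (closedBall x r) ≠ 0 := by
      rw [hV]
      exact (ENNReal.ofReal_pos.2 (by positivity)).ne'
    have hVt : volume (closedBall x r) ≠ ⊤ := by
      rw [hV]
      exact ENNReal.ofReal_ne_top
    have hθV : ENNReal.ofReal θ = ENNReal.ofReal (c * r ^ m) / volume (closedBall x r) := by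
      rw [hV, ← ENNReal.ofReal_div_of_pos (by positivity), hθ]
      congr 1
      field_simp
    constructor
    · rw [hθV]
      apply ENNReal.div_le_div_right
      exact h1.trans (measure_mono (inter_subset_inter_right _ ball_subset_closedBall))
    · rw [hθV, ENNReal.div_add_div_same]
      apply ENNReal.div_le_of_le_mul
      rw [one_mul]
      have h3 := measure_inter_add_sdiff (μ := volume) (closedBall x r) hS
      rw [inter_comm] at h3
      rw [← h3]
      gcongr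
      exact h2.trans (measure_mono (sdiff_subset_sdiff_left ball_subset_closedBall))
  have h1 : ENNReal.ofReal θ ≤ S.indicator 1 x := ge_of_tendsto htend (hev.mono fun r hr => hr.1)
  have h2 : S.indicator 1 x + ENNReal.ofReal θ ≤ 1 :=
    le_of_tendsto (htend.add_const _) (hev.mono fun r hr => hr.2)
  have hθ' : (0 : ℝ≥0∞) < ENNReal.ofReal θ := ENNReal.ofReal_pos.2 hθ0
  by_cases hxS : x ∈ S
  · rw [indicator_of_mem hxS, Pi.one_apply] at h2
    exact absurd h2 (not_le.2 (ENNReal.lt_add_right ENNReal.one_ne_top hθ'.ne'))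
  · rw [indicator_of_notMem hxS] at h1
    exact absurd h1 (not_le.2 hθ')

/-- open representatives: off the boundary `S` is locally null or locally full. -/
theorem gmt_open_repr {S : Set (E m)} (hS : MeasurableSet S) :
    ∃ S₁ S₀ : Set (E m), IsOpen S₁ ∧ IsOpen S₀ ∧ Disjoint S₁ S₀ ∧ S₁ ∪ S₀ = (gmtBd S)ᶜ ∧
      volume (S₁ \ S) = 0 ∧ volume (S₀ ∩ S) = 0 := by
  refine ⟨{x | ∃ r > 0, volume (ball x r \ S) = 0}, {x | ∃ r > 0, volume (S ∩ ball x r) = 0},
    ?_, ?_, ?_, ?_, ?_, ?_⟩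
  · rw [Metric.isOpen_iff]
    rintro x ⟨r, hr, h0⟩
    refine ⟨r / 2, by positivity, fun y hy => ⟨r / 2, by positivity, ?_⟩⟩
    refine measure_mono_null (sdiff_subset_sdiff_left ?_) h0
    intro z hz
    rw [mem_ball] at hy hz ⊢
    linarith [dist_triangle z y x]
  · rw [Metric.isOpen_iff]
    rintro x ⟨r, hr, h0⟩
    refine ⟨r / 2, by positivity, fun y hy => ⟨r / 2, by positivity, ?_⟩⟩
    refine measure_mono_null (inter_subset_inter_right _ ?_) h0
    intro z hz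
    rw [mem_ball] at hy hz ⊢
    linarith [dist_triangle z y x]
  · rw [Set.disjoint_left]
    rintro x ⟨r, hr, h0⟩ ⟨r', hr', h0'⟩
    have hpos : 0 < volume (ball x (min r r')) := measure_ball_pos volume x (lt_min hr hr')
    have h1 := measure_inter_add_sdiff (μ := volume) (ball x (min r r')) hS
    have h2 : volume (ball x (min r r') ∩ S) = 0 := by
      rw [inter_comm]
      exact measure_mono_null (inter_subset_inter_right _ (ball_subset_ball (min_le_right _ _))) h0'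
    have h3 : volume (ball x (min r r') \ S) = 0 :=
      measure_mono_null (sdiff_subset_sdiff_left (ball_subset_ball (min_le_left _ _))) h0
    rw [h2, h3, add_zero] at h1
    exact hpos.ne h1
  · ext x
    simp only [mem_union, mem_ofPred_eq, mem_compl_iff, gmtBd, not_forall, not_and_or, not_lt,
      nonpos_iff_eq_zero]
    constructor
    · rintro (⟨r, hr, h0⟩ | ⟨r, hr, h0⟩)
      · exact ⟨r, hr, Or.inr h0⟩
      · exact ⟨r, hr, Or.inl h0⟩
    · rintro ⟨r, hr, h0 | h0⟩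
      · exact Or.inr ⟨r, hr, h0⟩
      · exact Or.inl ⟨r, hr, h0⟩
  · apply measure_null_of_locally_null
    rintro x ⟨⟨r, hr, h0⟩, _⟩
    exact ⟨ball x r \ S, mem_nhdsWithin.2 ⟨ball x r, isOpen_ball, mem_ball_self hr,
      fun y hy => ⟨hy.1, hy.2.2⟩⟩, h0⟩
  · apply measure_null_of_locally_null
    rintro x ⟨⟨r, hr, h0⟩, _⟩
    exact ⟨S ∩ ball x r, mem_nhdsWithin.2 ⟨ball x r, isOpen_ball, mem_ball_self hr,
      fun y hy => ⟨hy.2.2, hy.1⟩⟩, h0⟩

end Claimed.Agent.Gmt
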