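import Claimed.Agent.Lib.Gmt.GgMeas

/-!
# Lib/Gmt [QmDensA = part 1/2 of the former QmDens] G3a: quasi-minimisers at one scale: definition, sources, density estimates.
(architect: helper75)                              Maggi Ch. 21 (Thm 21.11), with a multiplicative error.

`GmtQM δ Λ U S`:  `P(S;W) ≤ (1+δ) P(S';W) + Λ |S △ S'|` whenever `S △ S' ⊂⊂ W ⊂⊂ U`.
`GmtAM κ Λ x₀ R S` gives `GmtQM (κ r) Λ (ball x₀ r) S` for `r ≤ R`; a `GmtLAM` with `c|ξ| ≤ √(A ξ ξ) ≤ C|ξ|`, `|f| ≤ Λ₀` is `GmtQM (C/c - 1) (Λ₀/c)`.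

PLAN OF PROOFS (fix `x`, `closedBall x r ⊆ U`, `μ = gmtMu S`, `v(s) = gmtVolB S x s`).
* `GmtQM.mu_closedBall_le`: for a.e. `s < r`: `μ(closedBall x s) ≤ (1+δ) v'(s) + Λ v(s)`.   Compare with `S' = S \ ball x s` in `W = ball x s'`, `s < s' < r`:
  `μ(W) ≤ (1+δ)[μ(W \ closedBall x s) + v'(s)] + Λ v(s)` by `gmtP_diff_ball_le` (with `U := W`; `gmtVolB (S ∩ W) x` and `gmtVolB S x` agree on `(0,s')`); subtract the finite number `μ(W \ closedBall x s)` and let `s' ↓ s` (`δ μ(W \ closedBall) → 0`).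
  [choose the a.e. set of `s` for a countable dense set of `s'`.]
* `GmtQM.per_ball_le`: `v'(s) ≤ m ω_m s^{m-1}` (`deriv_gmtVolB_le`), `v(s) ≤ ω_m s^m`; a.e. `s`, then all `s` by monotonicity/inner regularity.
* `gmtQM_volume`: `P(S ∩ B_s) ≤ μ(B_s) + v'(s) ≤ (2+δ) v'(s) + Λ v(s)` (`gmtP_inter_ball_le`), isoperimetric inequality `c₀ v^{(m-1)/m} ≤ P(S∩B_s)`,
  `Λ v ≤ Λ ω_m^{1/m} s v^{(m-1)/m} ≤ (c₀/2) v^{(m-1)/m}` if `Λ r ≤ ε₀`; `v > 0` on `(0,r)` since `x ∈ gmtBd S`; so `(v^{1/m})' ≥ c₀/(2(2+δ₀)m)` a.e.; integrate with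
  `MonotoneOn.intervalIntegral_deriv_mem_uIcc`.  The complement is again a quasi-minimiser.
  DIMENSION ONE (`m = 1`): same proof with `gmt_isoperimetric_one` (`1 ≤ P(S ∩ B_s)` as `v(s) > 0`): `1 ≤ (2+δ) v' + Λ v`, `v ≤ 2s`, so `v' ≥ 1/(2(2+δ₀))` if `Λ r ≤ 1/4`.
* `gmtQM_per_lower`: WEAK relative isoperimetric inequality `gmt_rel_iso_weak` (`min(|S∩B_r|,|B_r\S|) ≤ C r P(S;B_r)`) + `gmtQM_volume`.
* `GmtQM.volume_gmtBd`: by `gmtQM_volume` no point of `gmtBd S ∩ U` is a Lebesgue density point of `S` or of `Sᶜ` (Mathlib: `Besicovitch.ae_tendsto_measure_inter_div` / `IsUnifLocDoublingMeasure.ae_tendsto_measure_inter_div`).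
-/

set_option autoImplicit false
open scoped ContDiff ENNReal RealInnerProductSpace Topology
open MeasureTheory Metric Set Filter

namespace Claimed.Agent.Gmt

variable {m : ℕ}

/-- quasi-minimisers of the Euclidean perimeter in `U`. -/
structure GmtQM (δ Λ : ℝ) (U S : Set (E m)) : Prop where
  lf : GmtLF S U
  qm : ∀ W S', GmtCC W U → MeasurableSet S' → GmtCD S S' W →
    gmtP S W ≤ ENNReal.ofReal (1 + δ) * gmtP S' W + ENNReal.ofReal Λ * volume (symmDiff S S')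

theorem GmtAM.toQM {κ Λ : ℝ} {x₀ : E m} {R : ℝ} {S : Set (E m)} (h : GmtAM κ Λ x₀ R S) {r : ℝ}
    (hr : r ≤ R) : GmtQM (κ * r) Λ (ball x₀ r) S :=
  ⟨h.lf.mono (ball_subset_ball hr), h.am r hr⟩

theorem GmtQM.mono {δ Λ δ' Λ' : ℝ} {U U' S : Set (E m)} (h : GmtQM δ Λ U S) (hδ : δ ≤ δ')
    (hΛ : Λ ≤ Λ') (hU : U' ⊆ U) : GmtQM δ' Λ' U' S := by
  refine ⟨h.lf.mono hU, fun W S' hW hS' hd => ?_⟩
  refine (h.qm W S' ⟨hW.1, hW.2.1, hW.2.2.trans hU⟩ hS' hd).trans ?_
  gcongr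

theorem GmtQM.compl {δ Λ : ℝ} {U S : Set (E m)} (h : GmtQM δ Λ U S) : GmtQM δ Λ U Sᶜ := by
  refine ⟨h.lf.compl, fun W S' hW hS' hd => ?_⟩
  have e : symmDiff S S'ᶜ = symmDiff Sᶜ S' := by
    conv_lhs => rw [← compl_compl S]
    exact compl_symmDiff_compl _ _
  have h1 := h.qm W S'ᶜ hW hS'.compl (by rw [GmtCD, e]; exact hd)
  rwa [gmtP_compl hS', e, ← gmtP_compl h.lf.1] at h1

/-- competitors which differ from `S` in a compact subset of `W` only up to a null set. -/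
theorem GmtQM.qm_ae {δ Λ : ℝ} {U S : Set (E m)} (h : GmtQM δ Λ U S) {W S' K : Set (E m)}
    (hW : GmtCC W U) (hS' : MeasurableSet S') (hK : IsCompact K) (hKW : K ⊆ W)
    (hd : volume (symmDiff S S' \ K) = 0) :
    gmtP S W ≤ ENNReal.ofReal (1 + δ) * gmtP S' W + ENNReal.ofReal Λ * volume (symmDiff S S') := by
  have hKm : MeasurableSet K := hK.isClosed.measurableSet
  set T : Set (E m) := (S' ∩ K) ∪ (S \ K) with hT
  have hTm : MeasurableSet T := (hS'.inter hKm).union (h.lf.1.diff hKm)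
  have h1 : symmDiff S T ⊆ K := by
    intro y hy
    by_contra hyK
    rcases hy with ⟨hyS, hyT⟩ | ⟨hyT, hyS⟩
    · exact hyT (Or.inr ⟨hyS, hyK⟩)
    · rcases hyT with ⟨-, hk⟩ | ⟨hs, -⟩
      · exact hyK hk
      · exact hyS hs
  have h2 : T =ᵐ[volume] S' := by
    have hsub : symmDiff T S' ⊆ symmDiff S S' \ K := by
      intro y hy
      rcases hy with ⟨hyT, hyS'⟩ | ⟨hyS', hyT⟩
      · rcases hyT with ⟨hs, -⟩ | ⟨hs, hk⟩
        · exact absurd hs hyS'
        · exact ⟨Or.inl ⟨hs, hyS'⟩, hk⟩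
      · have hk : y ∉ K := fun hk => hyT (Or.inl ⟨hyS', hk⟩)
        have hs : y ∉ S := fun hs => hyT (Or.inr ⟨hs, hk⟩)
        exact ⟨Or.inr ⟨hyS', hs⟩, hk⟩
    exact (measure_symmDiff_eq_zero_iff).1 (measure_mono_null hsub hd)
  have h3 := h.qm W T hW hTm ⟨K, hK, hKW, h1⟩
  have h4 : gmtP T W = gmtP S' W := gmtP_congr hTm hS' (h2.inter (ae_eq_refl _))
  have h5 : volume (symmDiff S T) = volume (symmDiff S S') :=
    measure_congr ((ae_eq_refl S).symmDiff h2)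
  rwa [h4, h5] at h3

theorem GmtQM.congr {δ Λ : ℝ} {U S S' : Set (E m)} (h : GmtQM δ Λ U S) (hS' : MeasurableSet S')
    (hSS : S =ᵐ[volume] S') : GmtQM δ Λ U S' := by
  have hP : ∀ W, gmtP S' W = gmtP S W := fun W =>
    gmtP_congr hS' h.lf.1 (hSS.symm.inter (ae_eq_refl _))
  refine ⟨⟨hS', fun W hW => by rw [hP]; exact h.lf.2 W hW⟩, fun W T hW hT hd => ?_⟩
  obtain ⟨K, hK, hKW, hsub⟩ := hd
  have h0 : volume (symmDiff S S') = 0 := (measure_symmDiff_eq_zero_iff).2 hSS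
  have h1 : volume (symmDiff S T \ K) = 0 := by
    refine measure_mono_null ?_ h0
    intro y hy
    by_contra hn
    have hiff : y ∈ S ↔ y ∈ S' := by
      by_contra hne
      apply hn
      by_cases hs : y ∈ S
      · exact Or.inl ⟨hs, fun hs' => hne ⟨fun _ => hs', fun _ => hs⟩⟩
      · by_cases hs' : y ∈ S'
        · exact Or.inr ⟨hs', hs⟩
        · exact absurd ⟨fun a => absurd a hs, fun a => absurd a hs'⟩ hne
    apply hy.2
    apply hsub
    rcases hy.1 with ⟨a, b⟩ | ⟨a, b⟩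
    · exact Or.inl ⟨hiff.1 a, b⟩
    · exact Or.inr ⟨a, fun c => b (hiff.2 c)⟩
  have h2 := h.qm_ae hW hT hK hKW h1
  have h3 : volume (symmDiff S T) = volume (symmDiff S' T) :=
    measure_congr (hSS.symmDiff (ae_eq_refl T))
  rwa [← hP W, h3] at h2

theorem GmtQM.gmtDil {δ Λ : ℝ} {U S : Set (E m)} (h : GmtQM δ Λ U S) (x : E m) {ρ : ℝ}
    (hρ : 0 < ρ) : GmtQM δ (Λ * ρ) (gmtDil x ρ U) (gmtDil x ρ S) := by
  obtain ⟨g, hg, -⟩ := gmt_exists_dilHomeo x hρ
  refine ⟨h.lf.gmtDil x hρ, fun W T hW hT hd => ?_⟩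
  have hpre : ∀ B : Set (E m), Claimed.Agent.Gmt.gmtDil x ρ (g '' B) = B := fun B => by
    rw [← gmt_preimage_dilHomeo hg, g.injective.preimage_image]
  have hW' : GmtCC (g '' W) U := by
    refine ⟨g.isOpenMap _ hW.1, ?_, ?_⟩
    · rw [← g.image_closure]
      exact hW.2.1.image g.continuous
    · rw [← g.image_closure]
      rintro _ ⟨y, hy, rfl⟩
      have := hW.2.2 hy
      rw [← gmt_preimage_dilHomeo hg] at this
      exact this
  have hTm : MeasurableSet (g '' T) := g.toMeasurableEquiv.measurableSet_image.2 hT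
  have hS : g '' (Claimed.Agent.Gmt.gmtDil x ρ S) = S := by
    rw [← gmt_preimage_dilHomeo hg, g.surjective.image_preimage]
  have hsd : symmDiff S (g '' T) = g '' symmDiff (Claimed.Agent.Gmt.gmtDil x ρ S) T := by
    conv_lhs => rw [← hS]
    exact (Set.image_symmDiff g.injective _ _).symm
  have hd' : GmtCD S (g '' T) (g '' W) := by
    obtain ⟨K, hK, hKW, hsub⟩ := hd
    exact ⟨g '' K, hK.image g.continuous, image_mono hKW, by rw [hsd]; exact image_mono hsub⟩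
  have h1 := h.qm _ _ hW' hTm hd'
  have e1 := gmtP_gmtDil h.lf.1 (g '' W) x hρ
  have e2 := gmtP_gmtDil hTm (g '' W) x hρ
  have e3 := volume_gmtDil (symmDiff S (g '' T)) x hρ
  rw [hpre] at e1 e2
  rw [hpre] at e2
  rw [hsd, hpre] at e3
  rw [hsd] at h1
  set V := volume (g '' symmDiff (Claimed.Agent.Gmt.gmtDil x ρ S) T) with hV
  have hm0 : ENNReal.ofReal (ρ ^ m) ≠ 0 := by
    rw [Ne, ENNReal.ofReal_eq_zero, not_le]; positivity
  have hmt : ENNReal.ofReal (ρ ^ m) ≠ ⊤ := ENNReal.ofReal_ne_top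
  rw [← ENNReal.mul_le_mul_iff_left hm0 hmt, e1, add_mul, mul_assoc, e2, e3]
  have e4 : ENNReal.ofReal (ρ ^ m)⁻¹ * V * ENNReal.ofReal (ρ ^ m) = V := by
    rw [mul_comm, ← mul_assoc, ← ENNReal.ofReal_mul (by positivity), mul_inv_cancel₀ (by positivity),
      ENNReal.ofReal_one, one_mul]
  rw [mul_assoc (ENNReal.ofReal (Λ * ρ)), e4]
  by_cases hΛ : 0 ≤ Λ
  · rw [ENNReal.ofReal_mul hΛ]
    calc ENNReal.ofReal ρ * gmtP S (g '' W)
        ≤ ENNReal.ofReal ρ * (ENNReal.ofReal (1 + δ) * gmtP (g '' T) (g '' W) + ENNReal.ofReal Λ * V) := by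
          gcongr
      _ = _ := by ring
  · have hΛ' : Λ ≤ 0 := (not_le.1 hΛ).le
    rw [ENNReal.ofReal_of_nonpos hΛ', zero_mul, add_zero] at h1
    rw [ENNReal.ofReal_of_nonpos (mul_nonpos_of_nonpos_of_nonneg hΛ' hρ.le), zero_mul, add_zero]
    calc ENNReal.ofReal ρ * gmtP S (g '' W)
        ≤ ENNReal.ofReal ρ * (ENNReal.ofReal (1 + δ) * gmtP (g '' T) (g '' W)) := by gcongr
      _ = _ := by ring

theorem GmtQM.isometry {δ Λ : ℝ} {U S : Set (E m)} (h : GmtQM δ Λ U S) (L : E m ≃ₗᵢ[ℝ] E m) :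
    GmtQM δ Λ (L '' U) (L '' S) := by
  set g : E m ≃ₜ E m := L.toHomeomorph with hg
  have hgL : ∀ B : Set (E m), L '' B = g '' B := fun B => rfl
  have hcc : ∀ W, GmtCC W (L '' U) → GmtCC (g.symm '' W) U := by
    intro W hW
    refine ⟨g.symm.isOpenMap _ hW.1, ?_, ?_⟩
    · rw [← g.symm.image_closure]
      exact hW.2.1.image g.symm.continuous
    · rw [← g.symm.image_closure]
      rintro _ ⟨y, hy, rfl⟩
      obtain ⟨z, hz, rfl⟩ := hW.2.2 hy
      have : g.symm (L z) = z := g.symm_apply_apply z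
      rwa [this]
  have hback : ∀ B : Set (E m), L '' (g.symm '' B) = B := fun B => by
    rw [hgL, ← image_comp]
    simp
  have hmeas : ∀ B : Set (E m), MeasurableSet B → MeasurableSet (g.symm '' B) := fun B hB =>
    g.symm.toMeasurableEquiv.measurableSet_image.2 hB
  have hSm : MeasurableSet (L '' S) := g.toMeasurableEquiv.measurableSet_image.2 h.lf.1
  refine ⟨⟨hSm, fun W hW => ?_⟩, fun W T hW hT hd => ?_⟩
  · have h1 := gmtP_isometry L h.lf.1 (g.symm '' W)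
    rw [hback] at h1
    rw [h1]
    exact h.lf.2 _ (hcc W hW)
  · have hS : g.symm '' (L '' S) = S := by
      rw [hgL, ← image_comp]
      simp
    have hsd : symmDiff S (g.symm '' T) = g.symm '' symmDiff (L '' S) T := by
      conv_lhs => rw [← hS]
      exact (Set.image_symmDiff g.symm.injective _ _).symm
    have hd' : GmtCD S (g.symm '' T) (g.symm '' W) := by
      obtain ⟨K, hK, hKW, hsub⟩ := hd
      exact ⟨g.symm '' K, hK.image g.symm.continuous, image_mono hKW, by rw [hsd]; exact image_mono hsub⟩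
    have h1 := h.qm _ _ (hcc W hW) (hmeas T hT) hd'
    have e1 := gmtP_isometry L h.lf.1 (g.symm '' W)
    have e2 := gmtP_isometry L (hmeas T hT) (g.symm '' W)
    rw [hback] at e1 e2
    rw [hback] at e2
    have e3 : volume (g.symm '' symmDiff (L '' S) T) = volume (symmDiff (L '' S) T) := by
      have : g.symm '' symmDiff (L '' S) T = L ⁻¹' symmDiff (L '' S) T := by
        rw [g.symm.image_eq_preimage_symm]
        rfl
      rw [this]
      exact L.measurePreserving.measure_preimage (hSm.symmDiff hT).nullMeasurableSet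
    rwa [← e1, ← e2, hsd, e3] at h1


/-- difference of the bulk terms. -/
theorem gmt_bulk_diff_le {f : E m → ℝ} {W S S' : Set (E m)} {Λ₀ : ℝ} (hS : MeasurableSet S)
    (hS' : MeasurableSet S') (hWm : MeasurableSet W) (hf : IntegrableOn f W)
    (hΛ : ∀ x ∈ W, |f x| ≤ Λ₀) (hfin : volume (symmDiff S S') ≠ ⊤) :
    (∫ x in S ∩ W, f x) - ∫ x in S' ∩ W, f x ≤ Λ₀ * (volume (symmDiff S S' ∩ W)).toReal := by
  have i1 : IntegrableOn f ((S ∩ S') ∩ W) := hf.mono_set inter_subset_right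
  have i2 : IntegrableOn f ((S \ S') ∩ W) := hf.mono_set inter_subset_right
  have i3 : IntegrableOn f ((S' \ S) ∩ W) := hf.mono_set inter_subset_right
  have d1 : S ∩ W = ((S ∩ S') ∩ W) ∪ ((S \ S') ∩ W) := by
    rw [← union_inter_distrib_right, inter_union_sdiff]
  have d2 : S' ∩ W = ((S ∩ S') ∩ W) ∪ ((S' \ S) ∩ W) := by
    rw [← union_inter_distrib_right, inter_comm S S', inter_union_sdiff]
  have e1 : ∫ x in S ∩ W, f x = (∫ x in (S ∩ S') ∩ W, f x) + ∫ x in (S \ S') ∩ W, f x := by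
    rw [d1]
    refine setIntegral_union ?_ ((hS.diff hS').inter hWm) i1 i2
    rw [Set.disjoint_left]
    rintro y ⟨⟨-, a⟩, -⟩ ⟨⟨-, b⟩, -⟩
    exact b a
  have e2 : ∫ x in S' ∩ W, f x = (∫ x in (S ∩ S') ∩ W, f x) + ∫ x in (S' \ S) ∩ W, f x := by
    rw [d2]
    refine setIntegral_union ?_ ((hS'.diff hS).inter hWm) i1 i3
    rw [Set.disjoint_left]
    rintro y ⟨⟨a, -⟩, -⟩ ⟨⟨-, b⟩, -⟩
    exact b a
  have fin1 : volume ((S \ S') ∩ W) ≠ ⊤ :=
    ne_top_of_le_ne_top hfin (measure_mono fun y hy => Or.inl hy.1)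
  have fin2 : volume ((S' \ S) ∩ W) ≠ ⊤ :=
    ne_top_of_le_ne_top hfin (measure_mono fun y hy => Or.inr hy.1)
  have b1 : ∫ x in (S \ S') ∩ W, f x ≤ Λ₀ * (volume ((S \ S') ∩ W)).toReal := by
    have := norm_setIntegral_le_of_norm_le_const (μ := volume) (s := (S \ S') ∩ W) (f := f) (C := Λ₀)
      (lt_top_iff_ne_top.2 fin1) (fun y hy => by rw [Real.norm_eq_abs]; exact hΛ y hy.2)
    exact (le_abs_self _).trans (by simpa [Real.norm_eq_abs, Measure.real] using this)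
  have b2 : -(∫ x in (S' \ S) ∩ W, f x) ≤ Λ₀ * (volume ((S' \ S) ∩ W)).toReal := by
    have := norm_setIntegral_le_of_norm_le_const (μ := volume) (s := (S' \ S) ∩ W) (f := f) (C := Λ₀)
      (lt_top_iff_ne_top.2 fin2) (fun y hy => by rw [Real.norm_eq_abs]; exact hΛ y hy.2)
    exact (neg_le_abs _).trans (by simpa [Real.norm_eq_abs, Measure.real] using this)
  have hsum : (volume ((S \ S') ∩ W)).toReal + (volume ((S' \ S) ∩ W)).toReal
      = (volume (symmDiff S S' ∩ W)).toReal := by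
    rw [← ENNReal.toReal_add fin1 fin2, ← measure_union _ ((hS'.diff hS).inter hWm)]
    · rw [← union_inter_distrib_right]; rfl
    · rw [Set.disjoint_left]
      rintro y ⟨⟨a, -⟩, -⟩ ⟨⟨-, b⟩, -⟩
      exact b a
  rw [e1, e2, ← hsum]
  linarith

/-- local absolute minimisers are quasi-minimisers. -/
theorem GmtLAM.toQM {A : E m → Bil m} {f : E m → ℝ} {U S : Set (E m)} (hU : IsOpen U)
    (h : GmtLAM A f U S) (hf : ContinuousOn f U) {c C Λ₀ : ℝ} (hc : 0 < c) (hcC : c ≤ C)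
    (hA : ∀ x ∈ U, ∀ ξ : E m, c ^ 2 * ‖ξ‖ ^ 2 ≤ A x ξ ξ ∧ A x ξ ξ ≤ C ^ 2 * ‖ξ‖ ^ 2)
    (hΛ : ∀ x ∈ U, |f x| ≤ Λ₀) : GmtQM (C / c - 1) (Λ₀ / c) U S := by
  have hC : 0 < C := hc.trans_le hcC
  have hsubW : ∀ W, GmtCC W U → W ⊆ U := fun W hW => subset_closure.trans hW.2.2
  have hlow : ∀ W, GmtCC W U → ∀ T : Set (E m), ENNReal.ofReal c * gmtP T W ≤ gmtPer A T W :=
    fun W hW T => mul_gmtP_le_gmtPer hc.le (fun x hx ξ => (hA x (hsubW W hW hx) ξ).1) T
  have hup : ∀ W, GmtCC W U → ∀ T : Set (E m), gmtPer A T W ≤ ENNReal.ofReal C * gmtP T W :=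
    fun W hW T => gmtPer_le_mul_gmtP hC.le (fun x hx ξ => (hA x (hsubW W hW hx) ξ).2) T
  have hc0 : ENNReal.ofReal c ≠ 0 := by rw [Ne, ENNReal.ofReal_eq_zero, not_le]; exact hc
  have hlf : GmtLF S U := by
    refine ⟨h.meas, fun W hW htop => ?_⟩
    have := hlow W hW S
    rw [htop, ENNReal.mul_top hc0, top_le_iff] at this
    exact h.fin W hW this
  refine ⟨hlf, fun W S' hW hS' hd => ?_⟩
  have h1δ : 1 + (C / c - 1) = C / c := by ring
  rw [h1δ]
  by_cases htop : gmtP S' W = ⊤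
  · rw [htop, ENNReal.mul_top (by rw [Ne, ENNReal.ofReal_eq_zero, not_le]; positivity), top_add]
    exact le_top
  have hfinA : gmtPer A S' W ≠ ⊤ :=
    ne_top_of_le_ne_top (ENNReal.mul_ne_top ENNReal.ofReal_ne_top htop) (hup W hW S')
  have hmin := h.min W S' hW hS' hd hfinA
  obtain ⟨K, hK, hKW, hsub⟩ := hd
  have hvfin : volume (symmDiff S S') ≠ ⊤ :=
    ne_top_of_le_ne_top hK.measure_lt_top.ne (measure_mono hsub)
  have hint : IntegrableOn f W :=
    ((hf.mono hW.2.2).integrableOn_compact hW.2.1).mono_set subset_closure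
  have hb := gmt_bulk_diff_le h.meas hS' hW.1.measurableSet hint
    (fun x hx => hΛ x (hsubW W hW hx)) hvfin
  have hinter : symmDiff S S' ∩ W = symmDiff S S' := inter_eq_left.2 (hsub.trans hKW)
  rw [hinter] at hb
  have hreal : (gmtPer A S W).toReal ≤ (gmtPer A S' W).toReal + Λ₀ * (volume (symmDiff S S')).toReal := by
    linarith
  -- back to `ENNReal`
  have h2 : gmtPer A S W ≤ gmtPer A S' W + ENNReal.ofReal Λ₀ * volume (symmDiff S S') := by
    rw [← ENNReal.ofReal_toReal (h.fin W hW)]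
    refine (ENNReal.ofReal_le_ofReal hreal).trans ?_
    refine (ENNReal.ofReal_add_le).trans ?_
    rw [ENNReal.ofReal_toReal hfinA]
    gcongr
    by_cases hΛ0 : 0 ≤ Λ₀
    · rw [ENNReal.ofReal_mul hΛ0, ENNReal.ofReal_toReal hvfin]
    · rw [ENNReal.ofReal_of_nonpos (mul_nonpos_of_nonpos_of_nonneg (not_le.1 hΛ0).le ENNReal.toReal_nonneg)]
      exact zero_le
  have h3 : ENNReal.ofReal c * gmtP S W ≤
      ENNReal.ofReal C * gmtP S' W + ENNReal.ofReal Λ₀ * volume (symmDiff S S') :=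
    (hlow W hW S).trans (h2.trans (by gcongr; exact hup W hW S'))
  rw [← ENNReal.mul_le_mul_iff_right hc0 ENNReal.ofReal_ne_top, mul_add, ← mul_assoc, ← mul_assoc,
    ← ENNReal.ofReal_mul hc.le, ← ENNReal.ofReal_mul hc.le, mul_div_cancel₀ _ hc.ne', mul_div_cancel₀ _ hc.ne']
  exact h3

theorem gmtMin_iff_QM {U S : Set (E m)} : GmtMin U S ↔ GmtQM 0 0 U S := by
  constructor
  · intro h
    refine ⟨⟨h.meas, h.fin⟩, fun W S' hW hS' hd => ?_⟩
    rw [add_zero, ENNReal.ofReal_one, one_mul, ENNReal.ofReal_zero, zero_mul, add_zero]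
    by_cases htop : gmtP S' W = ⊤
    · rw [htop]; exact le_top
    have := h.min W S' hW hS' hd htop
    simp only [integral_zero, sub_zero] at this
    exact (ENNReal.toReal_le_toReal (h.fin W hW) htop).1 this
  · intro h
    refine ⟨h.lf.1, h.lf.2, fun W S' hW hS' hd hfin => ?_⟩
    have := h.qm W S' hW hS' hd
    rw [add_zero, ENNReal.ofReal_one, one_mul, ENNReal.ofReal_zero, zero_mul, add_zero] at this
    simp only [integral_zero, sub_zero]
    exact (ENNReal.toReal_le_toReal (h.lf.2 W hW) hfin).2 this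

end Claimed.Agent.Gmt
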