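import Claimed.Agent.Lib.Gmt.QmDens
import Claimed.Agent.Lib.Gmt.RbHalf
import Claimed.Agent.Lib.Gmt.FlCoord2

/-!
# Lib/Gmt [QmFlatA = part 1/4 of the former QmFlat] G3c: flat competitors in cylinders; the density estimates for the class `GmtAM`.
(architect: helper75; consumers: G4 = helper190's list (a)-(d), G6)

`gmtCylH x ρ h e = {‖pr_e (y-x)‖ < ρ, |⟪y-x,e⟫| < h}` (`gmtCyl x r e = gmtCylH x r r e`).

PLAN OF PROOFS
* `volume_gmtCylH`, `volume_slab_annulus`: by a linear isometry `L` with `L e = gmtEn n` (`m = n+1`; extend `e` to an orthonormal basis: `exists_orthonormalBasis_extension_of_card_eq`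
  or `Orthonormal.exists_orthonormalBasis_extension`), then `E (n+1) ≃ᵐ E n × ℝ` via `gmtHor`, `gmtVer` is measure preserving
  (`EuclideanSpace.volume_preserving_measurableEquiv` + `MeasureTheory.volume_preserving_piFinSuccAbove`/`Fin.snoc` version), product of a ball and an interval.
* `gmtP_half_cylH`: `gmtMu_gmtHalf_slab` with `g ↑ χ_{cylinder}` / or directly: `≥` with `T = φ(pr y) ψ(t) e`, `≤` by Fubini + FTC in the direction `e`.
* `gmt_slab_cases`: the two sets `{y ∈ C : ±⟪y-x,e⟫ > ε}` are open, convex (hence preconnected) and do not meet `gmtBd S`: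
  `gmtP_eq_zero_of_disjoint` + `gmtP_eq_zero_const`.
* `GmtQM.flat_le`.  `f y = ‖pr_e (y-x)‖` (continuous, `C¹` on `{0 < f}`, `|∇f| ≤ 1`), `H = gmtHalf x e`, `C = gmtCyl x r e`, `H' = (H ∩ C) ∪ (S \ C)`.
  For `ε < r' < r`, `0 < s < s' < r`, `W = gmtCylH x s' r' e`, `S' = gmtGlue f s H' S`:  `S △ S' ⊆ {f ≤ s, |t| ≤ ε}` up to a null set (`GmtQM.qm_ae`).
  `gmtPer_glue_level` (levels in `(0, s')`): for a.e. `s`:  `P(S';W) ≤ P(H; W ∩ {f<s}) + P(S; W ∩ {s<f}) + I'(s)`, where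
  `I(s) = ∫_{D ∩ {0<f<s}} |∇f|`, `D = (H' △ S) ∩ W ⊆ slab` a.e., so `I(s+h) - I(s) ≤ 2ε ω_{m-1} ((s+h)^{m-1} - s^{m-1})` and `I'(s) ≤ 2ε(m-1)ω_{m-1}s^{m-2}`.
  Quasi-minimality; subtract the finite number `μ(W ∩ {s<f})`; let `s' ↓ s` (countably many `s'`, so that the a.e. set of `s` is fixed), `r' ↑ r`, and finally `s ↓ ρ`.
* AM versions: `GmtAM.toQM` with `r = R`: `δ = κR ≤ 1`, `Λ s ≤ ΛR ≤ 1`; open balls `ball y s ⊆ ball x₀ R`: apply the QM estimates to `s' < s` (`closedBall y s' ⊆ ball y s`) and let `s' ↑ s`.  NOTE for the lower bounds: `Λ s ≤ ε₀(m)` is needed: it is a hypothesis.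
-/

set_option autoImplicit false
open scoped ContDiff ENNReal RealInnerProductSpace Topology
open MeasureTheory Metric Set Filter

namespace Claimed.Agent.Gmt

variable {m : ℕ}

/-- the open cylinder of radius `ρ` and half height `h`. -/
def gmtCylH (x : E m) (ρ h : ℝ) (e : E m) : Set (E m) :=
  {y | ‖gmtPr e (y - x)‖ < ρ ∧ |⟪y - x, e⟫| < h}

theorem gmtCyl_eq_gmtCylH (x : E m) (r : ℝ) (e : E m) : gmtCyl x r e = gmtCylH x r r e := rfl

theorem qfa_continuous_pr (x e : E m) : Continuous fun y : E m => ‖gmtPr e (y - x)‖ := by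
  unfold gmtPr
  fun_prop

theorem qfa_continuous_ht (x e : E m) : Continuous fun y : E m => |⟪y - x, e⟫| := by
  fun_prop

theorem isOpen_gmtCylH (x : E m) (ρ h : ℝ) (e : E m) : IsOpen (gmtCylH x ρ h e) :=
  (isOpen_lt (qfa_continuous_pr x e) continuous_const).inter
    (isOpen_lt (qfa_continuous_ht x e) continuous_const)

theorem qfa_pr_comb (e y₁ y₂ x : E m) {a b : ℝ} (hab : a + b = 1) :
    gmtPr e (a • y₁ + b • y₂ - x) = a • gmtPr e (y₁ - x) + b • gmtPr e (y₂ - x) := by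
  have h : a • y₁ + b • y₂ - x = a • (y₁ - x) + b • (y₂ - x) := by
    have : x = (a + b) • x := by rw [hab, one_smul]
    nth_rewrite 1 [this]
    module
  rw [h]
  unfold gmtPr
  rw [inner_add_left, inner_smul_left, inner_smul_left]
  simp only [RCLike.conj_to_real]
  module

theorem convex_gmtCylH (x : E m) (ρ h : ℝ) (e : E m) : Convex ℝ (gmtCylH x ρ h e) := by
  intro y₁ h₁ y₂ h₂ a b ha hb hab
  refine ⟨?_, ?_⟩
  · rw [qfa_pr_comb e y₁ y₂ x hab]
    calc ‖a • gmtPr e (y₁ - x) + b • gmtPr e (y₂ - x)‖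
        ≤ a * ‖gmtPr e (y₁ - x)‖ + b * ‖gmtPr e (y₂ - x)‖ := by
          refine (norm_add_le _ _).trans ?_
          rw [norm_smul, norm_smul, Real.norm_of_nonneg ha, Real.norm_of_nonneg hb]
      _ < ρ := by
          rcases ha.eq_or_lt with h0 | h0
          · have hb1 : b = 1 := by linarith
            rw [← h0, hb1]; simpa using h₂.1
          · have e1 : a * ‖gmtPr e (y₁ - x)‖ < a * ρ := mul_lt_mul_of_pos_left h₁.1 h0
            have e2 : b * ‖gmtPr e (y₂ - x)‖ ≤ b * ρ := mul_le_mul_of_nonneg_left h₂.1.le hb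
            have e3 : a * ρ + b * ρ = ρ := by rw [← add_mul, hab, one_mul]
            linarith
  · have hcomb : a • y₁ + b • y₂ - x = a • (y₁ - x) + b • (y₂ - x) := by
      have : x = (a + b) • x := by rw [hab, one_smul]
      nth_rewrite 1 [this]
      module
    rw [hcomb, inner_add_left, inner_smul_left, inner_smul_left]
    simp only [RCLike.conj_to_real]
    calc |a * ⟪y₁ - x, e⟫ + b * ⟪y₂ - x, e⟫| ≤ a * |⟪y₁ - x, e⟫| + b * |⟪y₂ - x, e⟫| := by
          refine (abs_add_le _ _).trans ?_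
          rw [abs_mul, abs_mul, abs_of_nonneg ha, abs_of_nonneg hb]
      _ < h := by
          rcases ha.eq_or_lt with h0 | h0
          · have hb1 : b = 1 := by linarith
            rw [← h0, hb1]; simpa using h₂.2
          · have e1 : a * |⟪y₁ - x, e⟫| < a * h := mul_lt_mul_of_pos_left h₁.2 h0
            have e2 : b * |⟪y₂ - x, e⟫| ≤ b * h := mul_le_mul_of_nonneg_left h₂.2.le hb
            have e3 : a * h + b * h = h := by rw [← add_mul, hab, one_mul]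
            linarith

/-- Pythagoras. -/
theorem qfa_norm_sq {e : E m} (he : ‖e‖ = 1) (v : E m) :
    ‖v‖ ^ 2 = ‖gmtPr e v‖ ^ 2 + ⟪v, e⟫ ^ 2 := by
  unfold gmtPr
  rw [norm_sub_sq_real, norm_smul, inner_smul_right, he]
  simp only [Real.norm_eq_abs, mul_one, sq_abs]
  ring

/-- `B_{min ρ h} ⊆ C(ρ,h) ⊆ B_{√(ρ²+h²)}`. -/
theorem gmtCylH_subset_ball (x : E m) (ρ h : ℝ) {e : E m} (he : ‖e‖ = 1) :
    gmtCylH x ρ h e ⊆ ball x (Real.sqrt (ρ ^ 2 + h ^ 2)) := by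
  intro y hy
  rw [mem_ball, dist_eq_norm]
  refine Real.lt_sqrt_of_sq_lt ?_
  rw [qfa_norm_sq he]
  have h1 : ‖gmtPr e (y - x)‖ ^ 2 < ρ ^ 2 := pow_lt_pow_left₀ hy.1 (norm_nonneg _) two_ne_zero
  have h2 : ⟪y - x, e⟫ ^ 2 < h ^ 2 := by
    rw [← sq_abs]
    exact pow_lt_pow_left₀ hy.2 (abs_nonneg _) two_ne_zero
  linarith

theorem ball_subset_gmtCylH (x : E m) {ρ h r : ℝ} {e : E m} (he : ‖e‖ = 1) (h1 : r ≤ ρ)
    (h2 : r ≤ h) : ball x r ⊆ gmtCylH x ρ h e := by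
  intro y hy
  rw [mem_ball, dist_eq_norm] at hy
  have hsq := qfa_norm_sq he (y - x)
  refine ⟨lt_of_le_of_lt ?_ (hy.trans_le h1), lt_of_le_of_lt ?_ (hy.trans_le h2)⟩
  · exact abs_le_of_sq_le_sq' (by nlinarith [sq_nonneg ⟪y - x, e⟫]) (norm_nonneg _) |>.2
  · exact abs_le_of_sq_le_sq (by nlinarith [sq_nonneg ‖gmtPr e (y - x)‖]) (norm_nonneg _)

theorem closure_gmtCylH_subset (x : E m) (ρ h : ℝ) (e : E m) :
    closure (gmtCylH x ρ h e) ⊆ {y | ‖gmtPr e (y - x)‖ ≤ ρ ∧ |⟪y - x, e⟫| ≤ h} := by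
  refine closure_minimal (fun y hy => ⟨hy.1.le, hy.2.le⟩) ?_
  exact (isClosed_le (qfa_continuous_pr x e) continuous_const).inter
    (isClosed_le (qfa_continuous_ht x e) continuous_const)

/-- the straightening map: a rotation which maps `e` to the vertical vector, after the translation by `-x`. -/
theorem qfa_exists_rot {n : ℕ} {e : E (n + 1)} (he : ‖e‖ = 1) :
    ∃ L : E (n + 1) ≃ₗᵢ[ℝ] E (n + 1), L e = gmtEn n :=
  ⟨(ℝ ∙ (e - gmtEn n))ᗮ.reflection, Submodule.reflection_sub (by rw [he]; simp)⟩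

theorem qfa_pr_en {n : ℕ} (w : E (n + 1)) : ‖gmtPr (gmtEn n) w‖ = ‖gmtHor w‖ := by
  have h1 := qfa_norm_sq (e := gmtEn n) (by simp) w
  have h2 := fl_norm_sq w
  rw [← fl_ver_eq_inner] at h1
  have h3 : ‖gmtPr (gmtEn n) w‖ ^ 2 = ‖gmtHor w‖ ^ 2 := by linarith
  exact (sq_eq_sq₀ (norm_nonneg _) (norm_nonneg _)).1 h3

theorem qfa_rot_pr {n : ℕ} {e : E (n + 1)} (L : E (n + 1) ≃ₗᵢ[ℝ] E (n + 1)) (hL : L e = gmtEn n)
    (v : E (n + 1)) : ‖gmtPr e v‖ = ‖gmtHor (L v)‖ := by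
  rw [← qfa_pr_en, ← L.norm_map (gmtPr e v)]
  congr 1
  unfold gmtPr
  rw [map_sub, map_smul, hL, ← hL, L.inner_map_map]

theorem qfa_rot_ht {n : ℕ} {e : E (n + 1)} (L : E (n + 1) ≃ₗᵢ[ℝ] E (n + 1)) (hL : L e = gmtEn n)
    (v : E (n + 1)) : ⟪v, e⟫ = gmtVer (L v) := by
  rw [fl_ver_eq_inner, ← hL, L.inner_map_map]

/-- volume of a set described by `(‖pr (y - x)‖, ⟪y - x, e⟫)`. -/
theorem qfa_volume {n : ℕ} (x : E (n + 1)) {e : E (n + 1)} (he : ‖e‖ = 1) {A : Set (E n)}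
    {B : Set ℝ} (hA : MeasurableSet A) (hB : MeasurableSet B)
    (P : ℝ → Prop)
    (hP : ∀ z : E n, z ∈ A ↔ P ‖z‖) :
    volume {y : E (n + 1) | P ‖gmtPr e (y - x)‖ ∧ ⟪y - x, e⟫ ∈ B} = volume A * volume B := by
  obtain ⟨L, hL⟩ := qfa_exists_rot he
  have h1 : MeasurePreserving (fun y : E (n + 1) => L (y - x)) volume volume :=
    (L.measurePreserving).comp (measurePreserving_sub_right volume x)
  have h2 := (fl_measurePreserving (n := n)).comp h1
  have hset : {y : E (n + 1) | P ‖gmtPr e (y - x)‖ ∧ ⟪y - x, e⟫ ∈ B}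
      = ((fun y : E (n + 1) => (gmtHor y, gmtVer y)) ∘ fun y : E (n + 1) => L (y - x)) ⁻¹'
        (A ×ˢ B) := by
    ext y
    simp only [mem_ofPred_eq, mem_preimage, Function.comp_apply, mem_prod]
    rw [qfa_rot_pr L hL, qfa_rot_ht L hL, hP]
  rw [hset, h2.measure_preimage (hA.prod hB).nullMeasurableSet, Measure.prod_prod]

theorem qfa_volume_ball {n : ℕ} {r : ℝ} (hr : 0 ≤ r) (h0 : 0 < r ∨ 1 ≤ n) :
    volume (ball (0 : E n) r) = ENNReal.ofReal (gmtOm n * r ^ n) := by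
  have hω : volume (ball (0 : E n) 1) = ENNReal.ofReal (gmtOm n) := by
    rw [gmtOm, ENNReal.ofReal_toReal measure_ball_lt_top.ne]
  rcases hr.eq_or_lt with h | h
  · have hn : 1 ≤ n := h0.resolve_left (by rw [← h]; exact lt_irrefl _)
    rw [← h, ball_zero, measure_empty, zero_pow (by omega), mul_zero, ENNReal.ofReal_zero]
  · rw [Measure.addHaar_ball_of_pos volume 0 h, hω, finrank_euclideanSpace_fin,
      ← ENNReal.ofReal_mul (by positivity), mul_comm]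

theorem volume_gmtCylH (hm : 1 ≤ m) (x : E m) {ρ h : ℝ} (hρ : 0 < ρ) (hh : 0 ≤ h) {e : E m}
    (he : ‖e‖ = 1) :
    volume (gmtCylH x ρ h e) = ENNReal.ofReal (2 * h * gmtOm (m - 1) * ρ ^ (m - 1)) := by
  obtain ⟨n, rfl⟩ : ∃ n, m = n + 1 := ⟨m - 1, by omega⟩
  rw [Nat.add_sub_cancel]
  have hset : gmtCylH x ρ h e
      = {y : E (n + 1) | (fun r => r < ρ) ‖gmtPr e (y - x)‖ ∧ ⟪y - x, e⟫ ∈ Ioo (-h) h} := by
    ext y
    simp only [gmtCylH, mem_ofPred_eq, mem_Ioo, abs_lt]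
  rw [hset, qfa_volume x he (A := ball (0 : E n) ρ) measurableSet_ball measurableSet_Ioo
    (fun r => r < ρ) (fun z => by simp), qfa_volume_ball hρ.le (Or.inl hρ), Real.volume_Ioo,
    ← ENNReal.ofReal_mul (by have : 0 ≤ gmtOm n := ENNReal.toReal_nonneg; positivity)]
  congr 1
  ring

/-- volume of a closed slab over an annulus. -/
theorem volume_slab_annulus (hm : 2 ≤ m) (x : E m) {a b ε : ℝ} (ha : 0 ≤ a) (hab : a ≤ b)
    (hε : 0 ≤ ε) {e : E m} (he : ‖e‖ = 1) :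
    volume {y : E m | a ≤ ‖gmtPr e (y - x)‖ ∧ ‖gmtPr e (y - x)‖ < b ∧ |⟪y - x, e⟫| ≤ ε} =
      ENNReal.ofReal (2 * ε * gmtOm (m - 1) * (b ^ (m - 1) - a ^ (m - 1))) := by
  obtain ⟨n, rfl⟩ : ∃ n, m = n + 1 := ⟨m - 1, by omega⟩
  rw [Nat.add_sub_cancel]
  have hn : 1 ≤ n := by omega
  have hω : 0 ≤ gmtOm n := ENNReal.toReal_nonneg
  have hset : {y : E (n + 1) | a ≤ ‖gmtPr e (y - x)‖ ∧ ‖gmtPr e (y - x)‖ < b ∧ |⟪y - x, e⟫| ≤ ε}
      = {y : E (n + 1) | (fun r => a ≤ r ∧ r < b) ‖gmtPr e (y - x)‖ ∧ ⟪y - x, e⟫ ∈ Icc (-ε) ε} := by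
    ext y
    simp only [mem_ofPred_eq, mem_Icc, abs_le, and_assoc]
  have hA : volume (ball (0 : E n) b \ ball (0 : E n) a)
      = ENNReal.ofReal (gmtOm n * (b ^ n - a ^ n)) := by
    rw [measure_sdiff (ball_subset_ball hab) measurableSet_ball.nullMeasurableSet
      measure_ball_lt_top.ne, qfa_volume_ball (ha.trans hab) (Or.inr hn),
      qfa_volume_ball ha (Or.inr hn), ← ENNReal.ofReal_sub _ (by positivity), mul_sub]
  rw [hset, qfa_volume x he (A := ball (0 : E n) b \ ball (0 : E n) a)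
    (measurableSet_ball.diff measurableSet_ball) measurableSet_Icc
    (fun r => a ≤ r ∧ r < b) (fun z => by simp [and_comm]), hA, Real.volume_Icc,
    ← ENNReal.ofReal_mul (mul_nonneg hω (sub_nonneg.mpr (pow_le_pow_left₀ ha hab n)))]
  congr 1
  ring

/-- the perimeter of a half space in a cylinder around a boundary point. -/
theorem gmtP_half_cylH (hm : 1 ≤ m) (x : E m) {ρ h : ℝ} (hρ : 0 < ρ) (hh : 0 < h) {e : E m}
    (he : ‖e‖ = 1) :
    gmtP (gmtHalf x e) (gmtCylH x ρ h e) = ENNReal.ofReal (gmtOm (m - 1) * ρ ^ (m - 1)) := by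
  rw [← gmtP_half_ball hm x he hρ, ← gmtMu_open _ (isOpen_gmtCylH x ρ h e),
    ← gmtMu_open _ isOpen_ball]
  have hnull := gmtMu_gmtHalf_compl x he
  refine measure_congr ?_
  have hae : ∀ᵐ y ∂(gmtMu (gmtHalf x e)), ⟪y - x, e⟫ = 0 := by
    rw [ae_iff]
    exact hnull
  filter_upwards [hae] with y hy
  have hsq := qfa_norm_sq he (y - x)
  rw [hy] at hsq
  have hn : ‖y - x‖ = ‖gmtPr e (y - x)‖ :=
    (sq_eq_sq₀ (norm_nonneg _) (norm_nonneg _)).1 (by rw [hsq]; ring)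
  apply propext
  show y ∈ gmtCylH x ρ h e ↔ y ∈ ball x ρ
  rw [mem_ball, dist_eq_norm, hn]
  constructor
  · exact fun hc => hc.1
  · exact fun hc => ⟨hc, by rw [hy, abs_zero]; exact hh⟩

end Claimed.Agent.Gmt
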