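import Claimed.Agent.Lib.Gmt.QmFlatA

/-!
# Lib/Gmt [QmFlatB = part 2/4 of the former QmFlat] G3c: flat competitors in cylinders; the density estimates for the class `GmtAM`.
(architect: helper75; PROVED: helper13; consumers: G4 = helper190's list (a)-(d), G6)

`gmtCylH x ρ h e = {‖pr_e (y-x)‖ < ρ, |⟪y-x,e⟫| < h}` (`gmtCyl x r e = gmtCylH x r r e`).

PLAN OF PROOFS
* `volume_gmtCylH`, `volume_slab_annulus`: by a linear isometry `L` with `L e = gmtEn n` (`m = n+1`; extend `e` to an orthonormal basis: `exists_orthonormalBasis_extension_of_card_eq`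
  or `Orthonormal.exists_orthonormalBasis_extension`), then `E (n+1) ≃ᵐ E n × ℝ` via `gmtHor`, `gmtVer` is measure preserving
  (`EuclideanSpace.volume_preserving_measurableEquiv` + `MeasureTheory.volume_preserving_piFinSuccAbove`/`Fin.snoc` version), product of a ball and an interval.
* `gmtP_half_cylH`: `gmtMu_gmtHalf_slab` with `g ↑ χ_{cylinder}` / or directly: `≥` with `T = φ(pr y) ψ(t) e`, `≤` by Fubini + FTC in the direction `e`.
* `gmt_slab_cases`: the two sets `{y ∈ C : ±⟪y-x,e⟫ > ε}` are open, convex (hence preconnected) and do not meet `gmtBd S`: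
  `gmtP_eq_zero_of_disjoint` + `gmtP_eq_zero_const`.
* `GmtQM.flat_le`.  `f y = ‖pr_e (y-x)‖` (continuous, `C¹` on `{0 < f}`, `|∇f| ≤ 1`), `H = gmtHalf x e`, `C = gmtCyl x r e`, `H' = (H ∩ C) ∪ (S \ C)`.
  For `ε < r' < r`, `0 < s < s' < r`, `W = gmtCylH x s' r' e`, `S' = gmtGlue f s H' S`:  `S △ S' ⊆ {f ≤ s, |t| ≤ ε}` up to a null set (`GmtQM.qm_ae`).
  `gmtPer_glue_level` (levels in `(0, s')`): for a.e. `s`:  `P(S';W) ≤ P(H; W ∩ {f<s}) + P(S; W ∩ {s<f}) + I'(s)`, where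
  `I(s) = ∫_{D ∩ {0<f<s}} |∇f|`, `D = (H' △ S) ∩ W ⊆ slab` a.e., so `I(s+h) - I(s) ≤ 2ε ω_{m-1} ((s+h)^{m-1} - s^{m-1})` and `I'(s) ≤ 2ε(m-1)ω_{m-1}s^{m-2}`.
  Quasi-minimality; subtract the finite number `μ(W ∩ {s<f})`; let `s' ↓ s` (countably many `s'`, so that the a.e. set of `s` is fixed), `r' ↑ r`, and finally `s ↓ ρ`.
* AM versions: `GmtAM.toQM` with `r = R`: `δ = κR ≤ 1`, `Λ s ≤ ΛR ≤ 1`; open balls `ball y s ⊆ ball x₀ R`: apply the QM estimates to `s' < s` (`closedBall y s' ⊆ ball y s`) and let `s' ↑ s`.  NOTE for the lower bounds: `Λ s ≤ ε₀(m)` is needed: it is a hypothesis.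
-/

set_option autoImplicit false
open scoped ContDiff ENNReal RealInnerProductSpace Topology
open MeasureTheory Metric Set Filter

namespace Claimed.Agent.Gmt

variable {m : ℕ}

/-- (d) CONSTANCY off the boundary. -/
theorem gmt_const_off_bd {S W : Set (E m)} (hS : MeasurableSet S) (hW : IsOpen W)
    (hc : IsPreconnected W) (hd : Disjoint W (gmtBd S)) :
    volume (S ∩ W) = 0 ∨ volume (W \ S) = 0 :=
  gmtP_eq_zero_const hW hc hS (gmtP_eq_zero_of_disjoint hS hW hd)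

theorem qfb_convex_lt (x e : E m) (c : ℝ) : Convex ℝ {y : E m | ⟪y - x, e⟫ < c} := by
  have : {y : E m | ⟪y - x, e⟫ < c} = {y : E m | (innerSL ℝ e) y < c + ⟪x, e⟫} := by
    ext y
    simp only [Set.mem_ofPred_eq, innerSL_apply_apply, inner_sub_left, real_inner_comm]
    constructor <;> intro h <;> linarith
  rw [this]
  exact convex_halfSpace_lt (innerSL ℝ e).toLinearMap.isLinear _

theorem qfb_convex_gt (x e : E m) (c : ℝ) : Convex ℝ {y : E m | c < ⟪y - x, e⟫} := by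
  have : {y : E m | c < ⟪y - x, e⟫} = {y : E m | c + ⟪x, e⟫ < (innerSL ℝ e) y} := by
    ext y
    simp only [Set.mem_ofPred_eq, innerSL_apply_apply, inner_sub_left, real_inner_comm]
    constructor <;> intro h <;> linarith
  rw [this]
  exact convex_halfSpace_gt (innerSL ℝ e).toLinearMap.isLinear _

/-- boundary in a slab: above and below the slab the set is trivial. -/
theorem gmt_slab_cases {S : Set (E m)} (hS : MeasurableSet S) (x : E m) {ρ h ε : ℝ} {e : E m}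
    (hb : gmtBd S ∩ gmtCylH x ρ h e ⊆ {y | |⟪y - x, e⟫| ≤ ε}) :
    (volume (S ∩ {y | y ∈ gmtCylH x ρ h e ∧ ⟪y - x, e⟫ < -ε}) = 0 ∨
      volume ({y | y ∈ gmtCylH x ρ h e ∧ ⟪y - x, e⟫ < -ε} \ S) = 0) ∧
    (volume (S ∩ {y | y ∈ gmtCylH x ρ h e ∧ ε < ⟪y - x, e⟫}) = 0 ∨
      volume ({y | y ∈ gmtCylH x ρ h e ∧ ε < ⟪y - x, e⟫} \ S) = 0) := by
  constructor
  · refine gmt_const_off_bd hS ?_ ?_ ?_
    · exact (isOpen_gmtCylH x ρ h e).inter
        (isOpen_lt (f := fun y : E m => ⟪y - x, e⟫) (by fun_prop) continuous_const)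
    · exact ((convex_gmtCylH x ρ h e).inter (qfb_convex_lt x e (-ε))).isPreconnected
    · rw [Set.disjoint_left]
      rintro y ⟨hy1, hy2⟩ hyB
      have h1 : |⟪y - x, e⟫| ≤ ε := hb ⟨hyB, hy1⟩
      have h2 := (abs_le.1 h1).1
      linarith
  · refine gmt_const_off_bd hS ?_ ?_ ?_
    · exact (isOpen_gmtCylH x ρ h e).inter
        (isOpen_lt (g := fun y : E m => ⟪y - x, e⟫) continuous_const (by fun_prop))
    · exact ((convex_gmtCylH x ρ h e).inter (qfb_convex_gt x e ε)).isPreconnected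
    · rw [Set.disjoint_left]
      rintro y ⟨hy1, hy2⟩ hyB
      have h1 : |⟪y - x, e⟫| ≤ ε := hb ⟨hyB, hy1⟩
      have h2 := (abs_le.1 h1).2
      linarith

/-! ### the horizontal distance -/

theorem qfb_pr_sub (e a b : E m) : gmtPr e (a - b) = gmtPr e a - gmtPr e b := by
  unfold gmtPr
  rw [inner_sub_left]
  module

theorem qfb_norm_pr_le {e : E m} (he : ‖e‖ = 1) (v : E m) : ‖gmtPr e v‖ ≤ ‖v‖ := by
  have h := qfa_norm_sq he v
  exact (pow_le_pow_iff_left₀ (norm_nonneg _) (norm_nonneg _) two_ne_zero).1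
    (by nlinarith [sq_nonneg ⟪v, e⟫])

theorem qfb_lipschitz (x : E m) {e : E m} (he : ‖e‖ = 1) :
    LipschitzWith 1 fun y : E m => ‖gmtPr e (y - x)‖ := by
  refine LipschitzWith.mk_one fun y z => ?_
  rw [Real.dist_eq, dist_eq_norm]
  refine (abs_norm_sub_norm_le _ _).trans ?_
  rw [← qfb_pr_sub]
  have : y - x - (z - x) = y - z := by abel
  rw [this]
  exact qfb_norm_pr_le he _

theorem qfb_norm_fderiv_le (x : E m) {e : E m} (he : ‖e‖ = 1) (y : E m) :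
    ‖fderiv ℝ (fun y : E m => ‖gmtPr e (y - x)‖) y‖ ≤ 1 := by
  have := norm_fderiv_le_of_lipschitz ℝ (x₀ := y) (qfb_lipschitz x he)
  simpa using this

theorem qfb_contDiff_pr (x e : E m) : ContDiff ℝ 1 fun y : E m => gmtPr e (y - x) := by
  unfold gmtPr
  have h1 : ContDiff ℝ 1 fun y : E m => y - x := contDiff_id.sub contDiff_const
  exact h1.sub ((h1.inner ℝ contDiff_const).smul contDiff_const)

theorem qfb_contDiffOn (x e : E m) (W : Set (E m)) {a : ℝ} (ha : 0 ≤ a) (b : ℝ) :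
    ContDiffOn ℝ 1 (fun y : E m => ‖gmtPr e (y - x)‖)
      (W ∩ (fun y : E m => ‖gmtPr e (y - x)‖) ⁻¹' Ioo a b) := by
  intro y hy
  have hy0 : gmtPr e (y - x) ≠ 0 := by
    intro h0
    have h1 : a < ‖gmtPr e (y - x)‖ := hy.2.1
    rw [h0, norm_zero] at h1
    linarith
  exact ((contDiffAt_norm ℝ hy0).comp y (qfb_contDiff_pr x e).contDiffAt).contDiffWithinAt

/-- cylinders inside a cylinder with closure in `U` are relatively compact in `U`. -/
theorem qfb_cc {U : Set (E m)} {x e : E m} (he : ‖e‖ = 1) {q r h₀ : ℝ} (hq : q ≤ r)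
    (hC : closure (gmtCylH x r h₀ e) ⊆ U) : GmtCC (gmtCylH x q h₀ e) U := by
  have hsub : gmtCylH x q h₀ e ⊆ gmtCylH x r h₀ e := fun y hy => ⟨hy.1.trans_le hq, hy.2⟩
  refine ⟨isOpen_gmtCylH x q h₀ e, ?_, (closure_mono hsub).trans hC⟩
  refine (isCompact_closedBall x (Real.sqrt (q ^ 2 + h₀ ^ 2))).of_isClosed_subset isClosed_closure ?_
  exact closure_minimal ((gmtCylH_subset_ball x q h₀ he).trans ball_subset_closedBall)
    isClosed_closedBall

/-- the closed slab over a closed disc is compact. -/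
theorem qfb_isCompact_slab (x : E m) {e : E m} (he : ‖e‖ = 1) (t ε : ℝ) :
    IsCompact {y : E m | ‖gmtPr e (y - x)‖ ≤ t ∧ |⟪y - x, e⟫| ≤ ε} := by
  refine (isCompact_closedBall x (Real.sqrt (t ^ 2 + ε ^ 2))).of_isClosed_subset ?_ ?_
  · exact (isClosed_le (qfa_continuous_pr x e) continuous_const).inter
      (isClosed_le (qfa_continuous_ht x e) continuous_const)
  · intro y hy
    rw [mem_closedBall, dist_eq_norm]
    refine Real.le_sqrt_of_sq_le ?_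
    rw [qfa_norm_sq he]
    have h1 : ‖gmtPr e (y - x)‖ ^ 2 ≤ t ^ 2 := pow_le_pow_left₀ (norm_nonneg _) hy.1 2
    have h2 : ⟪y - x, e⟫ ^ 2 ≤ ε ^ 2 := by
      rw [← sq_abs]
      exact pow_le_pow_left₀ (abs_nonneg _) hy.2 2
    linarith

/-- real analysis: comparison of increments gives comparison of derivatives. -/
theorem qfb_deriv_le {I G : ℝ → ℝ} {t b G' : ℝ} (htb : t < b)
    (h : ∀ s, t < s → s ≤ b → I s - I t ≤ G s - G t) (hG : HasDerivAt G G' t) (hG' : 0 ≤ G') :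
    deriv I t ≤ G' := by
  by_cases hd : DifferentiableAt ℝ I t
  · have h1 : HasDerivAt (fun s => I s - G s) (deriv I t - G') t := hd.hasDerivAt.sub hG
    have h2 := (hasDerivWithinAt_iff_tendsto_slope' (s := Ioi t) (by simp)).1 h1.hasDerivWithinAt
    have h3 : deriv I t - G' ≤ 0 := by
      refine le_of_tendsto h2 ?_
      filter_upwards [Ioc_mem_nhdsGT htb] with s hs
      rw [slope_def_field]
      apply div_nonpos_of_nonpos_of_nonneg
      · have := h s hs.1 hs.2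
        linarith
      · linarith [hs.1]
    linarith
  · rw [deriv_zero_of_not_differentiableAt hd]
    exact hG'

/-- one step with outer radius `q`: comparison with the set `H` inside the cylinder of radius `t`. -/
theorem qfb_step (hm : 2 ≤ m) {δ Λ : ℝ} (hδ : 0 ≤ δ) (hΛ : 0 ≤ Λ) {U S : Set (E m)}
    (h : GmtQM δ Λ U S) {x e : E m} (he : ‖e‖ = 1) {r h₀ ε : ℝ} (hε : 0 ≤ ε)
    (hεh : ε < h₀) (hC : closure (gmtCylH x r h₀ e) ⊆ U) {H : Set (E m)} (hH : MeasurableSet H)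
    (hHS : volume ((symmDiff H S ∩ gmtCylH x r h₀ e) \ {y | |⟪y - x, e⟫| ≤ ε}) = 0)
    {a : ℝ} (ha : 0 ≤ a)
    (hPH : ∀ t, 0 < t → t < r → gmtP H (gmtCylH x t h₀ e) ≤ ENNReal.ofReal (a * t ^ (m - 1)))
    {q : ℝ} (hq : q ≤ r) :
    ∀ᵐ t : ℝ, 0 < t → t < q →
      gmtMu S {y | ‖gmtPr e (y - x)‖ ≤ t ∧ |⟪y - x, e⟫| < h₀} ≤
        ENNReal.ofReal δ * gmtMu S (gmtCylH x q h₀ e ∩ {y | t < ‖gmtPr e (y - x)‖}) +
        ENNReal.ofReal ((1 + δ) * (a * t ^ (m - 1)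
            + 2 * ε * (m - 1) * gmtOm (m - 1) * t ^ (m - 2))
          + Λ * (2 * ε * gmtOm (m - 1) * t ^ (m - 1))) := by
  set f : E m → ℝ := fun y => ‖gmtPr e (y - x)‖ with hf
  set W : Set (E m) := gmtCylH x q h₀ e with hW
  set C : Set (E m) := gmtCylH x r h₀ e with hCdef
  set H' : Set (E m) := (H ∩ C) ∪ (S \ C) with hH'
  set om : ℝ := gmtOm (m - 1) with hom
  have hom0 : 0 ≤ om := gmtOm_nonneg _
  have hm1 : (0 : ℝ) ≤ (m : ℝ) - 1 := by
    have : (2 : ℝ) ≤ m := by exact_mod_cast hm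
    linarith
  have hS := h.lf.1
  have hfc : Continuous f := qfa_continuous_pr x e
  have hWC : W ⊆ C := fun y hy => ⟨hy.1.trans_le hq, hy.2⟩
  have hWcc : GmtCC W U := qfb_cc he hq hC
  have hWo : IsOpen W := isOpen_gmtCylH x q h₀ e
  have hCm : MeasurableSet C := (isOpen_gmtCylH x r h₀ e).measurableSet
  have hp : gmtP S W ≠ ⊤ := h.lf.2 _ hWcc
  have hH'm : MeasurableSet H' := (hH.inter hCm).union (hS.diff hCm)
  set D : Set (E m) := symmDiff H' S ∩ W with hD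
  have hDm : MeasurableSet D := (hH'm.symmDiff hS).inter hWo.measurableSet
  have hDslab : volume (D \ {y | |⟪y - x, e⟫| ≤ ε}) = 0 := by
    refine measure_mono_null ?_ hHS
    rintro y ⟨⟨hy1, hy2⟩, hy3⟩
    have hyC := hWC hy2
    refine ⟨⟨?_, hyC⟩, hy3⟩
    rcases hy1 with ⟨hyH', hyS⟩ | ⟨hyS, hyH'⟩
    · rcases hyH' with ⟨hyH, -⟩ | ⟨hyS', -⟩
      · exact Or.inl ⟨hyH, hyS⟩
      · exact absurd hyS' hyS
    · exact Or.inr ⟨hyS, fun hyH => hyH' (Or.inl ⟨hyH, hyC⟩)⟩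
  have hWfin : volume W ≠ ⊤ :=
    ne_top_of_le_ne_top measure_ball_lt_top.ne (measure_mono (gmtCylH_subset_ball x q h₀ he))
  have hle1 : ∀ y, ENNReal.ofReal ‖fderiv ℝ f y‖ ≤ 1 := fun y =>
    ENNReal.ofReal_le_one.2 (qfb_norm_fderiv_le x he y)
  have hfin' : ∫⁻ y in D ∩ f ⁻¹' Ioo 0 q, ENNReal.ofReal ‖fderiv ℝ f y‖ ≠ ⊤ := by
    refine ne_top_of_le_ne_top hWfin ?_
    calc ∫⁻ y in D ∩ f ⁻¹' Ioo 0 q, ENNReal.ofReal ‖fderiv ℝ f y‖
        ≤ ∫⁻ _ in D ∩ f ⁻¹' Ioo 0 q, 1 := lintegral_mono fun y => hle1 y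
      _ = volume (D ∩ f ⁻¹' Ioo 0 q) := setLIntegral_one _
      _ ≤ volume W := measure_mono (inter_subset_left.trans inter_subset_right)
  have hfin : ∫⁻ y in D ∩ f ⁻¹' Ioo 0 q, ‖fderiv ℝ f y‖ₑ ≠ ⊤ := by
    simpa only [ofReal_norm] using hfin'
  have hglue := gmtPer_glue_level hWo zero_le_one (gmtEu_le_one W) hfc
    (qfb_contDiffOn x e W le_rfl q) hH'm hS hfin
  filter_upwards [hglue] with t ht ht0 htq
  have h1 := ht ⟨ht0, htq⟩
  have htr : t < r := htq.trans_le hq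
  -- the interface term
  have hinc : ∀ s, t < s → s ≤ q → gmtIface f D 0 s - gmtIface f D 0 t ≤
      2 * ε * om * s ^ (m - 1) - 2 * ε * om * t ^ (m - 1) := by
    intro s hts hsq
    have e1 := gmtIfaceW_sub (c := fun y => ‖fderiv ℝ f y‖) hfc.measurable hDm hfin' ht0 hts.le hsq
    rw [← gmtIface_eq, ← gmtIface_eq] at e1
    have e2 : ∫⁻ y in D ∩ f ⁻¹' Ico t s, ENNReal.ofReal ‖fderiv ℝ f y‖ ≤
        ENNReal.ofReal (2 * ε * om * (s ^ (m - 1) - t ^ (m - 1))) := by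
      rw [← volume_slab_annulus hm x ht0.le hts.le hε he]
      calc ∫⁻ y in D ∩ f ⁻¹' Ico t s, ENNReal.ofReal ‖fderiv ℝ f y‖
          ≤ ∫⁻ _ in D ∩ f ⁻¹' Ico t s, 1 := lintegral_mono fun y => hle1 y
        _ = volume (D ∩ f ⁻¹' Ico t s) := setLIntegral_one _
        _ ≤ volume ({y : E m | t ≤ ‖gmtPr e (y - x)‖ ∧ ‖gmtPr e (y - x)‖ < s ∧ |⟪y - x, e⟫| ≤ ε}
              ∪ (D \ {y | |⟪y - x, e⟫| ≤ ε})) := by
            refine measure_mono ?_
            rintro y ⟨hy1, hy2⟩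
            by_cases hys : |⟪y - x, e⟫| ≤ ε
            · exact Or.inl ⟨hy2.1, hy2.2, hys⟩
            · exact Or.inr ⟨hy1, hys⟩
        _ ≤ volume {y : E m | t ≤ ‖gmtPr e (y - x)‖ ∧ ‖gmtPr e (y - x)‖ < s ∧ |⟪y - x, e⟫| ≤ ε}
              + 0 := by
            rw [← hDslab]
            exact measure_union_le _ _
        _ = _ := add_zero _
    rw [e1] at e2
    have e3 : 0 ≤ 2 * ε * om * (s ^ (m - 1) - t ^ (m - 1)) := by
      have h5 : t ^ (m - 1) ≤ s ^ (m - 1) := pow_le_pow_left₀ ht0.le hts.le _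
      have h6 := sub_nonneg.2 h5
      positivity
    have e4 := (ENNReal.ofReal_le_ofReal_iff e3).1 e2
    linarith
  have hder : deriv (gmtIface f D 0) t ≤ 2 * ε * (m - 1) * om * t ^ (m - 2) := by
    have hG : HasDerivAt (fun s : ℝ => 2 * ε * om * s ^ (m - 1))
        (2 * ε * (m - 1) * om * t ^ (m - 2)) t := by
      have h7 := (hasDerivAt_pow (m - 1) t).const_mul (2 * ε * om)
      have e : 2 * ε * om * (((m - 1 : ℕ) : ℝ) * t ^ (m - 1 - 1))
          = 2 * ε * (m - 1) * om * t ^ (m - 2) := by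
        rw [Nat.cast_pred (by omega), Nat.sub_sub]
        ring
      rwa [e] at h7
    refine qfb_deriv_le htq hinc hG ?_
    positivity
  -- the inner part
  have eW1 : W ∩ {y | f y < t} = gmtCylH x t h₀ e := by
    ext y
    constructor
    · rintro ⟨hy1, hy2⟩
      exact ⟨hy2, hy1.2⟩
    · intro hy
      exact ⟨⟨hy.1.trans htq, hy.2⟩, hy.1⟩
  have eH : gmtP H' (gmtCylH x t h₀ e) = gmtP H (gmtCylH x t h₀ e) := by
    apply gmtP_congr hH'm hH
    have e5 : H' ∩ gmtCylH x t h₀ e = H ∩ gmtCylH x t h₀ e := by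
      ext y
      constructor
      · rintro ⟨hy1, hy2⟩
        have hyC : y ∈ C := ⟨hy2.1.trans htr, hy2.2⟩
        rcases hy1 with ⟨hyH, -⟩ | ⟨-, hyn⟩
        · exact ⟨hyH, hy2⟩
        · exact absurd hyC hyn
      · rintro ⟨hy1, hy2⟩
        exact ⟨Or.inl ⟨hy1, ⟨hy2.1.trans htr, hy2.2⟩⟩, hy2⟩
    rw [e5]
    exact ae_eq_refl _
  -- quasi-minimality
  set S' : Set (E m) := gmtGlue f t H' S with hS'
  have hS'm : MeasurableSet S' := measurableSet_gmtGlue hfc.measurable t hH'm hS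
  set K : Set (E m) := {y | ‖gmtPr e (y - x)‖ ≤ t ∧ |⟪y - x, e⟫| ≤ ε} with hKdef
  have hK : IsCompact K := qfb_isCompact_slab x he t ε
  have hKW : K ⊆ W := fun y hy => ⟨lt_of_le_of_lt hy.1 htq, lt_of_le_of_lt hy.2 hεh⟩
  have hsd : symmDiff S S' ⊆ (symmDiff H S ∩ C) ∩ {y | f y < t} := by
    intro y hy
    by_cases hft : f y < t
    · by_cases hyC : y ∈ C
      · refine ⟨⟨?_, hyC⟩, hft⟩
        rcases hy with ⟨hyS, hyS'⟩ | ⟨hyS', hyS⟩
        · exact Or.inr ⟨hyS, fun hyH => hyS' (Or.inl ⟨Or.inl ⟨hyH, hyC⟩, hft⟩)⟩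
        · rcases hyS' with ⟨hyH', -⟩ | ⟨hyS2, -⟩
          · rcases hyH' with ⟨hyH, -⟩ | ⟨hyS2, -⟩
            · exact Or.inl ⟨hyH, hyS⟩
            · exact absurd hyS2 hyS
          · exact absurd hyS2 hyS
      · exfalso
        rcases hy with ⟨hyS, hyS'⟩ | ⟨hyS', hyS⟩
        · exact hyS' (Or.inl ⟨Or.inr ⟨hyS, hyC⟩, hft⟩)
        · rcases hyS' with ⟨hyH', -⟩ | ⟨hyS2, -⟩
          · rcases hyH' with ⟨-, hyC'⟩ | ⟨hyS2, -⟩
            · exact hyC hyC'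
            · exact hyS hyS2
          · exact hyS hyS2
    · exfalso
      rcases hy with ⟨hyS, hyS'⟩ | ⟨hyS', hyS⟩
      · exact hyS' (Or.inr ⟨hyS, hft⟩)
      · rcases hyS' with ⟨-, hft'⟩ | ⟨hyS2, -⟩
        · exact hft hft'
        · exact hyS hyS2
  have hnull : volume (symmDiff S S' \ K) = 0 := by
    refine measure_mono_null ?_ hHS
    rintro y ⟨hy1, hy2⟩
    have h8 := hsd hy1
    exact ⟨h8.1, fun hys => hy2 ⟨le_of_lt h8.2, hys⟩⟩
  have h2 := h.qm_ae hWcc hS'm hK hKW hnull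
  have hvol : volume (symmDiff S S') ≤ ENNReal.ofReal (2 * ε * om * t ^ (m - 1)) := by
    have h9 := volume_slab_annulus hm x le_rfl ht0.le hε he
    rw [zero_pow (by omega), sub_zero] at h9
    rw [← h9]
    calc volume (symmDiff S S')
        ≤ volume ({y : E m | 0 ≤ ‖gmtPr e (y - x)‖ ∧ ‖gmtPr e (y - x)‖ < t ∧ |⟪y - x, e⟫| ≤ ε}
            ∪ ((symmDiff H S ∩ C) \ {y | |⟪y - x, e⟫| ≤ ε})) := by
          refine measure_mono ?_
          intro y hy
          have h8 := hsd hy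
          by_cases hys : |⟪y - x, e⟫| ≤ ε
          · exact Or.inl ⟨norm_nonneg _, h8.2, hys⟩
          · exact Or.inr ⟨h8.1, hys⟩
      _ ≤ volume {y : E m | 0 ≤ ‖gmtPr e (y - x)‖ ∧ ‖gmtPr e (y - x)‖ < t ∧ |⟪y - x, e⟫| ≤ ε}
            + 0 := by
          rw [← hHS]
          exact measure_union_le _ _
      _ = _ := add_zero _
  -- arithmetic
  have hBo : IsOpen (W ∩ {y | t < f y}) := hWo.inter (isOpen_lt continuous_const hfc)
  rw [eW1] at h1
  change gmtP S' W ≤ gmtP H' (gmtCylH x t h₀ e) + gmtP S (W ∩ {y | t < f y}) + _ at h1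
  rw [eH, ← gmtMu_open S hBo, one_mul] at h1
  rw [← gmtMu_open S hWo] at h2 hp
  set Ain : Set (E m) := {y | ‖gmtPr e (y - x)‖ ≤ t ∧ |⟪y - x, e⟫| < h₀} with hAin
  have hAm : MeasurableSet Ain :=
    (measurableSet_le (qfa_continuous_pr x e).measurable measurable_const).inter
      (measurableSet_lt (qfa_continuous_ht x e).measurable measurable_const)
  have hsplit : gmtMu S Ain + gmtMu S (W ∩ {y | t < f y}) = gmtMu S W := by
    have h10 := measure_inter_add_sdiff (μ := gmtMu S) W hAm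
    have e6 : W ∩ Ain = Ain := by
      apply inter_eq_right.2
      intro y hy
      exact ⟨lt_of_le_of_lt hy.1 htq, hy.2⟩
    have e7 : W \ Ain = W ∩ {y | t < f y} := by
      ext y
      constructor
      · rintro ⟨hy1, hy2⟩
        refine ⟨hy1, ?_⟩
        by_contra hcon
        exact hy2 ⟨not_lt.1 hcon, hy1.2⟩
      · rintro ⟨hy1, hy2⟩
        exact ⟨hy1, fun hy3 => absurd hy2 (not_lt.2 hy3.1)⟩
    rwa [e6, e7] at h10
  set b := gmtMu S (W ∩ {y | t < f y}) with hb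
  have hbfin : b ≠ ⊤ := ne_top_of_le_ne_top hp (measure_mono inter_subset_left)
  have hA0 : 0 ≤ a * t ^ (m - 1) := by positivity
  have hB0 : 0 ≤ 2 * ε * (m - 1) * om * t ^ (m - 2) := by positivity
  have hC0 : 0 ≤ 2 * ε * om * t ^ (m - 1) := by positivity
  have h3 : gmtMu S Ain + b ≤
      (ENNReal.ofReal δ * b + ENNReal.ofReal ((1 + δ) * (a * t ^ (m - 1)
            + 2 * ε * (m - 1) * om * t ^ (m - 2)) + Λ * (2 * ε * om * t ^ (m - 1)))) + b := by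
    rw [hsplit]
    refine h2.trans ?_
    calc ENNReal.ofReal (1 + δ) * gmtP S' W + ENNReal.ofReal Λ * volume (symmDiff S S')
        ≤ ENNReal.ofReal (1 + δ) * (ENNReal.ofReal (a * t ^ (m - 1)) + b
            + ENNReal.ofReal (2 * ε * (m - 1) * om * t ^ (m - 2)))
          + ENNReal.ofReal Λ * ENNReal.ofReal (2 * ε * om * t ^ (m - 1)) := by
          gcongr
          refine h1.trans ?_
          gcongr
          exact hPH t ht0 htr
      _ = (ENNReal.ofReal δ * b + ENNReal.ofReal ((1 + δ) * (a * t ^ (m - 1)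
            + 2 * ε * (m - 1) * om * t ^ (m - 2)) + Λ * (2 * ε * om * t ^ (m - 1)))) + b := by
          rw [ENNReal.ofReal_add (p := (1 + δ) * (a * t ^ (m - 1)
              + 2 * ε * (m - 1) * om * t ^ (m - 2))) (by positivity) (by positivity),
            ENNReal.ofReal_mul (p := 1 + δ) (by positivity), ENNReal.ofReal_mul hΛ,
            ENNReal.ofReal_add hA0 hB0,
            ENNReal.ofReal_add zero_le_one hδ, ENNReal.ofReal_one]
          ring
  exact (ENNReal.add_le_add_iff_right hbfin).1 h3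

/-- the differential inequality for almost every radius. -/
theorem qfb_ae (hm : 2 ≤ m) {δ Λ : ℝ} (hδ : 0 ≤ δ) (hΛ : 0 ≤ Λ) {U S : Set (E m)}
    (h : GmtQM δ Λ U S) {x e : E m} (he : ‖e‖ = 1) {r h₀ ε : ℝ} (hε : 0 ≤ ε)
    (hεh : ε < h₀) (hC : closure (gmtCylH x r h₀ e) ⊆ U) {H : Set (E m)} (hH : MeasurableSet H)
    (hHS : volume ((symmDiff H S ∩ gmtCylH x r h₀ e) \ {y | |⟪y - x, e⟫| ≤ ε}) = 0)
    {a : ℝ} (ha : 0 ≤ a)
    (hPH : ∀ t, 0 < t → t < r → gmtP H (gmtCylH x t h₀ e) ≤ ENNReal.ofReal (a * t ^ (m - 1))) :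
    ∀ᵐ t : ℝ, t ∈ Ioo 0 r →
      gmtMu S {y | ‖gmtPr e (y - x)‖ ≤ t ∧ |⟪y - x, e⟫| < h₀} ≤
        ENNReal.ofReal ((1 + δ) * (a * t ^ (m - 1)
            + 2 * ε * (m - 1) * gmtOm (m - 1) * t ^ (m - 2))
          + Λ * (2 * ε * gmtOm (m - 1) * t ^ (m - 1))) := by
  have key : ∀ q : ℚ, ∀ᵐ t : ℝ, (q : ℝ) ≤ r → 0 < t → t < q →
      gmtMu S {y | ‖gmtPr e (y - x)‖ ≤ t ∧ |⟪y - x, e⟫| < h₀} ≤
        ENNReal.ofReal δ * gmtMu S (gmtCylH x q h₀ e ∩ {y | t < ‖gmtPr e (y - x)‖}) +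
        ENNReal.ofReal ((1 + δ) * (a * t ^ (m - 1)
            + 2 * ε * (m - 1) * gmtOm (m - 1) * t ^ (m - 2))
          + Λ * (2 * ε * gmtOm (m - 1) * t ^ (m - 1))) := by
    intro q
    by_cases hq : (q : ℝ) ≤ r
    · filter_upwards [qfb_step hm hδ hΛ h he hε hεh hC hH hHS ha hPH hq] with t ht _ using ht
    · exact Eventually.of_forall fun t hq' => absurd hq' hq
  rw [← ae_all_iff] at key
  filter_upwards [key] with t ht htr
  obtain ⟨ht0, htr⟩ := htr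
  have hfinr : gmtMu S (gmtCylH x r h₀ e) ≠ ⊤ := by
    rw [gmtMu_open S (isOpen_gmtCylH x r h₀ e)]
    exact h.lf.2 _ (qfb_cc he le_rfl hC)
  set A : ℕ → Set (E m) := fun n =>
    (gmtCylH x (t + 1 / ((n : ℝ) + 1)) h₀ e ∩ gmtCylH x r h₀ e) ∩ {y | t < ‖gmtPr e (y - x)‖}
    with hA
  have hAm : ∀ n, MeasurableSet (A n) := fun n =>
    (((isOpen_gmtCylH x _ h₀ e).inter (isOpen_gmtCylH x r h₀ e)).inter
      (isOpen_lt continuous_const (qfa_continuous_pr x e))).measurableSet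
  have hAanti : Antitone A := by
    intro n k hnk
    apply inter_subset_inter_left
    apply inter_subset_inter_left
    have h1 : (1 : ℝ) / ((k : ℝ) + 1) ≤ 1 / ((n : ℝ) + 1) := by
      apply one_div_le_one_div_of_le (by positivity)
      have : (n : ℝ) ≤ k := by exact_mod_cast hnk
      linarith
    intro y hy
    exact ⟨hy.1.trans_le (by linarith), hy.2⟩
  have hAempty : ⋂ n, A n = ∅ := by
    rw [eq_empty_iff_forall_notMem]
    intro y hy
    rw [mem_iInter] at hy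
    have h0 : t < ‖gmtPr e (y - x)‖ := (hy 0).2
    obtain ⟨n, hn⟩ := exists_nat_one_div_lt (sub_pos.2 h0)
    have h1 : ‖gmtPr e (y - x)‖ < t + 1 / ((n : ℝ) + 1) := (hy n).1.1.1
    linarith
  have htend : Tendsto (fun n => gmtMu S (A n)) atTop (𝓝 0) := by
    have h1 := tendsto_measure_iInter_atTop (μ := gmtMu S) (s := A)
      (fun n => (hAm n).nullMeasurableSet) hAanti
      ⟨0, ne_top_of_le_ne_top hfinr (measure_mono (inter_subset_left.trans inter_subset_right))⟩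
    rw [hAempty, measure_empty] at h1
    exact h1
  have htend2 : Tendsto (fun n => ENNReal.ofReal δ * gmtMu S (A n)) atTop (𝓝 0) := by
    have h1 := ENNReal.Tendsto.const_mul (a := ENNReal.ofReal δ) htend
      (Or.inr ENNReal.ofReal_ne_top)
    rwa [mul_zero] at h1
  refine ENNReal.le_of_forall_pos_le_add fun η hη _ => ?_
  have hη' : (0 : ℝ≥0∞) < η := by exact_mod_cast hη
  obtain ⟨n, hn⟩ := (htend2.eventually (gt_mem_nhds hη')).exists
  obtain ⟨q, hq1, hq2⟩ := exists_rat_btwn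
    (lt_min (lt_add_of_pos_right t (by positivity : (0 : ℝ) < 1 / ((n : ℝ) + 1))) htr)
  have hq3 := lt_min_iff.1 hq2
  have h4 := ht q hq3.2.le ht0 hq1
  refine h4.trans ?_
  rw [add_comm]
  gcongr
  refine le_trans ?_ hn.le
  gcongr
  intro y hy
  exact ⟨⟨⟨hy.1.1.trans hq3.1, hy.1.2⟩, ⟨hy.1.1.trans hq3.2, hy.1.2⟩⟩, hy.2⟩

/-- the comparison estimate for all radii. -/
theorem qfb_core (hm : 2 ≤ m) {δ Λ : ℝ} (hδ : 0 ≤ δ) (hΛ : 0 ≤ Λ) {U S : Set (E m)}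
    (h : GmtQM δ Λ U S) {x e : E m} (he : ‖e‖ = 1) {r h₀ ε : ℝ} (hε : 0 ≤ ε)
    (hεh : ε < h₀) (hC : closure (gmtCylH x r h₀ e) ⊆ U) {H : Set (E m)} (hH : MeasurableSet H)
    (hHS : volume ((symmDiff H S ∩ gmtCylH x r h₀ e) \ {y | |⟪y - x, e⟫| ≤ ε}) = 0)
    {a : ℝ} (ha : 0 ≤ a)
    (hPH : ∀ t, 0 < t → t < r → gmtP H (gmtCylH x t h₀ e) ≤ ENNReal.ofReal (a * t ^ (m - 1)))
    {ρ : ℝ} (hρ0 : 0 < ρ) (hρ : ρ < r) :
    gmtMu S (gmtCylH x ρ h₀ e) ≤
      ENNReal.ofReal ((1 + δ) * (a * ρ ^ (m - 1)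
          + 2 * ε * (m - 1) * gmtOm (m - 1) * ρ ^ (m - 2))
        + Λ * (2 * ε * gmtOm (m - 1) * ρ ^ (m - 1))) := by
  have good := qfb_ae hm hδ hΛ h he hε hεh hC hH hHS ha hPH
  set B : ℝ → ℝ := fun t => (1 + δ) * (a * t ^ (m - 1)
          + 2 * ε * (m - 1) * gmtOm (m - 1) * t ^ (m - 2))
        + Λ * (2 * ε * gmtOm (m - 1) * t ^ (m - 1)) with hB
  have hBc : Continuous B := by
    rw [hB]
    fun_prop
  have hex : ∀ n : ℕ, ∃ t ∈ Ioo ρ (min r (ρ + 1 / ((n : ℝ) + 1))), (t ∈ Ioo 0 r →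
      gmtMu S {y | ‖gmtPr e (y - x)‖ ≤ t ∧ |⟪y - x, e⟫| < h₀} ≤ ENNReal.ofReal (B t)) := fun n =>
    gmtQd_exists_good (lt_min hρ (lt_add_of_pos_right ρ (by positivity))) good
  choose t ht hP using hex
  have htend : Tendsto t atTop (𝓝 ρ) := by
    refine tendsto_of_tendsto_of_tendsto_of_le_of_le tendsto_const_nhds
      (h := fun n : ℕ => ρ + 1 / ((n : ℝ) + 1)) ?_ (fun n => (ht n).1.le)
      (fun n => ((ht n).2.trans_le (min_le_right _ _)).le)
    simpa using (tendsto_const_nhds (x := ρ)).add tendsto_one_div_add_atTop_nhds_zero_nat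
  refine ge_of_tendsto' ((ENNReal.continuous_ofReal.tendsto _).comp
    ((hBc.tendsto ρ).comp htend)) fun n => ?_
  refine le_trans (measure_mono ?_)
    (hP n ⟨hρ0.trans (ht n).1, (ht n).2.trans_le (min_le_left _ _)⟩)
  intro y hy
  exact ⟨(hy.1.trans (ht n).1).le, hy.2⟩

/-- (c) FLAT COMPETITOR: full below the slab `|t| ≤ ε`, empty above it. -/
theorem GmtQM.flat_le (hm : 2 ≤ m) {δ Λ : ℝ} (hδ : 0 ≤ δ) (hΛ : 0 ≤ Λ) {U S : Set (E m)}
    (hU : IsOpen U) (h : GmtQM δ Λ U S) {x e : E m} (he : ‖e‖ = 1) {r h₀ ε : ℝ} (hε : 0 ≤ ε)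
    (hεh : ε < h₀) (hC : closure (gmtCylH x r h₀ e) ⊆ U)
    (hlow : volume ({y | y ∈ gmtCylH x r h₀ e ∧ ⟪y - x, e⟫ < -ε} \ S) = 0)
    (hup : volume (S ∩ {y | y ∈ gmtCylH x r h₀ e ∧ ε < ⟪y - x, e⟫}) = 0) {ρ : ℝ} (hρ0 : 0 < ρ)
    (hρ : ρ < r) :
    gmtMu S (gmtCylH x ρ h₀ e) ≤
      ENNReal.ofReal ((1 + δ) * (gmtOm (m - 1) * ρ ^ (m - 1)
          + 2 * ε * (m - 1) * gmtOm (m - 1) * ρ ^ (m - 2))
        + Λ * (2 * ε * gmtOm (m - 1) * ρ ^ (m - 1))) := by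
  refine qfb_core hm hδ hΛ h he hε hεh hC (measurableSet_gmtHalf x e) ?_ (gmtOm_nonneg _)
    (fun t ht0 _ => (gmtP_half_cylH (by omega) x ht0 (hε.trans_lt hεh) he).le) hρ0 hρ
  refine measure_mono_null ?_ (measure_union_null hlow hup)
  rintro y ⟨⟨hy1, hyC⟩, hy2⟩
  have hy3 : ε < |⟪y - x, e⟫| := not_le.1 hy2
  rcases lt_abs.1 hy3 with h4 | h4
  · right
    refine ⟨?_, hyC, h4⟩
    rcases hy1 with ⟨hyH, -⟩ | ⟨hyS, -⟩
    · have : ⟪y - x, e⟫ < 0 := hyH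
      linarith
    · exact hyS
  · left
    refine ⟨⟨hyC, by linarith⟩, ?_⟩
    rcases hy1 with ⟨-, hyS⟩ | ⟨-, hyH⟩
    · exact hyS
    · exact absurd (show ⟪y - x, e⟫ < 0 by linarith) hyH

/-- same values above and below the slab: almost no perimeter. -/
theorem GmtQM.flat_le_triv (hm : 2 ≤ m) {δ Λ : ℝ} (hδ : 0 ≤ δ) (hΛ : 0 ≤ Λ) {U S : Set (E m)}
    (hU : IsOpen U) (h : GmtQM δ Λ U S) {x e : E m} (he : ‖e‖ = 1) {r h₀ ε : ℝ} (hε : 0 ≤ ε)
    (hεh : ε < h₀) (hC : closure (gmtCylH x r h₀ e) ⊆ U)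
    (hout : volume (S ∩ {y | y ∈ gmtCylH x r h₀ e ∧ ε < |⟪y - x, e⟫|}) = 0) {ρ : ℝ}
    (hρ0 : 0 < ρ) (hρ : ρ < r) :
    gmtMu S (gmtCylH x ρ h₀ e) ≤
      ENNReal.ofReal ((1 + δ) * (2 * ε * (m - 1) * gmtOm (m - 1) * ρ ^ (m - 2))
        + Λ * (2 * ε * gmtOm (m - 1) * ρ ^ (m - 1))) := by
  have key := qfb_core hm hδ hΛ h he hε hεh hC MeasurableSet.empty (a := 0) ?_ le_rfl
    (fun t _ _ => by rw [gmtP_empty_left]; exact zero_le) hρ0 hρ
  · simpa using key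
  · refine measure_mono_null ?_ hout
    rintro y ⟨⟨hy1, hyC⟩, hy2⟩
    have hy3 : ε < |⟪y - x, e⟫| := not_le.1 hy2
    rcases hy1 with ⟨hyH, -⟩ | ⟨hyS, -⟩
    · exact absurd hyH (notMem_empty y)
    · exact ⟨hyS, hyC, hy3⟩

end Claimed.Agent.Gmt
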