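import Claimed.Agent.Lib.Gmt.QmFlatB

/-!
# Lib/Gmt [QmFlatC = part 3/4 of the former QmFlat] G3c: flat competitors in cylinders; the density estimates for the class `GmtAM`.
(architect: helper75; PROVED: helper13; consumers: G4 = helper190's list (a)-(d), G6)

`gmtCylH x ρ h e = {‖pr_e (y-x)‖ < ρ, |⟪y-x,e⟫| < h}` (`gmtCyl x r e = gmtCylH x r r e`).

PLAN OF PROOFS
* `volume_gmtCylH`, `volume_slab_annulus`: by a linear isometry `L` with `L e = gmtEn n` (`m = n+1`; extend `e` to an orthonormal basis: `exists_orthonormalBasis_extension_of_card_eq`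
  or `Orthonormal.exists_orthonormalBasis_extension`), then `E (n+1) ≃ᵐ E n × ℝ` via `gmtHor`, `gmtVer` is measure preserving
  (`EuclideanSpace.volume_preserving_measurableEquiv` + `MeasureTheory.volume_preserving_piFinSuccAbove`/`Fin.snoc` version), product of a ball and an interval.
* `gmtP_half_cylH`: `gmtMu_gmtHalf_slab` with `g ↑ χ_{cylinder}` / or directly: `≥` with `T = φ(pr y) ψ(t) e`, `≤` by Fubini + FTC in the direction `e`.
* `gmt_slab_cases`: the two sets `{y ∈ C : ±⟪y-x,e⟫ > ε}` are open, convex (hence preconnected) and do not meet `gmtBd S`: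
  `gmtP_eq_zero_of_disjoint` + `gmtP_eq_zero_const`.
* `GmtQM.flat_le`.  `f y = ‖pr_e (y-x)‖` (continuous, `C¹` on `{0 < f}`, `|∇f| ≤ 1`), `H = gmtHalf x e`, `C = gmtCyl x r e`, `H' = (H ∩ C) ∪ (S \ C)`.
  For `ε < r' < r`, `0 < s < s' < r`, `W = gmtCylH x s' r' e`, `S' = gmtGlue f s H' S`:  `S △ S' ⊆ {f ≤ s, |t| ≤ ε}` up to a null set (`GmtQM.qm_ae`).
  `gmtPer_glue_level` (levels in `(0, s')`): for a.e. `s`:  `P(S';W) ≤ P(H; W ∩ {f<s}) + P(S; W ∩ {s<f}) + I'(s)`, where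
  `I(s) = ∫_{D ∩ {0<f<s}} |∇f|`, `D = (H' △ S) ∩ W ⊆ slab` a.e., so `I(s+h) - I(s) ≤ 2ε ω_{m-1} ((s+h)^{m-1} - s^{m-1})` and `I'(s) ≤ 2ε(m-1)ω_{m-1}s^{m-2}`.
  Quasi-minimality; subtract the finite number `μ(W ∩ {s<f})`; let `s' ↓ s` (countably many `s'`, so that the a.e. set of `s` is fixed), `r' ↑ r`, and finally `s ↓ ρ`.
* AM versions: `GmtAM.toQM` with `r = R`: `δ = κR ≤ 1`, `Λ s ≤ ΛR ≤ 1`; open balls `ball y s ⊆ ball x₀ R`: apply the QM estimates to `s' < s` (`closedBall y s' ⊆ ball y s`) and let `s' ↑ s`.  NOTE for the lower bounds: `Λ s ≤ ε₀(m)` is needed: it is a hypothesis.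
-/

set_option autoImplicit false
open scoped ContDiff ENNReal RealInnerProductSpace Topology
open MeasureTheory Metric Set Filter

namespace Claimed.Agent.Gmt

variable {m : ℕ}

/-! ### cut-off functions -/

/-- a smooth function which is `1` on `(-∞, a]` and `0` on `[b, ∞)`. -/
noncomputable def qfcCut (a b u : ℝ) : ℝ := Real.smoothTransition ((b - u) / (b - a))

theorem qfcCut_contDiff (a b : ℝ) : ContDiff ℝ ∞ (qfcCut a b) := by
  unfold qfcCut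
  exact Real.smoothTransition.contDiff.comp ((contDiff_const.sub contDiff_id).div_const _)

theorem qfcCut_one {a b u : ℝ} (hab : a < b) (hu : u ≤ a) : qfcCut a b u = 1 := by
  unfold qfcCut
  apply Real.smoothTransition.one_of_one_le
  rw [le_div_iff₀ (sub_pos.2 hab)]
  linarith

theorem qfcCut_zero {a b u : ℝ} (hab : a < b) (hu : b ≤ u) : qfcCut a b u = 0 := by
  unfold qfcCut
  apply Real.smoothTransition.zero_of_nonpos
  exact div_nonpos_of_nonpos_of_nonneg (by linarith) (sub_pos.2 hab).le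

theorem qfcCut_nonneg (a b u : ℝ) : 0 ≤ qfcCut a b u := Real.smoothTransition.nonneg _

theorem qfcCut_le_one (a b u : ℝ) : qfcCut a b u ≤ 1 := Real.smoothTransition.le_one _

/-- the horizontal cut-off. -/
noncomputable def qfcEta (x e : E m) (a b : ℝ) (y : E m) : ℝ :=
  qfcCut (a ^ 2) (b ^ 2) (‖gmtPr e (y - x)‖ ^ 2)

/-- the vertical cut-off. -/
noncomputable def qfcPsi (x e : E m) (a b : ℝ) (y : E m) : ℝ :=
  qfcCut (a ^ 2) (b ^ 2) (⟪y - x, e⟫ ^ 2)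

theorem qfcEta_contDiff (x e : E m) (a b : ℝ) : ContDiff ℝ 1 (qfcEta x e a b) := by
  unfold qfcEta
  exact ((qfcCut_contDiff _ _).of_le (by norm_num)).comp ((qfb_contDiff_pr x e).norm_sq ℝ)

theorem qfcPsi_contDiff (x e : E m) (a b : ℝ) : ContDiff ℝ 1 (qfcPsi x e a b) := by
  unfold qfcPsi
  have h1 : ContDiff ℝ 1 fun y : E m => y - x := contDiff_id.sub contDiff_const
  exact ((qfcCut_contDiff _ _).of_le (by norm_num)).comp ((h1.inner ℝ contDiff_const).pow 2)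

theorem qfc_pr_add {e : E m} (he : ‖e‖ = 1) (x y : E m) (t : ℝ) :
    gmtPr e (y + t • e - x) = gmtPr e (y - x) := by
  unfold gmtPr
  have h1 : y + t • e - x = (y - x) + t • e := by abel
  rw [h1, inner_add_left, inner_smul_left, real_inner_self_eq_norm_sq, he]
  simp only [RCLike.conj_to_real]
  module

theorem qfc_ht_add {e : E m} (he : ‖e‖ = 1) (x y : E m) (t : ℝ) :
    ⟪y + t • e - x, e⟫ = ⟪y - x, e⟫ + t := by
  have h1 : y + t • e - x = (y - x) + t • e := by abel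
  rw [h1, inner_add_left, inner_smul_left, real_inner_self_eq_norm_sq, he]
  simp

/-- the scalar test function. -/
noncomputable def qfcG (φ : E m → ℝ) (x e : E m) (a b a' b' : ℝ) (y : E m) : ℝ :=
  φ y * (qfcEta x e a b y * qfcPsi x e a' b' y)

theorem qfcG_contDiff {φ : E m → ℝ} (hφ : ContDiff ℝ 1 φ) (x e : E m) (a b a' b' : ℝ) :
    ContDiff ℝ 1 (qfcG φ x e a b a' b') := by
  unfold qfcG
  exact hφ.mul ((qfcEta_contDiff x e a b).mul (qfcPsi_contDiff x e a' b'))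

theorem qfcG_eq_zero (φ : E m → ℝ) (x e : E m) {a b a' b' : ℝ} (ha : 0 ≤ a) (hab : a < b)
    (ha' : 0 ≤ a') (hab' : a' < b') {y : E m}
    (hy : y ∉ {y : E m | ‖gmtPr e (y - x)‖ ≤ b ∧ |⟪y - x, e⟫| ≤ b'}) :
    qfcG φ x e a b a' b' y = 0 := by
  unfold qfcG
  by_cases h1 : ‖gmtPr e (y - x)‖ ≤ b
  · have h2 : b' < |⟪y - x, e⟫| := by
      by_contra hcon
      exact hy ⟨h1, not_lt.1 hcon⟩
    have h3 : qfcPsi x e a' b' y = 0 := by
      unfold qfcPsi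
      apply qfcCut_zero (pow_lt_pow_left₀ hab' ha' two_ne_zero)
      rw [← sq_abs ⟪y - x, e⟫]
      exact pow_le_pow_left₀ (ha'.trans hab'.le) h2.le 2
    rw [h3, mul_zero, mul_zero]
  · have h3 : qfcEta x e a b y = 0 := by
      unfold qfcEta
      apply qfcCut_zero (pow_lt_pow_left₀ hab ha two_ne_zero)
      exact pow_le_pow_left₀ (ha.trans hab.le) (not_le.1 h1).le 2
    rw [h3, zero_mul, mul_zero]

theorem qfcPsi_eq_one (x e : E m) {a' b' : ℝ} (ha' : 0 ≤ a') (hab' : a' < b') {y : E m}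
    (hy : |⟪y - x, e⟫| ≤ a') : qfcPsi x e a' b' y = 1 := by
  unfold qfcPsi
  apply qfcCut_one (pow_lt_pow_left₀ hab' ha' two_ne_zero)
  rw [← sq_abs ⟪y - x, e⟫]
  exact pow_le_pow_left₀ (abs_nonneg _) hy 2

theorem qfcEta_eq_one (x e : E m) {a b : ℝ} (ha : 0 ≤ a) (hab : a < b) {y : E m}
    (hy : ‖gmtPr e (y - x)‖ ≤ a) : qfcEta x e a b y = 1 := by
  unfold qfcEta
  apply qfcCut_one (pow_lt_pow_left₀ hab ha two_ne_zero)
  exact pow_le_pow_left₀ (norm_nonneg _) hy 2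

/-- the vertical derivative of the test function vanishes in the slab. -/
theorem qfcG_fderiv {φ : E m → ℝ} (hφ : ContDiff ℝ 1 φ) {x e : E m} (he : ‖e‖ = 1)
    (hinv : ∀ y (t : ℝ), φ (y + t • e) = φ y) (a b : ℝ) {a' b' : ℝ} (ha' : 0 ≤ a')
    (hab' : a' < b') {y : E m} (hy : |⟪y - x, e⟫| < a') :
    fderiv ℝ (qfcG φ x e a b a' b') y e = 0 := by
  have hd : DifferentiableAt ℝ (qfcG φ x e a b a' b') y :=
    (qfcG_contDiff hφ x e a b a' b').differentiable one_ne_zero y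
  rw [← hd.lineDeriv_eq_fderiv, lineDeriv]
  have hev : (fun t : ℝ => qfcG φ x e a b a' b' (y + t • e)) =ᶠ[𝓝 0]
      fun _ => qfcG φ x e a b a' b' y := by
    have hc : Continuous fun t : ℝ => |⟪y - x, e⟫ + t| := by fun_prop
    have h0 : |⟪y - x, e⟫ + 0| < a' := by simpa using hy
    filter_upwards [hc.continuousAt.eventually (gt_mem_nhds h0)] with t ht
    unfold qfcG
    rw [hinv, qfcPsi_eq_one x e ha' hab' hy.le,
      qfcPsi_eq_one x e ha' hab' (y := y + t • e) (by rw [qfc_ht_add he]; exact ht.le)]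
    unfold qfcEta
    rw [qfc_pr_add he]
  rw [hev.deriv_eq, deriv_const]

/-- the test field. -/
theorem qfc_test {φ : E m → ℝ} (hφ : ContDiff ℝ 1 φ) (x : E m) {e : E m} (he : ‖e‖ = 1)
    {a b a' b' : ℝ} (ha : 0 ≤ a) (hab : a < b) (ha' : 0 ≤ a') (hab' : a' < b') {U : Set (E m)}
    (hU : {y : E m | ‖gmtPr e (y - x)‖ ≤ b ∧ |⟪y - x, e⟫| ≤ b'} ⊆ U) :
    GmtTest U fun y => qfcG φ x e a b a' b' y • e := by
  have hK := qfb_isCompact_slab x he b b'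
  have hz : ∀ y, y ∉ {y : E m | ‖gmtPr e (y - x)‖ ≤ b ∧ |⟪y - x, e⟫| ≤ b'} →
      qfcG φ x e a b a' b' y • e = 0 := fun y hy => by
    rw [qfcG_eq_zero φ x e ha hab ha' hab' hy, zero_smul]
  refine ⟨(qfcG_contDiff hφ x e a b a' b').smul contDiff_const, HasCompactSupport.intro hK hz, ?_⟩
  refine (closure_minimal ?_ hK.isClosed).trans hU
  intro y hy
  by_contra hcon
  exact hy (hz y hcon)

theorem qfc_div {φ : E m → ℝ} (hφ : ContDiff ℝ 1 φ) (x e : E m) (a b a' b' : ℝ) (y : E m) :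
    gmtDiv (fun y => qfcG φ x e a b a' b' y • e) y = fderiv ℝ (qfcG φ x e a b a' b') y e := by
  rw [gmtDiv_smul ((qfcG_contDiff hφ x e a b a' b').differentiable one_ne_zero y)
    (differentiableAt_const e), rb_div_const, mul_zero, zero_add]

theorem qfc_div_congr {φ : E m → ℝ} (hφ : ContDiff ℝ 1 φ) {x e : E m} (he : ‖e‖ = 1)
    (hinv : ∀ y (t : ℝ), φ (y + t • e) = φ y) {a b a' b' ρ h₀ ε : ℝ} (ha : 0 ≤ a) (hab : a < b)
    (hbρ : b < ρ) (hε : 0 ≤ ε) (hεa' : ε < a') (hab' : a' < b') (hb'h : b' < h₀)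
    {S H : Set (E m)} (hS : MeasurableSet S) (hH : MeasurableSet H)
    (hSH : volume ((symmDiff H S ∩ gmtCylH x ρ h₀ e) \ {y | |⟪y - x, e⟫| ≤ ε}) = 0) :
    ∫ y in S, gmtDiv (fun y => qfcG φ x e a b a' b' y • e) y =
      ∫ y in H, gmtDiv (fun y => qfcG φ x e a b a' b' y • e) y := by
  have ha' : 0 ≤ a' := hε.trans hεa'.le
  have hT : GmtTest (gmtCylH x ρ h₀ e) fun y => qfcG φ x e a b a' b' y • e :=
    qfc_test hφ x he ha hab ha' hab' fun y hy =>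
      ⟨lt_of_le_of_lt hy.1 hbρ, lt_of_le_of_lt hy.2 hb'h⟩
  rw [← integral_indicator hS, ← integral_indicator hH]
  apply integral_congr_ae
  filter_upwards [measure_eq_zero_iff_ae_notMem.1 hSH] with y hy
  have hz : y ∈ symmDiff H S → gmtDiv (fun y => qfcG φ x e a b a' b' y • e) y = 0 := by
    intro hsd
    by_cases hyC : y ∈ gmtCylH x ρ h₀ e
    · have h1 : |⟪y - x, e⟫| ≤ ε := by
        by_contra hcon
        exact hy ⟨⟨hsd, hyC⟩, hcon⟩
      rw [qfc_div hφ, qfcG_fderiv hφ he hinv a b ha' hab' (lt_of_le_of_lt h1 hεa')]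
    · exact gmtDiv_eq_zero_of_notMem fun h' => hyC (hT.sub h')
  by_cases h1 : y ∈ S <;> by_cases h2 : y ∈ H
  · simp [h1, h2]
  · simp [h1, h2, hz (Or.inr ⟨h1, h2⟩)]
  · simp [h1, h2, hz (Or.inl ⟨h2, h1⟩)]
  · simp [h1, h2]

theorem qfc_gg {φ : E m → ℝ} (hφ : ContDiff ℝ 1 φ) {x e : E m} (he : ‖e‖ = 1)
    {a b a' b' ρ h₀ ε : ℝ} (ha : 0 ≤ a) (hab : a < b)
    (hbρ : b < ρ) (hε : 0 ≤ ε) (hεa' : ε < a') (hab' : a' < b') (hb'h : b' < h₀)
    {U A : Set (E m)} (hU : IsOpen U) (hA : GmtLF A U) (hCU : gmtCylH x ρ h₀ e ⊆ U)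
    (hnull : gmtMu A {y | y ∈ gmtCylH x ρ h₀ e ∧ ε < |⟪y - x, e⟫|} = 0) :
    ∫ y in A, gmtDiv (fun y => qfcG φ x e a b a' b' y • e) y =
      ∫ y in gmtCylH x ρ h₀ e, qfcEta x e a b y * (φ y * ⟪gmtNu A y, e⟫) ∂(gmtMu A) := by
  have ha' : 0 ≤ a' := hε.trans hεa'.le
  have hKC : {y : E m | ‖gmtPr e (y - x)‖ ≤ b ∧ |⟪y - x, e⟫| ≤ b'} ⊆ gmtCylH x ρ h₀ e :=
    fun y hy => ⟨lt_of_le_of_lt hy.1 hbρ, lt_of_le_of_lt hy.2 hb'h⟩
  rw [gmt_gauss_green hU hA (qfc_test hφ x he ha hab ha' hab' (hKC.trans hCU)),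
    ← gmt_integral_restrict_of_tsupport (U := gmtCylH x ρ h₀ e)]
  · refine setIntegral_congr_ae (isOpen_gmtCylH x ρ h₀ e).measurableSet ?_
    filter_upwards [measure_eq_zero_iff_ae_notMem.1 hnull] with y hy hyC
    have h1 : |⟪y - x, e⟫| ≤ ε := by
      by_contra hcon
      exact hy ⟨hyC, not_le.1 hcon⟩
    rw [real_inner_smul_left, real_inner_comm]
    unfold qfcG
    rw [qfcPsi_eq_one x e ha' hab' (h1.trans hεa'.le)]
    ring
  · intro y hy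
    rw [qfcG_eq_zero φ x e ha hab ha' hab' (fun h' => hy (hKC h')), zero_smul, inner_zero_left]

theorem qfc_tendsto {μ : Measure (E m)} {x e : E m} {ρ h₀ : ℝ} (hρ : 0 < ρ)
    (hμ : μ (gmtCylH x ρ h₀ e) ≠ ⊤) {F : E m → ℝ} (hF : Measurable F) {M : ℝ}
    (hM : ∀ y ∈ gmtCylH x ρ h₀ e, |F y| ≤ M) :
    Tendsto (fun k : ℕ => ∫ y in gmtCylH x ρ h₀ e,
        qfcEta x e (ρ - ρ / ((k : ℝ) + 2)) (ρ - ρ / ((k : ℝ) + 3)) y * F y ∂μ) atTop
      (𝓝 (∫ y in gmtCylH x ρ h₀ e, F y ∂μ)) := by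
  have hCm : MeasurableSet (gmtCylH x ρ h₀ e) := (isOpen_gmtCylH x ρ h₀ e).measurableSet
  have : IsFiniteMeasure (μ.restrict (gmtCylH x ρ h₀ e)) :=
    ⟨by rw [Measure.restrict_apply_univ]; exact hμ.lt_top⟩
  refine tendsto_integral_of_dominated_convergence (fun _ => M) ?_ (integrable_const M) ?_ ?_
  · intro k
    exact ((qfcEta_contDiff x e _ _).continuous.measurable.mul hF).aestronglyMeasurable
  · intro k
    refine (ae_restrict_iff' hCm).2 (Eventually.of_forall fun y hy => ?_)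
    have h0 : 0 ≤ qfcEta x e (ρ - ρ / ((k : ℝ) + 2)) (ρ - ρ / ((k : ℝ) + 3)) y :=
      qfcCut_nonneg _ _ _
    rw [Real.norm_eq_abs, abs_mul, abs_of_nonneg h0]
    calc qfcEta x e (ρ - ρ / ((k : ℝ) + 2)) (ρ - ρ / ((k : ℝ) + 3)) y * |F y|
        ≤ 1 * |F y| := mul_le_mul_of_nonneg_right (qfcCut_le_one _ _ _) (abs_nonneg _)
      _ ≤ M := by rw [one_mul]; exact hM y hy
  · refine (ae_restrict_iff' hCm).2 (Eventually.of_forall fun y hy => ?_)
    have h1 : Tendsto (fun k : ℕ => ρ - ρ / ((k : ℝ) + 2)) atTop (𝓝 ρ) := by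
      have h2 := (tendsto_add_atTop_iff_nat 2).2 (tendsto_const_div_atTop_nhds_zero_nat ρ)
      have h3 := (tendsto_const_nhds (x := ρ)).sub h2
      simpa using h3
    have h4 := h1.eventually (lt_mem_nhds hy.1)
    refine tendsto_const_nhds.congr' ?_
    filter_upwards [h4] with k hk
    have hk2 : (0 : ℝ) < (k : ℝ) + 2 := by positivity
    have hk3 : (0 : ℝ) < (k : ℝ) + 3 := by positivity
    rw [qfcEta_eq_one x e ((norm_nonneg _).trans hk.le) ?_ hk.le, one_mul]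
    have : ρ / ((k : ℝ) + 3) < ρ / ((k : ℝ) + 2) := by
      apply div_lt_div_of_pos_left hρ hk2
      linarith
    linarith

theorem qfc_symmDiff_null {S : Set (E m)} {x e : E m} {ρ h₀ ε : ℝ} (hε : 0 ≤ ε)
    (hlow : volume ({y | y ∈ gmtCylH x ρ h₀ e ∧ ⟪y - x, e⟫ < -ε} \ S) = 0)
    (hup : volume (S ∩ {y | y ∈ gmtCylH x ρ h₀ e ∧ ε < ⟪y - x, e⟫}) = 0) :
    volume ((symmDiff (gmtHalf x e) S ∩ gmtCylH x ρ h₀ e) \ {y | |⟪y - x, e⟫| ≤ ε}) = 0 := by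
  refine measure_mono_null ?_ (measure_union_null hlow hup)
  rintro y ⟨⟨hy1, hyC⟩, hy2⟩
  have hy3 : ε < |⟪y - x, e⟫| := not_le.1 hy2
  rcases lt_abs.1 hy3 with h4 | h4
  · right
    refine ⟨?_, hyC, h4⟩
    rcases hy1 with ⟨hyH, -⟩ | ⟨hyS, -⟩
    · have : ⟪y - x, e⟫ < 0 := hyH
      linarith
    · exact hyS
  · left
    refine ⟨⟨hyC, by linarith⟩, ?_⟩
    rcases hy1 with ⟨-, hyS⟩ | ⟨-, hyH⟩
    · exact hyS
    · exact absurd (show ⟪y - x, e⟫ < 0 by linarith) hyH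

/-- the perimeter measure does not charge the part of the cylinder off the slab. -/
theorem qfc_mu_null {S : Set (E m)} (hS : MeasurableSet S) {x e : E m} {ρ h₀ ε : ℝ}
    (hlow : volume ({y | y ∈ gmtCylH x ρ h₀ e ∧ ⟪y - x, e⟫ < -ε} \ S) = 0)
    (hup : volume (S ∩ {y | y ∈ gmtCylH x ρ h₀ e ∧ ε < ⟪y - x, e⟫}) = 0) :
    gmtMu S {y | y ∈ gmtCylH x ρ h₀ e ∧ ε < |⟪y - x, e⟫|} = 0 := by
  have ho1 : IsOpen {y | y ∈ gmtCylH x ρ h₀ e ∧ ⟪y - x, e⟫ < -ε} :=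
    (isOpen_gmtCylH x ρ h₀ e).inter
      (isOpen_lt (f := fun y : E m => ⟪y - x, e⟫) (by fun_prop) continuous_const)
  have ho2 : IsOpen {y | y ∈ gmtCylH x ρ h₀ e ∧ ε < ⟪y - x, e⟫} :=
    (isOpen_gmtCylH x ρ h₀ e).inter
      (isOpen_lt (g := fun y : E m => ⟪y - x, e⟫) continuous_const (by fun_prop))
  have h1 : gmtMu S {y | y ∈ gmtCylH x ρ h₀ e ∧ ⟪y - x, e⟫ < -ε} = 0 := by
    rw [gmtMu_open S ho1]
    exact gmtP_eq_zero_of_null hS (Or.inr hlow)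
  have h2 : gmtMu S {y | y ∈ gmtCylH x ρ h₀ e ∧ ε < ⟪y - x, e⟫} = 0 := by
    rw [gmtMu_open S ho2]
    exact gmtP_eq_zero_of_null hS (Or.inl hup)
  refine measure_mono_null ?_ (measure_union_null h1 h2)
  rintro y ⟨hyC, hy⟩
  rcases lt_abs.1 hy with h4 | h4
  · exact Or.inr ⟨hyC, h4⟩
  · exact Or.inl ⟨hyC, by linarith⟩

/-- weighted version: for `φ ∈ C¹` of the horizontal variable. -/
theorem gmt_flux_cylH_weight (hm : 1 ≤ m) {U S : Set (E m)} (hU : IsOpen U) (hS : GmtLF S U)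
    {x e : E m} (he : ‖e‖ = 1) {ρ h₀ ε : ℝ} (hρ : 0 < ρ) (hε : 0 ≤ ε) (hεh : ε < h₀)
    (hC : closure (gmtCylH x ρ h₀ e) ⊆ U)
    (hlow : volume ({y | y ∈ gmtCylH x ρ h₀ e ∧ ⟪y - x, e⟫ < -ε} \ S) = 0)
    (hup : volume (S ∩ {y | y ∈ gmtCylH x ρ h₀ e ∧ ε < ⟪y - x, e⟫}) = 0) {φ : E m → ℝ}
    (hφ : ContDiff ℝ 1 φ) (hinv : ∀ y (t : ℝ), φ (y + t • e) = φ y) :
    ∫ y in gmtCylH x ρ h₀ e, φ y * ⟪gmtNu S y, e⟫ ∂(gmtMu S) =
      ∫ y in gmtCylH x ρ h₀ e, φ y ∂(gmtMu (gmtHalf x e)) := by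
  have hCU : gmtCylH x ρ h₀ e ⊆ U := subset_closure.trans hC
  have hcc : GmtCC (gmtCylH x ρ h₀ e) U := qfb_cc he le_rfl hC
  have hHlf : GmtLF (gmtHalf x e) U := (gmtHalf_lf x he).mono (subset_univ _)
  have hnS := qfc_mu_null hS.1 hlow hup
  have hnH : gmtMu (gmtHalf x e) {y | y ∈ gmtCylH x ρ h₀ e ∧ ε < |⟪y - x, e⟫|} = 0 :=
    measure_mono_null (fun y hy => abs_pos.1 (hε.trans_lt hy.2)) (gmtMu_gmtHalf_compl x he)
  have hSH := qfc_symmDiff_null hε hlow hup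
  have h1 : ε < (2 * ε + h₀) / 3 := by linarith
  have h2 : (2 * ε + h₀) / 3 < (ε + 2 * h₀) / 3 := by linarith
  have h3 : (ε + 2 * h₀) / 3 < h₀ := by linarith
  have key : ∀ k : ℕ,
      ∫ y in gmtCylH x ρ h₀ e, qfcEta x e (ρ - ρ / ((k : ℝ) + 2)) (ρ - ρ / ((k : ℝ) + 3)) y *
        (φ y * ⟪gmtNu S y, e⟫) ∂(gmtMu S) =
      ∫ y in gmtCylH x ρ h₀ e, qfcEta x e (ρ - ρ / ((k : ℝ) + 2)) (ρ - ρ / ((k : ℝ) + 3)) y *
        (φ y * ⟪gmtNu (gmtHalf x e) y, e⟫) ∂(gmtMu (gmtHalf x e)) := by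
    intro k
    have hk2 : (0 : ℝ) < (k : ℝ) + 2 := by positivity
    have hk3 : (0 : ℝ) < (k : ℝ) + 3 := by positivity
    have ha : 0 ≤ ρ - ρ / ((k : ℝ) + 2) := by
      have : ρ / ((k : ℝ) + 2) ≤ ρ := div_le_self hρ.le (by linarith)
      linarith
    have hab : ρ - ρ / ((k : ℝ) + 2) < ρ - ρ / ((k : ℝ) + 3) := by
      have : ρ / ((k : ℝ) + 3) < ρ / ((k : ℝ) + 2) := by
        apply div_lt_div_of_pos_left hρ hk2
        linarith
      linarith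
    have hbρ : ρ - ρ / ((k : ℝ) + 3) < ρ := by
      have : 0 < ρ / ((k : ℝ) + 3) := by positivity
      linarith
    rw [← qfc_gg hφ he ha hab hbρ hε h1 h2 h3 hU hS hCU hnS,
      ← qfc_gg hφ he ha hab hbρ hε h1 h2 h3 hU hHlf hCU hnH,
      qfc_div_congr hφ he hinv ha hab hbρ hε h1 h2 h3 hS.1 (measurableSet_gmtHalf x e) hSH]
  obtain ⟨M, hM⟩ := hcc.2.1.exists_bound_of_continuousOn hφ.continuous.continuousOn
  have hbound : ∀ A : Set (E m), ∀ y ∈ gmtCylH x ρ h₀ e, |φ y * ⟪gmtNu A y, e⟫| ≤ M := by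
    intro A y hy
    have h4 : |⟪gmtNu A y, e⟫| ≤ 1 := by
      calc |⟪gmtNu A y, e⟫| ≤ ‖gmtNu A y‖ * ‖e‖ := abs_real_inner_le_norm _ _
        _ ≤ 1 := by rw [he, mul_one]; exact norm_gmtNu_le_one A y
    have h5 : |φ y| ≤ M := hM y (subset_closure hy)
    rw [abs_mul]
    calc |φ y| * |⟪gmtNu A y, e⟫| ≤ |φ y| * 1 := mul_le_mul_of_nonneg_left h4 (abs_nonneg _)
      _ ≤ M := by rw [mul_one]; exact h5
  have hmeas : ∀ A : Set (E m), Measurable fun y => φ y * ⟪gmtNu A y, e⟫ := fun A =>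
    hφ.continuous.measurable.mul ((measurable_gmtNu A).inner measurable_const)
  have hfin : ∀ A : Set (E m), GmtLF A U → gmtMu A (gmtCylH x ρ h₀ e) ≠ ⊤ := fun A hA => by
    rw [gmtMu_open A hcc.1]
    exact hA.2 _ hcc
  have l1 := qfc_tendsto (x := x) (e := e) (h₀ := h₀) hρ (hfin S hS) (hmeas S) (hbound S)
  have l2 := qfc_tendsto (x := x) (e := e) (h₀ := h₀) hρ (hfin _ hHlf) (hmeas (gmtHalf x e))
    (hbound _)
  rw [tendsto_nhds_unique l1 (l2.congr fun k => (key k).symm)]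
  apply integral_congr_ae
  filter_upwards [ae_restrict_of_ae (gmtNu_gmtHalf x he)] with y hy
  rw [hy, real_inner_self_eq_norm_sq, he]
  simp

/-- LOWER BOUND by projection: full below, empty above ⇒ the perimeter in the cylinder is at least
the area of the disc; more precisely `∫_C ⟪ν,e⟫ dμ = ω_{m-1} ρ^{m-1}`. -/
theorem gmt_flux_cylH (hm : 1 ≤ m) {U S : Set (E m)} (hU : IsOpen U) (hS : GmtLF S U) {x e : E m}
    (he : ‖e‖ = 1) {ρ h₀ ε : ℝ} (hρ : 0 < ρ) (hε : 0 ≤ ε) (hεh : ε < h₀)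
    (hC : closure (gmtCylH x ρ h₀ e) ⊆ U)
    (hlow : volume ({y | y ∈ gmtCylH x ρ h₀ e ∧ ⟪y - x, e⟫ < -ε} \ S) = 0)
    (hup : volume (S ∩ {y | y ∈ gmtCylH x ρ h₀ e ∧ ε < ⟪y - x, e⟫}) = 0) :
    ∫ y in gmtCylH x ρ h₀ e, ⟪gmtNu S y, e⟫ ∂(gmtMu S) = gmtOm (m - 1) * ρ ^ (m - 1) := by
  have h := gmt_flux_cylH_weight hm hU hS he hρ hε hεh hC hlow hup (φ := fun _ => 1)
    contDiff_const (fun _ _ => rfl)
  simp only [one_mul] at h
  rw [h, setIntegral_const, smul_eq_mul, mul_one, measureReal_def,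
    gmtMu_open _ (isOpen_gmtCylH x ρ h₀ e), gmtP_half_cylH hm x hρ (hε.trans_lt hεh) he,
    ENNReal.toReal_ofReal (mul_nonneg (gmtOm_nonneg _) (by positivity))]

end Claimed.Agent.Gmt
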