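import Claimed.Agent.Lib.Gmt.GgMeas
import Claimed.Agent.Lib.Gmt.FlCoord2

/-!
# Lib/Gmt [RbHalfA = part 1/2 of the former RbHalf] G2a: half spaces; sets with constant normal.   (architect: helper75)

PLAN OF PROOFS
* `gmtHalf_gg`: by an isometry (`gmtP_isometry`, or directly with an orthonormal basis containing `e`) reduce to `e = e_last`; Fubini and the fundamental
  theorem of calculus in the direction `e`: `∫_{⟪y-x,e⟫<0} div T = ∫_{hyperplane} T·e`.  To avoid a measure on the hyperplane we record the result in the "slab limit" form: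
  `∫ g dμ_H = lim_{ε→0} (2ε)⁻¹ ∫_{|⟪y-x,e⟫|<ε} g` for `g ∈ C_c`.
* `gmtP_half_ball`: from the slab limit, or: `≥` with `T = φ e`, `≤` with Fubini; the value is the volume of the `(m-1)`-ball
  (`|{y ∈ B_r : |y·e| < ε}| / 2ε → ω_{m-1} r^{m-1}`; Mathlib: volume of Euclidean balls `EuclideanSpace.volume_ball`, Fubini via `gmtJoin`).
* `gmt_const_normal` (Maggi Prop. 15.15): if `ν_S = e` a.e. in the ball `B`, then for `v ⊥ e`: `∫_S ∂_v φ = 0`, and `∫_S ∂_e φ ≥ 0` for `φ ≥ 0`.  Mollify:
  `u_ε = gmtMol ε χ_S` satisfies `∂_v u_ε = 0`, `∂_e u_ε ≤ 0` on `B_{r-ε}`; so `u_ε(y) = h_ε(⟪y,e⟫)`, `h_ε` nonincreasing; the `L¹` limit is the characteristic function of `{⟪y - x,e⟫ < c}`.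

PROOFS (helper214).  Frame: a linear isometry `L` of `E (n+1)` with `L (gmtEn n) = e` (`rb_exists_frame`); `rbP L x z = x + L (z,0)` parametrises the hyperplane.
`rb_gg`: Gauss-Green for the half space: `T = T₀ + ⟪T,e⟫ e`; tangential part `T₀`: integration by parts against smooth functions of `⟪y-x,e⟫` + dominated convergence; normal part: Fubini + FTC.
`rb_core`: by `gmtMu_gmtNu_unique`, `gmtMu (gmtHalf x e) = map (rbP L x) volume` and `gmtNu = e`.  Everything else is read off from `rb_core`.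
CHANGE OF STATEMENT: `gmtMu_half_sphere` needs `2 ≤ m` (for `m = 1` the perimeter measure is a Dirac mass at `x`, and `x` lies on spheres).
-/

set_option autoImplicit false
open scoped ContDiff ENNReal RealInnerProductSpace Topology
open MeasureTheory Metric Set Filter

namespace Claimed.Agent.Gmt

variable {m n : ℕ}

/-! ### frames -/

/-- a linear isometry of `E (n+1)` which maps the vertical vector to the unit vector `e`. -/
theorem rb_exists_frame {e : E (n + 1)} (he : ‖e‖ = 1) : ∃ L : E (n + 1) ≃ₗᵢ[ℝ] E (n + 1), L (gmtEn n) = e := by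
  have hv : Orthonormal ℝ (({Fin.last n} : Set (Fin (n + 1))).domRestrict fun _ => e) := by
    refine ⟨fun _ => he, fun i j hij => ?_⟩
    exact absurd (Subtype.ext (i.2.trans j.2.symm)) hij
  obtain ⟨b, hb⟩ := hv.exists_orthonormalBasis_extension_of_card_eq (by simp)
  refine ⟨b.repr.symm, ?_⟩
  rw [OrthonormalBasis.repr_symm_single]
  exact hb _ rfl

theorem rb_inner_join (L : E (n + 1) ≃ₗᵢ[ℝ] E (n + 1)) (y : E n) (s : ℝ) :
    ⟪L (gmtJoin y s), L (gmtEn n)⟫ = s := by
  rw [L.inner_map_map, ← fl_ver_eq_inner, fl_ver_join]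

theorem rb_map_join (L : E (n + 1) ≃ₗᵢ[ℝ] E (n + 1)) (y : E n) (s : ℝ) :
    L (gmtJoin y s) = L (flInc n y) + s • L (gmtEn n) := by
  rw [fl_join_eq, map_add, map_smul]

/-- FUBINI in the frame `L` centred at `x`. -/
theorem rb_integral_frame (L : E (n + 1) ≃ₗᵢ[ℝ] E (n + 1)) (x : E (n + 1)) {F : E (n + 1) → ℝ} (hF : Integrable F) :
    ∫ y, F y = ∫ z, ∫ s, F (x + L (gmtJoin z s)) := by
  have h1 : Integrable fun z => F (x + z) := hF.comp_add_left x
  have h2 : Integrable fun z => F (x + L z) := L.measurePreserving.integrable_comp_of_integrable h1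
  rw [← fl_integral_join h2, L.measurePreserving.integral_comp L.toHomeomorph.measurableEmbedding (fun z => F (x + z)),
    integral_add_left_eq_self]

theorem rb_integrable_frame (L : E (n + 1) ≃ₗᵢ[ℝ] E (n + 1)) (x : E (n + 1)) {F : E (n + 1) → ℝ} (hF : Integrable F) :
    Integrable (fun p : E n × ℝ => F (x + L (gmtJoin p.1 p.2))) ((volume : Measure (E n)).prod (volume : Measure ℝ)) :=
  fl_integrable_join (F := fun z => F (x + L z))
    (L.measurePreserving.integrable_comp_of_integrable (hF.comp_add_left x))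

theorem measurableSet_gmtHalf (x e : E m) : MeasurableSet (gmtHalf x e) :=
  (isOpen_lt (by fun_prop) continuous_const).measurableSet

/-- membership in the half space, in the frame. -/
theorem rb_mem_half (L : E (n + 1) ≃ₗᵢ[ℝ] E (n + 1)) (x : E (n + 1)) (y : E n) (s : ℝ) :
    x + L (gmtJoin y s) ∈ gmtHalf x (L (gmtEn n)) ↔ s < 0 := by
  show ⟪x + L (gmtJoin y s) - x, L (gmtEn n)⟫ < 0 ↔ _
  rw [add_sub_cancel_left, rb_inner_join]

/-- the normal part of the Gauss-Green formula: FTC along the lines parallel to `e`. -/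
theorem rb_gg_normal (L : E (n + 1) ≃ₗᵢ[ℝ] E (n + 1)) (x : E (n + 1)) {a : E (n + 1) → ℝ} (ha : ContDiff ℝ 1 a)
    (hc : HasCompactSupport a) :
    ∫ y in gmtHalf x (L (gmtEn n)), fderiv ℝ a y (L (gmtEn n)) = ∫ z, a (x + L (flInc n z)) := by
  set e := L (gmtEn n) with he
  have hcont : Continuous fun y => fderiv ℝ a y e := (ha.continuous_fderiv one_ne_zero).clm_apply continuous_const
  have hcs : HasCompactSupport fun y => fderiv ℝ a y e := (hc.fderiv (𝕜 := ℝ)).comp_left (g := fun A : E (n + 1) →L[ℝ] ℝ => A e) (by simp)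
  have hint : Integrable fun y => fderiv ℝ a y e := hcont.integrable_of_hasCompactSupport hcs
  rw [← integral_indicator (measurableSet_gmtHalf x e),
    rb_integral_frame L x (hint.indicator (measurableSet_gmtHalf x e))]
  refine integral_congr_ae (Eventually.of_forall fun z => ?_)
  simp only
  -- the line through `x + L (z,0)`
  set h : ℝ → ℝ := fun s => a (x + L (flInc n z) + s • e) with hh
  have hline : ContDiff ℝ 1 fun s : ℝ => x + L (flInc n z) + s • e := by fun_prop
  have hh1 : ContDiff ℝ 1 h := ha.comp hline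
  have hemb : Topology.IsClosedEmbedding fun s : ℝ => x + L (flInc n z) + s • e := by
    have hiso : Isometry fun s : ℝ => x + L (flInc n z) + s • e := by
      refine Isometry.of_dist_eq fun s t => ?_
      rw [dist_add_left, dist_eq_norm, ← sub_smul, norm_smul, he, L.norm_map]
      simp [dist_eq_norm]
    exact hiso.isClosedEmbedding
  have hhc : HasCompactSupport h := hc.comp_isClosedEmbedding hemb
  have hder : ∀ s, deriv h s = fderiv ℝ a (x + L (gmtJoin z s)) e := by
    intro s
    have h1 : HasDerivAt (fun s : ℝ => x + L (flInc n z) + s • e) e s := by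
      simpa using ((hasDerivAt_id s).smul_const e).const_add (x + L (flInc n z))
    have h2 := ((ha.differentiable one_ne_zero) (x + L (flInc n z) + s • e)).hasFDerivAt.comp_hasDerivAt s h1
    rw [rb_map_join, ← add_assoc]
    exact h2.deriv
  have e1 : ∀ s, (gmtHalf x e).indicator (fun y => fderiv ℝ a y e) (x + L (gmtJoin z s))
      = (Iio (0 : ℝ)).indicator (deriv h) s := by
    intro s
    by_cases hs : s < 0
    · rw [indicator_of_mem ((rb_mem_half L x z s).2 hs), indicator_of_mem (show s ∈ Iio (0 : ℝ) from hs), hder]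
    · rw [indicator_of_notMem (fun h' => hs ((rb_mem_half L x z s).1 h')),
        indicator_of_notMem (show s ∉ Iio (0 : ℝ) from hs)]
  simp only [e1]
  rw [integral_indicator measurableSet_Iio, ← integral_Iic_eq_integral_Iio, hhc.integral_Iic_deriv_eq hh1 0]
  simp [hh]

/-- smooth approximations of the characteristic function of the half space. -/
noncomputable def rbU (x e : E m) (k : ℕ) (y : E m) : ℝ := Real.smoothTransition (-(k : ℝ) * ⟪y - x, e⟫)

theorem rbU_contDiff (x e : E m) (k : ℕ) : ContDiff ℝ ∞ (rbU x e k) := by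
  unfold rbU
  exact Real.smoothTransition.contDiff.comp
    (contDiff_const.mul ((contDiff_id.sub contDiff_const).inner ℝ contDiff_const))

theorem rbU_fderiv (x e : E m) (k : ℕ) (y v : E m) (hv : ⟪v, e⟫ = 0) : fderiv ℝ (rbU x e k) y v = 0 := by
  have h1 : HasFDerivAt (fun y : E m => -(k : ℝ) * ⟪y - x, e⟫) (-(k : ℝ) • (innerSL ℝ e)) y := by
    have h2 : HasFDerivAt (fun y : E m => ⟪y - x, e⟫) (innerSL ℝ e) y := by
      have h3 : (fun y : E m => ⟪y - x, e⟫) = fun y => innerSL ℝ e y - ⟪x, e⟫ := by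
        funext y
        rw [inner_sub_left, innerSL_apply_apply, real_inner_comm]
      rw [h3]
      exact (innerSL ℝ e).hasFDerivAt.sub_const _
    exact h2.const_mul _
  have h4 := ((Real.smoothTransition.contDiff (n := 1)).differentiable one_ne_zero
    (-(k : ℝ) * ⟪y - x, e⟫)).hasDerivAt.comp_hasFDerivAt y h1
  have h5 : fderiv ℝ (rbU x e k) y = _ := h4.fderiv
  rw [h5]
  simp only [smul_apply, innerSL_apply_apply, real_inner_comm v e, hv, smul_zero]

theorem rbU_tendsto (x e y : E m) :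
    Tendsto (fun k => rbU x e k y) atTop (𝓝 ((gmtHalf x e).indicator (fun _ => (1 : ℝ)) y)) := by
  by_cases hy : y ∈ gmtHalf x e
  · rw [indicator_of_mem hy]
    have ht : ⟪y - x, e⟫ < 0 := hy
    obtain ⟨N, hN⟩ := exists_nat_gt (1 / (-⟪y - x, e⟫))
    refine tendsto_const_nhds.congr' ?_
    filter_upwards [eventually_ge_atTop N] with k hk
    unfold rbU
    rw [Real.smoothTransition.one_of_one_le]
    have h1 : (N : ℝ) ≤ k := by exact_mod_cast hk
    have h2 : 1 / (-⟪y - x, e⟫) < k := hN.trans_le h1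
    rw [div_lt_iff₀ (by linarith)] at h2
    linarith
  · rw [indicator_of_notMem hy]
    have ht : 0 ≤ ⟪y - x, e⟫ := not_lt.1 hy
    refine tendsto_const_nhds.congr fun k => ?_
    unfold rbU
    rw [Real.smoothTransition.zero_of_nonpos]
    have : (0 : ℝ) ≤ k := Nat.cast_nonneg k
    nlinarith

/-- the tangential part of the Gauss-Green formula. -/
theorem rb_gg_tangential (x e : E m) {T : E m → E m} (hT : GmtTest univ T) (hTe : ∀ y, ⟪T y, e⟫ = 0) :
    ∫ y in gmtHalf x e, gmtDiv T y = 0 := by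
  obtain ⟨hdc, hdcs, -⟩ := continuous_gmtDiv hT
  have hint : Integrable (gmtDiv T) := hdc.integrable_of_hasCompactSupport hdcs
  have h0 : ∀ k, ∫ y, rbU x e k y * gmtDiv T y = 0 := by
    intro k
    rw [integral_mul_gmtDiv isOpen_univ ((rbU_contDiff x e k).of_le (by exact_mod_cast le_top)).contDiffOn hT]
    simp only [rbU_fderiv x e k _ _ (hTe _), integral_zero, neg_zero]
  have hlim : Tendsto (fun k => ∫ y, rbU x e k y * gmtDiv T y) atTop
      (𝓝 (∫ y, (gmtHalf x e).indicator (fun _ => (1 : ℝ)) y * gmtDiv T y)) := by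
    refine tendsto_integral_of_dominated_convergence (fun y => |gmtDiv T y|) (fun k => ?_) hint.abs (fun k => ?_) ?_
    · exact ((rbU_contDiff x e k).continuous.mul hdc).aestronglyMeasurable
    · refine Eventually.of_forall fun y => ?_
      rw [norm_mul, Real.norm_eq_abs, Real.norm_eq_abs]
      have h1 : |rbU x e k y| ≤ 1 := by
        unfold rbU
        rw [abs_of_nonneg (Real.smoothTransition.nonneg _)]
        exact Real.smoothTransition.le_one _
      calc |rbU x e k y| * |gmtDiv T y| ≤ 1 * |gmtDiv T y| := mul_le_mul_of_nonneg_right h1 (abs_nonneg _)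
        _ = |gmtDiv T y| := one_mul _
    · exact Eventually.of_forall fun y => (rbU_tendsto x e y).mul_const _
  simp only [h0] at hlim
  have h1 := tendsto_nhds_unique hlim tendsto_const_nhds
  rw [← integral_indicator (measurableSet_gmtHalf x e), ← h1]
  refine integral_congr_ae (Eventually.of_forall fun y => ?_)
  by_cases hy : y ∈ gmtHalf x e <;> simp [hy]

theorem rb_div_const (e y : E m) : gmtDiv (fun _ => e) y = 0 := by
  unfold gmtDiv
  simp

/-- GAUSS-GREEN FORMULA FOR A HALF SPACE, in a frame. -/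
theorem rb_gg (L : E (n + 1) ≃ₗᵢ[ℝ] E (n + 1)) (x : E (n + 1)) {T : E (n + 1) → E (n + 1)} (hT : GmtTest univ T) :
    ∫ y in gmtHalf x (L (gmtEn n)), gmtDiv T y = ∫ z, ⟪T (x + L (flInc n z)), L (gmtEn n)⟫ := by
  set e := L (gmtEn n) with he
  have hne : ‖e‖ = 1 := by rw [he, L.norm_map]; simp
  set a : E (n + 1) → ℝ := fun y => ⟪T y, e⟫ with ha
  have ha1 : ContDiff ℝ 1 a := hT.c1.inner ℝ contDiff_const
  have hac : HasCompactSupport a := hT.cpt.comp_left (g := fun v : E (n + 1) => ⟪v, e⟫) (by simp)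
  set T₁ : E (n + 1) → E (n + 1) := fun y => a y • e with hT₁
  set T₀ : E (n + 1) → E (n + 1) := fun y => T y - a y • e with hT₀
  have hT₁c : ContDiff ℝ 1 T₁ := ha1.smul contDiff_const
  have hT₀t : GmtTest univ T₀ := by
    refine ⟨hT.c1.sub hT₁c, hT.cpt.mono' fun y hy => ?_, subset_univ _⟩
    by_contra hcon
    apply hy
    have : T y = 0 := image_eq_zero_of_notMem_tsupport hcon
    simp [hT₀, ha, this]
  have hT₀e : ∀ y, ⟪T₀ y, e⟫ = 0 := by
    intro y
    simp only [hT₀, inner_sub_left, inner_smul_left, real_inner_self_eq_norm_sq, hne, ha]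
    simp
  have hdiv : ∀ y, gmtDiv T y = gmtDiv T₀ y + fderiv ℝ a y e := by
    intro y
    have h1 : T = fun y => T₀ y + T₁ y := by funext y; simp [hT₀, hT₁]
    have h2 : gmtDiv T₁ y = fderiv ℝ a y e := by
      rw [hT₁, gmtDiv_smul (ha1.differentiable one_ne_zero y) (differentiableAt_const e), rb_div_const, mul_zero,
        zero_add]
    conv_lhs => rw [h1]
    rw [gmtDiv_add (hT₀t.differentiable y) (hT₁c.differentiable one_ne_zero y), h2]
  obtain ⟨hdc, hdcs, -⟩ := continuous_gmtDiv hT₀t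
  have hcont : Continuous fun y => fderiv ℝ a y e := (ha1.continuous_fderiv one_ne_zero).clm_apply continuous_const
  have hcs : HasCompactSupport fun y => fderiv ℝ a y e :=
    (hac.fderiv (𝕜 := ℝ)).comp_left (g := fun A : E (n + 1) →L[ℝ] ℝ => A e) (by simp)
  simp only [hdiv]
  rw [integral_add (hdc.integrable_of_hasCompactSupport hdcs).integrableOn
    (hcont.integrable_of_hasCompactSupport hcs).integrableOn, rb_gg_tangential x e hT₀t hT₀e, zero_add,
    rb_gg_normal L x ha1 hac]

/-- parametrisation of the hyperplane. -/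
noncomputable def rbP (L : E (n + 1) ≃ₗᵢ[ℝ] E (n + 1)) (x : E (n + 1)) (z : E n) : E (n + 1) := x + L (flInc n z)

theorem rbP_isometry (L : E (n + 1) ≃ₗᵢ[ℝ] E (n + 1)) (x : E (n + 1)) : Isometry (rbP L x) := by
  refine Isometry.of_dist_eq fun z w => ?_
  unfold rbP
  rw [dist_add_left, L.dist_map, dist_eq_norm, ← map_sub, fl_norm_inc, dist_eq_norm]

theorem rbP_continuous (L : E (n + 1) ≃ₗᵢ[ℝ] E (n + 1)) (x : E (n + 1)) : Continuous (rbP L x) :=
  (rbP_isometry L x).continuous

theorem rbP_measurable (L : E (n + 1) ≃ₗᵢ[ℝ] E (n + 1)) (x : E (n + 1)) : Measurable (rbP L x) :=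
  (rbP_continuous L x).measurable

theorem rbP_inner (L : E (n + 1) ≃ₗᵢ[ℝ] E (n + 1)) (x : E (n + 1)) (z : E n) : ⟪rbP L x z - x, L (gmtEn n)⟫ = 0 := by
  unfold rbP
  rw [add_sub_cancel_left, fl_inc_apply, rb_inner_join]

/-- THE PERIMETER MEASURE AND THE NORMAL OF A HALF SPACE, in a frame. -/
theorem rb_core (L : E (n + 1) ≃ₗᵢ[ℝ] E (n + 1)) (x : E (n + 1)) :
    GmtLF (gmtHalf x (L (gmtEn n))) univ ∧ gmtMu (gmtHalf x (L (gmtEn n))) = Measure.map (rbP L x) volume ∧
      gmtNu (gmtHalf x (L (gmtEn n))) =ᵐ[gmtMu (gmtHalf x (L (gmtEn n)))] fun _ => L (gmtEn n) := by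
  set e := L (gmtEn n) with he
  have hne : ‖e‖ = 1 := by rw [he, L.norm_map]; simp
  obtain ⟨h1, h2, h3⟩ := gmtMu_gmtNu_unique (U := univ) (S := gmtHalf x e) (μ := Measure.map (rbP L x) volume)
    (ν := fun _ => e) isOpen_univ (measurableSet_gmtHalf x e) measurable_const (Eventually.of_forall fun _ => hne)
    (by simp) (fun K hK _ => by
      rw [Measure.map_apply (rbP_measurable L x) hK.measurableSet]
      exact ((rbP_isometry L x).isClosedEmbedding.isCompact_preimage hK).measure_lt_top.ne)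
    (fun T hT => by
      rw [integral_map (rbP_measurable L x).aemeasurable
        ((hT.c1.continuous.inner continuous_const).aestronglyMeasurable)]
      exact rb_gg L x hT)
  rw [Measure.restrict_univ] at h2
  refine ⟨h1, h2.symm, ?_⟩
  rw [← h2]
  exact h3.symm

theorem rb_exists_succ {e : E m} (he : ‖e‖ = 1) : ∃ n, m = n + 1 := by
  rcases m with _ | n
  · have : e = 0 := Subsingleton.elim _ _
    rw [this, norm_zero] at he
    exact absurd he (by norm_num)
  · exact ⟨n, rfl⟩

theorem gmtDil_gmtHalf (x e : E m) {ρ : ℝ} (hρ : 0 < ρ) : gmtDil x ρ (gmtHalf x e) = gmtHalf 0 e := by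
  ext y
  show ⟪x + ρ • y - x, e⟫ < 0 ↔ ⟪y - 0, e⟫ < 0
  rw [add_sub_cancel_left, sub_zero, inner_smul_left]
  simp only [conj_trivial]
  constructor
  · intro h; by_contra h'; push Not at h'; nlinarith [mul_nonneg hρ.le h']
  · intro h; exact mul_neg_of_pos_of_neg hρ h

theorem gmtHalf_lf (x : E m) {e : E m} (he : ‖e‖ = 1) : GmtLF (gmtHalf x e) univ := by
  obtain ⟨n, rfl⟩ := rb_exists_succ he
  obtain ⟨L, rfl⟩ := rb_exists_frame he
  exact (rb_core L x).1

theorem gmtNu_gmtHalf (x : E m) {e : E m} (he : ‖e‖ = 1) :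
    gmtNu (gmtHalf x e) =ᵐ[gmtMu (gmtHalf x e)] fun _ => e := by
  obtain ⟨n, rfl⟩ := rb_exists_succ he
  obtain ⟨L, rfl⟩ := rb_exists_frame he
  exact (rb_core L x).2.2

theorem gmtMu_gmtHalf_compl (x : E m) {e : E m} (he : ‖e‖ = 1) :
    gmtMu (gmtHalf x e) {y | ⟪y - x, e⟫ ≠ 0} = 0 := by
  obtain ⟨n, rfl⟩ := rb_exists_succ he
  obtain ⟨L, rfl⟩ := rb_exists_frame he
  have hm : MeasurableSet {y : E (n + 1) | ⟪y - x, L (gmtEn n)⟫ ≠ 0} :=
    (isOpen_ne_fun (by fun_prop) continuous_const).measurableSet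
  rw [(rb_core L x).2.1, Measure.map_apply (rbP_measurable L x) hm]
  have : rbP L x ⁻¹' {y : E (n + 1) | ⟪y - x, L (gmtEn n)⟫ ≠ 0} = ∅ := by
    ext z
    simp [rbP_inner]
  rw [this, measure_empty]

theorem gmtP_half_ball (hm : 1 ≤ m) (x : E m) {e : E m} (he : ‖e‖ = 1) {r : ℝ} (hr : 0 < r) :
    gmtP (gmtHalf x e) (ball x r) = ENNReal.ofReal (gmtOm (m - 1) * r ^ (m - 1)) := by
  obtain ⟨n, rfl⟩ := rb_exists_succ he
  obtain ⟨L, rfl⟩ := rb_exists_frame he
  rw [← gmtMu_open _ isOpen_ball, (rb_core L x).2.1, Measure.map_apply (rbP_measurable L x) measurableSet_ball]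
  have : rbP L x ⁻¹' ball x r = ball (0 : E n) r := by
    ext z
    rw [mem_preimage, mem_ball, mem_ball, dist_eq_norm, dist_zero_right]
    unfold rbP
    rw [add_sub_cancel_left, L.norm_map, fl_norm_inc]
  rw [this, Measure.addHaar_ball_of_pos volume 0 hr, Nat.add_sub_cancel, mul_comm (gmtOm n),
    ENNReal.ofReal_mul (by positivity), gmtOm, ENNReal.ofReal_toReal measure_ball_lt_top.ne]
  simp

theorem gmtMu_half_sphere (hm : 2 ≤ m) (x : E m) {e : E m} (he : ‖e‖ = 1) (y : E m) (r : ℝ) :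
    gmtMu (gmtHalf x e) (sphere y r) = 0 := by
  obtain ⟨k, rfl⟩ : ∃ k, m = k + 1 + 1 := ⟨m - 2, by omega⟩
  obtain ⟨L, rfl⟩ := rb_exists_frame he
  rw [(rb_core L x).2.1, Measure.map_apply (rbP_measurable L x) isClosed_sphere.measurableSet]
  set w := L.symm (y - x) with hw
  refine measure_mono_null (t := sphere (gmtHor w) (Real.sqrt (r ^ 2 - gmtVer w ^ 2))) (fun z hz => ?_)
    (Measure.addHaar_sphere volume _ _)
  rw [mem_preimage, mem_sphere, dist_eq_norm] at hz
  have h1 : rbP L x z - y = L (flInc (k + 1) z - w) := by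
    rw [map_sub, hw, L.apply_symm_apply]
    unfold rbP
    abel
  rw [h1, L.norm_map] at hz
  have h2 := fl_norm_sq (flInc (k + 1) z - w)
  have h3 : gmtHor (flInc (k + 1) z - w) = z - gmtHor w := by
    show gmtHorL (k + 1) (flInc (k + 1) z - w) = _
    rw [map_sub]
    show gmtHor (flInc (k + 1) z) - gmtHor w = _
    rw [fl_inc_apply, fl_hor_join]
  have h4 : gmtVer (flInc (k + 1) z - w) = - gmtVer w := by
    show gmtVerL (k + 1) (flInc (k + 1) z - w) = _
    rw [map_sub]
    show gmtVer (flInc (k + 1) z) - gmtVer w = _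
    rw [fl_inc_apply, fl_ver_join, zero_sub]
  rw [hz, h3, h4] at h2
  rw [mem_sphere, dist_eq_norm]
  rw [show r ^ 2 - gmtVer w ^ 2 = ‖z - gmtHor w‖ ^ 2 by rw [h2]; ring, Real.sqrt_sq (norm_nonneg _)]

/-- averages of a continuous function over shrinking symmetric intervals. -/
theorem rb_tendsto_average {I : ℝ → ℝ} (hI : Continuous I) :
    Tendsto (fun ε : ℝ => (2 * ε)⁻¹ * ∫ s in Ioo (-ε) ε, I s) (𝓝[>] 0) (𝓝 (I 0)) := by
  rw [Metric.tendsto_nhdsWithin_nhds]
  intro δ hδ
  obtain ⟨η, hη, hcl⟩ := Metric.continuousAt_iff.1 (hI.continuousAt (x := 0)) (δ / 2) (half_pos hδ)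
  refine ⟨η, hη, fun ε hε hεη => ?_⟩
  have hε0 : 0 < ε := hε
  rw [dist_zero_right, Real.norm_eq_abs, abs_of_pos hε0] at hεη
  have hvol : (volume : Measure ℝ).real (Ioo (-ε) ε) = 2 * ε := by
    rw [measureReal_def, Real.volume_Ioo, ENNReal.toReal_ofReal (by linarith)]; ring
  have hfin : volume (Ioo (-ε) ε) < ⊤ := by rw [Real.volume_Ioo]; exact ENNReal.ofReal_lt_top
  have hint : IntegrableOn I (Ioo (-ε) ε) :=
    (hI.integrableOn_Icc (a := -ε) (b := ε)).mono_set Ioo_subset_Icc_self
  have hconst : ∫ _ in Ioo (-ε) ε, I 0 = 2 * ε * I 0 := by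
    rw [setIntegral_const, hvol, smul_eq_mul]
  have e1 : (2 * ε)⁻¹ * (∫ s in Ioo (-ε) ε, I s) - I 0 = (2 * ε)⁻¹ * ∫ s in Ioo (-ε) ε, (I s - I 0) := by
    rw [integral_sub hint (integrableOn_const hfin.ne), hconst]
    field_simp
  rw [dist_eq_norm, e1, norm_mul, norm_inv, Real.norm_of_nonneg (by positivity : (0 : ℝ) ≤ 2 * ε)]
  have hb : ‖∫ s in Ioo (-ε) ε, (I s - I 0)‖ ≤ δ / 2 * (volume : Measure ℝ).real (Ioo (-ε) ε) := by
    refine norm_setIntegral_le_of_norm_le_const hfin fun s hs => ?_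
    have : dist s 0 < η := by
      rw [dist_zero_right, Real.norm_eq_abs, abs_lt]
      exact ⟨by linarith [hs.1], by linarith [hs.2]⟩
    exact (dist_eq_norm (I s) (I 0) ▸ hcl this).le
  rw [hvol] at hb
  calc (2 * ε)⁻¹ * ‖∫ s in Ioo (-ε) ε, (I s - I 0)‖ ≤ (2 * ε)⁻¹ * (δ / 2 * (2 * ε)) :=
        mul_le_mul_of_nonneg_left hb (by positivity)
    _ = δ / 2 := by field_simp
    _ < δ := half_lt_self hδ

/-- the integrals over the parallel hyperplanes depend continuously on the height. -/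
theorem rb_slice_continuous (L : E (n + 1) ≃ₗᵢ[ℝ] E (n + 1)) (x : E (n + 1)) {g : E (n + 1) → ℝ} (hg : Continuous g)
    (hc : HasCompactSupport g) : Continuous fun s : ℝ => ∫ z, g (x + L (gmtJoin z s)) := by
  obtain ⟨R, hR⟩ := hc.isCompact.isBounded.subset_closedBall x
  have hz : ∀ (s : ℝ) (z : E n), z ∉ closedBall (0 : E n) R → g (x + L (gmtJoin z s)) = 0 := by
    intro s z hz
    apply image_eq_zero_of_notMem_tsupport
    intro hmem
    apply hz
    have h1 := hR hmem
    rw [mem_closedBall, dist_eq_norm, add_sub_cancel_left, L.norm_map] at h1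
    rw [mem_closedBall, dist_zero_right]
    have h2 := fl_norm_hor_le (gmtJoin z s)
    rw [fl_hor_join] at h2
    exact h2.trans h1
  have e : (fun s : ℝ => ∫ z, g (x + L (gmtJoin z s))) = fun s => ∫ z in closedBall (0 : E n) R, g (x + L (gmtJoin z s)) := by
    funext s
    exact (setIntegral_eq_integral_of_forall_compl_eq_zero fun z hz' => hz s z hz').symm
  rw [e]
  refine continuous_parametric_integral_of_continuous (f := fun (s : ℝ) (z : E n) => g (x + L (gmtJoin z s))) ?_
    (isCompact_closedBall _ _)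
  have h1 : Continuous fun p : ℝ × E n => gmtJoin p.2 p.1 :=
    fl_continuous_join.comp (continuous_snd.prodMk continuous_fst)
  exact hg.comp (continuous_const.add (L.continuous.comp h1))

/-- the slab formula in a frame. -/
theorem rb_slab (L : E (n + 1) ≃ₗᵢ[ℝ] E (n + 1)) (x : E (n + 1)) {g : E (n + 1) → ℝ} (hg : Continuous g)
    (hc : HasCompactSupport g) :
    Tendsto (fun ε : ℝ => (2 * ε)⁻¹ * ∫ y in {y | |⟪y - x, L (gmtEn n)⟫| < ε}, g y) (𝓝[>] 0)
      (𝓝 (∫ z, g (rbP L x z))) := by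
  have h0 := rb_tendsto_average (rb_slice_continuous L x hg hc)
  have e0 : ∫ z, g (x + L (gmtJoin z 0)) = ∫ z, g (rbP L x z) := rfl
  rw [e0] at h0
  refine h0.congr fun ε => ?_
  congr 1
  have hms : MeasurableSet {y : E (n + 1) | |⟪y - x, L (gmtEn n)⟫| < ε} :=
    (isOpen_lt (by fun_prop) continuous_const).measurableSet
  have hint : Integrable g := hg.integrable_of_hasCompactSupport hc
  have hint2 := rb_integrable_frame L x (hint.indicator hms)
  symm
  rw [← integral_indicator hms, rb_integral_frame L x (hint.indicator hms), integral_integral_swap hint2,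
    ← integral_indicator measurableSet_Ioo]
  refine integral_congr_ae (Eventually.of_forall fun s => ?_)
  symm
  simp only
  have hmem : ∀ z : E n, x + L (gmtJoin z s) ∈ {y : E (n + 1) | |⟪y - x, L (gmtEn n)⟫| < ε} ↔ s ∈ Ioo (-ε) ε := by
    intro z
    show |⟪x + L (gmtJoin z s) - x, L (gmtEn n)⟫| < ε ↔ _
    rw [add_sub_cancel_left, rb_inner_join, abs_lt]
    rfl
  by_cases hs : s ∈ Ioo (-ε) ε
  · rw [indicator_of_mem hs]
    exact integral_congr_ae (Eventually.of_forall fun z => (indicator_of_mem ((hmem z).2 hs) _).symm)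
  · rw [indicator_of_notMem hs]
    symm
    have : ∀ z : E n, ({y : E (n + 1) | |⟪y - x, L (gmtEn n)⟫| < ε}).indicator g (x + L (gmtJoin z s)) = 0 :=
      fun z => indicator_of_notMem (fun h => hs ((hmem z).1 h)) _
    simp only [this, integral_zero]

/-- slab description of the perimeter measure of a half space. -/
theorem gmtMu_gmtHalf_slab (x : E m) {e : E m} (he : ‖e‖ = 1) {g : E m → ℝ} (hg : Continuous g)
    (hc : HasCompactSupport g) :
    Tendsto (fun ε : ℝ => (2 * ε)⁻¹ * ∫ y in {y | |⟪y - x, e⟫| < ε}, g y) (𝓝[>] 0)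
      (𝓝 (∫ y, g y ∂(gmtMu (gmtHalf x e)))) := by
  obtain ⟨n, rfl⟩ := rb_exists_succ he
  obtain ⟨L, rfl⟩ := rb_exists_frame he
  rw [(rb_core L x).2.1, integral_map (rbP_measurable L x).aemeasurable hg.aestronglyMeasurable]
  exact rb_slab L x hg hc

/-- hyperplanes are Lebesgue null sets. -/
theorem rb_volume_hyperplane (x : E m) {e : E m} (he : ‖e‖ = 1) : volume {y : E m | ⟪y - x, e⟫ = 0} = 0 := by
  set s : Submodule ℝ (E m) := LinearMap.ker (innerSL ℝ e : E m →L[ℝ] ℝ).toLinearMap with hs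
  have hne : s ≠ ⊤ := by
    intro h
    have h1 : e ∈ s := h ▸ Submodule.mem_top
    rw [hs, LinearMap.mem_ker] at h1
    have h2 : ⟪e, e⟫ = 0 := h1
    rw [real_inner_self_eq_norm_sq, he] at h2
    norm_num at h2
  have h0 := Measure.addHaar_submodule volume s hne
  have e1 : {y : E m | ⟪y - x, e⟫ = 0} = (fun y => y + -x) ⁻¹' (s : Set (E m)) := by
    ext y
    rw [mem_preimage, SetLike.mem_coe, hs, LinearMap.mem_ker, ← sub_eq_add_neg]
    show _ ↔ ⟪e, y - x⟫ = 0
    rw [real_inner_comm]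
    rfl
  rw [e1, measure_preimage_add_right, h0]

theorem volume_gmtHalf_ball (x : E m) {e : E m} (he : ‖e‖ = 1) (r : ℝ) :
    volume (gmtHalf x e ∩ ball x r) = volume (ball x r) / 2 := by
  set H' : Set (E m) := {y | 0 < ⟪y - x, e⟫} with hH'
  set Z : Set (E m) := {y | ⟪y - x, e⟫ = 0} with hZ
  have hmH : MeasurableSet (gmtHalf x e) := measurableSet_gmtHalf x e
  have hmH' : MeasurableSet H' := (isOpen_lt continuous_const (by fun_prop)).measurableSet
  have hrefl : volume (H' ∩ ball x r) = volume (gmtHalf x e ∩ ball x r) := by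
    have hp := Measure.measurePreserving_sub_left (volume : Measure (E m)) (x + x)
    rw [← hp.measure_preimage (hmH.inter measurableSet_ball).nullMeasurableSet]
    congr 1
    ext y
    simp only [mem_preimage, mem_inter_iff, mem_ball, hH', gmtHalf, mem_ofPred_eq]
    have e1 : x + x - y - x = -(y - x) := by abel
    rw [e1, inner_neg_left, dist_eq_norm, dist_eq_norm, e1, norm_neg]
    constructor
    · rintro ⟨h1, h2⟩; exact ⟨by linarith, h2⟩
    · rintro ⟨h1, h2⟩; exact ⟨by linarith, h2⟩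
  have hsplit : ball x r = (gmtHalf x e ∩ ball x r) ∪ (H' ∩ ball x r) ∪ (Z ∩ ball x r) := by
    ext y
    simp only [mem_union, mem_inter_iff, hH', hZ, gmtHalf, mem_ofPred_eq]
    constructor
    · intro hy
      rcases lt_trichotomy ⟪y - x, e⟫ 0 with h | h | h
      · exact Or.inl (Or.inl ⟨h, hy⟩)
      · exact Or.inr ⟨h, hy⟩
      · exact Or.inl (Or.inr ⟨h, hy⟩)
    · rintro ((h | h) | h) <;> exact h.2
  have hZ0 : volume (Z ∩ ball x r) = 0 := measure_mono_null inter_subset_left (rb_volume_hyperplane x he)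
  have hdisj : Disjoint (gmtHalf x e ∩ ball x r) (H' ∩ ball x r) := by
    rw [Set.disjoint_left]
    rintro y ⟨h1, -⟩ ⟨h2, -⟩
    have h1' : ⟪y - x, e⟫ < 0 := h1
    have h2' : 0 < ⟪y - x, e⟫ := h2
    linarith
  have hsum : volume (ball x r) = 2 * volume (gmtHalf x e ∩ ball x r) := by
    conv_lhs => rw [hsplit]
    rw [measure_congr (union_ae_eq_left_of_ae_eq_empty (ae_eq_empty.2 hZ0)), measure_union hdisj (hmH'.inter measurableSet_ball), hrefl, two_mul]
  rw [hsum, mul_comm, ENNReal.mul_div_cancel_right (by norm_num) (by norm_num)]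

theorem rb_half_eq {x y e : E m} (h : ⟪y - x, e⟫ = 0) : gmtHalf x e = gmtHalf y e := by
  ext z
  show ⟪z - x, e⟫ < 0 ↔ ⟪z - y, e⟫ < 0
  have : z - x = (z - y) + (y - x) := by abel
  rw [this, inner_add_left, h, add_zero]

theorem gmtBd_gmtHalf (hm : 1 ≤ m) (x : E m) {e : E m} (he : ‖e‖ = 1) :
    gmtBd (gmtHalf x e) = {y | ⟪y - x, e⟫ = 0} := by
  ext y
  constructor
  · intro hy
    by_contra hne
    have hne' : ⟪y - x, e⟫ ≠ 0 := hne
    obtain ⟨h1, h2⟩ := hy |⟪y - x, e⟫| (abs_pos.2 hne')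
    have hz : ∀ z ∈ ball y |⟪y - x, e⟫|, |⟪z - y, e⟫| < |⟪y - x, e⟫| := by
      intro z hz
      rw [mem_ball, dist_eq_norm] at hz
      calc |⟪z - y, e⟫| ≤ ‖z - y‖ * ‖e‖ := abs_real_inner_le_norm _ _
        _ = ‖z - y‖ := by rw [he, mul_one]
        _ < _ := hz
    have hdec : ∀ z, ⟪z - x, e⟫ = ⟪z - y, e⟫ + ⟪y - x, e⟫ := fun z => by
      rw [← inner_add_left]; congr 1; abel
    rcases lt_or_gt_of_ne hne' with hneg | hpos
    · have : ball y |⟪y - x, e⟫| \ gmtHalf x e = ∅ := by
        rw [sdiff_eq_empty]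
        intro z hz'
        have := hz z hz'
        rw [abs_of_neg hneg, abs_lt] at this
        show ⟪z - x, e⟫ < 0
        rw [hdec]; linarith [this.2]
      rw [this, measure_empty] at h2
      exact lt_irrefl _ h2
    · have : gmtHalf x e ∩ ball y |⟪y - x, e⟫| = ∅ := by
        rw [eq_empty_iff_forall_notMem]
        rintro z ⟨hz1, hz2⟩
        have := hz z hz2
        rw [abs_of_pos hpos, abs_lt] at this
        have hz1' : ⟪z - x, e⟫ < 0 := hz1
        rw [hdec] at hz1'; linarith [this.1]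
      rw [this, measure_empty] at h1
      exact lt_irrefl _ h1
  · intro hy r hr
    have hy' : ⟪y - x, e⟫ = 0 := hy
    rw [rb_half_eq hy']
    have hb : 0 < volume (ball y r) := measure_ball_pos volume y hr
    have hbt : volume (ball y r) ≠ ⊤ := measure_ball_lt_top.ne
    have h1 := volume_gmtHalf_ball y he r
    have hpos : 0 < volume (ball y r) / 2 := ENNReal.div_pos hb.ne' (by norm_num)
    refine ⟨h1 ▸ hpos, ?_⟩
    have h2 : volume (ball y r \ gmtHalf y e) = volume (ball y r) - volume (gmtHalf y e ∩ ball y r) := by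
      rw [← sdiff_inter_self_eq_sdiff, measure_sdiff inter_subset_right
        ((measurableSet_gmtHalf y e).inter measurableSet_ball).nullMeasurableSet
        (measure_ne_top_of_subset inter_subset_right hbt)]
    rw [h2, h1, ENNReal.sub_half hbt]
    exact hpos

end Claimed.Agent.Gmt
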