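import Mathlib

/-!
# Lib/Gmt [G7 Simons] `SimAlg`: the tensor algebra behind Simons' inequality for cones.   (architect: helper257)

PURE FINITE SUMS over `Fin k`.  Imports only Mathlib.  Data at one point `x ≠ 0` of the cone:
`N` unit normal, `x` position (`x ⟂ N`), `h = D²u` symmetric, `D = D³u` totally symmetric, with
`hN = 0`, `hx = 0`, `D(N,·,·) = -h²`, `D(x,·,·) = -h`.   Notation `a = |h|²`, `r² = |x|²`, `(h²)_{jl} = Σ_m h_{jm} h_{ml}`, `g_l = Σ_{ij} h_{ij} D_{ijl}` (`∇a = 2g`).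

CLAIMS  (1) `|D|² - 3|h²|² ≥ 0`;   (2) `|g|² - (g·N)² + 2a²/r² ≤ a (|D|² - 3|h²|²)`.

PROOF (no frames).  Note `h²N = 0`, `h²x = 0`.
* `T_{ijl} := D_{ijl} + N_i (h²)_{jl} + N_j (h²)_{il} + N_l (h²)_{ij}`  (tangential part of `D`).
  `|T|² = |D|² + 6 Σ D_{ijl} N_i (h²)_{jl} + 3 |h²|² = |D|² - 3|h²|²`   (the cross terms `N_i (h²)_{jl} N_j (h²)_{il}` vanish since `h²N = 0`).   This is (1).
* `R_{ijl} := T_{ijl} + r⁻² (x_i h_{jl} + x_j h_{il} + x_l h_{ij})`.   `Σ_i x_i T_{ijl} = -h_{jl}`, hence `|R|² = |T|² - 6 a/r² + 3 a/r² = |T|² - 3a/r²`.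
* `G_l := Σ_{ij} h_{ij} R_{ijl} = g_l - (g·N) N_l + (a/r²) x_l`   (`g·N = -tr h³`, `Σ_{ij} h_{ij} (h²)_{ij} = tr h³`),   and `Σ_l x_l G_l = 0`, `Σ_l N_l G_l = 0`.
  So `|g|² - (g·N)² = |g - (g·N)N|² = |G|² + a²/r²`.
* Cauchy-Schwarz (`Finset.sum_mul_sq_le_sq_mul_sq` on `Fin k × Fin k`): `G_l² ≤ a Σ_{ij} R_{ijl}²`, so `|G|² ≤ a |R|²`.
  Total: `|g|² - (g·N)² ≤ a(|T|² - 3a/r²) + a²/r² = a|T|² - 2a²/r²`.
-/

set_option autoImplicit false

namespace Claimed.Agent.Gmt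

section SimAlgAux
variable {k : ℕ}

theorem gmtSimAlg_swap12 (f : Fin k → Fin k → Fin k → ℝ) :
    ∑ i, ∑ j, ∑ l, f i j l = ∑ i, ∑ j, ∑ l, f j i l := Finset.sum_comm

theorem gmtSimAlg_swap23 (f : Fin k → Fin k → Fin k → ℝ) :
    ∑ i, ∑ j, ∑ l, f i j l = ∑ i, ∑ j, ∑ l, f i l j :=
  Finset.sum_congr rfl fun _ _ => Finset.sum_comm

theorem gmtSimAlg_t2 (D : Fin k → Fin k → Fin k → ℝ) (v : Fin k → ℝ) (M : Fin k → Fin k → ℝ) :
    ∑ i, ∑ j, ∑ l, D i j l * (v i * M j l) = ∑ j, ∑ l, M j l * ∑ i, v i * D i j l := by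
  rw [Finset.sum_comm]
  refine Finset.sum_congr rfl fun j _ => ?_
  rw [Finset.sum_comm]
  refine Finset.sum_congr rfl fun l _ => ?_
  rw [Finset.mul_sum]
  refine Finset.sum_congr rfl fun i _ => ?_
  ring

theorem gmtSimAlg_t5 (v : Fin k → ℝ) (M : Fin k → Fin k → ℝ) :
    ∑ i, ∑ j, ∑ l, (v i * M j l) ^ 2 = (∑ i, v i ^ 2) * ∑ j, ∑ l, M j l ^ 2 := by
  rw [Finset.sum_mul]
  refine Finset.sum_congr rfl fun i _ => ?_
  rw [Finset.mul_sum]
  refine Finset.sum_congr rfl fun j _ => ?_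
  rw [Finset.mul_sum]
  refine Finset.sum_congr rfl fun l _ => ?_
  ring

theorem gmtSimAlg_t8 (v : Fin k → ℝ) (M : Fin k → Fin k → ℝ) :
    ∑ i, ∑ j, ∑ l, v i * M j l * (v j * M i l) = ∑ l, (∑ j, v j * M j l) ^ 2 := by
  have h1 : ∀ l, (∑ j, v j * M j l) ^ 2 = ∑ i, ∑ j, v i * M j l * (v j * M i l) := by
    intro l
    rw [sq, Finset.sum_mul_sum]
    refine Finset.sum_congr rfl fun i _ => Finset.sum_congr rfl fun j _ => ?_
    ring
  simp only [h1]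
  symm
  rw [Finset.sum_comm]
  refine Finset.sum_congr rfl fun i _ => ?_
  rw [Finset.sum_comm]

/-- the square norm of `D + c Sym(v ⊗ M)`. -/
theorem gmtSimAlg_sq (D : Fin k → Fin k → Fin k → ℝ) (v : Fin k → ℝ) (M : Fin k → Fin k → ℝ) (c : ℝ)
    (D12 : ∀ i j l, D i j l = D j i l) (D23 : ∀ i j l, D i j l = D i l j)
    (Ms : ∀ i j, M i j = M j i) :
    ∑ i, ∑ j, ∑ l, (D i j l + c * (v i * M j l + v j * M i l + v l * M i j)) ^ 2 =
      (∑ i, ∑ j, ∑ l, D i j l ^ 2) + 6 * c * (∑ j, ∑ l, M j l * ∑ i, v i * D i j l) +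
        c ^ 2 * (3 * ((∑ i, v i ^ 2) * ∑ j, ∑ l, M j l ^ 2) + 6 * ∑ l, (∑ j, v j * M j l) ^ 2) := by
  have e : ∀ i j l, (D i j l + c * (v i * M j l + v j * M i l + v l * M i j)) ^ 2 =
      D i j l ^ 2 + 2 * c * (D i j l * (v i * M j l)) + 2 * c * (D i j l * (v j * M i l)) +
        2 * c * (D i j l * (v l * M i j)) + c ^ 2 * (v i * M j l) ^ 2 + c ^ 2 * (v j * M i l) ^ 2 +
        c ^ 2 * (v l * M i j) ^ 2 + 2 * c ^ 2 * (v i * M j l * (v j * M i l)) +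
        2 * c ^ 2 * (v i * M j l * (v l * M i j)) + 2 * c ^ 2 * (v j * M i l * (v l * M i j)) := by
    intro i j l; ring
  simp only [e, Finset.sum_add_distrib, ← Finset.mul_sum]
  have t3 : ∑ i, ∑ j, ∑ l, D i j l * (v j * M i l) = ∑ j, ∑ l, M j l * ∑ i, v i * D i j l := by
    rw [gmtSimAlg_swap12, ← gmtSimAlg_t2]
    refine Finset.sum_congr rfl fun i _ => Finset.sum_congr rfl fun j _ =>
      Finset.sum_congr rfl fun l _ => ?_
    rw [D12 j i l]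
  have t4 : ∑ i, ∑ j, ∑ l, D i j l * (v l * M i j) = ∑ j, ∑ l, M j l * ∑ i, v i * D i j l := by
    rw [gmtSimAlg_swap23, t3.symm]
    refine Finset.sum_congr rfl fun i _ => Finset.sum_congr rfl fun j _ =>
      Finset.sum_congr rfl fun l _ => ?_
    rw [D23 i l j]
  have t6 : ∑ i, ∑ j, ∑ l, (v j * M i l) ^ 2 = (∑ i, v i ^ 2) * ∑ j, ∑ l, M j l ^ 2 := by
    rw [gmtSimAlg_swap12, gmtSimAlg_t5]
  have t7 : ∑ i, ∑ j, ∑ l, (v l * M i j) ^ 2 = (∑ i, v i ^ 2) * ∑ j, ∑ l, M j l ^ 2 := by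
    rw [gmtSimAlg_swap23, t6]
  have t9 : ∑ i, ∑ j, ∑ l, v i * M j l * (v l * M i j) = ∑ l, (∑ j, v j * M j l) ^ 2 := by
    rw [gmtSimAlg_swap23, ← gmtSimAlg_t8]
    refine Finset.sum_congr rfl fun i _ => Finset.sum_congr rfl fun j _ =>
      Finset.sum_congr rfl fun l _ => ?_
    rw [Ms l j]
  have t10 : ∑ i, ∑ j, ∑ l, v j * M i l * (v l * M i j) = ∑ l, (∑ j, v j * M j l) ^ 2 := by
    rw [gmtSimAlg_swap12, t9.symm]
    refine Finset.sum_congr rfl fun i _ => Finset.sum_congr rfl fun j _ =>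
      Finset.sum_congr rfl fun l _ => ?_
    rw [Ms j i]
  rw [gmtSimAlg_t2, t3, t4, gmtSimAlg_t5, t6, t7, gmtSimAlg_t8, t9, t10]
  ring

end SimAlgAux

theorem gmtSim_kato {k : ℕ} (N x : Fin k → ℝ) (h : Fin k → Fin k → ℝ)
    (D : Fin k → Fin k → Fin k → ℝ)
    (hN : ∑ i, N i ^ 2 = 1) (hxN : ∑ i, x i * N i = 0) (hx : 0 < ∑ i, x i ^ 2)
    (hsym : ∀ i j, h i j = h j i) (D12 : ∀ i j l, D i j l = D j i l)
    (D23 : ∀ i j l, D i j l = D i l j)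
    (hN0 : ∀ j, ∑ i, N i * h i j = 0) (hx0 : ∀ j, ∑ i, x i * h i j = 0)
    (DN : ∀ j l, ∑ i, N i * D i j l = - ∑ m, h j m * h m l)
    (Dx : ∀ j l, ∑ i, x i * D i j l = - h j l) :
    0 ≤ (∑ i, ∑ j, ∑ l, D i j l ^ 2) - 3 * ∑ j, ∑ l, (∑ m, h j m * h m l) ^ 2 ∧
    (∑ l, (∑ i, ∑ j, h i j * D i j l) ^ 2) - (∑ l, (∑ i, ∑ j, h i j * D i j l) * N l) ^ 2
        + 2 * (∑ i, ∑ j, h i j ^ 2) ^ 2 / (∑ i, x i ^ 2) ≤
      (∑ i, ∑ j, h i j ^ 2) *
        ((∑ i, ∑ j, ∑ l, D i j l ^ 2) - 3 * ∑ j, ∑ l, (∑ m, h j m * h m l) ^ 2) := by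
  obtain ⟨Q, hQ⟩ : ∃ Q : Fin k → Fin k → ℝ, ∀ j l, Q j l = ∑ m, h j m * h m l := ⟨_, fun _ _ => rfl⟩
  obtain ⟨a, ha⟩ : ∃ a : ℝ, a = ∑ i, ∑ j, h i j ^ 2 := ⟨_, rfl⟩
  obtain ⟨r2, hr2⟩ : ∃ r2 : ℝ, r2 = ∑ i, x i ^ 2 := ⟨_, rfl⟩
  obtain ⟨g, hg⟩ : ∃ g : Fin k → ℝ, ∀ l, g l = ∑ i, ∑ j, h i j * D i j l := ⟨_, fun _ => rfl⟩
  simp only [← hQ, ← ha, ← hr2, ← hg] at DN hx ⊢
  have Qs : ∀ i j, Q i j = Q j i := by
    intro i j
    rw [hQ, hQ]
    refine Finset.sum_congr rfl fun m _ => ?_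
    rw [hsym i m, hsym m j]; ring
  have vQ : ∀ v : Fin k → ℝ, (∀ j, ∑ i, v i * h i j = 0) → ∀ l, ∑ j, v j * Q j l = 0 := by
    intro v hv l
    simp only [hQ, Finset.mul_sum]
    rw [Finset.sum_comm]
    refine Finset.sum_eq_zero fun m _ => ?_
    have : ∑ j, v j * (h j m * h m l) = (∑ j, v j * h j m) * h m l := by
      rw [Finset.sum_mul]; exact Finset.sum_congr rfl fun j _ => by ring
    rw [this, hv, zero_mul]
  have NQ := vQ N hN0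
  have xQ := vQ x hx0
  obtain ⟨T, hT⟩ : ∃ T : Fin k → Fin k → Fin k → ℝ, ∀ i j l, T i j l =
      D i j l + 1 * (N i * Q j l + N j * Q i l + N l * Q i j) := ⟨_, fun _ _ _ => rfl⟩
  have T12 : ∀ i j l, T i j l = T j i l := by
    intro i j l; rw [hT, hT, D12 i j l, Qs i j]; ring
  have T23 : ∀ i j l, T i j l = T i l j := by
    intro i j l; rw [hT, hT, D23 i j l, Qs j l]; ring
  have hTsq : ∑ i, ∑ j, ∑ l, T i j l ^ 2 =
      (∑ i, ∑ j, ∑ l, D i j l ^ 2) - 3 * ∑ j, ∑ l, Q j l ^ 2 := by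
    simp only [hT]
    rw [gmtSimAlg_sq D N Q 1 D12 D23 Qs]
    simp only [DN, NQ, hN]
    have : ∑ j, ∑ l, Q j l * -Q j l = - ∑ j, ∑ l, Q j l ^ 2 := by
      simp only [← Finset.sum_neg_distrib]
      exact Finset.sum_congr rfl fun j _ => Finset.sum_congr rfl fun l _ => by ring
    rw [this]
    simp
    ring
  have xT : ∀ j l, ∑ i, x i * T i j l = - h j l := by
    intro j l
    have e : ∀ i, x i * T i j l = x i * D i j l + (x i * N i) * Q j l + N j * (x i * Q i l) +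
        N l * (x i * Q i j) := by intro i; rw [hT]; ring
    simp only [e, Finset.sum_add_distrib, ← Finset.sum_mul, ← Finset.mul_sum, Dx, hxN, xQ]
    ring
  obtain ⟨R, hR⟩ : ∃ R : Fin k → Fin k → Fin k → ℝ, ∀ i j l, R i j l =
      T i j l + r2⁻¹ * (x i * h j l + x j * h i l + x l * h i j) := ⟨_, fun _ _ _ => rfl⟩
  have hRsq : ∑ i, ∑ j, ∑ l, R i j l ^ 2 = (∑ i, ∑ j, ∑ l, T i j l ^ 2) - 3 * a / r2 := by
    simp only [hR]
    rw [gmtSimAlg_sq T x h r2⁻¹ T12 T23 hsym]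
    simp only [xT, hx0, ← hr2, ← ha]
    have : ∑ j, ∑ l, h j l * -h j l = - a := by
      rw [ha]
      simp only [← Finset.sum_neg_distrib]
      exact Finset.sum_congr rfl fun j _ => Finset.sum_congr rfl fun l _ => by ring
    rw [this]
    simp
    field_simp
    ring
  refine ⟨by rw [← hTsq]; positivity, ?_⟩
  -- contraction of `D` in the last slot
  have Dlast : ∀ (v : Fin k → ℝ) (i j : Fin k), ∑ l, D i j l * v l = ∑ l, v l * D l i j := by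
    intro v i j
    refine Finset.sum_congr rfl fun l _ => ?_
    rw [D23 i j l, D12 i l j]; ring
  have gv : ∀ v : Fin k → ℝ, ∑ l, g l * v l = ∑ i, ∑ j, h i j * ∑ l, v l * D l i j := by
    intro v
    simp only [hg, Finset.sum_mul]
    rw [Finset.sum_comm]
    refine Finset.sum_congr rfl fun i _ => ?_
    rw [Finset.sum_comm]
    refine Finset.sum_congr rfl fun j _ => ?_
    rw [← Dlast, Finset.mul_sum]
    exact Finset.sum_congr rfl fun l _ => by ring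
  obtain ⟨tr3, htr3⟩ : ∃ tr3 : ℝ, tr3 = ∑ i, ∑ j, h i j * Q i j := ⟨_, rfl⟩
  have gN : ∑ l, g l * N l = - tr3 := by
    rw [gv, htr3]
    simp only [DN, ← Finset.sum_neg_distrib]
    exact Finset.sum_congr rfl fun j _ => Finset.sum_congr rfl fun l _ => by ring
  have gx : ∑ l, g l * x l = - a := by
    rw [gv, ha]
    simp only [Dx, ← Finset.sum_neg_distrib]
    exact Finset.sum_congr rfl fun j _ => Finset.sum_congr rfl fun l _ => by ring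
  -- vanishing contractions
  have z1 : ∀ (v : Fin k → ℝ) (M : Fin k → Fin k → ℝ), (∀ j, ∑ i, v i * h i j = 0) → ∀ l,
      ∑ i, ∑ j, h i j * (v i * M j l) = 0 := by
    intro v M hv l
    rw [Finset.sum_comm]
    refine Finset.sum_eq_zero fun j _ => ?_
    have : ∑ i, h i j * (v i * M j l) = (∑ i, v i * h i j) * M j l := by
      rw [Finset.sum_mul]; exact Finset.sum_congr rfl fun i _ => by ring
    rw [this, hv, zero_mul]
  have z2 : ∀ (v : Fin k → ℝ) (M : Fin k → Fin k → ℝ), (∀ j, ∑ i, v i * h i j = 0) → ∀ l,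
      ∑ i, ∑ j, h i j * (v j * M i l) = 0 := by
    intro v M hv l
    refine Finset.sum_eq_zero fun i _ => ?_
    have : ∑ j, h i j * (v j * M i l) = (∑ j, v j * h j i) * M i l := by
      rw [Finset.sum_mul]; exact Finset.sum_congr rfl fun j _ => by rw [hsym i j]; ring
    rw [this, hv, zero_mul]
  have hG : ∀ l, ∑ i, ∑ j, h i j * R i j l = g l + tr3 * N l + a / r2 * x l := by
    intro l
    have e : ∀ i j, h i j * R i j l = h i j * D i j l + h i j * (N i * Q j l) +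
        h i j * (N j * Q i l) + (h i j * Q i j) * N l + r2⁻¹ * (h i j * (x i * h j l)) +
        r2⁻¹ * (h i j * (x j * h i l)) + r2⁻¹ * x l * h i j ^ 2 := by
      intro i j; rw [hR, hT]; ring
    simp only [e, Finset.sum_add_distrib, ← Finset.sum_mul, ← Finset.mul_sum, z1 N Q hN0, z2 N Q hN0,
      z1 x h hx0, z2 x h hx0, ← hg, ← htr3, ← ha]
    ring
  have hGsq : ∑ l, (∑ i, ∑ j, h i j * R i j l) ^ 2 =
      (∑ l, g l ^ 2) - (∑ l, g l * N l) ^ 2 - a ^ 2 / r2 := by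
    have e : ∀ l, (∑ i, ∑ j, h i j * R i j l) ^ 2 = g l ^ 2 + tr3 ^ 2 * N l ^ 2 +
        (a / r2) ^ 2 * x l ^ 2 + 2 * tr3 * (g l * N l) + 2 * (a / r2) * (g l * x l) +
        2 * tr3 * (a / r2) * (x l * N l) := by
      intro l; rw [hG]; ring
    simp only [e, Finset.sum_add_distrib, ← Finset.mul_sum, hN, ← hr2, gN, gx, hxN]
    field_simp
    ring
  have hCS : ∀ l, (∑ i, ∑ j, h i j * R i j l) ^ 2 ≤ a * ∑ i, ∑ j, R i j l ^ 2 := by
    intro l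
    have := Finset.sum_mul_sq_le_sq_mul_sq (Finset.univ : Finset (Fin k × Fin k))
      (fun p => h p.1 p.2) (fun p => R p.1 p.2 l)
    simp only [Fintype.sum_prod_type] at this
    rw [ha]; exact this
  have hsum : ∑ l, (∑ i, ∑ j, h i j * R i j l) ^ 2 ≤ a * ∑ i, ∑ j, ∑ l, R i j l ^ 2 := by
    calc ∑ l, (∑ i, ∑ j, h i j * R i j l) ^ 2 ≤ ∑ l, a * ∑ i, ∑ j, R i j l ^ 2 :=
          Finset.sum_le_sum fun l _ => hCS l
      _ = a * ∑ i, ∑ j, ∑ l, R i j l ^ 2 := by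
          rw [← Finset.mul_sum]
          congr 1
          rw [Finset.sum_comm]
          exact Finset.sum_congr rfl fun i _ => Finset.sum_comm
  rw [hGsq, hRsq, hTsq] at hsum
  have e1 : a * ((∑ i, ∑ j, ∑ l, D i j l ^ 2) - 3 * ∑ j, ∑ l, Q j l ^ 2 - 3 * a / r2) =
      a * ((∑ i, ∑ j, ∑ l, D i j l ^ 2) - 3 * ∑ j, ∑ l, Q j l ^ 2) - 3 * (a ^ 2 / r2) := by ring
  have e2 : 2 * a ^ 2 / r2 = 2 * (a ^ 2 / r2) := by ring
  rw [e1] at hsum
  rw [e2]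
  linarith

end Claimed.Agent.Gmt
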