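import Claimed.Agent.Lib.Gmt.SimDefs

/-!
# Lib/Gmt [G7 Simons] `SimCalc`: calculus toolkit.   (architect + proofs: helper257)   SORRY-FREE.

Elementary facts on `gradient`, `gmtSimPd`, `gmtSimH`, `gmtSimA`, products with test functions, cut offs.
-/

set_option autoImplicit false
open scoped ContDiff ENNReal RealInnerProductSpace Topology Manifold
open MeasureTheory Metric Set Filter

namespace Claimed.Agent.Gmt

variable {k : ℕ}

theorem gmtSim_inner_gradient (f : E k → ℝ) (x v : E k) : ⟪gradient f x, v⟫ = fderiv ℝ f x v := by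
  simp [gradient]

theorem gmtSim_inner_eb (v : E k) (i : Fin k) : ⟪v, eb i⟫ = v i := by
  simp [eb, EuclideanSpace.inner_single_right]

theorem gmtSim_gradient_apply (f : E k → ℝ) (x : E k) (i : Fin k) :
    gradient f x i = gmtSimPd i f x := by
  rw [← gmtSim_inner_eb, gmtSim_inner_gradient]; rfl

theorem gmtSim_inner_eq_sum (v w : E k) : ⟪v, w⟫ = ∑ i, v i * w i := by
  simp [PiLp.inner_apply, mul_comm]

theorem gmtSim_contDiffOn_gradient {U : Set (E k)} (hU : IsOpen U) {f : E k → ℝ}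
    (hf : ContDiffOn ℝ ∞ f U) : ContDiffOn ℝ ∞ (gradient f) U := by
  have h1 : ContDiffOn ℝ ∞ (fderiv ℝ f) U := hf.fderiv_of_isOpen hU (by simp)
  have h2 : ContDiff ℝ ∞ (fun L : StrongDual ℝ (E k) => (InnerProductSpace.toDual ℝ (E k)).symm L) :=
    (InnerProductSpace.toDual ℝ (E k)).symm.toContinuousLinearEquiv.contDiff
  exact h2.comp_contDiffOn h1

theorem gmtSim_contDiffOn_pd {U : Set (E k)} (hU : IsOpen U) {f : E k → ℝ}
    (hf : ContDiffOn ℝ ∞ f U) (i : Fin k) : ContDiffOn ℝ ∞ (gmtSimPd i f) U := by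
  have h1 : ContDiffOn ℝ ∞ (fderiv ℝ f) U := hf.fderiv_of_isOpen hU (by simp)
  exact h1.clm_apply contDiffOn_const

theorem gmtSim_contDiffOn_H {U : Set (E k)} (hU : IsOpen U) {f : E k → ℝ}
    (hf : ContDiffOn ℝ ∞ f U) : ContDiffOn ℝ ∞ (gmtSimH f) U :=
  (gmtSim_contDiffOn_gradient hU hf).fderiv_of_isOpen hU (by simp)

theorem gmtSim_contDiffOn_A {U : Set (E k)} (hU : IsOpen U) {f : E k → ℝ}
    (hf : ContDiffOn ℝ ∞ f U) : ContDiffOn ℝ ∞ (gmtSimA f) U := by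
  unfold gmtSimA
  apply ContDiffOn.sum
  intro i _
  exact ((gmtSim_contDiffOn_H hU hf).clm_apply contDiffOn_const).norm_sq ℝ

theorem gmtSim_A_nonneg (f : E k → ℝ) (x : E k) : 0 ≤ gmtSimA f x :=
  Finset.sum_nonneg fun _ _ => by positivity

theorem gmtSim_pd_congr {U : Set (E k)} (hU : IsOpen U) {f g : E k → ℝ}
    (h : ∀ x ∈ U, f x = g x) {x : E k} (hx : x ∈ U) (i : Fin k) :
    gmtSimPd i f x = gmtSimPd i g x := by
  have : f =ᶠ[𝓝 x] g := by
    filter_upwards [hU.mem_nhds hx] with y hy using h y hy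
  unfold gmtSimPd
  rw [this.fderiv_eq]

/-- `⟪h v, w⟫ = D²f(v,w)`. -/
theorem gmtSim_H_inner {U : Set (E k)} (hU : IsOpen U) {f : E k → ℝ}
    (hf : ContDiffOn ℝ ∞ f U) {x : E k} (hx : x ∈ U) (v w : E k) :
    ⟪gmtSimH f x v, w⟫ = fderiv ℝ (fderiv ℝ f) x v w := by
  have h1 : ContDiffOn ℝ ∞ (fderiv ℝ f) U := hf.fderiv_of_isOpen hU (by simp)
  have h2 : DifferentiableAt ℝ (fderiv ℝ f) x :=
    (h1.contDiffAt (hU.mem_nhds hx)).differentiableAt (by simp)
  have hg : DifferentiableAt ℝ (gradient f) x :=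
    ((gmtSim_contDiffOn_gradient hU hf).contDiffAt (hU.mem_nhds hx)).differentiableAt (by simp)
  have h3 : (fun y => ⟪gradient f y, w⟫) = fun y => fderiv ℝ f y w := by
    funext y; exact gmtSim_inner_gradient f y w
  have h4 := fderiv_inner_apply ℝ hg (differentiableAt_const w) v
  rw [h3, fderiv_clm_apply h2 (differentiableAt_const _)] at h4
  simp at h4
  unfold gmtSimH
  exact h4.symm

theorem gmtSim_pd_pd {U : Set (E k)} (hU : IsOpen U) {f : E k → ℝ}
    (hf : ContDiffOn ℝ ∞ f U) {x : E k} (hx : x ∈ U) (i j : Fin k) :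
    gmtSimPd i (gmtSimPd j f) x = fderiv ℝ (fderiv ℝ f) x (eb i) (eb j) := by
  have h1 : ContDiffOn ℝ ∞ (fderiv ℝ f) U := hf.fderiv_of_isOpen hU (by simp)
  have h2 : DifferentiableAt ℝ (fderiv ℝ f) x :=
    (h1.contDiffAt (hU.mem_nhds hx)).differentiableAt (by simp)
  unfold gmtSimPd
  rw [fderiv_clm_apply h2 (differentiableAt_const _)]
  simp

theorem gmtSim_snd_symm {U : Set (E k)} (hU : IsOpen U) {f : E k → ℝ}
    (hf : ContDiffOn ℝ ∞ f U) {x : E k} (hx : x ∈ U) (v w : E k) :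
    fderiv ℝ (fderiv ℝ f) x v w = fderiv ℝ (fderiv ℝ f) x w v := by
  have h : ContDiffAt ℝ ∞ f x := hf.contDiffAt (hU.mem_nhds hx)
  exact (h.isSymmSndFDerivAt (by rw [minSmoothness_of_isRCLikeNormedField]; exact ENat.LEInfty.out)).eq v w

theorem gmtSim_pd_comm {U : Set (E k)} (hU : IsOpen U) {f : E k → ℝ}
    (hf : ContDiffOn ℝ ∞ f U) {x : E k} (hx : x ∈ U) (i j : Fin k) :
    gmtSimPd i (gmtSimPd j f) x = gmtSimPd j (gmtSimPd i f) x := by
  rw [gmtSim_pd_pd hU hf hx, gmtSim_pd_pd hU hf hx, gmtSim_snd_symm hU hf hx]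

theorem gmtSim_H_apply {U : Set (E k)} (hU : IsOpen U) {f : E k → ℝ}
    (hf : ContDiffOn ℝ ∞ f U) {x : E k} (hx : x ∈ U) (i j : Fin k) :
    ⟪gmtSimH f x (eb i), eb j⟫ = gmtSimPd i (gmtSimPd j f) x := by
  rw [gmtSim_H_inner hU hf hx, gmtSim_pd_pd hU hf hx]

theorem gmtSim_H_symm {U : Set (E k)} (hU : IsOpen U) {f : E k → ℝ}
    (hf : ContDiffOn ℝ ∞ f U) {x : E k} (hx : x ∈ U) (v w : E k) :
    ⟪gmtSimH f x v, w⟫ = ⟪v, gmtSimH f x w⟫ := by
  rw [gmtSim_H_inner hU hf hx, real_inner_comm, gmtSim_H_inner hU hf hx, gmtSim_snd_symm hU hf hx]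

theorem gmtSim_A_eq {U : Set (E k)} (hU : IsOpen U) {f : E k → ℝ}
    (hf : ContDiffOn ℝ ∞ f U) {x : E k} (hx : x ∈ U) :
    gmtSimA f x = ∑ i, ∑ j, gmtSimPd i (gmtSimPd j f) x ^ 2 := by
  unfold gmtSimA
  refine Finset.sum_congr rfl fun i _ => ?_
  rw [EuclideanSpace.norm_sq_eq]
  refine Finset.sum_congr rfl fun j _ => ?_
  rw [← gmtSim_H_apply hU hf hx, gmtSim_inner_eb, Real.norm_eq_abs, sq_abs]

theorem gmtSim_div_eq_tr (X : E k → E k) (x : E k) : gmtDiv X x = gmtSimTr (fderiv ℝ X x) := by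
  unfold gmtDiv gmtSimTr
  refine Finset.sum_congr rfl fun i _ => ?_
  rw [gmtSim_inner_eb]

theorem gmtSim_div_gradient {U : Set (E k)} (hU : IsOpen U) {f : E k → ℝ}
    (hf : ContDiffOn ℝ ∞ f U) {x : E k} (hx : x ∈ U) :
    gmtDiv (gradient f) x = ∑ i, gmtSimPd i (gmtSimPd i f) x := by
  rw [gmtSim_div_eq_tr]
  unfold gmtSimTr
  refine Finset.sum_congr rfl fun i _ => ?_
  exact gmtSim_H_apply hU hf hx i i

theorem gmtSim_tr_eq_trace (B : E k →L[ℝ] E k) :
    gmtSimTr B = LinearMap.trace ℝ (E k) (B : E k →ₗ[ℝ] E k) := by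
  rw [LinearMap.trace_eq_sum_inner _ (EuclideanSpace.basisFun (Fin k) ℝ)]
  unfold gmtSimTr
  refine Finset.sum_congr rfl fun i _ => ?_
  rw [real_inner_comm]
  simp [eb]

/-- `|∇u| = 1` on an open set implies `h ∇u = 0`. -/
theorem gmtSim_H_gradient {U : Set (E k)} (hU : IsOpen U) {u : E k → ℝ}
    (hu : ContDiffOn ℝ ∞ u U) (heik : ∀ x ∈ U, ‖gradient u x‖ = 1) {x : E k} (hx : x ∈ U) :
    gmtSimH u x (gradient u x) = 0 := by
  have hg : DifferentiableAt ℝ (gradient u) x :=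
    ((gmtSim_contDiffOn_gradient hU hu).contDiffAt (hU.mem_nhds hx)).differentiableAt (by simp)
  have h1 : (fun y => ⟪gradient u y, gradient u y⟫) =ᶠ[𝓝 x] fun _ => (1 : ℝ) := by
    filter_upwards [hU.mem_nhds hx] with y hy
    rw [real_inner_self_eq_norm_sq, heik y hy]; norm_num
  have h2 : ∀ v, ⟪gmtSimH u x v, gradient u x⟫ = 0 := by
    intro v
    have h3 := fderiv_inner_apply ℝ hg hg v
    rw [h1.fderiv_eq] at h3
    simp only [fderiv_fun_const, Pi.zero_apply] at h3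
    rw [real_inner_comm (fderiv ℝ (gradient u) x v)] at h3
    unfold gmtSimH
    have h4 : (0 : E k →L[ℝ] ℝ) v = 0 := rfl
    rw [h4] at h3
    linarith
  have h5 : ⟪gmtSimH u x (gradient u x), gmtSimH u x (gradient u x)⟫ = 0 := by
    rw [gmtSim_H_symm hU hu hx, real_inner_comm]
    exact h2 _
  exact inner_self_eq_zero.mp h5

/-- gluing: smooth on `U`, zero off a closed subset of `U`. -/
theorem gmtSim_contDiff_of_tsupport {F : Type*} [NormedAddCommGroup F] [NormedSpace ℝ F]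
    {U : Set (E k)} (hU : IsOpen U) {g : E k → F}
    (hg : ContDiffOn ℝ ∞ g U) (hs : tsupport g ⊆ U) : ContDiff ℝ ∞ g := by
  rw [contDiff_iff_contDiffAt]
  intro x
  by_cases hx : x ∈ U
  · exact hg.contDiffAt (hU.mem_nhds hx)
  · have hx' : x ∉ tsupport g := fun h => hx (hs h)
    have : g =ᶠ[𝓝 x] fun _ => 0 := notMem_tsupport_iff_eventuallyEq.mp hx'
    exact contDiffAt_const.congr_of_eventuallyEq this

theorem gmtSim_test_mul {U : Set (E k)} (hU : IsOpen U) {f ψ : E k → ℝ}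
    (hf : ContDiffOn ℝ ∞ f U) (hψ : GmtTestS0 U ψ) : GmtTestS0 U (fun x => f x * ψ x) := by
  have hs : tsupport (fun x => f x * ψ x) ⊆ tsupport ψ := tsupport_mul_subset_right
  refine ⟨gmtSim_contDiff_of_tsupport hU (hf.mul hψ.smooth.contDiffOn) (hs.trans hψ.sub),
    hψ.cpt.mul_left, hs.trans hψ.sub⟩

theorem gmtSim_test_smul {U : Set (E k)} (hU : IsOpen U) {V : E k → E k} {ψ : E k → ℝ}
    (hV : ContDiffOn ℝ ∞ V U) (hψ : GmtTestS0 U ψ) : GmtTestS U (fun x => ψ x • V x) := by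
  have hs : tsupport (fun x => ψ x • V x) ⊆ tsupport ψ := tsupport_smul_subset_left ψ V
  refine ⟨gmtSim_contDiff_of_tsupport hU (hψ.smooth.contDiffOn.smul hV) (hs.trans hψ.sub),
    hψ.cpt.smul_right, hs.trans hψ.sub⟩

theorem gmtSim_exists_cutoff {K U : Set (E k)} (hK : IsCompact K) (hU : IsOpen U) (hKU : K ⊆ U) :
    ∃ χ : E k → ℝ, GmtTestS0 U χ ∧ (∀ᶠ x in 𝓝ˢ K, χ x = 1) ∧ ∀ x, 0 ≤ χ x ∧ χ x ≤ 1 := by
  obtain ⟨L, hL, hKL, hLU⟩ := exists_compact_between hK hU hKU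
  obtain ⟨f, h1, h0, h01⟩ := exists_contMDiffMap_one_nhds_of_subset_interior (n := ⊤)
    (𝓘(ℝ, E k)) hK.isClosed hKL
  have hsupp : tsupport (f : E k → ℝ) ⊆ L := by
    apply closure_minimal _ hL.isClosed
    intro x hx
    by_contra hxL
    exact hx (h0 x hxL)
  refine ⟨f, ⟨f.contMDiff.contDiff, hL.of_isClosed_subset (isClosed_tsupport _) hsupp,
    hsupp.trans hLU⟩, h1, fun x => h01 x⟩

theorem gmtSim_integrable {U S : Set (E k)} (hU : IsOpen U) (hS : GmtLF S U) {g : E k → ℝ}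
    (hg : ContinuousOn g U) (hc : HasCompactSupport g) (hs : tsupport g ⊆ U) :
    Integrable g (gmtMu S) := by
  have hcont : Continuous g := by
    rw [continuous_iff_continuousAt]
    intro x
    by_cases hx : x ∈ U
    · exact hg.continuousAt (hU.mem_nhds hx)
    · have hx' : x ∉ tsupport g := fun h => hx (hs h)
      have : g =ᶠ[𝓝 x] fun _ => 0 := notMem_tsupport_iff_eventuallyEq.mp hx'
      exact continuousAt_const.congr this.symm
  obtain ⟨C, hC⟩ := hcont.bounded_above_of_compact_support hc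
  have h1 : IntegrableOn g (tsupport g) (gmtMu S) :=
    Measure.integrableOn_of_bounded (M := C) (gmtMu_compact_ne_top hU hS hc hs)
      hcont.aestronglyMeasurable (Eventually.of_forall hC)
  exact (integrableOn_iff_integrable_of_support_subset (subset_tsupport g)).mp h1

theorem gmtSim_min_lf {U S : Set (E k)} (hS : GmtMin U S) : GmtLF S U :=
  ⟨hS.meas, fun W hW => hS.fin W hW⟩

end Claimed.Agent.Gmt
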