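import Claimed.Agent.Lib.Gmt.IFb
import Claimed.Agent.Lib.Gmt.GgMeas

/-!
# Lib/Gmt [G7 = SIMONS], file 0: DEFINITIONS and the two outside dependencies.   (architect: helper257)

GOAL of G7 (file `SimTop.lean`):  a perimeter minimising cone `S ⊆ E k`, `2 ≤ k ≤ 7`, whose boundary is
regular away from the vertex, is a half space.

EVERYTHING IS AMBIENT CALCULUS: no manifolds, no frames, no covariant derivatives.
`Σ = gmtBd S`, `μ = gmtMu S`, `ν = gmtNu S`.  The only geometric object is ONE function `u` (the signed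
distance to `Σ`, negative in `S`), smooth on an open neighbourhood `U` of `Σ \ {0}`, with `|∇u| = 1`:
* `N = ∇u` (`= ν` on `Σ`),  `h = D²u = gmtSimH u` (second fundamental form, `h N = 0`),
  `a = |h|² = gmtSimA u`,  `π x = x - u x ∇u x = gmtSimPi u x` (nearest point projection),
* tangential gradient product `gmtSimTg u f g = ∇f·∇g - (∇f·N)(∇g·N)`,
* `gmtSimL u f = Δ f - D²f(N,N)` (`=` Laplace-Beltrami operator of `Σ` on `Σ`, because `H = Δu = 0` there).

CHAIN (one file = one package; all files `Lib/Gmt/Sim*.lean`)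
 (several packages are split into files `SimXyzA`, `SimXyzB`, ...: ONE FILE = ONE LEAF PACKAGE = ONE ROW of the subtask board)
 `SimCalc`  calculus toolkit (partial derivatives `gmtSimPd`)
 `SimNF`    local normal form (inverse function theorem), signed distance      ⟹ `SimTube`: `∃ U u, GmtSimCone S U u`
 `Fv*`      (helper184) deformations `Φ_t = id + tX`: `P(Φ_t(S);W) ≤ ∫_W |cof(DΦ_t)ν| dμ`, first variation `gmt_min_fv`
 `SimJac`   second order expansion of `|cof(1+tB) ν|` for normal variations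
 `SimVar`   minimality ⟹ stability inequality (STAB), tangential divergence theorem
 `SimAlg`   tensor algebra (Kato inequality for cones), `SimId`: Simons' identity for `a = |D²u|²`
 `SimInt`   STAB + FV + Simons ⟹ `2 ∫ a ψ²/|x|² ≤ ∫ a |∇ψ|²`
 `SimRad`   logarithmic cut off on dyadic shells ⟹ `a = 0` on `Σ \ 0`  (`3 ≤ k ≤ 7`)
 `SimFlat`  `a = 0` ⟹ locally a half space ⟹ (`k ≥ 3`) half space;   `SimTwo`: `k = 2`
 `SimTop`   the theorem `gmt_simons`.
-/

set_option autoImplicit false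
open scoped ContDiff ENNReal RealInnerProductSpace
open MeasureTheory Metric Set Filter

namespace Claimed.Agent.Gmt

variable {k : ℕ}

/-! ### ambient calculus -/

/-- the partial derivative `∂_i f`. -/
noncomputable def gmtSimPd (i : Fin k) (f : E k → ℝ) (x : E k) : ℝ := fderiv ℝ f x (eb i)

/-- the Hessian of `u` as a field of operators: `h = D(∇u)`. -/
noncomputable def gmtSimH (u : E k → ℝ) (x : E k) : E k →L[ℝ] E k := fderiv ℝ (gradient u) x

/-- `a = |D²u|²` (Hilbert-Schmidt norm). -/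
noncomputable def gmtSimA (u : E k → ℝ) (x : E k) : ℝ := ∑ i, ‖gmtSimH u x (eb i)‖ ^ 2

/-- tangential part of `∇f·∇g`. -/
noncomputable def gmtSimTg (u f g : E k → ℝ) (x : E k) : ℝ :=
  ⟪gradient f x, gradient g x⟫ - ⟪gradient f x, gradient u x⟫ * ⟪gradient g x, gradient u x⟫

/-- `L f = Δ f - D²f(∇u,∇u)`. -/
noncomputable def gmtSimL (u f : E k → ℝ) (x : E k) : ℝ :=
  gmtDiv (gradient f) x - ⟪gmtSimH f x (gradient u x), gradient u x⟫

/-- the projection along `∇u`: `π x = x - u x ∇u x`. -/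
noncomputable def gmtSimPi (u : E k → ℝ) (x : E k) : E k := x - u x • gradient u x

/-- scalar smooth test functions with compact support in `U`. -/
structure GmtTestS0 (U : Set (E k)) (φ : E k → ℝ) : Prop where
  smooth : ContDiff ℝ ∞ φ
  cpt : HasCompactSupport φ
  sub : tsupport φ ⊆ U

/-! ### the signed distance -/

/-- the measure theoretic interior of `S`. -/
def gmtSimInt (S : Set (E k)) : Set (E k) := {x | ∃ r > 0, volume (ball x r \ S) = 0}

open Classical in
/-- the signed distance to `gmtBd S`, negative inside `S`. -/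
noncomputable def gmtSimSd (S : Set (E k)) (x : E k) : ℝ :=
  if x ∈ gmtSimInt S then - infDist x (gmtBd S) else infDist x (gmtBd S)

/-! ### the tube -/

/-- `u` is a distance normal form of `S` on the open neighbourhood `U` of `gmtBd S \ {0}`. -/
structure GmtSimTube (S U : Set (E k)) (u : E k → ℝ) : Prop where
  opn : IsOpen U
  zero : (0 : E k) ∉ U
  bd : ∀ x ∈ gmtBd S, x ≠ 0 → x ∈ U
  smooth : ContDiffOn ℝ ∞ u U
  eik : ∀ x ∈ U, ‖gradient u x‖ = 1
  zero_iff : ∀ x ∈ U, u x = 0 ↔ x ∈ gmtBd S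
  neg : (S ∩ U : Set (E k)) =ᵐ[volume] ({x | x ∈ U ∧ u x < 0} : Set (E k))
  proj : ∀ x ∈ U, gmtSimPi u x ∈ U ∧ u (gmtSimPi u x) = 0
  grad_proj : ∀ x ∈ U, gradient u (gmtSimPi u x) = gradient u x
  nu : ∀ᵐ x ∂((gmtMu S).restrict U), gmtNu S x = gradient u x

/-- the tube of a minimal cone. -/
structure GmtSimCone (S U : Set (E k)) (u : E k → ℝ) : Prop extends GmtSimTube S U u where
  hom : ∀ x ∈ U, ⟪x, gradient u x⟫ = u x
  homA : ∀ x ∈ gmtBd S, x ≠ 0 → ∀ t : ℝ, 0 < t → gmtSimA u (t • x) = (t ^ 2)⁻¹ * gmtSimA u x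
  harm : ∀ x ∈ U, u x = 0 → gmtDiv (gradient u) x = 0

/-! ### linear algebra -/

/-- the rank one operator `v ↦ ⟪w, v⟫ N`. -/
noncomputable def gmtSimR1 (N w : E k) : E k →L[ℝ] E k := (innerSL ℝ w).smulRight N

/-- the trace of an operator. -/
noncomputable def gmtSimTr (B : E k →L[ℝ] E k) : ℝ := ∑ i, ⟪B (eb i), eb i⟫

/-! ### the two dependencies on the regularity chapters (G5).
Only this file imports `IFb.lean`. -/

/-- Euler-Lagrange equation in the Euclidean case: `div (∇φ/|∇φ|) = 0` on `{φ = 0}`. -/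
theorem gmtSim_dep_el {U S : Set (E k)} (hU : IsOpen U) (hS : GmtMin U S) (x : E k) (r : ℝ)
    (hr : 0 < r) (hxr : ball x r ⊆ U)
    (φ : E k → ℝ) (hφ : ContDiffOn ℝ ∞ φ (ball x r)) (hφ' : ∀ y ∈ ball x r, fderiv ℝ φ y ≠ 0)
    (hSφ : (S ∩ ball x r : Set (E k)) =ᵐ[volume] ({y | y ∈ ball x r ∧ φ y < 0} : Set (E k)))
    (y : E k) (hy : y ∈ ball x r) (hy0 : φ y = 0) :
    gmtDiv (fun z => ‖gradient φ z‖⁻¹ • gradient φ z) y = 0 := by
  have h := gmt_reg_el (A := fun _ => gmtEu k) (f := fun _ => 0)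
    ⟨hU, gmtInt_eu U, contDiffOn_const⟩ hS x r hr hxr φ hφ hφ' hSφ y hy hy0
  have h1 : ∀ ξ : E k, gmtSharp (gmtEu k) ξ = ξ := by
    intro ξ
    unfold gmtSharp gmtEu
    apply (InnerProductSpace.toDual ℝ (E k)).injective
    rw [LinearIsometryEquiv.apply_symm_apply]
    ext v
    rw [InnerProductSpace.toDual_apply_apply]
    exact innerSL_apply_apply ℝ ξ v
  have h2 : ∀ ξ : E k, Real.sqrt (gmtEu k ξ ξ) = ‖ξ‖ := by
    intro ξ
    unfold gmtEu
    rw [innerSL_apply_apply, real_inner_self_eq_norm_sq, Real.sqrt_sq (norm_nonneg _)]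
  simp only [h1, h2] at h
  exact h

/-- on the regular part `ν = ∇φ/|∇φ|`. -/
theorem gmtSim_dep_nu {S : Set (E k)} (x : E k) (r : ℝ) (hr : 0 < r)
    (φ : E k → ℝ) (hφ : ContDiffOn ℝ ∞ φ (ball x r)) (hφ' : ∀ y ∈ ball x r, fderiv ℝ φ y ≠ 0)
    (hS : MeasurableSet S)
    (hSφ : (S ∩ ball x r : Set (E k)) =ᵐ[volume] ({y | y ∈ ball x r ∧ φ y < 0} : Set (E k))) :
    ∀ᵐ y ∂((gmtMu S).restrict (ball x r)), gmtNu S y = ‖gradient φ y‖⁻¹ • gradient φ y :=
  (gmt_reg_mu x r hr φ hφ hφ' hS hSφ).2.2.1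

end Claimed.Agent.Gmt
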