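import Claimed.Agent.Lib.Gmt.SimIdA

/-!
# Lib/Gmt [G7 Simons] `SimFlatA`: `a = 0` on `Σ \ 0` implies that `S` is a half space (`k ≥ 3`).   (architect: helper257)

## (A) `gmtSim_A_zero_two`: for `k = 2` the second fundamental form of a cone vanishes for free
At `p ∈ Σ \ 0`: `h N = 0` (`gmtSim_H_gradient`), `h p = 0` (`gmtSim_C1`), `⟪p, N⟫ = u p = 0`, `p ≠ 0`, `|N| = 1`: `p, N` span `E 2`, so `h = 0`.
## (B) `gmtSim_flat_local`
`a = 0` on `Σ \ 0` means `gmtSimH u q = 0` for `q ∈ Σ ∩ U`.  On `U`: `∇u = ∇u ∘ π` (`grad_proj`), `π` is differentiable on `U`, `∇u` is differentiable at `π x ∈ U`; chain rule: `h x = h(π x) ∘ Dπ x = 0` (`π x ∈ Σ ∩ U` by `proj`, `zero_iff`).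
On a ball `ball p ρ ⊆ U`: `∇u` is constant `= e := ∇u p` (`Convex.is_const_of_fderivWithin_eq_zero` or `IsOpen.is_const_of_fderiv_eq_zero`), so `u x = ⟪e, x - p⟫ = ⟪x, e⟫` (`u p = 0`, `⟪p, e⟫ = u p = 0` by `hom`).  Then `neg`.
## (C) `gmtSim_trivial_of_connected`: `V` open connected, `V ∩ Σ = ∅` `⟹` `S ∩ V` or `V \ S` is null   (`gmtP_eq_zero_of_disjoint`, `gmtP_eq_zero_const`).
## (D) `gmtSim_half_unique`: two half spaces through `0` which agree a.e. in a ball centred at `q ∈ e^⊥` coincide: `e = e'`.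
      (If `e' ≠ e`, pick `v` with `⟪v,e⟫ < 0 < ⟪v,e'⟫` or the reverse [`v = e' - e` works: `⟪e'-e,e⟫ = ⟪e,e'⟫ - 1 < 0 < 1 - ⟪e,e'⟫`]; need also `⟪q,e'⟫ = 0`: otherwise near `q` the set `H_{e'}` is full or empty while `H_e` is neither.  Then near `q + δ v` one set is full and the other is empty.)
## (E) `gmtSim_flat_global` (`k ≥ 3`)
1. `Σ \ 0 ≠ ∅`: otherwise (C) on `V = {0}ᶜ` (connected: `isConnected_compl_singleton_of_one_lt_rank`) makes `S` null or conull, contradicting `0 ∈ Σ`.   Fix `p₀`, `e`.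
2. For a unit vector `e` let `Z_e = e^⊥ \ 0` and `G_e = {q ∈ Z_e | S = H_e a.e. near q}`.   `G_e` is open in `Z_e`; it is closed in `Z_e`: if `q_j → q ∈ Z_e`, `q_j ∈ G_e`, then `q_j ∈ Σ`, so `q ∈ Σ \ 0` (`isClosed_gmtBd`), `S = H_{e'}` on `ball q ρ`, and (D) at `q_j ∈ ball q ρ` gives `e' = e`.
   `Z_e` is connected (`e^⊥` has dimension `k - 1 ≥ 2`; image of `{0}ᶜ` of the subspace).   So `G_e ≠ ∅ ⟹ G_e = Z_e`.
3. If `p ∈ Σ`, `⟪p,e⟫ ≠ 0`: then `G_{e_p} = Z_{e_p}`, `e_p ≠ ± e`... take `q ≠ 0` with `q ⟂ e, e_p` (`k ≥ 3`); (D) at `q` gives `e_p = e`, but `⟪p,e_p⟫ = 0 ≠ ⟪p,e⟫`.   So `Σ ⊆ e^⊥`.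
4. (C) on the two open half spaces (convex, hence connected); near `p₀` the set `S` is `H_e`: `S` is conull in `H_e`, null in `H_{-e}`; the hyperplane is null.

THIS FILE: (A), (B).
-/

set_option autoImplicit false
open scoped ContDiff ENNReal RealInnerProductSpace Topology
open MeasureTheory Metric Set Filter

namespace Claimed.Agent.Gmt

variable {k : ℕ}

/-- `S` is flat near every boundary point different from the vertex. -/
def GmtSimFlat (S : Set (E k)) : Prop :=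
  ∀ p ∈ gmtBd S, p ≠ 0 → ∃ e : E k, ‖e‖ = 1 ∧ ⟪p, e⟫ = 0 ∧ ∃ ρ > 0,
    (S ∩ ball p ρ : Set (E k)) =ᵐ[volume] (gmtHalf 0 e ∩ ball p ρ : Set (E k))

/-- homogeneity of degree one: `h x = 0`. -/
theorem gmtSimFlat_H_self {U : Set (E k)} (hU : IsOpen U) {u : E k → ℝ}
    (hu : ContDiffOn ℝ ∞ u U) (hhom : ∀ x ∈ U, ⟪x, gradient u x⟫ = u x) {x : E k} (hx : x ∈ U) :
    gmtSimH u x x = 0 := by
  have hg : DifferentiableAt ℝ (gradient u) x :=
    ((gmtSim_contDiffOn_gradient hU hu).contDiffAt (hU.mem_nhds hx)).differentiableAt (by simp)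
  have h1 : (fun y => ⟪y, gradient u y⟫) =ᶠ[𝓝 x] u := by
    filter_upwards [hU.mem_nhds hx] with y hy
    exact hhom y hy
  have h2 : ∀ v, ⟪x, gmtSimH u x v⟫ = 0 := by
    intro v
    have h3 := fderiv_inner_apply ℝ (differentiableAt_id (x := x)) hg v
    have h4 : (fun t => ⟪id t, gradient u t⟫) =ᶠ[𝓝 x] u := h1
    rw [h4.fderiv_eq] at h3
    simp only [fderiv_id, id_eq, ContinuousLinearMap.coe_id'] at h3
    rw [← gmtSim_inner_gradient, real_inner_comm v] at h3
    unfold gmtSimH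
    linarith
  have h5 : ⟪gmtSimH u x x, gmtSimH u x x⟫ = 0 := by
    rw [gmtSim_H_symm hU hu hx]
    exact h2 _
  exact inner_self_eq_zero.mp h5

/-- `a = 0` means `h = 0`. -/
theorem gmtSimFlat_H_eq_zero {u : E k → ℝ} {x : E k} (h : gmtSimA u x = 0) : gmtSimH u x = 0 := by
  unfold gmtSimA at h
  have h1 : ∀ i, gmtSimH u x (eb i) = 0 := by
    intro i
    have := (Finset.sum_eq_zero_iff_of_nonneg (fun i _ => by positivity)).1 h i (Finset.mem_univ i)
    simpa using this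
  ext1 v
  have hv : v = ∑ i, v i • eb i := by
    have := (EuclideanSpace.basisFun (Fin k) ℝ).sum_repr v
    simpa [eb] using this.symm
  rw [hv, map_sum]
  simp [h1]

/-- (A) -/
theorem gmtSim_A_zero_two {S U : Set (E 2)} {u : E 2 → ℝ} (hc : GmtSimCone S U u) :
    ∀ x ∈ gmtBd S, x ≠ 0 → gmtSimA u x = 0 := by
  intro x hx hx0
  have hxU : x ∈ U := hc.bd x hx hx0
  have hN : gmtSimH u x (gradient u x) = 0 := gmtSim_H_gradient hc.opn hc.smooth hc.eik hxU
  have hX : gmtSimH u x x = 0 := gmtSimFlat_H_self hc.opn hc.smooth hc.hom hxU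
  have hux : u x = 0 := (hc.zero_iff x hxU).2 hx
  have horth : ⟪x, gradient u x⟫ = 0 := by rw [hc.hom x hxU, hux]
  have hNne : gradient u x ≠ 0 := by
    intro h
    have := hc.eik x hxU
    rw [h, norm_zero] at this
    exact zero_ne_one this
  have hli : LinearIndependent ℝ ![x, gradient u x] := by
    refine linearIndependent_of_ne_zero_of_inner_eq_zero (𝕜 := ℝ) ?_ ?_
    · intro i
      fin_cases i
      · exact hx0
      · exact hNne
    · intro i j hij
      fin_cases i <;> fin_cases j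
      · exact absurd rfl hij
      · exact horth
      · simpa [real_inner_comm] using horth
      · exact absurd rfl hij
  have hspan : Submodule.span ℝ (Set.range ![x, gradient u x]) = ⊤ :=
    hli.span_eq_top_of_card_eq_finrank (by simp)
  have hzero : (gmtSimH u x : E 2 →ₗ[ℝ] E 2) = 0 := by
    refine LinearMap.ext_on_range hspan ?_
    intro i
    fin_cases i
    · simpa using hX
    · simpa using hN
  unfold gmtSimA
  refine Finset.sum_eq_zero fun i _ => ?_
  have : gmtSimH u x (eb i) = 0 := by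
    have := LinearMap.congr_fun hzero (eb i)
    simpa using this
  rw [this]; simp

/-- (B) -/
theorem gmtSim_flat_local {S U : Set (E k)} {u : E k → ℝ} (hc : GmtSimCone S U u)
    (h0 : ∀ x ∈ gmtBd S, x ≠ 0 → gmtSimA u x = 0) : GmtSimFlat S := by
  have hgs : ContDiffOn ℝ ∞ (gradient u) U := gmtSim_contDiffOn_gradient hc.opn hc.smooth
  have hgd : ∀ x ∈ U, DifferentiableAt ℝ (gradient u) x := fun x hx =>
    (hgs.contDiffAt (hc.opn.mem_nhds hx)).differentiableAt (by simp)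
  have hud : ∀ x ∈ U, DifferentiableAt ℝ u x := fun x hx =>
    (hc.smooth.contDiffAt (hc.opn.mem_nhds hx)).differentiableAt (by simp)
  -- the Hessian vanishes on the boundary
  have hH0 : ∀ q ∈ U, u q = 0 → gmtSimH u q = 0 := by
    intro q hq huq
    have hqS : q ∈ gmtBd S := (hc.zero_iff q hq).1 huq
    have hq0 : q ≠ 0 := fun h => hc.zero (h ▸ hq)
    exact gmtSimFlat_H_eq_zero (h0 q hqS hq0)
  -- the Hessian vanishes on `U`
  have hH : ∀ x ∈ U, fderiv ℝ (gradient u) x = 0 := by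
    intro x hx
    have hπ : DifferentiableAt ℝ (gmtSimPi u) x := by
      unfold gmtSimPi
      exact differentiableAt_id.sub ((hud x hx).smul (hgd x hx))
    have hev : gradient u =ᶠ[𝓝 x] (gradient u) ∘ (gmtSimPi u) := by
      filter_upwards [hc.opn.mem_nhds hx] with y hy
      exact (hc.grad_proj y hy).symm
    rw [hev.fderiv_eq, fderiv_comp x (hgd _ (hc.proj x hx).1) hπ]
    have := hH0 _ (hc.proj x hx).1 (hc.proj x hx).2
    unfold gmtSimH at this
    rw [this, ContinuousLinearMap.zero_comp]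
  intro p hp hp0
  have hpU : p ∈ U := hc.bd p hp hp0
  have hup : u p = 0 := (hc.zero_iff p hpU).2 hp
  obtain ⟨ρ, hρ, hball⟩ := Metric.isOpen_iff.1 hc.opn p hpU
  refine ⟨gradient u p, hc.eik p hpU, by rw [hc.hom p hpU, hup], ρ, hρ, ?_⟩
  have hconst : ∀ x ∈ ball p ρ, gradient u x = gradient u p := by
    intro x hx
    refine IsOpen.is_const_of_fderiv_eq_zero (𝕜 := ℝ) isOpen_ball
      (convex_ball p ρ).isPreconnected ?_ ?_ hx (mem_ball_self hρ)
    · exact fun y hy => (hgd y (hball hy)).differentiableWithinAt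
    · exact fun y hy => hH y (hball hy)
  have hu : ∀ x ∈ ball p ρ, u x = ⟪x, gradient u p⟫ := by
    intro x hx
    rw [← hc.hom x (hball hx), hconst x hx]
  have h1 : (S ∩ ball p ρ : Set (E k)) = (S ∩ U) ∩ ball p ρ := by
    ext x
    simp only [mem_inter_iff]
    exact ⟨fun h => ⟨⟨h.1, hball h.2⟩, h.2⟩, fun h => ⟨h.1.1, h.2⟩⟩
  have h2 : (gmtHalf 0 (gradient u p) ∩ ball p ρ : Set (E k)) =
      ({x | x ∈ U ∧ u x < 0} : Set (E k)) ∩ ball p ρ := by
    ext x
    simp only [mem_inter_iff, gmtHalf, mem_setOf_eq, sub_zero]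
    constructor
    · rintro ⟨h, hx⟩
      exact ⟨⟨hball hx, by rw [hu x hx]; exact h⟩, hx⟩
    · rintro ⟨⟨_, h⟩, hx⟩
      exact ⟨by rw [← hu x hx]; exact h, hx⟩
  rw [h1, h2]
  exact hc.neg.inter (Filter.EventuallyEq.refl _ _)

end Claimed.Agent.Gmt
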