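import Claimed.Agent.Lib.Gmt.SimFlatA
import Claimed.Agent.Lib.Gmt.RbHalf

/-!
# Lib/Gmt [G7 Simons] `SimFlatB`: `a = 0` on `Σ \ 0` implies that `S` is a half space (`k ≥ 3`).   (architect: helper257)

## (A) `gmtSim_A_zero_two`: for `k = 2` the second fundamental form of a cone vanishes for free
At `p ∈ Σ \ 0`: `h N = 0` (`gmtSim_H_gradient`), `h p = 0` (`gmtSim_C1`), `⟪p, N⟫ = u p = 0`, `p ≠ 0`, `|N| = 1`: `p, N` span `E 2`, so `h = 0`.
## (B) `gmtSim_flat_local`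
`a = 0` on `Σ \ 0` means `gmtSimH u q = 0` for `q ∈ Σ ∩ U`.  On `U`: `∇u = ∇u ∘ π` (`grad_proj`), `π` is differentiable on `U`, `∇u` is differentiable at `π x ∈ U`; chain rule: `h x = h(π x) ∘ Dπ x = 0` (`π x ∈ Σ ∩ U` by `proj`, `zero_iff`).
On a ball `ball p ρ ⊆ U`: `∇u` is constant `= e := ∇u p` (`Convex.is_const_of_fderivWithin_eq_zero` or `IsOpen.is_const_of_fderiv_eq_zero`), so `u x = ⟪e, x - p⟫ = ⟪x, e⟫` (`u p = 0`, `⟪p, e⟫ = u p = 0` by `hom`).  Then `neg`.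
## (C) `gmtSim_trivial_of_connected`: `V` open connected, `V ∩ Σ = ∅` `⟹` `S ∩ V` or `V \ S` is null   (`gmtP_eq_zero_of_disjoint`, `gmtP_eq_zero_const`).
## (D) `gmtSim_half_unique`: two half spaces through `0` which agree a.e. in a ball centred at `q ∈ e^⊥` coincide: `e = e'`.
      (If `e' ≠ e`, pick `v` with `⟪v,e⟫ < 0 < ⟪v,e'⟫` or the reverse [`v = e' - e` works: `⟪e'-e,e⟫ = ⟪e,e'⟫ - 1 < 0 < 1 - ⟪e,e'⟫`]; need also `⟪q,e'⟫ = 0`: otherwise near `q` the set `H_{e'}` is full or empty while `H_e` is neither.  Then near `q + δ v` one set is full and the other is empty.)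
## (E) `gmtSim_flat_global` (`k ≥ 3`)
1. `Σ \ 0 ≠ ∅`: otherwise (C) on `V = {0}ᶜ` (connected: `isConnected_compl_singleton_of_one_lt_rank`) makes `S` null or conull, contradicting `0 ∈ Σ`.   Fix `p₀`, `e`.
2. For a unit vector `e` let `Z_e = e^⊥ \ 0` and `G_e = {q ∈ Z_e | S = H_e a.e. near q}`.   `G_e` is open in `Z_e`; it is closed in `Z_e`: if `q_j → q ∈ Z_e`, `q_j ∈ G_e`, then `q_j ∈ Σ`, so `q ∈ Σ \ 0` (`isClosed_gmtBd`), `S = H_{e'}` on `ball q ρ`, and (D) at `q_j ∈ ball q ρ` gives `e' = e`.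
   `Z_e` is connected (`e^⊥` has dimension `k - 1 ≥ 2`; image of `{0}ᶜ` of the subspace).   So `G_e ≠ ∅ ⟹ G_e = Z_e`.
3. If `p ∈ Σ`, `⟪p,e⟫ ≠ 0`: then `G_{e_p} = Z_{e_p}`, `e_p ≠ ± e`... take `q ≠ 0` with `q ⟂ e, e_p` (`k ≥ 3`); (D) at `q` gives `e_p = e`, but `⟪p,e_p⟫ = 0 ≠ ⟪p,e⟫`.   So `Σ ⊆ e^⊥`.
4. (C) on the two open half spaces (convex, hence connected); near `p₀` the set `S` is `H_e`: `S` is conull in `H_e`, null in `H_{-e}`; the hyperplane is null.

THIS FILE: (C), (D), steps 1 and 4 of (E).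
-/

set_option autoImplicit false
open scoped ContDiff ENNReal RealInnerProductSpace Topology
open MeasureTheory Metric Set Filter

namespace Claimed.Agent.Gmt

variable {k : ℕ}

/-- (C) -/
theorem gmtSim_trivial_of_connected {S V : Set (E k)} (hS : MeasurableSet S) (hV : IsOpen V)
    (hc : IsPreconnected V) (hd : Disjoint V (gmtBd S)) :
    volume (S ∩ V) = 0 ∨ volume (V \ S) = 0 :=
  gmtP_eq_zero_const hV hc hS (gmtP_eq_zero_of_disjoint hS hV hd)

/-- a nonempty open set cannot lie in `A` and miss `A'` if `A = A'` a.e. -/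
theorem gmtSim_open_absurd {A A' O : Set (E k)} (h : A =ᵐ[volume] A') (hO : IsOpen O)
    (hne : O.Nonempty) (h1 : O ⊆ A) (h2 : Disjoint O A') : False := by
  have h3 : volume (A \ A') = 0 := (ae_eq_set.1 h).1
  have hsub : O ⊆ A \ A' := fun x hx => ⟨h1 hx, disjoint_left.1 h2 hx⟩
  have h4 : volume O = 0 := measure_mono_null hsub h3
  exact (hO.measure_pos volume hne).ne' h4

theorem gmtSim_isOpen_lt (e : E k) (c : ℝ) : IsOpen {y : E k | ⟪y, e⟫ < c} :=
  isOpen_lt (continuous_id.inner continuous_const) continuous_const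

theorem gmtSim_isOpen_gt (e : E k) (c : ℝ) : IsOpen {y : E k | c < ⟪y, e⟫} :=
  isOpen_lt continuous_const (continuous_id.inner continuous_const)

theorem gmtSim_mem_half {e y : E k} : y ∈ gmtHalf 0 e ↔ ⟪y, e⟫ < 0 := by
  unfold gmtHalf
  simp only [sub_zero]
  rfl

/-- half spaces which agree a.e. in a ball: pointwise consequence. -/
theorem gmtSim_half_le {e e' q : E k} {ρ : ℝ}
    (h : (gmtHalf 0 e ∩ ball q ρ : Set (E k)) =ᵐ[volume] (gmtHalf 0 e' ∩ ball q ρ : Set (E k)))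
    {y : E k} (hy : y ∈ ball q ρ) (hye : ⟪y, e⟫ < 0) : ⟪y, e'⟫ ≤ 0 := by
  by_contra hcon
  rw [not_le] at hcon
  refine gmtSim_open_absurd h
    (O := ({z | ⟪z, e⟫ < 0} ∩ {z | 0 < ⟪z, e'⟫}) ∩ ball q ρ)
    (((gmtSim_isOpen_lt e 0).inter (gmtSim_isOpen_gt e' 0)).inter isOpen_ball)
    ⟨y, ⟨hye, hcon⟩, hy⟩ (fun z hz => ⟨gmtSim_mem_half.2 hz.1.1, hz.2⟩) ?_
  rw [disjoint_left]
  rintro z hz ⟨hz2, -⟩
  have h1 : 0 < ⟪z, e'⟫ := hz.1.2
  have h2 := gmtSim_mem_half.1 hz2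
  linarith

theorem gmtSim_add_smul_mem_ball (q v : E k) {t ρ : ℝ} (ht : 0 ≤ t) (h : t * ‖v‖ < ρ) :
    q + t • v ∈ ball q ρ := by
  rw [mem_ball, dist_eq_norm, add_sub_cancel_left, norm_smul, Real.norm_of_nonneg ht]
  exact h

/-- (D) -/
theorem gmtSim_half_unique {e e' q : E k} {ρ : ℝ} (he : ‖e‖ = 1) (he' : ‖e'‖ = 1) (hρ : 0 < ρ)
    (hq : ⟪q, e⟫ = 0)
    (h : (gmtHalf 0 e ∩ ball q ρ : Set (E k)) =ᵐ[volume] (gmtHalf 0 e' ∩ ball q ρ : Set (E k))) :
    e = e' := by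
  have hee : ⟪e, e⟫ = 1 := by rw [real_inner_self_eq_norm_sq, he]; norm_num
  have hee' : ⟪e', e'⟫ = 1 := by rw [real_inner_self_eq_norm_sq, he']; norm_num
  set c : ℝ := ⟪e, e'⟫ with hc
  have hc1 : |c| ≤ 1 := by
    have := abs_real_inner_le_norm e e'
    rwa [he, he', mul_one] at this
  have hc2 := abs_le.1 hc1
  set a : ℝ := ⟪q, e'⟫ with ha
  -- `⟪q, e'⟫ = 0`
  have ha0 : a = 0 := by
    rcases lt_trichotomy a 0 with hlt | heq | hgt
    · exfalso
      set t : ℝ := min (ρ / 2) (-a / 2) with ht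
      have ht0 : 0 < t := lt_min (by positivity) (by linarith)
      have ht1 : t ≤ ρ / 2 := min_le_left _ _
      have ht2 : t ≤ -a / 2 := min_le_right _ _
      have hy : q + t • e ∈ ball q ρ :=
        gmtSim_add_smul_mem_ball q e ht0.le (by rw [he, mul_one]; linarith)
      have h1 : ⟪q + t • e, e'⟫ < 0 := by
        rw [inner_add_left, real_inner_smul_left, ← ha, ← hc]
        nlinarith [hc2.2]
      have h2 := gmtSim_half_le h.symm hy h1
      rw [inner_add_left, real_inner_smul_left, hq, hee] at h2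
      linarith
    · exact heq
    · exfalso
      set t : ℝ := min (ρ / 2) (a / 2) with ht
      have ht0 : 0 < t := lt_min (by positivity) (by linarith)
      have ht1 : t ≤ ρ / 2 := min_le_left _ _
      have ht2 : t ≤ a / 2 := min_le_right _ _
      have hy : q + t • (-e) ∈ ball q ρ :=
        gmtSim_add_smul_mem_ball q (-e) ht0.le (by rw [norm_neg, he, mul_one]; linarith)
      have h1 : ⟪q + t • (-e), e⟫ < 0 := by
        rw [inner_add_left, real_inner_smul_left, inner_neg_left, hq, hee]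
        linarith
      have h2 := gmtSim_half_le h hy h1
      rw [inner_add_left, real_inner_smul_left, inner_neg_left, ← ha, ← hc] at h2
      nlinarith [hc2.2]
  -- `c = 1`
  have hc3 : c = 1 := by
    by_contra hne
    have hlt : c < 1 := lt_of_le_of_ne hc2.2 hne
    set v : E k := e' - e with hv
    have hvn : ‖v‖ ≤ 2 := by
      calc ‖v‖ ≤ ‖e'‖ + ‖e‖ := norm_sub_le _ _
        _ = 2 := by rw [he, he']; norm_num
    set t : ℝ := ρ / 4 with ht
    have ht0 : 0 < t := by positivity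
    have hy : q + t • v ∈ ball q ρ :=
      gmtSim_add_smul_mem_ball q v ht0.le (by
        calc t * ‖v‖ ≤ t * 2 := mul_le_mul_of_nonneg_left hvn ht0.le
          _ < ρ := by rw [ht]; linarith)
    have h1 : ⟪q + t • v, e⟫ < 0 := by
      rw [inner_add_left, real_inner_smul_left, hq, hv, inner_sub_left, hee,
        real_inner_comm e e', ← hc]
      nlinarith
    have h2 := gmtSim_half_le h hy h1
    rw [inner_add_left, real_inner_smul_left, ← ha, ha0, hv, inner_sub_left, hee', ← hc] at h2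
    nlinarith
  exact (inner_eq_one_iff_of_norm_eq_one he he').1 hc3

theorem gmtSim_pos_inter {A A' O : Set (E k)} (h : A =ᵐ[volume] A') (hO : IsOpen O)
    (hne : O.Nonempty) (h1 : O ⊆ A') : 0 < volume (A ∩ O) := by
  rw [pos_iff_ne_zero]
  intro h0
  have h3 : volume (A' \ A) = 0 := (ae_eq_set.1 h).2
  have hsub : O ⊆ (A ∩ O) ∪ (A' \ A) := fun x hx => by
    by_cases hxA : x ∈ A
    · exact Or.inl ⟨hxA, hx⟩
    · exact Or.inr ⟨h1 hx, hxA⟩
  exact (hO.measure_pos volume hne).ne' (measure_mono_null hsub (measure_union_null h0 h3))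

theorem gmtSim_pos_diff {A A' O : Set (E k)} (h : A =ᵐ[volume] A') (hO : IsOpen O)
    (hne : O.Nonempty) (h1 : Disjoint O A') : 0 < volume (O \ A) := by
  rw [pos_iff_ne_zero]
  intro h0
  have h3 : volume (A \ A') = 0 := (ae_eq_set.1 h).1
  have hsub : O ⊆ (O \ A) ∪ (A \ A') := fun x hx => by
    by_cases hxA : x ∈ A
    · exact Or.inr ⟨hxA, disjoint_left.1 h1 hx⟩
    · exact Or.inl ⟨hx, hxA⟩
  exact (hO.measure_pos volume hne).ne' (measure_mono_null hsub (measure_union_null h0 h3))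

theorem gmtSim_lower_nonempty {e q : E k} {r : ℝ} (he : ‖e‖ = 1) (hr : 0 < r) (hq : ⟪q, e⟫ = 0) :
    ({z | ⟪z, e⟫ < 0} ∩ ball q r : Set (E k)).Nonempty := by
  have hee : ⟪e, e⟫ = 1 := by rw [real_inner_self_eq_norm_sq, he]; norm_num
  refine ⟨q + (r / 2) • (-e), ?_, gmtSim_add_smul_mem_ball q (-e) (by positivity)
    (by rw [norm_neg, he, mul_one]; linarith)⟩
  show ⟪q + (r / 2) • (-e), e⟫ < 0
  rw [inner_add_left, real_inner_smul_left, inner_neg_left, hq, hee]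
  linarith

theorem gmtSim_upper_nonempty {e q : E k} {r : ℝ} (he : ‖e‖ = 1) (hr : 0 < r) (hq : ⟪q, e⟫ = 0) :
    ({z | 0 < ⟪z, e⟫} ∩ ball q r : Set (E k)).Nonempty := by
  have hee : ⟪e, e⟫ = 1 := by rw [real_inner_self_eq_norm_sq, he]; norm_num
  refine ⟨q + (r / 2) • e, ?_, gmtSim_add_smul_mem_ball q e (by positivity)
    (by rw [he, mul_one]; linarith)⟩
  show 0 < ⟪q + (r / 2) • e, e⟫
  rw [inner_add_left, real_inner_smul_left, hq, hee]
  linarith

/-- points of the boundary hyperplane of a half space piece are boundary points. -/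
theorem gmtSim_mem_bd_of_half {S : Set (E k)} {e q : E k} {ρ : ℝ} (he : ‖e‖ = 1) (hρ : 0 < ρ)
    (hq : ⟪q, e⟫ = 0)
    (h : (S ∩ ball q ρ : Set (E k)) =ᵐ[volume] (gmtHalf 0 e ∩ ball q ρ : Set (E k))) :
    q ∈ gmtBd S := by
  intro r hr
  have hr' : 0 < min r ρ := lt_min hr hρ
  have hb1 : ball q (min r ρ) ⊆ ball q r := ball_subset_ball (min_le_left _ _)
  have hb2 : ball q (min r ρ) ⊆ ball q ρ := ball_subset_ball (min_le_right _ _)
  constructor
  · refine lt_of_lt_of_le (gmtSim_pos_inter h ((gmtSim_isOpen_lt e 0).inter isOpen_ball)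
      (gmtSim_lower_nonempty he hr' hq) fun z hz => ⟨gmtSim_mem_half.2 hz.1, hb2 hz.2⟩)
      (measure_mono fun z hz => ⟨hz.1.1, hb1 hz.2.2⟩)
  · refine lt_of_lt_of_le (gmtSim_pos_diff h ((gmtSim_isOpen_gt e 0).inter isOpen_ball)
      (gmtSim_upper_nonempty he hr' hq) ?_)
      (measure_mono fun z hz => ⟨hb1 hz.1.2, fun hzS => hz.2 ⟨hzS, hb2 hz.1.2⟩⟩)
    rw [disjoint_left]
    rintro z hz ⟨hz2, -⟩
    have h1 : 0 < ⟪z, e⟫ := hz.1
    have h2 := gmtSim_mem_half.1 hz2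
    linarith

theorem gmtSim_convex_lt (e : E k) : Convex ℝ {x : E k | ⟪x, e⟫ < 0} := by
  have : {x : E k | ⟪x, e⟫ < 0} = (innerSL ℝ e : E k →L[ℝ] ℝ) ⁻¹' Iio 0 := by
    ext x
    simp only [mem_preimage, innerSL_apply_apply, mem_Iio]
    rw [real_inner_comm]
    rfl
  rw [this]
  exact (convex_Iio (0 : ℝ)).linear_preimage (innerSL ℝ e : E k →L[ℝ] ℝ).toLinearMap

theorem gmtSim_convex_gt (e : E k) : Convex ℝ {x : E k | 0 < ⟪x, e⟫} := by
  have : {x : E k | 0 < ⟪x, e⟫} = (innerSL ℝ e : E k →L[ℝ] ℝ) ⁻¹' Ioi 0 := by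
    ext x
    simp only [mem_preimage, innerSL_apply_apply, mem_Ioi]
    rw [real_inner_comm]
    rfl
  rw [this]
  exact (convex_Ioi (0 : ℝ)).linear_preimage (innerSL ℝ e : E k →L[ℝ] ℝ).toLinearMap

/-- step 4 of (E): if the boundary lies in the hyperplane `e^⊥` and `S` looks like `H_e` near one point of it. -/
theorem gmtSim_half_of_bd_subset {S : Set (E k)} (hS : MeasurableSet S) {e p : E k} {ρ : ℝ}
    (he : ‖e‖ = 1) (hρ : 0 < ρ) (hp : ⟪p, e⟫ = 0) (hsub : ∀ x ∈ gmtBd S, ⟪x, e⟫ = 0)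
    (h : (S ∩ ball p ρ : Set (E k)) =ᵐ[volume] (gmtHalf 0 e ∩ ball p ρ : Set (E k))) :
    S =ᵐ[volume] gmtHalf 0 e := by
  have he0 : e ≠ 0 := fun h0 => by rw [h0, norm_zero] at he; exact zero_ne_one he
  have hd1 : Disjoint {x : E k | ⟪x, e⟫ < 0} (gmtBd S) := by
    rw [disjoint_left]
    intro x hx hxS
    have h1 : ⟪x, e⟫ < 0 := hx
    rw [hsub x hxS] at h1
    exact lt_irrefl _ h1
  have hd2 : Disjoint {x : E k | 0 < ⟪x, e⟫} (gmtBd S) := by
    rw [disjoint_left]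
    intro x hx hxS
    have h1 : 0 < ⟪x, e⟫ := hx
    rw [hsub x hxS] at h1
    exact lt_irrefl _ h1
  have h1 : volume ({x : E k | ⟪x, e⟫ < 0} \ S) = 0 := by
    rcases gmtSim_trivial_of_connected hS (gmtSim_isOpen_lt e 0)
      (gmtSim_convex_lt e).isPreconnected hd1 with h0 | h0
    · exfalso
      have := gmtSim_pos_inter h ((gmtSim_isOpen_lt e 0).inter isOpen_ball)
        (gmtSim_lower_nonempty he hρ hp) fun z hz => ⟨gmtSim_mem_half.2 hz.1, hz.2⟩
      have hs : (S ∩ ball p ρ) ∩ ({z | ⟪z, e⟫ < 0} ∩ ball p ρ) ⊆ S ∩ {x : E k | ⟪x, e⟫ < 0} :=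
        fun z hz => ⟨hz.1.1, hz.2.1⟩
      exact this.ne' (measure_mono_null hs h0)
    · exact h0
  have h2 : volume (S ∩ {x : E k | 0 < ⟪x, e⟫}) = 0 := by
    rcases gmtSim_trivial_of_connected hS (gmtSim_isOpen_gt e 0)
      (gmtSim_convex_gt e).isPreconnected hd2 with h0 | h0
    · exact h0
    · exfalso
      have := gmtSim_pos_diff h ((gmtSim_isOpen_gt e 0).inter isOpen_ball)
        (gmtSim_upper_nonempty he hρ hp) (by
          rw [disjoint_left]
          rintro z hz ⟨hz2, -⟩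
          have h1 : 0 < ⟪z, e⟫ := hz.1
          have h2 := gmtSim_mem_half.1 hz2
          linarith)
      have hs : ({z | 0 < ⟪z, e⟫} ∩ ball p ρ) \ (S ∩ ball p ρ) ⊆ {x : E k | 0 < ⟪x, e⟫} \ S :=
        fun z hz => ⟨hz.1.1, fun hzS => hz.2 ⟨hzS, hz.1.2⟩⟩
      exact this.ne' (measure_mono_null hs h0)
  rw [ae_eq_set]
  constructor
  · refine measure_mono_null (t := (S ∩ {x : E k | 0 < ⟪x, e⟫}) ∪ {y : E k | ⟪y, e⟫ = 0})
      (fun x hx => ?_) (measure_union_null h2 (gmt_volume_hyperplane he0 0))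
    have hx2 : ¬ ⟪x, e⟫ < 0 := fun hlt => hx.2 (gmtSim_mem_half.2 hlt)
    rcases (not_lt.1 hx2).eq_or_lt with heq | hlt
    · exact Or.inr heq.symm
    · exact Or.inl ⟨hx.1, hlt⟩
  · have hs : gmtHalf 0 e \ S ⊆ {x : E k | ⟪x, e⟫ < 0} \ S :=
      fun x hx => ⟨gmtSim_mem_half.1 hx.1, hx.2⟩
    exact measure_mono_null hs h1

/-- step 1 of (E): the boundary of a set with `0 ∈ gmtBd S` is not reduced to the origin (`k ≥ 2`). -/
theorem gmtSim_exists_bd_ne_zero (hk : 2 ≤ k) {S : Set (E k)} (hS : MeasurableSet S)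
    (h0 : (0 : E k) ∈ gmtBd S) : ∃ p ∈ gmtBd S, p ≠ 0 := by
  by_contra hcon
  push Not at hcon
  have hrank : 1 < Module.rank ℝ (E k) :=
    Module.one_lt_rank_of_one_lt_finrank (by rw [finrank_euclideanSpace_fin]; omega)
  have hconn := isConnected_compl_singleton_of_one_lt_rank hrank (0 : E k)
  have hd : Disjoint ({0}ᶜ : Set (E k)) (gmtBd S) := by
    rw [disjoint_left]
    intro x hx hxS
    exact hx (hcon x hxS)
  have hz : volume ({0} : Set (E k)) = 0 := by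
    have hne : (eb ⟨0, by omega⟩ : E k) ≠ 0 := by
      intro h
      have := congrArg (fun v : E k => v ⟨0, by omega⟩) h
      simp at this
    refine measure_mono_null (fun x hx => ?_) (gmt_volume_hyperplane hne 0)
    rw [mem_singleton_iff] at hx
    show ⟪x, _⟫ = 0
    rw [hx, inner_zero_left]
  obtain ⟨h1, h2⟩ := h0 1 one_pos
  rcases gmtSim_trivial_of_connected hS isOpen_compl_singleton hconn.isPreconnected hd with h | h
  · refine h1.ne' (measure_mono_null (t := (S ∩ {0}ᶜ) ∪ {0}) (fun x hx => ?_)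
      (measure_union_null h hz))
    by_cases hx0 : x = 0
    · exact Or.inr hx0
    · exact Or.inl ⟨hx.1, hx0⟩
  · refine h2.ne' (measure_mono_null (t := ({0}ᶜ \ S) ∪ {0}) (fun x hx => ?_)
      (measure_union_null h hz))
    by_cases hx0 : x = 0
    · exact Or.inr hx0
    · exact Or.inl ⟨hx0, hx.2⟩

end Claimed.Agent.Gmt
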