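import Claimed.Agent.Lib.Gmt.SimIdB
import Claimed.Agent.Lib.Gmt.SimAlg

/-!
# Lib/Gmt [G7 Simons] `SimId`: Simons' identity for `a = |D²u|²`, `|∇u| = 1`.   (architect: helper257)

PURE CALCULUS on an open set `U ⊆ E k` (no measure theory).  `u` smooth on `U`,
 (EIK) `|∇u| = 1`,  (HOM) `x·∇u = u`,  (PROJ) `π x = x - u ∇u ∈ U`, `u (π x) = 0`,  (HARM) `Δu = 0` on `{u = 0}`.
Index notation `u_i = gmtSimPd i u`, `u_{ij} = gmtSimU2 u i j`, ... ; all are smooth on `U` (`gmtSim_contDiffOn_pd`) and symmetric (`gmtSim_pd_comm`).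
An identity valid on the OPEN set `U` may be differentiated (`gmtSim_pd_congr`).

 (E0) `Σ u_i² = 1`   (E1) `Σ_i u_i u_{ij} = 0`   (E2) `Σ_i u_i u_{ijl} = - Σ_m u_{jm} u_{ml}`
 (E3) differentiate (E2) in `x_m`, contract with `u_m`, use (E1), (E2):  `Σ_{lm} u_l u_m u_{lmij} = 2 (h³)_{ij}`
 (C1) `Σ_i x_i u_{ij} = 0`   (C2) `Σ_i x_i u_{ijl} = - u_{jl}`            (differentiate (HOM))
 (H1) `H := Δu`;  trace of (E2):  `Σ_i u_i ∂_i H = - a` on `U`.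
 (H2) at `p` with `u p = 0`:  `Σ_{ij} u_{ij} ∂_i∂_j H = - a²`.
      Proof: `H ∘ π = 0` on `U` (PROJ + HARM).  `∂_j π_l = δ_{jl} - u_j u_l - u u_{jl}`,  `∂_i∂_j π_l = - u_{ij} u_l - u_j u_{il} - u_i u_{jl} - u u_{ijl}`.
      Chain rule twice at `p` (`u p = 0`, `π p = p`):  `0 = ∂_i∂_j (H∘π) = Σ_{lm} H_{lm} P_{il} P_{jm} + Σ_l H_l ∂_i∂_jπ_l`, `P = 1 - N⊗N`.
      Contract with `u_{ij}`: `Σ u_{ij} P_{il} P_{jm} = u_{lm}` (E1), `Σ_{ij} u_{ij} ∂_i∂_jπ_l = - a u_l` (E1).   So `0 = Σ u_{lm} H_{lm} - a Σ_l u_l H_l = Σ u_{lm}H_{lm} + a²` (H1).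
 (A1) `∂_l a = 2 Σ_{ij} u_{ij} u_{lij}`,   (A2) `∂_l∂_m a = 2 Σ_{ij} (u_{lij} u_{mij} + u_{ij} u_{lmij})`.
 Hence `Δa = 2|D³u|² + 2 Σ u_{ij} H_{ij}`,  `D²a(N,N) = 2|h²|² + 4 tr h⁴ = 6|h²|²`  (E2), (E3),  and at `p`:
      `L a / 2 + a² = |D³u|² - 3 |h²|²`.            Then apply `gmtSim_kato`.

THIS FILE: the assembly (bridge `gmtSimL`, `gmtSimTg`, `gmtSimA` to index notation by `SimCalc`; `gmtSimLapl u = gmtDiv (gradient u)` on `U`).
-/

set_option autoImplicit false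
open scoped ContDiff ENNReal RealInnerProductSpace Topology
open MeasureTheory Metric Set Filter

namespace Claimed.Agent.Gmt

variable {k : ℕ} {U : Set (E k)} {u : E k → ℝ}

/-- `tr h⁴ = |h²|²`. -/
theorem gmtSimId_tr4 (h : Fin k → Fin k → ℝ) (hsym : ∀ i j, h i j = h j i) :
    ∑ i, ∑ j, h i j * (∑ m, ∑ n, h i m * h m n * h n j) = ∑ j, ∑ l, (∑ m, h j m * h m l) ^ 2 := by
  have e1 : ∀ i j, h i j * (∑ m, ∑ n, h i m * h m n * h n j) =
      ∑ m, (h j i * h i m) * ∑ n, h m n * h n j := by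
    intro i j
    rw [Finset.mul_sum]
    refine Finset.sum_congr rfl fun m _ => ?_
    rw [Finset.mul_sum, Finset.mul_sum]
    exact Finset.sum_congr rfl fun n _ => by rw [hsym i j]; ring
  simp only [e1]
  rw [Finset.sum_comm]
  refine Finset.sum_congr rfl fun j _ => ?_
  rw [Finset.sum_comm]
  refine Finset.sum_congr rfl fun m _ => ?_
  rw [← Finset.sum_mul, sq]
  congr 1
  exact Finset.sum_congr rfl fun n _ => by rw [hsym m n, hsym n j]; ring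

theorem gmtSimId_H_bilin (hU : IsOpen U) {f : E k → ℝ} (hf : ContDiffOn ℝ ∞ f U) {x : E k}
    (hx : x ∈ U) (v w : E k) :
    ⟪gmtSimH f x v, w⟫ = ∑ l, ∑ m, v l * w m * gmtSimPd l (gmtSimPd m f) x := by
  conv_lhs => rw [← gmt_sum_eb v, ← gmt_sum_eb w]
  rw [map_sum, sum_inner]
  refine Finset.sum_congr rfl fun l _ => ?_
  rw [inner_sum]
  refine Finset.sum_congr rfl fun m _ => ?_
  rw [map_smul, real_inner_smul_left, real_inner_smul_right, gmtSim_H_apply hU hf hx]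
  ring

theorem gmtSimId_Lapl_smooth (hU : IsOpen U) (hu : ContDiffOn ℝ ∞ u U) :
    ContDiffOn ℝ ∞ (gmtSimLapl u) U :=
  ContDiffOn.sum fun i _ => gmtSimId_U2_smooth hU hu i i

theorem gmtSimId_Lapl_pd (hU : IsOpen U) (hu : ContDiffOn ℝ ∞ u U) {x : E k} (hx : x ∈ U)
    (i : Fin k) : gmtSimPd i (gmtSimLapl u) x = ∑ l, gmtSimU3 u i l l x := by
  have : gmtSimLapl u = fun y => ∑ j, gmtSimU2 u j j y := rfl
  rw [this, gmtSimId_pd_sum _ (fun j _ => gmtSimId_diff hU (gmtSimId_U2_smooth hU hu j j) hx)]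
  rfl

theorem gmtSimId_Lapl_pd2 (hU : IsOpen U) (hu : ContDiffOn ℝ ∞ u U) {x : E k} (hx : x ∈ U)
    (i j : Fin k) : gmtSimPd i (gmtSimPd j (gmtSimLapl u)) x = ∑ l, gmtSimU4 u l l i j x := by
  rw [gmtSim_pd_congr hU (fun y hy => gmtSimId_Lapl_pd hU hu hy j) hx i,
    gmtSimId_pd_sum _ (fun l _ => gmtSimId_diff hU (gmtSimId_U3_smooth hU hu j l l) hx)]
  refine Finset.sum_congr rfl fun l _ => ?_
  have h := fun a b c d => gmtSim_U4_symm hU hu hx a b c d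
  show gmtSimU4 u i j l l x = _
  rw [(h i j l l).2.1, (h i l j l).1, (h l i j l).2.2, (h l i l j).2.1]

/-- **Simons' identity** on `{u = 0}`: `L a / 2 + a² = |D³u|² - 3|h²|²`. -/
theorem gmtSim_simons_id (hU : IsOpen U) (hu : ContDiffOn ℝ ∞ u U)
    (heik : ∀ x ∈ U, ‖gradient u x‖ = 1)
    (hproj : ∀ x ∈ U, gmtSimPi u x ∈ U ∧ u (gmtSimPi u x) = 0)
    (hharm : ∀ x ∈ U, u x = 0 → gmtDiv (gradient u) x = 0)
    {p : E k} (hp : p ∈ U) (hp0 : u p = 0) :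
    gmtSimL u (gmtSimA u) p / 2 + gmtSimA u p ^ 2 =
      (∑ i, ∑ j, ∑ l, gmtSimU3 u i j l p ^ 2) -
        3 * ∑ j, ∑ l, (∑ m, gmtSimU2 u j m p * gmtSimU2 u m l p) ^ 2 := by
  have hA : ContDiffOn ℝ ∞ (gmtSimA u) U := gmtSim_contDiffOn_A hU hu
  have hAp : gmtSimA u p = ∑ i, ∑ j, gmtSimU2 u i j p ^ 2 := gmtSim_A_eq hU hu hp
  -- (H2) for the mean curvature function
  have hH0 : ∀ x ∈ U, u x = 0 → gmtSimLapl u x = 0 := by
    intro x hx hx0
    have := hharm x hx hx0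
    rw [gmtSim_div_gradient hU hu hx] at this
    exact this
  have hH2 := gmtSim_H2 hU hu heik hproj (gmtSimId_Lapl_smooth hU hu) hH0 hp hp0
  rw [gmtSim_H1 hU hu heik hp, ← hAp] at hH2
  simp only [gmtSimId_Lapl_pd2 hU hu hp] at hH2
  -- the Laplacian of `a`
  have hlap : gmtDiv (gradient (gmtSimA u)) p =
      2 * (∑ i, ∑ j, ∑ l, gmtSimU3 u i j l p ^ 2) - 2 * gmtSimA u p ^ 2 := by
    rw [gmtSim_div_gradient hU hA hp]
    simp only [gmtSim_A2 hU hu hp, ← Finset.mul_sum, Finset.sum_add_distrib]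
    have e1 : ∑ l, ∑ i, ∑ j, gmtSimU3 u l i j p * gmtSimU3 u l i j p =
        ∑ i, ∑ j, ∑ l, gmtSimU3 u i j l p ^ 2 :=
      Finset.sum_congr rfl fun i _ => Finset.sum_congr rfl fun j _ =>
        Finset.sum_congr rfl fun l _ => by ring
    have e2 : ∑ l, ∑ i, ∑ j, gmtSimU2 u i j p * gmtSimU4 u l l i j p =
        ∑ i, ∑ j, gmtSimU2 u i j p * ∑ l, gmtSimU4 u l l i j p := by
      rw [Finset.sum_comm]
      refine Finset.sum_congr rfl fun i _ => ?_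
      rw [Finset.sum_comm]
      exact Finset.sum_congr rfl fun j _ => by rw [Finset.mul_sum]
    rw [e1, e2, hH2]
    ring
  -- the normal second derivative of `a`
  have hNN : ⟪gmtSimH (gmtSimA u) p (gradient u p), gradient u p⟫ =
      6 * ∑ j, ∑ l, (∑ m, gmtSimU2 u j m p * gmtSimU2 u m l p) ^ 2 := by
    rw [gmtSimId_H_bilin hU hA hp]
    simp only [gmtSim_gradient_apply, gmtSim_A2 hU hu hp]
    have e0 : ∀ l m, gmtSimPd l u p * gmtSimPd m u p *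
        (2 * ∑ i, ∑ j, (gmtSimU3 u l i j p * gmtSimU3 u m i j p +
          gmtSimU2 u i j p * gmtSimU4 u l m i j p)) =
        ∑ i, ∑ j, (2 * ((gmtSimPd l u p * gmtSimU3 u l i j p) * (gmtSimPd m u p * gmtSimU3 u m i j p)) +
          2 * (gmtSimU2 u i j p * (gmtSimPd l u p * gmtSimPd m u p * gmtSimU4 u l m i j p))) := by
      intro l m
      rw [Finset.mul_sum, Finset.mul_sum]
      refine Finset.sum_congr rfl fun i _ => ?_
      rw [Finset.mul_sum, Finset.mul_sum]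
      exact Finset.sum_congr rfl fun j _ => by ring
    simp only [e0]
    have e1 : ∑ l, ∑ m, ∑ i, ∑ j,
        (2 * ((gmtSimPd l u p * gmtSimU3 u l i j p) * (gmtSimPd m u p * gmtSimU3 u m i j p)) +
          2 * (gmtSimU2 u i j p * (gmtSimPd l u p * gmtSimPd m u p * gmtSimU4 u l m i j p))) =
        ∑ i, ∑ j, ∑ l, ∑ m,
        (2 * ((gmtSimPd l u p * gmtSimU3 u l i j p) * (gmtSimPd m u p * gmtSimU3 u m i j p)) +
          2 * (gmtSimU2 u i j p * (gmtSimPd l u p * gmtSimPd m u p * gmtSimU4 u l m i j p))) := by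
      calc _ = ∑ l, ∑ i, ∑ m, ∑ j, _ := Finset.sum_congr rfl fun l _ => Finset.sum_comm
        _ = ∑ i, ∑ l, ∑ m, ∑ j, _ := Finset.sum_comm
        _ = ∑ i, ∑ l, ∑ j, ∑ m, _ :=
            Finset.sum_congr rfl fun i _ => Finset.sum_congr rfl fun l _ => Finset.sum_comm
        _ = ∑ i, ∑ j, ∑ l, ∑ m, _ := Finset.sum_congr rfl fun i _ => Finset.sum_comm
    rw [e1]
    have e2 : ∀ i j, ∑ l, ∑ m,
        (2 * ((gmtSimPd l u p * gmtSimU3 u l i j p) * (gmtSimPd m u p * gmtSimU3 u m i j p)) +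
          2 * (gmtSimU2 u i j p * (gmtSimPd l u p * gmtSimPd m u p * gmtSimU4 u l m i j p))) =
        2 * (∑ m, gmtSimU2 u i m p * gmtSimU2 u m j p) ^ 2 +
          4 * (gmtSimU2 u i j p *
            ∑ m, ∑ n, gmtSimU2 u i m p * gmtSimU2 u m n p * gmtSimU2 u n j p) := by
      intro i j
      simp only [Finset.sum_add_distrib, ← Finset.mul_sum]
      rw [gmtSim_E3 hU hu heik hp, ← Finset.sum_mul, gmtSim_E2 hU hu heik hp]
      ring
    rw [Finset.sum_congr rfl fun i _ => Finset.sum_congr rfl fun j _ => e2 i j]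
    simp only [Finset.sum_add_distrib, ← Finset.mul_sum]
    rw [gmtSimId_tr4 (fun i j => gmtSimU2 u i j p) (fun i j => gmtSimId_U2_symm hU hu hp i j)]
    ring
  unfold gmtSimL
  rw [hlap, hNN]
  ring

/-- **Simons' inequality for cones**, pointwise on `{u = 0}`. -/
theorem gmtSim_simons_pt (hU : IsOpen U) (hu : ContDiffOn ℝ ∞ u U)
    (heik : ∀ x ∈ U, ‖gradient u x‖ = 1)
    (hproj : ∀ x ∈ U, gmtSimPi u x ∈ U ∧ u (gmtSimPi u x) = 0)
    (hhom : ∀ x ∈ U, ⟪x, gradient u x⟫ = u x)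
    (hharm : ∀ x ∈ U, u x = 0 → gmtDiv (gradient u) x = 0)
    {p : E k} (hp : p ∈ U) (hp0 : u p = 0) (hpne : p ≠ 0) :
    0 ≤ gmtSimL u (gmtSimA u) p / 2 + gmtSimA u p ^ 2 ∧
    gmtSimTg u (gmtSimA u) (gmtSimA u) p + 8 * gmtSimA u p ^ 2 / ‖p‖ ^ 2 ≤
      4 * gmtSimA u p * (gmtSimL u (gmtSimA u) p / 2 + gmtSimA u p ^ 2) := by
  have hAp : gmtSimA u p = ∑ i, ∑ j, gmtSimU2 u i j p ^ 2 := gmtSim_A_eq hU hu hp
  have hnp : ‖p‖ ^ 2 = ∑ i, p i ^ 2 := by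
    rw [EuclideanSpace.norm_sq_eq]
    exact Finset.sum_congr rfl fun i _ => by rw [Real.norm_eq_abs, sq_abs]
  have hpos : 0 < ∑ i, p i ^ 2 := by
    rw [← hnp]; positivity
  have hK := gmtSim_kato (fun i => gmtSimPd i u p) (fun i => p i) (fun i j => gmtSimU2 u i j p)
    (fun i j l => gmtSimU3 u i j l p)
    (by rw [← gmtSimId_E0 heik hp]; exact Finset.sum_congr rfl fun i _ => by ring)
    (by rw [gmtSimId_hom hhom hp, hp0]) hpos
    (fun i j => gmtSimId_U2_symm hU hu hp i j)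
    (fun i j l => (gmtSim_U3_symm hU hu hp i j l).1)
    (fun i j l => (gmtSim_U3_symm hU hu hp i j l).2)
    (fun j => gmtSim_E1 hU hu heik hp j) (fun j => gmtSim_C1 hU hu hhom hp j)
    (fun j l => gmtSim_E2 hU hu heik hp j l) (fun j l => gmtSim_C2 hU hu hhom hp j l)
  rw [← gmtSim_simons_id hU hu heik hproj hharm hp hp0, ← hAp, ← hnp] at hK
  refine ⟨hK.1, ?_⟩
  have hg : ∀ l, gmtSimPd l (gmtSimA u) p =
      2 * ∑ i, ∑ j, gmtSimU2 u i j p * gmtSimU3 u i j l p := by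
    intro l
    rw [gmtSim_A1 hU hu hp]
    congr 1
    refine Finset.sum_congr rfl fun i _ => Finset.sum_congr rfl fun j _ => ?_
    rw [(gmtSim_U3_symm hU hu hp l i j).1, (gmtSim_U3_symm hU hu hp i l j).2]
  have hTg : gmtSimTg u (gmtSimA u) (gmtSimA u) p =
      4 * ((∑ l, (∑ i, ∑ j, gmtSimU2 u i j p * gmtSimU3 u i j l p) ^ 2) -
        (∑ l, (∑ i, ∑ j, gmtSimU2 u i j p * gmtSimU3 u i j l p) * gmtSimPd l u p) ^ 2) := by
    unfold gmtSimTg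
    rw [gmtSim_inner_eq_sum, gmtSim_inner_eq_sum]
    simp only [gmtSim_gradient_apply, hg]
    have e1 : ∀ l, 2 * (∑ i, ∑ j, gmtSimU2 u i j p * gmtSimU3 u i j l p) *
        (2 * ∑ i, ∑ j, gmtSimU2 u i j p * gmtSimU3 u i j l p) =
        4 * (∑ i, ∑ j, gmtSimU2 u i j p * gmtSimU3 u i j l p) ^ 2 := fun l => by ring
    have e2 : ∀ l, 2 * (∑ i, ∑ j, gmtSimU2 u i j p * gmtSimU3 u i j l p) * gmtSimPd l u p =
        2 * ((∑ i, ∑ j, gmtSimU2 u i j p * gmtSimU3 u i j l p) * gmtSimPd l u p) := fun l => by ring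
    simp only [e1, e2, ← Finset.mul_sum]
    ring
  have h2 := hK.2
  rw [hTg]
  have e3 : 8 * gmtSimA u p ^ 2 / ‖p‖ ^ 2 = 4 * (2 * gmtSimA u p ^ 2 / ‖p‖ ^ 2) := by ring
  rw [e3]
  linarith

end Claimed.Agent.Gmt
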