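import Claimed.Agent.Lib.Gmt.SimCalc

/-!
# Lib/Gmt [G7 Simons] `SimIdA`: Simons' identity for `a = |D²u|²`, `|∇u| = 1`.   (architect: helper257)

PURE CALCULUS on an open set `U ⊆ E k` (no measure theory).  `u` smooth on `U`,
 (EIK) `|∇u| = 1`,  (HOM) `x·∇u = u`,  (PROJ) `π x = x - u ∇u ∈ U`, `u (π x) = 0`,  (HARM) `Δu = 0` on `{u = 0}`.
Index notation `u_i = gmtSimPd i u`, `u_{ij} = gmtSimU2 u i j`, ... ; all are smooth on `U` (`gmtSim_contDiffOn_pd`) and symmetric (`gmtSim_pd_comm`).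
An identity valid on the OPEN set `U` may be differentiated (`gmtSim_pd_congr`).

 (E0) `Σ u_i² = 1`   (E1) `Σ_i u_i u_{ij} = 0`   (E2) `Σ_i u_i u_{ijl} = - Σ_m u_{jm} u_{ml}`
 (E3) differentiate (E2) in `x_m`, contract with `u_m`, use (E1), (E2):  `Σ_{lm} u_l u_m u_{lmij} = 2 (h³)_{ij}`
 (C1) `Σ_i x_i u_{ij} = 0`   (C2) `Σ_i x_i u_{ijl} = - u_{jl}`            (differentiate (HOM))
 (H1) `H := Δu`;  trace of (E2):  `Σ_i u_i ∂_i H = - a` on `U`.
 (H2) at `p` with `u p = 0`:  `Σ_{ij} u_{ij} ∂_i∂_j H = - a²`.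
      Proof: `H ∘ π = 0` on `U` (PROJ + HARM).  `∂_j π_l = δ_{jl} - u_j u_l - u u_{jl}`,  `∂_i∂_j π_l = - u_{ij} u_l - u_j u_{il} - u_i u_{jl} - u u_{ijl}`.
      Chain rule twice at `p` (`u p = 0`, `π p = p`):  `0 = ∂_i∂_j (H∘π) = Σ_{lm} H_{lm} P_{il} P_{jm} + Σ_l H_l ∂_i∂_jπ_l`, `P = 1 - N⊗N`.
      Contract with `u_{ij}`: `Σ u_{ij} P_{il} P_{jm} = u_{lm}` (E1), `Σ_{ij} u_{ij} ∂_i∂_jπ_l = - a u_l` (E1).   So `0 = Σ u_{lm} H_{lm} - a Σ_l u_l H_l = Σ u_{lm}H_{lm} + a²` (H1).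
 (A1) `∂_l a = 2 Σ_{ij} u_{ij} u_{lij}`,   (A2) `∂_l∂_m a = 2 Σ_{ij} (u_{lij} u_{mij} + u_{ij} u_{lmij})`.
 Hence `Δa = 2|D³u|² + 2 Σ u_{ij} H_{ij}`,  `D²a(N,N) = 2|h²|² + 4 tr h⁴ = 6|h²|²`  (E2), (E3),  and at `p`:
      `L a / 2 + a² = |D³u|² - 3 |h²|²`.            Then apply `gmtSim_kato`.

THIS FILE: the definitions and (E1)-(E3), (C1), (C2), (H1), (A1), (A2), symmetry.
-/

set_option autoImplicit false
open scoped ContDiff ENNReal RealInnerProductSpace Topology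
open MeasureTheory Metric Set Filter

namespace Claimed.Agent.Gmt

variable {k : ℕ} {U : Set (E k)} {u : E k → ℝ}

noncomputable def gmtSimU2 (u : E k → ℝ) (i j : Fin k) : E k → ℝ := gmtSimPd i (gmtSimPd j u)
noncomputable def gmtSimU3 (u : E k → ℝ) (i j l : Fin k) : E k → ℝ := gmtSimPd i (gmtSimU2 u j l)
noncomputable def gmtSimU4 (u : E k → ℝ) (i j l m : Fin k) : E k → ℝ := gmtSimPd i (gmtSimU3 u j l m)
/-- `H = Δu`. -/
noncomputable def gmtSimLapl (u : E k → ℝ) (x : E k) : ℝ := ∑ i, gmtSimU2 u i i x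

/-! ### toolkit: rules for `gmtSimPd` -/

theorem gmtSimId_diff (hU : IsOpen U) {f : E k → ℝ} (hf : ContDiffOn ℝ ∞ f U) {x : E k}
    (hx : x ∈ U) : DifferentiableAt ℝ f x :=
  (hf.contDiffAt (hU.mem_nhds hx)).differentiableAt (by simp)

theorem gmtSimId_pd_mul {f g : E k → ℝ} {x : E k} (hf : DifferentiableAt ℝ f x)
    (hg : DifferentiableAt ℝ g x) (i : Fin k) :
    gmtSimPd i (fun y => f y * g y) x = gmtSimPd i f x * g x + f x * gmtSimPd i g x := by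
  unfold gmtSimPd
  rw [fderiv_fun_mul hf hg]
  simp
  ring

theorem gmtSimId_pd_sum {ι : Type*} (s : Finset ι) {f : ι → E k → ℝ} {x : E k}
    (hf : ∀ j ∈ s, DifferentiableAt ℝ (f j) x) (i : Fin k) :
    gmtSimPd i (fun y => ∑ j ∈ s, f j y) x = ∑ j ∈ s, gmtSimPd i (f j) x := by
  unfold gmtSimPd
  rw [fderiv_fun_sum hf]
  simp

theorem gmtSimId_pd_const (c : ℝ) (x : E k) (i : Fin k) : gmtSimPd i (fun _ => c) x = 0 := by
  unfold gmtSimPd
  simp

theorem gmtSimId_pd_coord (x : E k) (i j : Fin k) :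
    gmtSimPd i (fun y : E k => y j) x = if j = i then 1 else 0 := by
  unfold gmtSimPd
  have h : (fun y : E k => y j) = fun y => (EuclideanSpace.proj j : E k →L[ℝ] ℝ) y := rfl
  rw [h, ContinuousLinearMap.fderiv]
  simp [eb]

theorem gmtSimId_U2_smooth (hU : IsOpen U) (hu : ContDiffOn ℝ ∞ u U) (i j : Fin k) :
    ContDiffOn ℝ ∞ (gmtSimU2 u i j) U :=
  gmtSim_contDiffOn_pd hU (gmtSim_contDiffOn_pd hU hu j) i

theorem gmtSimId_U3_smooth (hU : IsOpen U) (hu : ContDiffOn ℝ ∞ u U) (i j l : Fin k) :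
    ContDiffOn ℝ ∞ (gmtSimU3 u i j l) U :=
  gmtSim_contDiffOn_pd hU (gmtSimId_U2_smooth hU hu j l) i

theorem gmtSimId_U4_smooth (hU : IsOpen U) (hu : ContDiffOn ℝ ∞ u U) (i j l m : Fin k) :
    ContDiffOn ℝ ∞ (gmtSimU4 u i j l m) U :=
  gmtSim_contDiffOn_pd hU (gmtSimId_U3_smooth hU hu j l m) i

theorem gmtSimId_U2_symm (hU : IsOpen U) (hu : ContDiffOn ℝ ∞ u U) {x : E k} (hx : x ∈ U)
    (i j : Fin k) : gmtSimU2 u i j x = gmtSimU2 u j i x := gmtSim_pd_comm hU hu hx i j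

theorem gmtSim_U3_symm (hU : IsOpen U) (hu : ContDiffOn ℝ ∞ u U) {x : E k} (hx : x ∈ U)
    (i j l : Fin k) : gmtSimU3 u i j l x = gmtSimU3 u j i l x ∧ gmtSimU3 u i j l x = gmtSimU3 u i l j x :=
  ⟨gmtSim_pd_comm hU (gmtSim_contDiffOn_pd hU hu l) hx i j,
    gmtSim_pd_congr hU (fun _ hy => gmtSimId_U2_symm hU hu hy j l) hx i⟩

theorem gmtSim_U4_symm (hU : IsOpen U) (hu : ContDiffOn ℝ ∞ u U) {x : E k} (hx : x ∈ U)
    (i j l m : Fin k) : gmtSimU4 u i j l m x = gmtSimU4 u j i l m x ∧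
      gmtSimU4 u i j l m x = gmtSimU4 u i l j m x ∧ gmtSimU4 u i j l m x = gmtSimU4 u i j m l x :=
  ⟨gmtSim_pd_comm hU (gmtSimId_U2_smooth hU hu l m) hx i j,
    gmtSim_pd_congr hU (fun _ hy => (gmtSim_U3_symm hU hu hy j l m).1) hx i,
    gmtSim_pd_congr hU (fun _ hy => (gmtSim_U3_symm hU hu hy j l m).2) hx i⟩

theorem gmtSimId_E0 (heik : ∀ x ∈ U, ‖gradient u x‖ = 1) {x : E k} (hx : x ∈ U) :
    ∑ i, gmtSimPd i u x * gmtSimPd i u x = 1 := by
  have h := heik x hx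
  have h2 : ‖gradient u x‖ ^ 2 = 1 := by rw [h]; norm_num
  rw [EuclideanSpace.norm_sq_eq] at h2
  rw [← h2]
  refine Finset.sum_congr rfl fun i _ => ?_
  rw [gmtSim_gradient_apply, Real.norm_eq_abs, sq_abs]; ring

theorem gmtSim_E1 (hU : IsOpen U) (hu : ContDiffOn ℝ ∞ u U) (heik : ∀ x ∈ U, ‖gradient u x‖ = 1)
    {x : E k} (hx : x ∈ U) (j : Fin k) : ∑ i, gmtSimPd i u x * gmtSimU2 u i j x = 0 := by
  have hd : ∀ i, DifferentiableAt ℝ (gmtSimPd i u) x := fun i =>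
    gmtSimId_diff hU (gmtSim_contDiffOn_pd hU hu i) hx
  have h1 := gmtSim_pd_congr hU (f := fun y => ∑ i, gmtSimPd i u y * gmtSimPd i u y)
    (g := fun _ => 1) (fun y hy => gmtSimId_E0 heik hy) hx j
  rw [gmtSimId_pd_const, gmtSimId_pd_sum _ (fun i _ => (hd i).fun_mul (hd i))] at h1
  have h2 : ∀ i, gmtSimPd j (fun y => gmtSimPd i u y * gmtSimPd i u y) x =
      2 * (gmtSimPd i u x * gmtSimU2 u i j x) := by
    intro i
    rw [gmtSimId_pd_mul (hd i) (hd i), gmtSimId_U2_symm hU hu hx i j]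
    unfold gmtSimU2
    ring
  simp only [h2, ← Finset.mul_sum] at h1
  linarith

theorem gmtSim_E2 (hU : IsOpen U) (hu : ContDiffOn ℝ ∞ u U) (heik : ∀ x ∈ U, ‖gradient u x‖ = 1)
    {x : E k} (hx : x ∈ U) (j l : Fin k) :
    ∑ i, gmtSimPd i u x * gmtSimU3 u i j l x = - ∑ m, gmtSimU2 u j m x * gmtSimU2 u m l x := by
  have hd : ∀ i, DifferentiableAt ℝ (gmtSimPd i u) x := fun i =>
    gmtSimId_diff hU (gmtSim_contDiffOn_pd hU hu i) hx
  have hd2 : ∀ i j, DifferentiableAt ℝ (gmtSimU2 u i j) x := fun i j =>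
    gmtSimId_diff hU (gmtSimId_U2_smooth hU hu i j) hx
  have h1 := gmtSim_pd_congr hU (f := fun y => ∑ i, gmtSimPd i u y * gmtSimU2 u i l y)
    (g := fun _ => 0) (fun y hy => gmtSim_E1 hU hu heik hy l) hx j
  rw [gmtSimId_pd_const, gmtSimId_pd_sum _ (fun i _ => (hd i).fun_mul (hd2 i l))] at h1
  have h2 : ∀ i, gmtSimPd j (fun y => gmtSimPd i u y * gmtSimU2 u i l y) x =
      gmtSimU2 u j i x * gmtSimU2 u i l x + gmtSimPd i u x * gmtSimU3 u i j l x := by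
    intro i
    rw [gmtSimId_pd_mul (hd i) (hd2 i l), (gmtSim_U3_symm hU hu hx i j l).1]
    rfl
  simp only [h2, Finset.sum_add_distrib] at h1
  linarith

theorem gmtSim_E3 (hU : IsOpen U) (hu : ContDiffOn ℝ ∞ u U) (heik : ∀ x ∈ U, ‖gradient u x‖ = 1)
    {x : E k} (hx : x ∈ U) (i j : Fin k) :
    ∑ l, ∑ m, gmtSimPd l u x * gmtSimPd m u x * gmtSimU4 u l m i j x =
      2 * ∑ m, ∑ n, gmtSimU2 u i m x * gmtSimU2 u m n x * gmtSimU2 u n j x := by
  have hd : ∀ i, DifferentiableAt ℝ (gmtSimPd i u) x := fun i =>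
    gmtSimId_diff hU (gmtSim_contDiffOn_pd hU hu i) hx
  have hd2 : ∀ i j, DifferentiableAt ℝ (gmtSimU2 u i j) x := fun i j =>
    gmtSimId_diff hU (gmtSimId_U2_smooth hU hu i j) hx
  have hd3 : ∀ i j l, DifferentiableAt ℝ (gmtSimU3 u i j l) x := fun i j l =>
    gmtSimId_diff hU (gmtSimId_U3_smooth hU hu i j l) hx
  -- differentiate (E2) in direction `l`
  have key : ∀ l, ∑ m, gmtSimU2 u l m x * gmtSimU3 u m i j x +
      ∑ m, gmtSimPd m u x * gmtSimU4 u l m i j x =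
      - ∑ n, (gmtSimU3 u l i n x * gmtSimU2 u n j x + gmtSimU2 u i n x * gmtSimU3 u l n j x) := by
    intro l
    have h1 := gmtSim_pd_congr hU (f := fun y => ∑ m, gmtSimPd m u y * gmtSimU3 u m i j y)
      (g := fun y => (-1 : ℝ) * ∑ n, gmtSimU2 u i n y * gmtSimU2 u n j y)
      (fun y hy => by rw [gmtSim_E2 hU hu heik hy i j]; ring) hx l
    rw [gmtSimId_pd_sum _ (fun m _ => (hd m).fun_mul (hd3 m i j)),
      gmtSimId_pd_mul (differentiableAt_const _)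
        (DifferentiableAt.fun_sum fun n _ => (hd2 i n).fun_mul (hd2 n j)),
      gmtSimId_pd_const, gmtSimId_pd_sum _ (fun n _ => (hd2 i n).fun_mul (hd2 n j))] at h1
    have h2 : ∀ m, gmtSimPd l (fun y => gmtSimPd m u y * gmtSimU3 u m i j y) x =
        gmtSimU2 u l m x * gmtSimU3 u m i j x + gmtSimPd m u x * gmtSimU4 u l m i j x := by
      intro m
      rw [gmtSimId_pd_mul (hd m) (hd3 m i j)]
      rfl
    have h3 : ∀ n, gmtSimPd l (fun y => gmtSimU2 u i n y * gmtSimU2 u n j y) x =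
        gmtSimU3 u l i n x * gmtSimU2 u n j x + gmtSimU2 u i n x * gmtSimU3 u l n j x := by
      intro n
      rw [gmtSimId_pd_mul (hd2 i n) (hd2 n j)]
      rfl
    simp only [h2, h3, Finset.sum_add_distrib] at h1 ⊢
    linarith
  -- contract with `u_l`
  have c1 : ∑ l, gmtSimPd l u x * ∑ m, gmtSimU2 u l m x * gmtSimU3 u m i j x = 0 := by
    simp only [Finset.mul_sum]
    rw [Finset.sum_comm]
    refine Finset.sum_eq_zero fun m _ => ?_
    have : ∑ l, gmtSimPd l u x * (gmtSimU2 u l m x * gmtSimU3 u m i j x) =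
        (∑ l, gmtSimPd l u x * gmtSimU2 u l m x) * gmtSimU3 u m i j x := by
      rw [Finset.sum_mul]; exact Finset.sum_congr rfl fun l _ => by ring
    rw [this, gmtSim_E1 hU hu heik hx, zero_mul]
  have c2 : ∑ l, gmtSimPd l u x * ∑ n, (gmtSimU3 u l i n x * gmtSimU2 u n j x +
      gmtSimU2 u i n x * gmtSimU3 u l n j x) =
      - (2 * ∑ m, ∑ n, gmtSimU2 u i m x * gmtSimU2 u m n x * gmtSimU2 u n j x) := by
    obtain ⟨S, hS⟩ : ∃ S : ℝ, S = ∑ m, ∑ n, gmtSimU2 u i m x * gmtSimU2 u m n x * gmtSimU2 u n j x :=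
      ⟨_, rfl⟩
    rw [← hS]
    simp only [Finset.mul_sum]
    rw [Finset.sum_comm]
    have : ∀ n, ∑ l, gmtSimPd l u x * (gmtSimU3 u l i n x * gmtSimU2 u n j x +
        gmtSimU2 u i n x * gmtSimU3 u l n j x) =
        (∑ l, gmtSimPd l u x * gmtSimU3 u l i n x) * gmtSimU2 u n j x +
        gmtSimU2 u i n x * ∑ l, gmtSimPd l u x * gmtSimU3 u l n j x := by
      intro n
      rw [Finset.sum_mul, Finset.mul_sum, ← Finset.sum_add_distrib]
      exact Finset.sum_congr rfl fun l _ => by ring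
    simp only [this, gmtSim_E2 hU hu heik hx, Finset.sum_add_distrib]
    have e1 : ∑ n, (-∑ m, gmtSimU2 u i m x * gmtSimU2 u m n x) * gmtSimU2 u n j x =
        - ∑ m, ∑ n, gmtSimU2 u i m x * gmtSimU2 u m n x * gmtSimU2 u n j x := by
      rw [Finset.sum_comm, ← Finset.sum_neg_distrib]
      refine Finset.sum_congr rfl fun n _ => ?_
      rw [neg_mul, Finset.sum_mul]
    have e2 : ∑ n, gmtSimU2 u i n x * -∑ m, gmtSimU2 u n m x * gmtSimU2 u m j x =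
        - ∑ m, ∑ n, gmtSimU2 u i m x * gmtSimU2 u m n x * gmtSimU2 u n j x := by
      rw [← Finset.sum_neg_distrib]
      refine Finset.sum_congr rfl fun n _ => ?_
      rw [mul_neg, Finset.mul_sum]
      congr 1
      exact Finset.sum_congr rfl fun m _ => by ring
    rw [e1, e2, ← hS]; ring
  have c3 : ∑ l, gmtSimPd l u x * ∑ m, gmtSimPd m u x * gmtSimU4 u l m i j x =
      ∑ l, ∑ m, gmtSimPd l u x * gmtSimPd m u x * gmtSimU4 u l m i j x := by
    refine Finset.sum_congr rfl fun l _ => ?_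
    rw [Finset.mul_sum]
    exact Finset.sum_congr rfl fun m _ => by ring
  have tot : ∑ l, gmtSimPd l u x * ∑ m, gmtSimU2 u l m x * gmtSimU3 u m i j x +
      ∑ l, gmtSimPd l u x * ∑ m, gmtSimPd m u x * gmtSimU4 u l m i j x =
      - ∑ l, gmtSimPd l u x * ∑ n, (gmtSimU3 u l i n x * gmtSimU2 u n j x +
        gmtSimU2 u i n x * gmtSimU3 u l n j x) := by
    rw [← Finset.sum_add_distrib, ← Finset.sum_neg_distrib]
    exact Finset.sum_congr rfl fun l _ => by rw [← mul_add, key l, mul_neg]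
  rw [c1, c2, c3] at tot
  linarith

theorem gmtSimId_hom (hhom : ∀ x ∈ U, ⟪x, gradient u x⟫ = u x) {x : E k} (hx : x ∈ U) :
    ∑ i, x i * gmtSimPd i u x = u x := by
  rw [← hhom x hx, gmtSim_inner_eq_sum]
  exact Finset.sum_congr rfl fun i _ => by rw [gmtSim_gradient_apply]

theorem gmtSimId_diff_coord (x : E k) (j : Fin k) : DifferentiableAt ℝ (fun y : E k => y j) x :=
  (EuclideanSpace.proj j : E k →L[ℝ] ℝ).differentiableAt

theorem gmtSim_C1 (hU : IsOpen U) (hu : ContDiffOn ℝ ∞ u U)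
    (hhom : ∀ x ∈ U, ⟪x, gradient u x⟫ = u x) {x : E k} (hx : x ∈ U) (j : Fin k) :
    ∑ i, x i * gmtSimU2 u i j x = 0 := by
  have hd : ∀ i, DifferentiableAt ℝ (gmtSimPd i u) x := fun i =>
    gmtSimId_diff hU (gmtSim_contDiffOn_pd hU hu i) hx
  have h1 := gmtSim_pd_congr hU (f := fun y => ∑ i, y i * gmtSimPd i u y)
    (g := u) (fun y hy => gmtSimId_hom hhom hy) hx j
  rw [gmtSimId_pd_sum _ (fun i _ => (gmtSimId_diff_coord x i).fun_mul (hd i))] at h1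
  have h2 : ∀ i, gmtSimPd j (fun y => y i * gmtSimPd i u y) x =
      (if i = j then 1 else 0) * gmtSimPd i u x + x i * gmtSimU2 u i j x := by
    intro i
    rw [gmtSimId_pd_mul (gmtSimId_diff_coord x i) (hd i), gmtSimId_pd_coord,
      gmtSimId_U2_symm hU hu hx i j]
    rfl
  simp only [h2, Finset.sum_add_distrib, ite_mul, one_mul, zero_mul, Finset.sum_ite_eq',
    Finset.mem_univ, if_true] at h1
  linarith

theorem gmtSim_C2 (hU : IsOpen U) (hu : ContDiffOn ℝ ∞ u U)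
    (hhom : ∀ x ∈ U, ⟪x, gradient u x⟫ = u x) {x : E k} (hx : x ∈ U) (j l : Fin k) :
    ∑ i, x i * gmtSimU3 u i j l x = - gmtSimU2 u j l x := by
  have hd2 : ∀ i j, DifferentiableAt ℝ (gmtSimU2 u i j) x := fun i j =>
    gmtSimId_diff hU (gmtSimId_U2_smooth hU hu i j) hx
  have h1 := gmtSim_pd_congr hU (f := fun y => ∑ i, y i * gmtSimU2 u i l y)
    (g := fun _ => 0) (fun y hy => gmtSim_C1 hU hu hhom hy l) hx j
  rw [gmtSimId_pd_const,
    gmtSimId_pd_sum _ (fun i _ => (gmtSimId_diff_coord x i).fun_mul (hd2 i l))] at h1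
  have h2 : ∀ i, gmtSimPd j (fun y => y i * gmtSimU2 u i l y) x =
      (if i = j then 1 else 0) * gmtSimU2 u i l x + x i * gmtSimU3 u i j l x := by
    intro i
    rw [gmtSimId_pd_mul (gmtSimId_diff_coord x i) (hd2 i l), gmtSimId_pd_coord,
      (gmtSim_U3_symm hU hu hx i j l).1]
    rfl
  simp only [h2, Finset.sum_add_distrib, ite_mul, one_mul, zero_mul, Finset.sum_ite_eq',
    Finset.mem_univ, if_true] at h1
  linarith

theorem gmtSim_H1 (hU : IsOpen U) (hu : ContDiffOn ℝ ∞ u U) (heik : ∀ x ∈ U, ‖gradient u x‖ = 1)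
    {x : E k} (hx : x ∈ U) :
    ∑ i, gmtSimPd i u x * gmtSimPd i (gmtSimLapl u) x = - ∑ i, ∑ j, gmtSimU2 u i j x ^ 2 := by
  have hd2 : ∀ i j, DifferentiableAt ℝ (gmtSimU2 u i j) x := fun i j =>
    gmtSimId_diff hU (gmtSimId_U2_smooth hU hu i j) hx
  have h1 : ∀ i, gmtSimPd i (gmtSimLapl u) x = ∑ j, gmtSimU3 u i j j x := by
    intro i
    have : gmtSimLapl u = fun y => ∑ j, gmtSimU2 u j j y := rfl
    rw [this, gmtSimId_pd_sum _ (fun j _ => hd2 j j)]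
    rfl
  simp only [h1, Finset.mul_sum]
  rw [Finset.sum_comm, ← Finset.sum_neg_distrib]
  refine Finset.sum_congr rfl fun j _ => ?_
  rw [gmtSim_E2 hU hu heik hx j j]
  congr 1
  refine Finset.sum_congr rfl fun m _ => ?_
  rw [gmtSimId_U2_symm hU hu hx m j]; ring

theorem gmtSimId_A_eq (hU : IsOpen U) (hu : ContDiffOn ℝ ∞ u U) {x : E k} (hx : x ∈ U) :
    gmtSimA u x = ∑ i, ∑ j, gmtSimU2 u i j x * gmtSimU2 u i j x := by
  rw [gmtSim_A_eq hU hu hx]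
  exact Finset.sum_congr rfl fun i _ => Finset.sum_congr rfl fun j _ => by rw [sq]; rfl

theorem gmtSim_A1 (hU : IsOpen U) (hu : ContDiffOn ℝ ∞ u U) {x : E k} (hx : x ∈ U) (l : Fin k) :
    gmtSimPd l (gmtSimA u) x = 2 * ∑ i, ∑ j, gmtSimU2 u i j x * gmtSimU3 u l i j x := by
  have hd2 : ∀ i j, DifferentiableAt ℝ (gmtSimU2 u i j) x := fun i j =>
    gmtSimId_diff hU (gmtSimId_U2_smooth hU hu i j) hx
  rw [gmtSim_pd_congr hU (fun y hy => gmtSimId_A_eq hU hu hy) hx l,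
    gmtSimId_pd_sum _ (fun i _ => DifferentiableAt.fun_sum fun j _ => (hd2 i j).fun_mul (hd2 i j)),
    Finset.mul_sum]
  refine Finset.sum_congr rfl fun i _ => ?_
  rw [gmtSimId_pd_sum _ (fun j _ => (hd2 i j).fun_mul (hd2 i j)), Finset.mul_sum]
  refine Finset.sum_congr rfl fun j _ => ?_
  rw [gmtSimId_pd_mul (hd2 i j) (hd2 i j)]
  unfold gmtSimU3
  ring

theorem gmtSim_A2 (hU : IsOpen U) (hu : ContDiffOn ℝ ∞ u U) {x : E k} (hx : x ∈ U) (l m : Fin k) :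
    gmtSimPd l (gmtSimPd m (gmtSimA u)) x =
      2 * ∑ i, ∑ j, (gmtSimU3 u l i j x * gmtSimU3 u m i j x +
        gmtSimU2 u i j x * gmtSimU4 u l m i j x) := by
  have hd2 : ∀ i j, DifferentiableAt ℝ (gmtSimU2 u i j) x := fun i j =>
    gmtSimId_diff hU (gmtSimId_U2_smooth hU hu i j) hx
  have hd3 : ∀ i j l, DifferentiableAt ℝ (gmtSimU3 u i j l) x := fun i j l =>
    gmtSimId_diff hU (gmtSimId_U3_smooth hU hu i j l) hx
  rw [gmtSim_pd_congr hU (fun y hy => gmtSim_A1 hU hu hy m) hx l,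
    gmtSimId_pd_mul (differentiableAt_const _) (DifferentiableAt.fun_sum fun i _ =>
      DifferentiableAt.fun_sum fun j _ => (hd2 i j).fun_mul (hd3 m i j)),
    gmtSimId_pd_const, zero_mul, zero_add,
    gmtSimId_pd_sum _ (fun i _ => DifferentiableAt.fun_sum fun j _ => (hd2 i j).fun_mul (hd3 m i j))]
  congr 1
  refine Finset.sum_congr rfl fun i _ => ?_
  rw [gmtSimId_pd_sum _ (fun j _ => (hd2 i j).fun_mul (hd3 m i j))]
  refine Finset.sum_congr rfl fun j _ => ?_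
  rw [gmtSimId_pd_mul (hd2 i j) (hd3 m i j)]
  rfl

end Claimed.Agent.Gmt
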