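import Claimed.Agent.Lib.Gmt.SimIdA

/-!
# Lib/Gmt [G7 Simons] `SimIdB`: Simons' identity for `a = |D²u|²`, `|∇u| = 1`.   (architect: helper257)

PURE CALCULUS on an open set `U ⊆ E k` (no measure theory).  `u` smooth on `U`,
 (EIK) `|∇u| = 1`,  (HOM) `x·∇u = u`,  (PROJ) `π x = x - u ∇u ∈ U`, `u (π x) = 0`,  (HARM) `Δu = 0` on `{u = 0}`.
Index notation `u_i = gmtSimPd i u`, `u_{ij} = gmtSimU2 u i j`, ... ; all are smooth on `U` (`gmtSim_contDiffOn_pd`) and symmetric (`gmtSim_pd_comm`).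
An identity valid on the OPEN set `U` may be differentiated (`gmtSim_pd_congr`).

 (E0) `Σ u_i² = 1`   (E1) `Σ_i u_i u_{ij} = 0`   (E2) `Σ_i u_i u_{ijl} = - Σ_m u_{jm} u_{ml}`
 (E3) differentiate (E2) in `x_m`, contract with `u_m`, use (E1), (E2):  `Σ_{lm} u_l u_m u_{lmij} = 2 (h³)_{ij}`
 (C1) `Σ_i x_i u_{ij} = 0`   (C2) `Σ_i x_i u_{ijl} = - u_{jl}`            (differentiate (HOM))
 (H1) `H := Δu`;  trace of (E2):  `Σ_i u_i ∂_i H = - a` on `U`.
 (H2) at `p` with `u p = 0`:  `Σ_{ij} u_{ij} ∂_i∂_j H = - a²`.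
      Proof: `H ∘ π = 0` on `U` (PROJ + HARM).  `∂_j π_l = δ_{jl} - u_j u_l - u u_{jl}`,  `∂_i∂_j π_l = - u_{ij} u_l - u_j u_{il} - u_i u_{jl} - u u_{ijl}`.
      Chain rule twice at `p` (`u p = 0`, `π p = p`):  `0 = ∂_i∂_j (H∘π) = Σ_{lm} H_{lm} P_{il} P_{jm} + Σ_l H_l ∂_i∂_jπ_l`, `P = 1 - N⊗N`.
      Contract with `u_{ij}`: `Σ u_{ij} P_{il} P_{jm} = u_{lm}` (E1), `Σ_{ij} u_{ij} ∂_i∂_jπ_l = - a u_l` (E1).   So `0 = Σ u_{lm} H_{lm} - a Σ_l u_l H_l = Σ u_{lm}H_{lm} + a²` (H1).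
 (A1) `∂_l a = 2 Σ_{ij} u_{ij} u_{lij}`,   (A2) `∂_l∂_m a = 2 Σ_{ij} (u_{lij} u_{mij} + u_{ij} u_{lmij})`.
 Hence `Δa = 2|D³u|² + 2 Σ u_{ij} H_{ij}`,  `D²a(N,N) = 2|h²|² + 4 tr h⁴ = 6|h²|²`  (E2), (E3),  and at `p`:
      `L a / 2 + a² = |D³u|² - 3 |h²|²`.            Then apply `gmtSim_kato`.

THIS FILE: (H2), for a general `f` vanishing on `{u = 0}`:  `Σ u_{ij} f_{ij} = a ∂_N f`.
-/

set_option autoImplicit false
open scoped ContDiff ENNReal RealInnerProductSpace Topology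
open MeasureTheory Metric Set Filter

namespace Claimed.Agent.Gmt

variable {k : ℕ} {U : Set (E k)} {u : E k → ℝ}

theorem gmtSimId_pd_sub {f g : E k → ℝ} {x : E k} (hf : DifferentiableAt ℝ f x)
    (hg : DifferentiableAt ℝ g x) (i : Fin k) :
    gmtSimPd i (fun y => f y - g y) x = gmtSimPd i f x - gmtSimPd i g x := by
  unfold gmtSimPd
  rw [fderiv_fun_sub hf hg]
  simp

theorem gmtSimId_pd_add {f g : E k → ℝ} {x : E k} (hf : DifferentiableAt ℝ f x)
    (hg : DifferentiableAt ℝ g x) (i : Fin k) :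
    gmtSimPd i (fun y => f y + g y) x = gmtSimPd i f x + gmtSimPd i g x := by
  unfold gmtSimPd
  rw [fderiv_fun_add hf hg]
  simp

theorem gmtSimId_clm_eq_sum (L : E k →L[ℝ] ℝ) (v : E k) : L v = ∑ m, L (eb m) * v m := by
  conv_lhs => rw [← gmt_sum_eb v]
  rw [map_sum]
  refine Finset.sum_congr rfl fun m _ => ?_
  rw [map_smul, smul_eq_mul, mul_comm]

/-- the chain rule in coordinates. -/
theorem gmtSimId_chain {g : E k → ℝ} {P : E k → E k} {x : E k} (hg : DifferentiableAt ℝ g (P x))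
    (hP : DifferentiableAt ℝ P x) (i : Fin k) :
    gmtSimPd i (fun y => g (P y)) x = ∑ m, gmtSimPd m g (P x) * gmtSimPd i (fun y => P y m) x := by
  have h1 : fderiv ℝ (fun y => g (P y)) x = (fderiv ℝ g (P x)).comp (fderiv ℝ P x) :=
    (hg.hasFDerivAt.comp x hP.hasFDerivAt).fderiv
  have h2 : ∀ m, fderiv ℝ (fun y => P y m) x = (EuclideanSpace.proj m : E k →L[ℝ] ℝ).comp (fderiv ℝ P x) :=
    fun m => ((EuclideanSpace.proj m : E k →L[ℝ] ℝ).hasFDerivAt.comp x hP.hasFDerivAt).fderiv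
  unfold gmtSimPd
  rw [h1, ContinuousLinearMap.comp_apply, gmtSimId_clm_eq_sum]
  refine Finset.sum_congr rfl fun m _ => ?_
  rw [h2]
  rfl

/-- the algebra behind (H2). -/
theorem gmtSimId_H2_alg (N f1 : Fin k → ℝ) (h f2 : Fin k → Fin k → ℝ)
    (hsym : ∀ i j, h i j = h j i) (hN0 : ∀ j, ∑ i, N i * h i j = 0)
    (H : ∀ i j, ∑ l, ((∑ m, f2 m l * ((if m = i then 1 else 0) - N i * N m)) *
        ((if l = j then 1 else 0) - N j * N l) +
        f1 l * (0 - (h i j * N l + N j * h i l + (N i * h j l + 0)))) = 0) :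
    ∑ i, ∑ j, h i j * f2 i j = (∑ i, ∑ j, h i j ^ 2) * ∑ l, N l * f1 l := by
  have hN0' : ∀ i, ∑ j, h i j * N j = 0 := by
    intro i
    rw [← hN0 i]
    exact Finset.sum_congr rfl fun j _ => by rw [hsym i j]; ring
  -- contraction of `h` with the projection
  have hP : ∀ i l, ∑ j, h i j * ((if l = j then 1 else 0) - N j * N l) = h i l := by
    intro i l
    have e : ∀ j, h i j * ((if l = j then 1 else 0) - N j * N l) =
        (if l = j then h i j else 0) - (h i j * N j) * N l := by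
      intro j; split_ifs <;> ring
    simp only [e, Finset.sum_sub_distrib, ← Finset.sum_mul, hN0', Finset.sum_ite_eq,
      Finset.mem_univ, if_true]
    ring
  have tot : ∑ i, ∑ j, h i j * ∑ l, ((∑ m, f2 m l * ((if m = i then 1 else 0) - N i * N m)) *
        ((if l = j then 1 else 0) - N j * N l) +
        f1 l * (0 - (h i j * N l + N j * h i l + (N i * h j l + 0)))) = 0 :=
    Finset.sum_eq_zero fun i _ => Finset.sum_eq_zero fun j _ => by rw [H i j, mul_zero]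
  have s1 : ∑ i, ∑ j, h i j * ∑ l, (∑ m, f2 m l * ((if m = i then 1 else 0) - N i * N m)) *
        ((if l = j then 1 else 0) - N j * N l) = ∑ i, ∑ j, h i j * f2 i j := by
    have a1 : ∀ i, ∑ j, h i j * ∑ l, (∑ m, f2 m l * ((if m = i then 1 else 0) - N i * N m)) *
        ((if l = j then 1 else 0) - N j * N l) =
        ∑ l, (∑ m, f2 m l * ((if m = i then 1 else 0) - N i * N m)) * h i l := by
      intro i
      simp only [Finset.mul_sum]
      rw [Finset.sum_comm]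
      refine Finset.sum_congr rfl fun l _ => ?_
      rw [← hP i l, Finset.mul_sum]
      exact Finset.sum_congr rfl fun j _ => by ring
    simp only [a1]
    rw [Finset.sum_comm]
    have a2 : ∀ l, ∑ i, (∑ m, f2 m l * ((if m = i then 1 else 0) - N i * N m)) * h i l =
        ∑ m, f2 m l * h m l := by
      intro l
      simp only [Finset.sum_mul]
      rw [Finset.sum_comm]
      refine Finset.sum_congr rfl fun m _ => ?_
      have := hP l m
      rw [hsym m l, ← this, Finset.mul_sum]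
      exact Finset.sum_congr rfl fun i _ => by rw [hsym i l]; ring
    simp only [a2]
    rw [Finset.sum_comm]
    exact Finset.sum_congr rfl fun i _ => Finset.sum_congr rfl fun j _ => by ring
  have s2 : ∑ i, ∑ j, h i j * ∑ l, f1 l * (0 - (h i j * N l + N j * h i l + (N i * h j l + 0))) =
      - ((∑ i, ∑ j, h i j ^ 2) * ∑ l, N l * f1 l) := by
    have b1 : ∀ i j, h i j * ∑ l, f1 l * (0 - (h i j * N l + N j * h i l + (N i * h j l + 0))) =
        - (h i j ^ 2 * ∑ l, N l * f1 l) - (h i j * N j) * (∑ l, f1 l * h i l) -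
          (N i * h i j) * ∑ l, f1 l * h j l := by
      intro i j
      simp only [Finset.mul_sum, ← Finset.sum_neg_distrib, ← Finset.sum_sub_distrib]
      exact Finset.sum_congr rfl fun l _ => by ring
    simp only [b1, Finset.sum_sub_distrib, Finset.sum_neg_distrib, ← Finset.sum_mul, hN0', zero_mul,
      sub_zero]
    have b2 : ∑ i, ∑ j, N i * h i j * ∑ l, f1 l * h j l = 0 := by
      rw [Finset.sum_comm]
      refine Finset.sum_eq_zero fun j _ => ?_
      rw [← Finset.sum_mul, hN0, zero_mul]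
    rw [b2]; ring
  have split : ∑ i, ∑ j, h i j * ∑ l, ((∑ m, f2 m l * ((if m = i then 1 else 0) - N i * N m)) *
        ((if l = j then 1 else 0) - N j * N l) +
        f1 l * (0 - (h i j * N l + N j * h i l + (N i * h j l + 0)))) =
      ∑ i, ∑ j, h i j * ∑ l, (∑ m, f2 m l * ((if m = i then 1 else 0) - N i * N m)) *
        ((if l = j then 1 else 0) - N j * N l) +
      ∑ i, ∑ j, h i j * ∑ l, f1 l * (0 - (h i j * N l + N j * h i l + (N i * h j l + 0))) := by
    simp only [← Finset.sum_add_distrib, ← mul_add]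
  rw [split, s1, s2] at tot
  linarith

theorem gmtSimId_Pi_apply (u : E k → ℝ) (y : E k) (l : Fin k) :
    gmtSimPi u y l = y l - u y * gmtSimPd l u y := by
  unfold gmtSimPi
  rw [← gmtSim_gradient_apply]
  simp

theorem gmtSimId_Pi_smooth (hU : IsOpen U) (hu : ContDiffOn ℝ ∞ u U) :
    ContDiffOn ℝ ∞ (gmtSimPi u) U :=
  contDiffOn_id.sub (hu.smul (gmtSim_contDiffOn_gradient hU hu))

/-- second derivatives along `{u = 0}` of a function vanishing there, contracted with `h`. -/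
theorem gmtSim_H2 (hU : IsOpen U) (hu : ContDiffOn ℝ ∞ u U) (heik : ∀ x ∈ U, ‖gradient u x‖ = 1)
    (hproj : ∀ x ∈ U, gmtSimPi u x ∈ U ∧ u (gmtSimPi u x) = 0)
    {f : E k → ℝ} (hf : ContDiffOn ℝ ∞ f U) (hf0 : ∀ x ∈ U, u x = 0 → f x = 0)
    {p : E k} (hp : p ∈ U) (hp0 : u p = 0) :
    ∑ i, ∑ j, gmtSimU2 u i j p * gmtSimPd i (gmtSimPd j f) p =
      (∑ i, ∑ j, gmtSimU2 u i j p ^ 2) * ∑ l, gmtSimPd l u p * gmtSimPd l f p := by
  have hdu : ∀ {x}, x ∈ U → DifferentiableAt ℝ u x := fun hx => gmtSimId_diff hU hu hx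
  have hd : ∀ {x}, x ∈ U → ∀ i, DifferentiableAt ℝ (gmtSimPd i u) x := fun hx i =>
    gmtSimId_diff hU (gmtSim_contDiffOn_pd hU hu i) hx
  have hd2 : ∀ {x}, x ∈ U → ∀ i j, DifferentiableAt ℝ (gmtSimU2 u i j) x := fun hx i j =>
    gmtSimId_diff hU (gmtSimId_U2_smooth hU hu i j) hx
  have hdP : ∀ {x}, x ∈ U → DifferentiableAt ℝ (gmtSimPi u) x := fun hx =>
    ((gmtSimId_Pi_smooth hU hu).contDiffAt (hU.mem_nhds hx)).differentiableAt (by simp)
  have hdf : ∀ {x}, x ∈ U → DifferentiableAt ℝ f x := fun hx => gmtSimId_diff hU hf hx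
  have hdf1 : ∀ {x}, x ∈ U → ∀ l, DifferentiableAt ℝ (gmtSimPd l f) x := fun hx l =>
    gmtSimId_diff hU (gmtSim_contDiffOn_pd hU hf l) hx
  have hPp : gmtSimPi u p = p := by unfold gmtSimPi; rw [hp0]; simp
  -- the derivative of the projection
  obtain ⟨Pf, hPf⟩ : ∃ Pf : Fin k → Fin k → E k → ℝ, ∀ j l y, Pf j l y =
      (if l = j then 1 else 0) - (gmtSimPd j u y * gmtSimPd l u y + u y * gmtSimU2 u j l y) :=
    ⟨_, fun _ _ _ => rfl⟩
  have hPf' : ∀ j l, Pf j l = fun y =>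
      (if l = j then 1 else 0) - (gmtSimPd j u y * gmtSimPd l u y + u y * gmtSimU2 u j l y) :=
    fun j l => funext fun y => hPf j l y
  have hdPi : ∀ {x}, x ∈ U → ∀ j l, gmtSimPd j (fun y => gmtSimPi u y l) x = Pf j l x := by
    intro x hx j l
    have e : (fun y => gmtSimPi u y l) = fun y => y l - u y * gmtSimPd l u y :=
      funext fun y => gmtSimId_Pi_apply u y l
    rw [e, gmtSimId_pd_sub (gmtSimId_diff_coord x l) ((hdu hx).fun_mul (hd hx l)),
      gmtSimId_pd_coord, gmtSimId_pd_mul (hdu hx) (hd hx l), hPf]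
    rfl
  have hdPf : ∀ j l, DifferentiableAt ℝ (Pf j l) p := by
    intro j l
    rw [hPf']
    exact (differentiableAt_const _).fun_sub
      (((hd hp j).fun_mul (hd hp l)).fun_add ((hdu hp).fun_mul (hd2 hp j l)))
  have hPfp : ∀ j l, Pf j l p = (if l = j then 1 else 0) - gmtSimPd j u p * gmtSimPd l u p := by
    intro j l; rw [hPf, hp0]; ring
  have hdPf2 : ∀ i j l, gmtSimPd i (Pf j l) p = 0 - (gmtSimU2 u i j p * gmtSimPd l u p +
      gmtSimPd j u p * gmtSimU2 u i l p + (gmtSimPd i u p * gmtSimU2 u j l p + 0)) := by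
    intro i j l
    rw [hPf', gmtSimId_pd_sub (differentiableAt_const _)
      (((hd hp j).fun_mul (hd hp l)).fun_add ((hdu hp).fun_mul (hd2 hp j l))),
      gmtSimId_pd_const,
      gmtSimId_pd_add ((hd hp j).fun_mul (hd hp l)) ((hdu hp).fun_mul (hd2 hp j l)),
      gmtSimId_pd_mul (hd hp j) (hd hp l), gmtSimId_pd_mul (hdu hp) (hd2 hp j l), hp0, zero_mul]
    rfl
  -- first derivative of `f ∘ π`
  have hF1 : ∀ j, ∀ x ∈ U, gmtSimPd j (fun y => f (gmtSimPi u y)) x =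
      ∑ l, gmtSimPd l f (gmtSimPi u x) * Pf j l x := by
    intro j x hx
    rw [gmtSimId_chain (hdf (hproj x hx).1) (hdP hx)]
    exact Finset.sum_congr rfl fun l _ => by rw [hdPi hx]
  have hF0 : ∀ x ∈ U, (fun y => f (gmtSimPi u y)) x = (fun _ => (0 : ℝ)) x := fun x hx =>
    hf0 _ (hproj x hx).1 (hproj x hx).2
  have hF10 : ∀ j, ∀ x ∈ U, gmtSimPd j (fun y => f (gmtSimPi u y)) x = 0 := by
    intro j x hx
    rw [gmtSim_pd_congr hU hF0 hx j, gmtSimId_pd_const]
  have hcomp : ∀ l, DifferentiableAt ℝ (fun y => gmtSimPd l f (gmtSimPi u y)) p := by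
    intro l
    have h1 : DifferentiableAt ℝ (gmtSimPd l f) (gmtSimPi u p) := hdf1 (hproj p hp).1 l
    exact h1.comp p (hdP hp)
  refine gmtSimId_H2_alg (fun i => gmtSimPd i u p) (fun l => gmtSimPd l f p)
    (fun i j => gmtSimU2 u i j p) (fun i j => gmtSimPd i (gmtSimPd j f) p)
    (fun i j => gmtSimId_U2_symm hU hu hp i j) (fun j => gmtSim_E1 hU hu heik hp j) ?_
  intro i j
  have h1 := gmtSim_pd_congr hU (f := fun x => ∑ l, gmtSimPd l f (gmtSimPi u x) * Pf j l x)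
    (g := fun _ => 0) (fun x hx => by rw [← hF1 j x hx, hF10 j x hx]) hp i
  rw [gmtSimId_pd_const, gmtSimId_pd_sum _ (fun l _ => (hcomp l).fun_mul (hdPf j l))] at h1
  refine Eq.trans ?_ h1
  refine Finset.sum_congr rfl fun l _ => ?_
  rw [gmtSimId_pd_mul (hcomp l) (hdPf j l), hdPf2, hPfp,
    gmtSimId_chain (hdf1 (hproj p hp).1 l) (hdP hp), hPp]
  congr 2
  exact Finset.sum_congr rfl fun m _ => by rw [hdPi hp, hPfp]

end Claimed.Agent.Gmt
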