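import Claimed.Agent.Lib.Gmt.SimVar
import Claimed.Agent.Lib.Gmt.SimId

/-!
# Lib/Gmt [G7 Simons] `SimInt`: the integral inequality  `2 ∫ a ψ²/|x|² dμ ≤ ∫ a |∇ψ|² dμ`.   (architect: helper257)

`a = gmtSimA u ≥ 0` everywhere, smooth on `U`.  Fix `ψ ∈ C_c^∞(U)`, `ε > 0`.  All integrands below are continuous on `U` with compact support in `U`: `gmtSim_integrable`.
`μ` is concentrated on `Σ` (`gmtMu_compl_gmtBd`), so pointwise inequalities are needed on `Σ ∩ U = {u = 0} ∩ U` only.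
1. `ζ = √(a+ε) ψ ∈ C_c^∞(U)` (`gmtSim_test_mul`; `Real.sqrt` is smooth on `(0,∞)`).  `∇ζ = ψ ∇a/(2√(a+ε)) + √(a+ε) ∇ψ` on `U`, so
   `Tg ζ ζ = ψ² Tg a a /(4(a+ε)) + ψ Tg a ψ + (a+ε) Tg ψ ψ`.
2. `gmtSim_stab`:  `∫ a (a+ε) ψ² ≤ ∫ Tg ζ ζ`.
3. `gmtSim_ibp` with `Y = ψ² ∇a` (`gmtSim_test_smul`):  `div Y - ⟪DY N, N⟫ = 2 ψ Tg ψ a + ψ² L a`, so `∫ ψ Tg a ψ = - (1/2) ∫ ψ² L a`.
4. `gmtSim_simons_pt` on `Σ ∩ U`:  `Tg a a/(4(a+ε)) ≤ (a/(a+ε)) (La/2 + a²) - 2a²/((a+ε)|x|²) ≤ La/2 + a² - 2a²/((a+ε)|x|²)`.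
5. 2+3+4:  `∫ ψ² (ε a + 2a²/((a+ε)|x|²)) ≤ ∫ (a+ε) Tg ψ ψ`;  `a²/(a+ε) ≥ a - ε`, `Tg ψ ψ ≤ |∇ψ|²`:
   `2 ∫ a ψ²/|x|² - ∫ a |∇ψ|² ≤ ε (2 ∫ ψ²/|x|² + ∫ |∇ψ|²)` for every `ε > 0`.
6. general `ψ ∈ C_c^∞(E k \ 0)`: `K = Σ ∩ tsupport ψ` is a compact subset of `U`; `χ` from `gmtSim_exists_cutoff`; `χ ψ ∈ C_c^∞(U)` and `χψ = ψ` in a neighbourhood of `K`, so the integrands agree on `Σ`.
-/

set_option autoImplicit false
open scoped ContDiff ENNReal RealInnerProductSpace Topology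
open MeasureTheory Metric Set Filter

namespace Claimed.Agent.Gmt

variable {k : ℕ}

theorem gmtSimI_gradient_mul {f g : E k → ℝ} {x : E k} (hf : DifferentiableAt ℝ f x)
    (hg : DifferentiableAt ℝ g x) :
    gradient (fun y => f y * g y) x = f x • gradient g x + g x • gradient f x := by
  refine ext_inner_right ℝ fun v => ?_
  rw [gmtSim_inner_gradient, fderiv_fun_mul hf hg, inner_add_left, inner_smul_left, inner_smul_left,
    gmtSim_inner_gradient, gmtSim_inner_gradient]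
  simp

theorem gmtSimI_gradient_sqrt {f : E k → ℝ} {x : E k} (hf : DifferentiableAt ℝ f x)
    (hx : f x ≠ 0) :
    gradient (fun y => Real.sqrt (f y)) x = (1 / (2 * Real.sqrt (f x))) • gradient f x := by
  refine ext_inner_right ℝ fun v => ?_
  rw [gmtSim_inner_gradient, fderiv_sqrt hf hx, inner_smul_left, gmtSim_inner_gradient]
  simp

theorem gmtSimI_gradient_add_const {f : E k → ℝ} (c : ℝ) (x : E k) :
    gradient (fun y => f y + c) x = gradient f x := by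
  unfold gradient
  rw [fderiv_add_const]

theorem gmtSimI_arith {a ε ψ R Taa Tap Tpp La g4 : ℝ} (ha : 0 ≤ a) (hε : 0 < ε) (hR : 0 < R)
    (hB : 0 ≤ La / 2 + a ^ 2) (hS : Taa + 8 * a ^ 2 / R ≤ 4 * a * (La / 2 + a ^ 2))
    (hT : Tpp ≤ g4) :
    (ψ ^ 2 * Taa / (4 * (a + ε)) + ψ * Tap + (a + ε) * Tpp) - a * (a + ε) * ψ ^ 2
        - (2 * ψ * Tap + ψ ^ 2 * La) / 2
      ≤ - 2 * (a * ψ ^ 2 / R) + a * g4 + ε * (2 * (ψ ^ 2 / R) + g4) := by
  set ρ : ℝ := R⁻¹ with hρ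
  have hρ0 : 0 < ρ := inv_pos.2 hR
  simp only [div_eq_mul_inv _ R, ← hρ] at hS ⊢
  have hae : 0 < a + ε := by linarith
  have key : Taa / (4 * (a + ε)) ≤ La / 2 + a ^ 2 + a * ε - 2 * (a - ε) * ρ := by
    rw [div_le_iff₀ (by linarith)]
    nlinarith [mul_nonneg hε.le hB, mul_nonneg (mul_nonneg ha hε.le) hae.le,
      mul_pos (mul_pos hε hε) hρ0]
  have h1 : ψ ^ 2 * (Taa / (4 * (a + ε))) ≤ ψ ^ 2 * (La / 2 + a ^ 2 + a * ε - 2 * (a - ε) * ρ) :=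
    mul_le_mul_of_nonneg_left key (sq_nonneg _)
  have h2 : (a + ε) * Tpp ≤ (a + ε) * g4 := mul_le_mul_of_nonneg_left hT hae.le
  have e : ψ ^ 2 * Taa / (4 * (a + ε)) = ψ ^ 2 * (Taa / (4 * (a + ε))) := by ring
  rw [e]
  nlinarith

theorem gmtSimI_Tg_zeta {U : Set (E k)} (hU : IsOpen U) {u a ψ : E k → ℝ}
    (ha : ContDiffOn ℝ ∞ a U) (ha0 : ∀ x, 0 ≤ a x) (hψ : ContDiff ℝ ∞ ψ) {ε : ℝ} (hε : 0 < ε)
    {x : E k} (hx : x ∈ U) :
    gmtSimTg u (fun y => Real.sqrt (a y + ε) * ψ y) (fun y => Real.sqrt (a y + ε) * ψ y) x =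
      ψ x ^ 2 * gmtSimTg u a a x / (4 * (a x + ε)) + ψ x * gmtSimTg u a ψ x
        + (a x + ε) * gmtSimTg u ψ ψ x := by
  have da : DifferentiableAt ℝ a x := (ha.contDiffAt (hU.mem_nhds hx)).differentiableAt (by simp)
  have dae : DifferentiableAt ℝ (fun y => a y + ε) x := da.add_const ε
  have hpos : 0 < a x + ε := by linarith [ha0 x]
  have ds : DifferentiableAt ℝ (fun y => Real.sqrt (a y + ε)) x := dae.sqrt hpos.ne'
  have dψ : DifferentiableAt ℝ ψ x := hψ.differentiable (by simp) x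
  have e1 : gradient (fun y => Real.sqrt (a y + ε) * ψ y) x
      = Real.sqrt (a x + ε) • gradient ψ x
        + ψ x • ((1 / (2 * Real.sqrt (a x + ε))) • gradient a x) := by
    rw [gmtSimI_gradient_mul ds dψ, gmtSimI_gradient_sqrt dae hpos.ne',
      gmtSimI_gradient_add_const]
  set s : ℝ := Real.sqrt (a x + ε) with hs
  have hs0 : 0 < s := Real.sqrt_pos.2 hpos
  have hs2 : a x + ε = s ^ 2 := (Real.sq_sqrt hpos.le).symm
  unfold gmtSimTg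
  rw [e1, hs2]
  simp only [inner_add_left, inner_add_right, inner_smul_left, inner_smul_right, conj_trivial]
  rw [real_inner_comm (gradient a x) (gradient ψ x)]
  field_simp
  ring

theorem gmtSimI_tr_r1 (N w : E k) : gmtSimTr (gmtSimR1 N w) = ⟪w, N⟫ := by
  unfold gmtSimTr
  rw [gmtSim_inner_eq_sum]
  refine Finset.sum_congr rfl fun i _ => ?_
  rw [gmtSimJ_r1_apply, inner_smul_left, gmtSim_inner_eb, gmtSim_inner_eb]
  simp

theorem gmtSimI_tr_add_smul (A B : E k →L[ℝ] E k) (c : ℝ) :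
    gmtSimTr (A + c • B) = gmtSimTr A + c * gmtSimTr B := by
  unfold gmtSimTr
  rw [Finset.mul_sum, ← Finset.sum_add_distrib]
  refine Finset.sum_congr rfl fun i _ => ?_
  simp only [add_apply, smul_apply, inner_add_left, inner_smul_left, conj_trivial]

theorem gmtSimI_div_Y {U : Set (E k)} (hU : IsOpen U) {u a ψ : E k → ℝ}
    (ha : ContDiffOn ℝ ∞ a U) (hψ : ContDiff ℝ ∞ ψ) {x : E k} (hx : x ∈ U) :
    gmtDiv (fun y => ψ y ^ 2 • gradient a y) x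
        - ⟪fderiv ℝ (fun y => ψ y ^ 2 • gradient a y) x (gradient u x), gradient u x⟫
      = 2 * ψ x * gmtSimTg u a ψ x + ψ x ^ 2 * gmtSimL u a x := by
  have dψ : DifferentiableAt ℝ ψ x := hψ.differentiable (by simp) x
  have e1 : gradient (fun y => ψ y ^ 2) x = (2 * ψ x) • gradient ψ x := by
    have : (fun y => ψ y ^ 2) = fun y => ψ y * ψ y := by funext y; ring
    rw [this, gmtSimI_gradient_mul dψ dψ, ← add_smul]
    congr 1; ring
  rw [gmtSim_div_eq_tr, gmtSimV_fderiv hU ha (hψ.pow 2) hx, gmtSimI_tr_add_smul, gmtSimI_tr_r1, e1]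
  unfold gmtSimL gmtSimTg
  rw [gmtSim_div_eq_tr]
  simp only [add_apply, smul_apply, gmtSimJ_r1_apply, inner_add_left, inner_smul_left,
    conj_trivial]
  rw [real_inner_comm (gradient a x) (gradient ψ x)]
  unfold gmtSimH
  ring

theorem gmtSimI_contDiffOn_L {U : Set (E k)} (hU : IsOpen U) {u f : E k → ℝ}
    (hu : ContDiffOn ℝ ∞ u U) (hf : ContDiffOn ℝ ∞ f U) : ContDiffOn ℝ ∞ (gmtSimL u f) U := by
  have h1 := gmtSim_contDiffOn_gradient hU hu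
  have h2 := gmtSim_contDiffOn_H hU hf
  have e : gmtSimL u f = fun x => (∑ i, ⟪gmtSimH f x (eb i), eb i⟫)
      - ⟪gmtSimH f x (gradient u x), gradient u x⟫ := by
    funext x
    unfold gmtSimL
    rw [gmtSim_div_eq_tr]
    rfl
  rw [e]
  refine ContDiffOn.sub (ContDiffOn.sum fun i _ => ?_) ((h2.clm_apply h1).inner ℝ h1)
  exact (h2.clm_apply contDiffOn_const).inner ℝ contDiffOn_const

theorem gmtSimI_Tg_le (u ψ : E k → ℝ) (x : E k) : gmtSimTg u ψ ψ x ≤ ‖gradient ψ x‖ ^ 2 := by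
  unfold gmtSimTg
  rw [real_inner_self_eq_norm_sq]
  nlinarith [mul_self_nonneg ⟪gradient ψ x, gradient u x⟫]

theorem gmtSimI_continuous_gradient {ψ : E k → ℝ} (hψ : ContDiff ℝ ∞ ψ) :
    Continuous (gradient ψ) := by
  have := gmtSim_contDiffOn_gradient isOpen_univ hψ.contDiffOn
  exact (contDiffOn_univ.1 this).continuous

/-- step 5 with `ε`. -/
theorem gmtSim_weighted_eps {S U : Set (E k)} {u : E k → ℝ} (hmin : GmtMin univ S)
    (hc : GmtSimCone S U u) {ψ : E k → ℝ} (hψ : GmtTestS0 U ψ) {ε : ℝ} (hε : 0 < ε) :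
    2 * ∫ x, gmtSimA u x * ψ x ^ 2 / ‖x‖ ^ 2 ∂(gmtMu S) - ∫ x, gmtSimA u x * ‖gradient ψ x‖ ^ 2 ∂(gmtMu S) ≤
      ε * (2 * ∫ x, ψ x ^ 2 / ‖x‖ ^ 2 ∂(gmtMu S) + ∫ x, ‖gradient ψ x‖ ^ 2 ∂(gmtMu S)) := by
  have hU := hc.opn
  have hLFU : GmtLF S U := gmtSimV_lf_mono (gmtSim_min_lf hmin)
  have hKc : IsCompact (tsupport ψ) := hψ.cpt
  have haS : ContDiffOn ℝ ∞ (gmtSimA u) U := gmtSim_contDiffOn_A hU hc.smooth
  have ha0 : ∀ x, 0 ≤ gmtSimA u x := gmtSim_A_nonneg u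
  have hsS : ContDiffOn ℝ ∞ (fun y => Real.sqrt (gmtSimA u y + ε)) U :=
    (haS.add contDiffOn_const).sqrt (fun x _ => (by linarith [ha0 x] : 0 < gmtSimA u x + ε).ne')
  have hζ : GmtTestS0 U (fun x => Real.sqrt (gmtSimA u x + ε) * ψ x) := gmtSim_test_mul hU hsS hψ
  have hstab := gmtSim_stab hmin hc hζ
  have hz : ∀ x, x ∉ tsupport ψ → ψ x = 0 := fun x hx => image_eq_zero_of_notMem_tsupport hx
  have hzg : ∀ x, x ∉ tsupport ψ → gradient ψ x = 0 := fun x hx => gmtSimV_gradient_zero hx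
  have hψ2z : ∀ x, x ∉ tsupport ψ → ψ x ^ 2 = 0 := fun x hx => by rw [hz x hx]; simp
  have hψ2 : GmtTestS0 U (fun x => ψ x ^ 2) :=
    ⟨hψ.smooth.pow 2, (gmtSimV_cs hKc hψ2z).1, (gmtSimV_cs hKc hψ2z).2.trans hψ.sub⟩
  have hY : GmtTestS U (fun x => ψ x ^ 2 • gradient (gmtSimA u) x) :=
    gmtSim_test_smul hU (gmtSim_contDiffOn_gradient hU haS) hψ2
  have hibp := gmtSim_ibp hmin hc.toGmtSimTube hY
  have hint : ∀ g : E k → ℝ, ContinuousOn g U → (∀ x, x ∉ tsupport ψ → g x = 0) →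
      Integrable g (gmtMu S) := fun g hg h0 =>
    gmtSim_integrable hU hLFU hg (gmtSimV_cs hKc h0).1 ((gmtSimV_cs hKc h0).2.trans hψ.sub)
  have hψc : ContinuousOn ψ U := hψ.smooth.continuous.continuousOn
  have hgc : ContinuousOn (fun x => ‖gradient ψ x‖ ^ 2) U :=
    ((gmtSimI_continuous_gradient hψ.smooth).norm.pow 2).continuousOn
  have hnc : ContinuousOn (fun x : E k => ‖x‖ ^ 2) U := (continuous_norm.pow 2).continuousOn
  have hn0 : ∀ x ∈ U, ‖x‖ ^ 2 ≠ 0 := fun x hx => by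
    have : x ≠ 0 := fun h => hc.zero (h ▸ hx)
    positivity
  -- the seven integrands
  have hf1 : Integrable (fun x => gmtSimA u x * (Real.sqrt (gmtSimA u x + ε) * ψ x) ^ 2)
      (gmtMu S) :=
    hint _ (haS.continuousOn.mul ((hsS.continuousOn.mul hψc).pow 2))
      (fun x hx => by rw [hz x hx]; simp)
  have hf2 : Integrable (gmtSimTg u (fun x => Real.sqrt (gmtSimA u x + ε) * ψ x)
      (fun x => Real.sqrt (gmtSimA u x + ε) * ψ x)) (gmtMu S) :=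
    hint _ (gmtSimV_continuousOn_Tg hU hc.smooth hζ.smooth.contDiffOn
      hζ.smooth.contDiffOn).continuousOn (fun x hx => by
        have : x ∉ tsupport (fun x => Real.sqrt (gmtSimA u x + ε) * ψ x) :=
          fun h => hx (tsupport_mul_subset_right h)
        unfold gmtSimTg
        rw [gmtSimV_gradient_zero this]
        simp)
  have hf3 : Integrable (fun x => 2 * ψ x * gmtSimTg u (gmtSimA u) ψ x
      + ψ x ^ 2 * gmtSimL u (gmtSimA u) x) (gmtMu S) :=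
    hint _ (((continuousOn_const.mul hψc).mul
      (gmtSimV_continuousOn_Tg hU hc.smooth haS hψ.smooth.contDiffOn).continuousOn).add
      ((hψc.pow 2).mul (gmtSimI_contDiffOn_L hU hc.smooth haS).continuousOn))
      (fun x hx => by rw [hz x hx]; simp)
  have hg1 : Integrable (fun x => gmtSimA u x * ψ x ^ 2 / ‖x‖ ^ 2) (gmtMu S) :=
    hint _ ((haS.continuousOn.mul (hψc.pow 2)).div hnc hn0) (fun x hx => by rw [hz x hx]; simp)
  have hg2 : Integrable (fun x => gmtSimA u x * ‖gradient ψ x‖ ^ 2) (gmtMu S) :=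
    hint _ (haS.continuousOn.mul hgc) (fun x hx => by rw [hzg x hx]; simp)
  have hg3 : Integrable (fun x => ψ x ^ 2 / ‖x‖ ^ 2) (gmtMu S) :=
    hint _ ((hψc.pow 2).div hnc hn0) (fun x hx => by rw [hz x hx]; simp)
  have hg4 : Integrable (fun x => ‖gradient ψ x‖ ^ 2) (gmtMu S) :=
    hint _ hgc (fun x hx => by rw [hzg x hx]; simp)
  have h3 : ∫ x, (2 * ψ x * gmtSimTg u (gmtSimA u) ψ x
      + ψ x ^ 2 * gmtSimL u (gmtSimA u) x) ∂(gmtMu S) = 0 := by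
    rw [← hibp]
    refine integral_congr_ae (Eventually.of_forall fun x => ?_)
    by_cases hxU : x ∈ U
    · exact (gmtSimI_div_Y hU haS hψ.smooth hxU).symm
    · have hxK : x ∉ tsupport ψ := fun h => hxU (hψ.sub h)
      have hxY : x ∉ tsupport (fun x => ψ x ^ 2 • gradient (gmtSimA u) x) :=
        fun h => hxU (hY.sub h)
      show 2 * ψ x * gmtSimTg u (gmtSimA u) ψ x + ψ x ^ 2 * gmtSimL u (gmtSimA u) x
        = gmtDiv (fun x => ψ x ^ 2 • gradient (gmtSimA u) x) x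
          - ⟪fderiv ℝ (fun x => ψ x ^ 2 • gradient (gmtSimA u) x) x (gradient u x), gradient u x⟫
      rw [hz x hxK, gmtSim_div_eq_tr, fderiv_of_notMem_tsupport ℝ hxY]
      simp [gmtSimTr]
  -- the pointwise inequality
  have hpt : ∀ᵐ x ∂(gmtMu S),
      gmtSimTg u (fun x => Real.sqrt (gmtSimA u x + ε) * ψ x)
          (fun x => Real.sqrt (gmtSimA u x + ε) * ψ x) x
        - gmtSimA u x * (Real.sqrt (gmtSimA u x + ε) * ψ x) ^ 2
        - (2 * ψ x * gmtSimTg u (gmtSimA u) ψ x + ψ x ^ 2 * gmtSimL u (gmtSimA u) x) / 2 ≤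
      - 2 * (gmtSimA u x * ψ x ^ 2 / ‖x‖ ^ 2) + gmtSimA u x * ‖gradient ψ x‖ ^ 2
        + ε * (2 * (ψ x ^ 2 / ‖x‖ ^ 2) + ‖gradient ψ x‖ ^ 2) := by
    filter_upwards [gmtSimV_ae hmin.meas hc.toGmtSimTube] with x hx
    by_cases hxK : x ∈ tsupport ψ
    · have hxU := hψ.sub hxK
      obtain ⟨-, hu0⟩ := hx hxU
      have hx0 : x ≠ 0 := fun h => hc.zero (h ▸ hxU)
      obtain ⟨hB, hSim⟩ := gmtSim_simons_pt hU hc.smooth hc.eik hc.proj hc.hom hc.harm hxU hu0 hx0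
      have h := gmtSimI_arith (ψ := ψ x) (Tap := gmtSimTg u (gmtSimA u) ψ x) (ha0 x) hε
        (by positivity : 0 < ‖x‖ ^ 2) hB hSim (gmtSimI_Tg_le u ψ x)
      rw [gmtSimI_Tg_zeta hU haS ha0 hψ.smooth hε hxU, mul_pow,
        Real.sq_sqrt (by linarith [ha0 x] : 0 ≤ gmtSimA u x + ε), ← mul_assoc]
      exact h
    · have : x ∉ tsupport (fun x => Real.sqrt (gmtSimA u x + ε) * ψ x) :=
        fun h => hxK (tsupport_mul_subset_right h)
      unfold gmtSimTg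
      rw [gmtSimV_gradient_zero this, hz x hxK, hzg x hxK]
      simp
  have hf21 : Integrable (fun x => gmtSimTg u (fun x => Real.sqrt (gmtSimA u x + ε) * ψ x)
          (fun x => Real.sqrt (gmtSimA u x + ε) * ψ x) x
        - gmtSimA u x * (Real.sqrt (gmtSimA u x + ε) * ψ x) ^ 2) (gmtMu S) := hf2.sub hf1
  have hg12 : Integrable (fun x => - 2 * (gmtSimA u x * ψ x ^ 2 / ‖x‖ ^ 2)
      + gmtSimA u x * ‖gradient ψ x‖ ^ 2) (gmtMu S) := (hg1.const_mul (-2)).add hg2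
  have hg34 : Integrable (fun x => 2 * (ψ x ^ 2 / ‖x‖ ^ 2) + ‖gradient ψ x‖ ^ 2) (gmtMu S) :=
    (hg3.const_mul 2).add hg4
  have hmono := integral_mono_ae (hf21.sub (hf3.div_const 2)) (hg12.add (hg34.const_mul ε)) hpt
  have eL : ∫ x, (gmtSimTg u (fun x => Real.sqrt (gmtSimA u x + ε) * ψ x)
          (fun x => Real.sqrt (gmtSimA u x + ε) * ψ x) x
        - gmtSimA u x * (Real.sqrt (gmtSimA u x + ε) * ψ x) ^ 2
        - (2 * ψ x * gmtSimTg u (gmtSimA u) ψ x + ψ x ^ 2 * gmtSimL u (gmtSimA u) x) / 2)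
        ∂(gmtMu S)
      = ∫ x, gmtSimTg u (fun x => Real.sqrt (gmtSimA u x + ε) * ψ x)
          (fun x => Real.sqrt (gmtSimA u x + ε) * ψ x) x ∂(gmtMu S)
        - ∫ x, gmtSimA u x * (Real.sqrt (gmtSimA u x + ε) * ψ x) ^ 2 ∂(gmtMu S) := by
    rw [integral_sub hf21 (hf3.div_const 2), integral_sub hf2 hf1, integral_div, h3]
    simp
  have eR : ∫ x, (- 2 * (gmtSimA u x * ψ x ^ 2 / ‖x‖ ^ 2) + gmtSimA u x * ‖gradient ψ x‖ ^ 2
        + ε * (2 * (ψ x ^ 2 / ‖x‖ ^ 2) + ‖gradient ψ x‖ ^ 2)) ∂(gmtMu S)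
      = - 2 * ∫ x, gmtSimA u x * ψ x ^ 2 / ‖x‖ ^ 2 ∂(gmtMu S)
        + ∫ x, gmtSimA u x * ‖gradient ψ x‖ ^ 2 ∂(gmtMu S)
        + ε * (2 * ∫ x, ψ x ^ 2 / ‖x‖ ^ 2 ∂(gmtMu S) + ∫ x, ‖gradient ψ x‖ ^ 2 ∂(gmtMu S)) := by
    rw [integral_add hg12 (hg34.const_mul ε),
      integral_add (hg1.const_mul (-2)) hg2, integral_const_mul, integral_const_mul,
      integral_add (hg3.const_mul 2) hg4, integral_const_mul]
  have hmono' := hmono
  simp only [Pi.sub_apply, Pi.add_apply] at hmono'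
  rw [eL, eR] at hmono'
  linarith

theorem gmtSim_weighted_U {S U : Set (E k)} {u : E k → ℝ} (hmin : GmtMin univ S)
    (hc : GmtSimCone S U u) {ψ : E k → ℝ} (hψ : GmtTestS0 U ψ) :
    2 * ∫ x, gmtSimA u x * ψ x ^ 2 / ‖x‖ ^ 2 ∂(gmtMu S) ≤
      ∫ x, gmtSimA u x * ‖gradient ψ x‖ ^ 2 ∂(gmtMu S) := by
  have h := fun ε (hε : 0 < ε) => gmtSim_weighted_eps hmin hc hψ hε
  set X : ℝ := 2 * ∫ x, gmtSimA u x * ψ x ^ 2 / ‖x‖ ^ 2 ∂(gmtMu S)
    - ∫ x, gmtSimA u x * ‖gradient ψ x‖ ^ 2 ∂(gmtMu S) with hX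
  set Y : ℝ := 2 * ∫ x, ψ x ^ 2 / ‖x‖ ^ 2 ∂(gmtMu S) + ∫ x, ‖gradient ψ x‖ ^ 2 ∂(gmtMu S) with hY
  have hY0 : 0 ≤ Y := by
    have h1 : 0 ≤ ∫ x, ψ x ^ 2 / ‖x‖ ^ 2 ∂(gmtMu S) := integral_nonneg fun x => by positivity
    have h2 : 0 ≤ ∫ x, ‖gradient ψ x‖ ^ 2 ∂(gmtMu S) := integral_nonneg fun x => by positivity
    rw [hY]; linarith
  have hX0 : X ≤ 0 := by
    by_contra hpos
    push Not at hpos
    have h1 := h (X / (2 * (Y + 1))) (by positivity)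
    have h2 : X / (2 * (Y + 1)) * Y ≤ X / 2 := by
      rw [div_mul_eq_mul_div, div_le_iff₀ (by positivity)]
      nlinarith
    linarith
  linarith

/-- **the weighted inequality.** -/
theorem gmtSim_weighted {S U : Set (E k)} {u : E k → ℝ} (hmin : GmtMin univ S)
    (hc : GmtSimCone S U u) {ψ : E k → ℝ} (hψ : GmtTestS0 {0}ᶜ ψ) :
    2 * ∫ x, gmtSimA u x * ψ x ^ 2 / ‖x‖ ^ 2 ∂(gmtMu S) ≤
      ∫ x, gmtSimA u x * ‖gradient ψ x‖ ^ 2 ∂(gmtMu S) := by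
  have hU := hc.opn
  have hK : IsCompact (gmtBd S ∩ tsupport ψ) := hψ.cpt.inter_left (isClosed_gmtBd S)
  have hKU : gmtBd S ∩ tsupport ψ ⊆ U := fun x hx =>
    hc.bd x hx.1 (fun h0 => hψ.sub hx.2 (by simpa using h0))
  obtain ⟨χ, hχ, hχ1, -⟩ := gmtSim_exists_cutoff hK hU hKU
  have hψ' : GmtTestS0 U (fun x => ψ x * χ x) := gmtSim_test_mul hU hψ.smooth.contDiffOn hχ
  have h := gmtSim_weighted_U hmin hc hψ'
  have hbd : ∀ᵐ x ∂(gmtMu S), x ∈ gmtBd S := mem_ae_iff.2 (gmtMu_compl_gmtBd hmin.meas)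
  have hloc : ∀ x ∈ gmtBd S, (fun y => ψ y * χ y) =ᶠ[𝓝 x] ψ := by
    intro x hx
    by_cases hxs : x ∈ tsupport ψ
    · have h1 : ∀ᶠ y in 𝓝 x, χ y = 1 := hχ1.filter_mono
        (nhds_le_nhdsSet (show x ∈ gmtBd S ∩ tsupport ψ from ⟨hx, hxs⟩))
      filter_upwards [h1] with y hy
      rw [hy, mul_one]
    · have h1 : ψ =ᶠ[𝓝 x] fun _ => 0 := notMem_tsupport_iff_eventuallyEq.mp hxs
      filter_upwards [h1] with y hy
      rw [hy, zero_mul]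
  have e1 : ∫ x, gmtSimA u x * (ψ x * χ x) ^ 2 / ‖x‖ ^ 2 ∂(gmtMu S)
      = ∫ x, gmtSimA u x * ψ x ^ 2 / ‖x‖ ^ 2 ∂(gmtMu S) := by
    refine integral_congr_ae ?_
    filter_upwards [hbd] with x hx
    have : ψ x * χ x = ψ x := (hloc x hx).eq_of_nhds
    rw [this]
  have e2 : ∫ x, gmtSimA u x * ‖gradient (fun y => ψ y * χ y) x‖ ^ 2 ∂(gmtMu S)
      = ∫ x, gmtSimA u x * ‖gradient ψ x‖ ^ 2 ∂(gmtMu S) := by
    refine integral_congr_ae ?_
    filter_upwards [hbd] with x hx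
    have : gradient (fun y => ψ y * χ y) x = gradient ψ x := by
      unfold gradient
      rw [(hloc x hx).fderiv_eq]
    simp only [this]
  rw [e1, e2] at h
  exact h

end Claimed.Agent.Gmt
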