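import Claimed.Agent.Lib.Gmt.SimJacD

/-!
# Lib/Gmt [G7 Simons] `SimJac`: the area factor of a NORMAL variation, to second order.   (architect: helper257)

PURE LINEAR ALGEBRA.   `F = 1 + t (N ⊗ w + z h)`, `(N ⊗ w) v = ⟪w,v⟫ N = gmtSimR1 N w v`, `h` symmetric, `hN = 0`, `tr h = 0`, `|N| = 1`, all of size `≤ M`, `0 ≤ t ≤ t₀`:
   `|cof F N| ≤ 1 + t²/2 (|w|² - (w·N)² - z² |h|²) + C t³`.
1. `F = (1 + tz h)(1 + t N⊗w)` (because `hN = 0`), `det(1 + t N⊗w) = 1 + t w·N`  (matrix determinant lemma `Matrix.det_one_add_replicateCol_mul_replicateRow`, or: `N⊗w` has the eigenvector `N`...; or avoid it: see 2').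
2. `Fᵀ y = N` is solved by `y = y₀ (N - t (1+tzh)⁻¹ w_τ)`, `y₀ = (1 + t w·N)⁻¹`, `w_τ = w - (w·N) N`  [check: `Fᵀ v = v + t ⟪N,v⟫ w + tz h v`; `(1+tzh)⁻¹` commutes with `h`, fixes `N`, is symmetric, preserves `N^⊥`]; hence by `gmtSim_cof_eq`
   `cof F N = det F · y = det(1+tzh) (N - t (1+tzh)⁻¹ w_τ)` and `|cof F N| = det(1+tzh) √(1 + t² |(1+tzh)⁻¹ w_τ|²)` (`(1+tzh)⁻¹ w_τ ⟂ N`).
3. `√(1+x) ≤ 1 + x/2`, `|(1+tzh)⁻¹ w_τ| ≤ |w_τ|/(1 - t|z|‖h‖) ≤ |w_τ| (1 + 2 t |z| ‖h‖)` (`gmtSim_inverse_spec`), `|w_τ|² = |w|² - (w·N)²`.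
4. `gmtSim_det_le` with `s = tz`; `det(1+tzh) > 0`.   Multiply the two upper bounds (both factors positive) and collect the terms of order `≥ 3` (all coefficients bounded in terms of `M`, `k`; `t ≤ 1`).
-/

set_option autoImplicit false
open scoped ContDiff ENNReal RealInnerProductSpace Topology
open MeasureTheory Metric Set Filter

namespace Claimed.Agent.Gmt

variable {k : ℕ}

theorem gmtSimJ_r1_apply (N w v : E k) : gmtSimR1 N w v = ⟪w, v⟫ • N := by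
  simp [gmtSimR1]

theorem gmtSimJ_r1_norm_le (N w : E k) : ‖gmtSimR1 N w‖ ≤ ‖w‖ * ‖N‖ := by
  refine ContinuousLinearMap.opNorm_le_bound _ (by positivity) fun v => ?_
  rw [gmtSimJ_r1_apply, norm_smul]
  have := norm_inner_le_norm (𝕜 := ℝ) w v
  calc ‖⟪w, v⟫‖ * ‖N‖ ≤ (‖w‖ * ‖v‖) * ‖N‖ := mul_le_mul_of_nonneg_right this (norm_nonneg _)
    _ = ‖w‖ * ‖N‖ * ‖v‖ := by ring

/-- matrix determinant lemma for operators. -/
theorem gmtSimJ_det_r1 (N w : E k) : (1 + gmtSimR1 N w).det = 1 + ⟪w, N⟫ := by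
  have e1 : (1 + gmtSimR1 N w).det
      = LinearMap.det ((1 + gmtSimR1 N w : E k →L[ℝ] E k) : E k →ₗ[ℝ] E k) := rfl
  set b := (EuclideanSpace.basisFun (Fin k) ℝ).toBasis with hb
  rw [e1, ← LinearMap.det_toMatrix b]
  have e2 : LinearMap.toMatrix b b ((1 + gmtSimR1 N w : E k →L[ℝ] E k) : E k →ₗ[ℝ] E k)
      = 1 + Matrix.replicateCol Unit (fun i => N i) * Matrix.replicateRow Unit (fun i => w i) := by
    ext i j
    rw [LinearMap.toMatrix_apply]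
    have e3 : ((1 + gmtSimR1 N w : E k →L[ℝ] E k) : E k →ₗ[ℝ] E k) (b j)
        = eb j + w j • N := by
      show (1 + gmtSimR1 N w : E k →L[ℝ] E k) (b j) = _
      have : b j = eb j := by simp [hb, eb]
      rw [this]
      simp only [add_apply, one_apply_eq_self, gmtSimJ_r1_apply, gmtSim_inner_eb]
    rw [e3]
    simp [hb, Matrix.mul_apply, Matrix.one_apply, eb, mul_comm]
  rw [e2, Matrix.det_one_add_replicateCol_mul_replicateRow, gmtSim_inner_eq_sum]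
  rfl

/-- properties of `G = (1 + A)⁻¹`, `A` symmetric, `A N = 0`. -/
theorem gmtSimJ_G {A : E k →L[ℝ] E k} (hA : ‖A‖ < 1) (hs : ∀ v v', ⟪A v, v'⟫ = ⟪v, A v'⟫)
    {N : E k} (hN : A N = 0) :
    (∀ v, (1 + A) ((1 + A).inverse v) = v) ∧ (1 + A).inverse N = N ∧
      (∀ v v', ⟪(1 + A).inverse v, v'⟫ = ⟪v, (1 + A).inverse v'⟫) ∧
      ∀ v, ‖(1 + A).inverse v‖ ≤ (1 - ‖A‖)⁻¹ * ‖v‖ := by
  obtain ⟨h1, h2, h3, -⟩ := gmtSim_inverse_spec hA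
  have a1 : ∀ v, (1 + A) ((1 + A).inverse v) = v := fun v => by
    have := congrArg (fun L : E k →L[ℝ] E k => L v) h1
    simpa using this
  have a2 : ∀ v, (1 + A).inverse ((1 + A) v) = v := fun v => by
    have := congrArg (fun L : E k →L[ℝ] E k => L v) h2
    simpa using this
  have hs' : ∀ v v', ⟪(1 + A) v, v'⟫ = ⟪v, (1 + A) v'⟫ := fun v v' => by
    simp only [add_apply, one_apply_eq_self, inner_add_left, inner_add_right, hs]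
  refine ⟨a1, ?_, fun v v' => ?_, fun v => ?_⟩
  · have : (1 + A) N = N := by simp [hN]
    conv_lhs => rw [← this]
    exact a2 N
  · conv_lhs => rw [← a1 v']
    rw [← hs', a1]
  · exact ((1 + A).inverse.le_opNorm v).trans (mul_le_mul_of_nonneg_right h3 (norm_nonneg _))

/-- the cofactor of a normal variation. -/
theorem gmtSimJ_cof {N w : E k} {z t : ℝ} {h : E k →L[ℝ] E k} (hN1 : ‖N‖ = 1)
    (hs : ∀ v v', ⟪h v, v'⟫ = ⟪v, h v'⟫) (hN : h N = 0)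
    (hA : ‖(t * z) • h‖ < 1) (hB : ‖t • (gmtSimR1 N w + z • h)‖ < 1) (hne : 1 + t * ⟪w, N⟫ ≠ 0) :
    gmtCof (1 + t • (gmtSimR1 N w + z • h)) N =
      (1 + (t * z) • h).det • (N - t • (1 + (t * z) • h).inverse (w - ⟪w, N⟫ • N)) := by
  set A : E k →L[ℝ] E k := (t * z) • h with hAd
  have hsA : ∀ v v', ⟪A v, v'⟫ = ⟪v, A v'⟫ := fun v v' => by
    simp only [hAd, smul_apply, inner_smul_left, inner_smul_right, hs]
    simp
  have hNA : A N = 0 := by simp [hAd, hN]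
  obtain ⟨g1, g2, g3, -⟩ := gmtSimJ_G hA hsA hNA
  set G := (1 + A).inverse with hG
  set wt : E k := w - ⟪w, N⟫ • N with hwt
  have hNN : ⟪N, N⟫ = 1 := by rw [real_inner_self_eq_norm_sq, hN1]; norm_num
  have hNw : ⟪N, wt⟫ = 0 := by
    rw [hwt, inner_sub_right, inner_smul_right, hNN, real_inner_comm]; ring
  set y₀ : ℝ := (1 + t * ⟪w, N⟫)⁻¹ with hy₀
  set y : E k := y₀ • (N - t • G wt) with hy
  have hyN : ⟪y, N⟫ = y₀ := by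
    rw [hy, inner_smul_left, inner_sub_left, inner_smul_left, hNN, g3, g2, real_inner_comm, hNw]
    simp
  have hAy : (1 + A) y = y₀ • (N - t • wt) := by
    rw [hy, map_smul, map_sub, map_smul, g1]
    simp [hNA]
  have hadj : ContinuousLinearMap.adjoint (1 + t • (gmtSimR1 N w + z • h)) y = N := by
    refine ext_inner_right ℝ fun v => ?_
    rw [ContinuousLinearMap.adjoint_inner_left]
    have e1 : (1 + t • (gmtSimR1 N w + z • h)) v = (1 + A) v + (t * ⟪w, v⟫) • N := by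
      simp only [add_apply, one_apply_eq_self, smul_apply, gmtSimJ_r1_apply, hAd, smul_add,
        smul_smul]
      abel
    have hs' : ⟪y, (1 + A) v⟫ = ⟪(1 + A) y, v⟫ := by
      simp only [add_apply, one_apply_eq_self, inner_add_left, inner_add_right, hsA]
    rw [e1, inner_add_right, hs', hAy, inner_smul_right, hyN, inner_smul_left, inner_sub_left,
      inner_smul_left, hwt, inner_sub_left, inner_smul_left]
    simp only [conj_trivial]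
    have : y₀ * (1 + t * ⟪w, N⟫) = 1 := inv_mul_cancel₀ hne
    calc y₀ * (⟪N, v⟫ - t * (⟪w, v⟫ - ⟪w, N⟫ * ⟪N, v⟫)) + t * ⟪w, v⟫ * y₀
        = (y₀ * (1 + t * ⟪w, N⟫)) * ⟪N, v⟫ := by ring
      _ = ⟪N, v⟫ := by rw [this, one_mul]
  rw [gmtSim_cof_eq hB hadj]
  have hfac : (1 + t • (gmtSimR1 N w + z • h) : E k →L[ℝ] E k)
      = (1 + A) ∘L (1 + gmtSimR1 N (t • w)) := by
    ext1 v
    simp only [ContinuousLinearMap.comp_apply, add_apply, one_apply_eq_self, smul_apply,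
      gmtSimJ_r1_apply, hAd, smul_add, smul_smul, map_add, map_smul, hN, smul_zero, add_zero,
      inner_smul_left, conj_trivial]
    abel
  have hdet : (1 + t • (gmtSimR1 N w + z • h) : E k →L[ℝ] E k).det
      = (1 + A).det * (1 + t * ⟪w, N⟫) := by
    rw [hfac]
    have : ((1 + A) ∘L (1 + gmtSimR1 N (t • w))).det
        = (1 + A).det * (1 + gmtSimR1 N (t • w)).det := LinearMap.det_comp _ _
    rw [this, gmtSimJ_det_r1, inner_smul_left]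
    simp
  rw [hdet, hy, smul_smul, mul_assoc, hy₀, mul_inv_cancel₀ hne, mul_one]

theorem gmtSimJ_norm_le {N g : E k} (hN1 : ‖N‖ = 1) (hNg : ⟪N, g⟫ = 0) (t : ℝ) :
    ‖N - t • g‖ ≤ 1 + t ^ 2 / 2 * ‖g‖ ^ 2 := by
  have h1 : ‖N - t • g‖ ^ 2 = 1 + t ^ 2 * ‖g‖ ^ 2 := by
    rw [norm_sub_sq_real, hN1, inner_smul_right, hNg, norm_smul, mul_pow, Real.norm_eq_abs, sq_abs]
    ring
  have h2 : 0 ≤ t ^ 2 * ‖g‖ ^ 2 := by positivity
  have h3 : (0 : ℝ) ≤ 1 + t ^ 2 / 2 * ‖g‖ ^ 2 := by positivity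
  rw [← pow_le_pow_iff_left₀ (norm_nonneg _) h3 (two_ne_zero), h1]
  nlinarith [sq_nonneg (t ^ 2 * ‖g‖ ^ 2)]

theorem gmtSimJ_arith {t D n α β γ δ Γ : ℝ} (ht0 : 0 ≤ t) (ht1 : t ≤ 1) (hD0 : 0 < D)
    (hD : D ≤ 1 - α * t ^ 2 + β * t ^ 3) (hn0 : 0 ≤ n) (hn : n ≤ 1 + γ * t ^ 2 + δ * t ^ 3)
    (hα : 0 ≤ α) (hβ : 0 ≤ β) (hγ : 0 ≤ γ) (hδ : 0 ≤ δ) (hΓ : γ ≤ Γ) :
    D * n ≤ 1 + (γ - α) * t ^ 2 + (β + δ + β * Γ + β * δ) * t ^ 3 := by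
  have h1 : D * n ≤ (1 - α * t ^ 2 + β * t ^ 3) * (1 + γ * t ^ 2 + δ * t ^ 3) :=
    mul_le_mul hD hn hn0 (hD0.le.trans hD)
  have t3 : 0 ≤ t ^ 3 := by positivity
  have t4 : 0 ≤ t ^ 4 := by positivity
  have t5 : 0 ≤ t ^ 5 := by positivity
  have t53 : t ^ 5 ≤ t ^ 3 := pow_le_pow_of_le_one ht0 ht1 (by norm_num)
  have t63 : t ^ 6 ≤ t ^ 3 := pow_le_pow_of_le_one ht0 ht1 (by norm_num)
  have a1 : 0 ≤ α * γ * t ^ 4 := by positivity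
  have a2 : 0 ≤ α * δ * t ^ 5 := by positivity
  have a3 : β * γ * t ^ 5 ≤ β * Γ * t ^ 3 := by
    have : β * γ ≤ β * Γ := mul_le_mul_of_nonneg_left hΓ hβ
    calc β * γ * t ^ 5 ≤ β * Γ * t ^ 5 := mul_le_mul_of_nonneg_right this t5
      _ ≤ β * Γ * t ^ 3 := mul_le_mul_of_nonneg_left t53 (mul_nonneg hβ (hγ.trans hΓ))
  have a4 : β * δ * t ^ 6 ≤ β * δ * t ^ 3 := mul_le_mul_of_nonneg_left t63 (mul_nonneg hβ hδ)
  have e : (1 - α * t ^ 2 + β * t ^ 3) * (1 + γ * t ^ 2 + δ * t ^ 3)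
      = 1 + (γ - α) * t ^ 2 + (β + δ) * t ^ 3 - α * γ * t ^ 4 - α * δ * t ^ 5 + β * γ * t ^ 5
        + β * δ * t ^ 6 := by ring
  have e2 : (β + δ + β * Γ + β * δ) * t ^ 3
      = (β + δ) * t ^ 3 + β * Γ * t ^ 3 + β * δ * t ^ 3 := by ring
  rw [e] at h1
  rw [e2]
  linarith

theorem gmtSimJ_aux {a : ℝ} (ha0 : 0 ≤ a) (ha : a ≤ 1 / 4) :
    (1 - a)⁻¹ ≤ 1 + 2 * a ∧ (1 + 2 * a) ^ 2 ≤ 1 + 6 * a := by
  constructor
  · rw [inv_le_iff_one_le_mul₀ (by linarith)]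
    nlinarith
  · nlinarith

theorem gmtSimJ_norm_bound {A : E k →L[ℝ] E k} {N wt : E k} {t τ m : ℝ}
    (hs : ∀ v v', ⟪A v, v'⟫ = ⟪v, A v'⟫) (hNA : A N = 0) (hAτ : ‖A‖ ≤ τ) (hτ : τ ≤ 1 / 4)
    (hN1 : ‖N‖ = 1) (hNw : ⟪N, wt⟫ = 0) (hPm : ‖wt‖ ^ 2 ≤ m ^ 2) :
    ‖N - t • (1 + A).inverse wt‖ ≤ 1 + ‖wt‖ ^ 2 / 2 * t ^ 2 + 3 * (τ * m ^ 2) * t ^ 2 := by
  have hA1 : ‖A‖ < 1 := by linarith
  obtain ⟨-, g2, g3, g4⟩ := gmtSimJ_G hA1 hs hNA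
  set g : E k := (1 + A).inverse wt with hg
  set a : ℝ := ‖A‖ with ha
  have ha0 : 0 ≤ a := norm_nonneg _
  have hNg : ⟪N, g⟫ = 0 := by rw [hg, ← g3, g2, hNw]
  refine (gmtSimJ_norm_le hN1 hNg t).trans ?_
  obtain ⟨c1, c1'⟩ := gmtSimJ_aux ha0 (hAτ.trans hτ)
  set P : ℝ := ‖wt‖ ^ 2 with hPd
  have hP0 : 0 ≤ P := by positivity
  have c2 : ‖g‖ ≤ (1 + 2 * a) * ‖wt‖ :=
    (g4 wt).trans (mul_le_mul_of_nonneg_right c1 (norm_nonneg _))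
  have c3 : ‖g‖ ^ 2 ≤ (1 + 6 * a) * P := by
    have : ‖g‖ ^ 2 ≤ ((1 + 2 * a) * ‖wt‖) ^ 2 := pow_le_pow_left₀ (norm_nonneg _) c2 2
    rw [mul_pow] at this
    exact this.trans (mul_le_mul_of_nonneg_right c1' hP0)
  have c4 : a * P ≤ τ * m ^ 2 := mul_le_mul hAτ hPm hP0 (ha0.trans hAτ)
  have c5 : t ^ 2 / 2 * ‖g‖ ^ 2 ≤ t ^ 2 / 2 * ((1 + 6 * a) * P) :=
    mul_le_mul_of_nonneg_left c3 (by positivity)
  have c6 : t ^ 2 * (a * P) ≤ t ^ 2 * (τ * m ^ 2) :=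
    mul_le_mul_of_nonneg_left c4 (by positivity)
  have e1 : t ^ 2 / 2 * ((1 + 6 * a) * P) = P / 2 * t ^ 2 + 3 * (t ^ 2 * (a * P)) := by ring
  have e2 : 3 * (τ * m ^ 2) * t ^ 2 = 3 * (t ^ 2 * (τ * m ^ 2)) := by ring
  rw [e2]
  linarith

theorem gmtSimJ_det_bound {h : E k →L[ℝ] E k} {C₁ m t z Q : ℝ} (ht0 : 0 ≤ t) (hz : |z| ≤ m)
    (h1 : (1 + (t * z) • h).det ≤ 1 - (t * z) ^ 2 / 2 * Q + C₁ * |t * z| ^ 3) :
    (1 + (t * z) • h).det ≤ 1 - z ^ 2 * Q / 2 * t ^ 2 + |C₁| * m ^ 3 * t ^ 3 := by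
  have h2 : C₁ * |t * z| ^ 3 ≤ |C₁| * m ^ 3 * t ^ 3 := by
    rw [abs_mul, abs_of_nonneg ht0, mul_pow]
    have c1 : |z| ^ 3 ≤ m ^ 3 := pow_le_pow_left₀ (abs_nonneg _) hz 3
    have c2 : 0 ≤ t ^ 3 := by positivity
    calc C₁ * (t ^ 3 * |z| ^ 3) ≤ |C₁| * (t ^ 3 * |z| ^ 3) :=
          mul_le_mul_of_nonneg_right (le_abs_self _) (by positivity)
      _ ≤ |C₁| * (t ^ 3 * m ^ 3) :=
          mul_le_mul_of_nonneg_left (mul_le_mul_of_nonneg_left c1 c2) (abs_nonneg _)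
      _ = _ := by ring
  have e : (t * z) ^ 2 / 2 * Q = z ^ 2 * Q / 2 * t ^ 2 := by ring
  rw [e] at h1
  linarith

theorem gmtSimJ_small {t m s₀ : ℝ} (ht0 : 0 ≤ t) (hm0 : 0 ≤ m)
    (ht : t ≤ min 1 (min (s₀ / (m + 1)) (1 / (4 * (m + 1) ^ 2)))) :
    t ≤ 1 ∧ t * m ≤ s₀ ∧ t * m ≤ 1 / 4 ∧ t * m ^ 2 ≤ 1 / 4 := by
  have ht1 : t ≤ 1 := ht.trans (min_le_left _ _)
  have ht2 : t * (m + 1) ≤ s₀ := by
    have := ht.trans ((min_le_right _ _).trans (min_le_left _ _))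
    rwa [le_div_iff₀ (by positivity)] at this
  have ht3 : t * (4 * (m + 1) ^ 2) ≤ 1 := by
    have := ht.trans ((min_le_right _ _).trans (min_le_right _ _))
    rwa [le_div_iff₀ (by positivity)] at this
  refine ⟨ht1, by nlinarith, ?_, ?_⟩ <;>
    nlinarith [mul_nonneg ht0 hm0, mul_nonneg ht0 (sq_nonneg m)]

/-- (D) second order expansion of the area factor for a normal variation. -/
theorem gmtSim_cof_normal (k : ℕ) (M : ℝ) :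
    ∃ C t₀ : ℝ, 0 < t₀ ∧ ∀ (N w : E k) (z : ℝ) (h : E k →L[ℝ] E k), ‖N‖ = 1 →
      (∀ v v', ⟪h v, v'⟫ = ⟪v, h v'⟫) → h N = 0 → gmtSimTr h = 0 → ‖w‖ ≤ M → |z| ≤ M → ‖h‖ ≤ M →
      ∀ t : ℝ, 0 ≤ t → t ≤ t₀ →
      ‖t • (gmtSimR1 N w + z • h)‖ ≤ 1 / 2 ∧
      ‖gmtCof (1 + t • (gmtSimR1 N w + z • h)) N‖ ≤
        1 + t ^ 2 / 2 * (‖w‖ ^ 2 - ⟪w, N⟫ ^ 2 - z ^ 2 * ∑ i, ‖h (eb i)‖ ^ 2) + C * t ^ 3 := by
  obtain ⟨C₁, s₀, hs₀, H⟩ := gmtSim_det_le k M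
  set m : ℝ := |M| with hm
  have hm0 : 0 ≤ m := abs_nonneg _
  refine ⟨|C₁| * m ^ 3 + 3 * m ^ 4 + |C₁| * m ^ 3 * (m ^ 2 / 2) + |C₁| * m ^ 3 * (3 * m ^ 4),
    min 1 (min (s₀ / (m + 1)) (1 / (4 * (m + 1) ^ 2))), by positivity,
    fun N w z h hN1 hs hN htr hw hz hh t ht0 ht => ?_⟩
  have hM0 : 0 ≤ M := (norm_nonneg _).trans hw
  have hmM : M = m := (abs_of_nonneg hM0).symm
  rw [hmM] at hw hz hh
  obtain ⟨ht1, ht2, htm, htm2⟩ := gmtSimJ_small ht0 hm0 ht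
  have hB : ‖t • (gmtSimR1 N w + z • h)‖ ≤ 1 / 2 := by
    rw [norm_smul, Real.norm_eq_abs, abs_of_nonneg ht0]
    have b1 : ‖gmtSimR1 N w + z • h‖ ≤ m + m ^ 2 := by
      refine (norm_add_le _ _).trans (add_le_add ?_ ?_)
      · refine (gmtSimJ_r1_norm_le N w).trans ?_
        rw [hN1, mul_one]; exact hw
      · rw [norm_smul, Real.norm_eq_abs, sq]
        exact mul_le_mul hz hh (norm_nonneg _) hm0
    calc t * ‖gmtSimR1 N w + z • h‖ ≤ t * (m + m ^ 2) := mul_le_mul_of_nonneg_left b1 ht0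
      _ ≤ 1 / 2 := by linarith
  refine ⟨hB, ?_⟩
  have hAn : ‖(t * z) • h‖ ≤ t * m ^ 2 := by
    rw [norm_smul, Real.norm_eq_abs, abs_mul, abs_of_nonneg ht0, mul_assoc, sq]
    exact mul_le_mul_of_nonneg_left (mul_le_mul hz hh (norm_nonneg _) hm0) ht0
  have hA1 : ‖(t * z) • h‖ < 1 := by linarith
  have hwN : |⟪w, N⟫| ≤ m := by
    have := abs_real_inner_le_norm w N
    rw [hN1, mul_one] at this
    exact this.trans hw
  have hne : 1 + t * ⟪w, N⟫ ≠ 0 := by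
    have : |t * ⟪w, N⟫| ≤ 1 / 4 := by
      rw [abs_mul, abs_of_nonneg ht0]
      exact (mul_le_mul_of_nonneg_left hwN ht0).trans htm
    have := (abs_le.1 this).1
    intro h0
    linarith
  rw [gmtSimJ_cof hN1 hs hN hA1 (by linarith) hne]
  have hsA : ∀ v v', ⟪((t * z) • h) v, v'⟫ = ⟪v, ((t * z) • h) v'⟫ := fun v v' => by
    simp only [smul_apply, inner_smul_left, inner_smul_right, hs]
    simp
  have hNA : ((t * z) • h) N = 0 := by simp [hN]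
  obtain ⟨-, -, -, hDpos⟩ := gmtSim_inverse_spec hA1
  have hNN : ⟪N, N⟫ = 1 := by rw [real_inner_self_eq_norm_sq, hN1]; norm_num
  have hNw : ⟪N, w - ⟪w, N⟫ • N⟫ = 0 := by
    rw [inner_sub_right, inner_smul_right, hNN, real_inner_comm]; ring
  have hP : ‖w - ⟪w, N⟫ • N‖ ^ 2 = ‖w‖ ^ 2 - ⟪w, N⟫ ^ 2 := by
    rw [norm_sub_sq_real, inner_smul_right, norm_smul, hN1, Real.norm_eq_abs, mul_one, sq_abs]
    ring
  have hPm : ‖w - ⟪w, N⟫ • N‖ ^ 2 ≤ m ^ 2 := by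
    rw [hP]
    have : ‖w‖ ^ 2 ≤ m ^ 2 := pow_le_pow_left₀ (norm_nonneg _) hw 2
    nlinarith [sq_nonneg ⟪w, N⟫]
  have hQ0 : 0 ≤ ∑ i, ‖h (eb i)‖ ^ 2 := Finset.sum_nonneg fun i _ => by positivity
  rw [norm_smul, Real.norm_eq_abs, abs_of_pos hDpos]
  have hs1 : |t * z| ≤ s₀ := by
    rw [abs_mul, abs_of_nonneg ht0]
    exact (mul_le_mul_of_nonneg_left hz ht0).trans ht2
  have hD1 := gmtSimJ_det_bound ht0 hz (H h hs htr (hmM ▸ hh) (t * z) hs1)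
  have hn1 := gmtSimJ_norm_bound (t := t) hsA hNA hAn htm2 hN1 hNw hPm
  have e3 : 3 * (t * m ^ 2 * m ^ 2) * t ^ 2 = 3 * m ^ 4 * t ^ 3 := by ring
  rw [e3] at hn1
  have hfin := gmtSimJ_arith (Γ := m ^ 2 / 2) ht0 ht1 hDpos hD1 (norm_nonneg _) hn1
    (div_nonneg (mul_nonneg (sq_nonneg z) hQ0) (by norm_num))
    (mul_nonneg (abs_nonneg _) (pow_nonneg hm0 3))
    (div_nonneg (sq_nonneg _) (by norm_num)) (mul_nonneg (by norm_num) (pow_nonneg hm0 4))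
    (by linarith)
  refine hfin.trans (le_of_eq ?_)
  rw [hP]
  ring

end Claimed.Agent.Gmt
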