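import Claimed.Agent.Lib.Gmt.SimCalc
import Claimed.Agent.Lib.Gmt.FvA
import Claimed.Agent.Lib.BrouwerVol

/-!
# Lib/Gmt [G7 Simons] `SimJacB`: inverses and cofactors of `1 + B`, `‖B‖ < 1`.   (architect: helper257)

PURE LINEAR ALGEBRA on `E k →L[ℝ] E k`.  `gmtCof L ξ = det L • (L⁻¹)ᵀ ξ` is defined in `FvA.lean` (helper184).
Available: `Claimed.Agent.Lib.bfp_det_pos` (`det (1 + t A) > 0` if `t ‖A‖ < 1`), `ContinuousLinearMap.inverse`, `NormedRing.inverse_one_sub`, `Units.oneSub`, `ContinuousLinearMap.IsInvertible`.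

* `gmtSim_inverse_spec`: `1 + B` is a unit of the Banach algebra `E k →L[ℝ] E k` (`Units.oneSub (-B)`); `ContinuousLinearMap.inverse` of an invertible map is its two sided inverse
  (`ContinuousLinearMap.IsInvertible.inverse_comp_self` etc. / `ContinuousLinearMap.inverse_equiv`); `‖(1+B)⁻¹ v‖ ≤ ‖v‖/(1-‖B‖)` because `‖(1+B) y‖ ≥ (1-‖B‖)‖y‖`.
* `gmtSim_cof_eq`: if `(1+B)ᵀ y = ξ` then `((1+B)⁻¹)ᵀ ξ = y`  (`adjoint (G) ∘ adjoint (F) = adjoint (F ∘ G) = 1`).
-/

set_option autoImplicit false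
open scoped ContDiff ENNReal RealInnerProductSpace Topology
open MeasureTheory Metric Set Filter

namespace Claimed.Agent.Gmt

variable {k : ℕ}

theorem gmtSim_inverse_spec {B : E k →L[ℝ] E k} (hB : ‖B‖ < 1) :
    (1 + B) ∘L (1 + B).inverse = 1 ∧ (1 + B).inverse ∘L (1 + B) = 1 ∧
      ‖(1 + B).inverse‖ ≤ (1 - ‖B‖)⁻¹ ∧ 0 < (1 + B).det := by
  have hinv : (1 + B).IsInvertible := gmt_id_add_invertible hB
  have h1 : (1 + B) ∘L (1 + B).inverse = 1 := hinv.self_comp_inverse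
  have h2 : (1 + B).inverse ∘L (1 + B) = 1 := hinv.inverse_comp_self
  have hpos : 0 < 1 - ‖B‖ := by linarith
  refine ⟨h1, h2, ?_, gmt_id_add_det_pos hB⟩
  refine ContinuousLinearMap.opNorm_le_bound _ (inv_nonneg.2 hpos.le) fun v => ?_
  set y := (1 + B).inverse v with hy
  have hv : (1 + B) y = v := by
    have := congrArg (fun L : E k →L[ℝ] E k => L v) h1
    simpa using this
  have h3 : ‖y‖ - ‖B‖ * ‖y‖ ≤ ‖v‖ := by
    have h4 : y = v - B y := by
      rw [← hv]; simp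
    have h5 : ‖y‖ ≤ ‖v‖ + ‖B y‖ := by
      conv_lhs => rw [h4]
      exact norm_sub_le _ _
    have h6 := B.le_opNorm y
    linarith
  rw [inv_mul_eq_div, le_div_iff₀ hpos]
  nlinarith

/-- how to compute a cofactor: solve `Fᵀ y = ξ`. -/
theorem gmtSim_cof_eq {B : E k →L[ℝ] E k} (hB : ‖B‖ < 1) {y ξ : E k}
    (hy : ContinuousLinearMap.adjoint (1 + B) y = ξ) : gmtCof (1 + B) ξ = (1 + B).det • y := by
  obtain ⟨h1, -, -, -⟩ := gmtSim_inverse_spec hB
  unfold gmtCof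
  congr 1
  rw [← hy]
  have h2 : ContinuousLinearMap.adjoint ((1 + B).inverse) ∘L ContinuousLinearMap.adjoint (1 + B)
      = 1 := by
    rw [← ContinuousLinearMap.adjoint_comp, h1]
    exact ContinuousLinearMap.adjoint_id
  have := congrArg (fun L : E k →L[ℝ] E k => L y) h2
  simpa using this

theorem gmtSim_cof_one (ξ : E k) : gmtCof (1 : E k →L[ℝ] E k) ξ = ξ := by
  have h := gmtSim_cof_eq (k := k) (B := 0) (by simp) (y := ξ) (ξ := ξ) (by
    rw [add_zero]
    have : ContinuousLinearMap.adjoint (1 : E k →L[ℝ] E k) = 1 := ContinuousLinearMap.adjoint_id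
    rw [this]; rfl)
  rw [add_zero] at h
  rw [h]
  have h3 : (1 : E k →L[ℝ] E k).det = 1 := LinearMap.det_id
  rw [h3, one_smul]

end Claimed.Agent.Gmt
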