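import Claimed.Agent.Lib.Gmt.SimJacB

/-!
# Lib/Gmt [G7 Simons] `SimJacD`: second order upper bound of `det (1 + s h)`.   (architect: helper257)

PURE LINEAR ALGEBRA + elementary inequalities.   `h` symmetric, `tr h = 0`, `‖h‖ ≤ M`, `|s| ≤ s₀ := 1/(2(|M|+1))`:
      `det(1+sh) ≤ 1 - s²|h|²/2 + C|s|³`,   `|h|² = Σ_i |h e_i|²`.
PLAN.  Matrix of `h` in the standard basis is symmetric (`Matrix.IsHermitian`); `Matrix.IsHermitian.spectral_theorem`: `h = U diag(λ) U*`, so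
`det(1+sh) = ∏ (1+sλ_i)`, `tr h = Σ λ_i = 0`, `|h|² = tr h² = Σ λ_i²`, `|λ_i| ≤ ‖h‖ ≤ M` (or simply `λ_i² ≤ Σ λ_j² = |h|² ≤ k M²`).
(Alternatively `LinearMap.IsSymmetric.eigenvectorBasis`, and `LinearMap.det` / trace in that orthonormal basis: `LinearMap.trace_eq_sum_inner`.)
With `x_i = sλ_i ∈ [-1/2,1/2]`: `∏(1+x_i) = exp Σ log(1+x_i)`, `log(1+x) ≤ x - x²/2 + |x|³` (`Real.abs_log_sub_add_sum_range_le` or a direct monotonicity argument),
so `det ≤ exp(y)`, `y = -s²|h|²/2 + |s|³ Σ|λ_i|³`, `|y| ≤ 1` for `s₀` small, `exp y ≤ 1 + y + y²` (`Real.abs_exp_sub_one_sub_id_le`), `y² ≤ C' |s|⁴ ≤ C'|s|³`.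
-/

set_option autoImplicit false
open scoped ContDiff ENNReal RealInnerProductSpace Topology
open MeasureTheory Metric Set Filter

namespace Claimed.Agent.Gmt

variable {k : ℕ}

theorem gmtSimD_one_add_le_exp {x : ℝ} (hx : |x| ≤ 1 / 2) :
    1 + x ≤ Real.exp (x - x ^ 2 / 2 + 2 * |x| ^ 3) := by
  have hx1 : |(-x)| < 1 := by rw [abs_neg]; linarith
  have h := Real.abs_log_sub_add_sum_range_le hx1 2
  have hpos : 0 < 1 + x := by
    have := (abs_le.1 hx).1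
    linarith
  rw [abs_neg] at h
  have h2 : |x| ^ (2 + 1) / (1 - |x|) ≤ 2 * |x| ^ 3 := by
    rw [div_le_iff₀ (by linarith)]
    have h0 : 0 ≤ |x| ^ 3 := by positivity
    have h1 : (1 : ℝ) / 2 ≤ 1 - |x| := by linarith
    have h5 : |x| ^ 3 * (1 / 2) ≤ |x| ^ 3 * (1 - |x|) := mul_le_mul_of_nonneg_left h1 h0
    have e3 : |x| ^ (2 + 1) = |x| ^ 3 := by norm_num
    rw [e3]
    linarith
  have h3 : Real.log (1 + x) ≤ x - x ^ 2 / 2 + 2 * |x| ^ 3 := by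
    have h4 := (abs_le.1 (h.trans h2)).2
    simp only [Finset.sum_range_succ, Finset.sum_range_zero] at h4
    norm_num at h4
    linarith
  calc 1 + x = Real.exp (Real.log (1 + x)) := (Real.exp_log hpos).symm
    _ ≤ _ := Real.exp_le_exp.2 h3

theorem gmtSimD_prod_le {ι : Type*} (s : Finset ι) (x : ι → ℝ) (hx : ∀ i ∈ s, |x i| ≤ 1 / 2) :
    ∏ i ∈ s, (1 + x i) ≤ Real.exp (∑ i ∈ s, (x i - x i ^ 2 / 2 + 2 * |x i| ^ 3)) := by
  rw [Real.exp_sum]
  refine Finset.prod_le_prod (fun i hi => ?_) fun i hi => gmtSimD_one_add_le_exp (hx i hi)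
  have := (abs_le.1 (hx i hi)).1
  linarith

theorem gmtSimD_spectral (h : E k →L[ℝ] E k) (hs : ∀ v w, ⟪h v, w⟫ = ⟪v, h w⟫) :
    ∃ lam : Fin k → ℝ, (∀ i, |lam i| ≤ ‖h‖) ∧ gmtSimTr h = ∑ i, lam i ∧
      ∑ i, ‖h (eb i)‖ ^ 2 = ∑ i, lam i ^ 2 ∧ ∀ s : ℝ, (1 + s • h).det = ∏ i, (1 + s * lam i) := by
  have hT : (h : E k →ₗ[ℝ] E k).IsSymmetric := fun v w => hs v w
  have hn : Module.finrank ℝ (E k) = k := finrank_euclideanSpace_fin
  set b := hT.eigenvectorBasis hn with hb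
  set lam := hT.eigenvalues hn with hlam
  have hap : ∀ i, h (b i) = lam i • b i := fun i => by
    exact hT.apply_eigenvectorBasis hn i
  have hnorm : ∀ i, ‖b i‖ = 1 := fun i => b.orthonormal.1 i
  refine ⟨lam, fun i => ?_, ?_, ?_, fun s => ?_⟩
  · have h1 := h.le_opNorm (b i)
    rw [hap, norm_smul, hnorm, mul_one, mul_one] at h1
    exact h1
  · rw [gmtSim_tr_eq_trace, LinearMap.trace_eq_sum_inner _ b]
    refine Finset.sum_congr rfl fun i _ => ?_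
    have : (h : E k →ₗ[ℝ] E k) (b i) = lam i • b i := hap i
    rw [this, inner_smul_right, real_inner_self_eq_norm_sq, hnorm]
    simp
  · have e1 : ∑ i, ‖h (eb i)‖ ^ 2 = gmtSimTr (h ∘L h) := by
      unfold gmtSimTr
      refine Finset.sum_congr rfl fun i _ => ?_
      rw [ContinuousLinearMap.comp_apply, hs, real_inner_self_eq_norm_sq]
    rw [e1, gmtSim_tr_eq_trace, LinearMap.trace_eq_sum_inner _ b]
    refine Finset.sum_congr rfl fun i _ => ?_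
    have : ((h ∘L h : E k →L[ℝ] E k) : E k →ₗ[ℝ] E k) (b i) = (lam i ^ 2) • b i := by
      show h (h (b i)) = _
      rw [hap, map_smul, hap, smul_smul, sq]
    rw [this, inner_smul_right, real_inner_self_eq_norm_sq, hnorm]
    simp
  · have e1 : (1 + s • h).det = LinearMap.det ((1 + s • h : E k →L[ℝ] E k) : E k →ₗ[ℝ] E k) := rfl
    rw [e1, ← LinearMap.det_toMatrix b.toBasis]
    have e2 : LinearMap.toMatrix b.toBasis b.toBasis ((1 + s • h : E k →L[ℝ] E k) : E k →ₗ[ℝ] E k)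
        = Matrix.diagonal fun i => 1 + s * lam i := by
      ext i j
      rw [LinearMap.toMatrix_apply]
      have e3 : ((1 + s • h : E k →L[ℝ] E k) : E k →ₗ[ℝ] E k) (b.toBasis j)
          = (1 + s * lam j) • b.toBasis j := by
        show (1 + s • h : E k →L[ℝ] E k) (b.toBasis j) = _
        rw [OrthonormalBasis.coe_toBasis]
        simp only [add_apply, one_apply_eq_self, smul_apply, hap]
        rw [add_smul, one_smul, smul_smul]
      rw [e3, map_smul, Finsupp.smul_apply, Module.Basis.repr_self_apply, Matrix.diagonal_apply]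
      by_cases hij : i = j
      · subst hij; simp
      · rw [if_neg (fun h' => hij h'.symm), if_neg hij]; simp
    rw [e2, Matrix.det_diagonal]

/-- second order upper bound for the determinant, symmetric traceless case. -/
theorem gmtSim_det_le (k : ℕ) (M : ℝ) :
    ∃ C s₀ : ℝ, 0 < s₀ ∧ ∀ h : E k →L[ℝ] E k, (∀ v w, ⟪h v, w⟫ = ⟪v, h w⟫) → gmtSimTr h = 0 →
      ‖h‖ ≤ M → ∀ s : ℝ, |s| ≤ s₀ →
      (1 + s • h).det ≤ 1 - s ^ 2 / 2 * (∑ i, ‖h (eb i)‖ ^ 2) + C * |s| ^ 3 := by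
  set m : ℝ := |M| with hm
  set K : ℝ := (k : ℝ) with hK
  have hm0 : 0 ≤ m := abs_nonneg _
  have hK0 : 0 ≤ K := Nat.cast_nonneg _
  refine ⟨2 * K * m ^ 3 + (3 * K * m ^ 2 / 2) ^ 2, 1 / (2 * (K + 1) * (m + 1)), by positivity,
    fun h hs htr hM s hs0 => ?_⟩
  obtain ⟨lam, hl, htr', hQ, hdet⟩ := gmtSimD_spectral h hs
  have hl' : ∀ i, |lam i| ≤ m := fun i => (hl i).trans (hM.trans (le_abs_self _))
  set a : ℝ := |s| * m with ha
  have hs00 : 0 ≤ |s| := abs_nonneg _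
  have ha0 : 0 ≤ a := by positivity
  have hs1 : |s| * (2 * (K + 1) * (m + 1)) ≤ 1 := by
    rwa [le_div_iff₀ (by positivity)] at hs0
  have hs2 : |s| ≤ 1 := by
    nlinarith [mul_nonneg hs00 hK0, mul_nonneg hs00 hm0, mul_nonneg (mul_nonneg hs00 hK0) hm0]
  have haK : a * (K + 1) ≤ 1 / 2 := by
    nlinarith [mul_nonneg hs00 hK0, mul_nonneg hs00 hm0, mul_nonneg (mul_nonneg hs00 hK0) hm0]
  have ha2 : a ≤ 1 / 2 := by nlinarith [mul_nonneg ha0 hK0]
  have hKa : K * a ≤ 1 / 2 := by nlinarith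
  have hx : ∀ i ∈ (Finset.univ : Finset (Fin k)), |s * lam i| ≤ 1 / 2 := fun i _ => by
    rw [abs_mul]
    exact (mul_le_mul_of_nonneg_left (hl' i) hs00).trans ha2
  have h1 := gmtSimD_prod_le Finset.univ (fun i => s * lam i) hx
  set Q : ℝ := ∑ i, lam i ^ 2 with hQd
  set R : ℝ := ∑ i, |lam i| ^ 3 with hRd
  have hQ0 : 0 ≤ Q := Finset.sum_nonneg fun i _ => by positivity
  have hR0 : 0 ≤ R := Finset.sum_nonneg fun i _ => by positivity
  have hQ1 : Q ≤ K * m ^ 2 := by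
    have : Q ≤ ∑ _i : Fin k, m ^ 2 := Finset.sum_le_sum fun i _ => by
      rw [← sq_abs]; exact pow_le_pow_left₀ (abs_nonneg _) (hl' i) 2
    simpa using this
  have hR1 : R ≤ K * m ^ 3 := by
    have : R ≤ ∑ _i : Fin k, m ^ 3 := Finset.sum_le_sum fun i _ =>
      pow_le_pow_left₀ (abs_nonneg _) (hl' i) 3
    simpa using this
  have hy : ∑ i, (s * lam i - (s * lam i) ^ 2 / 2 + 2 * |s * lam i| ^ 3)
      = - (s ^ 2 / 2 * Q) + 2 * |s| ^ 3 * R := by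
    have e0 : ∑ i, lam i = 0 := by rw [← htr', htr]
    have e1 : ∀ i, s * lam i - (s * lam i) ^ 2 / 2 + 2 * |s * lam i| ^ 3
        = s * lam i - s ^ 2 / 2 * lam i ^ 2 + 2 * |s| ^ 3 * |lam i| ^ 3 := fun i => by
      rw [abs_mul]; ring
    simp only [e1]
    rw [Finset.sum_add_distrib, Finset.sum_sub_distrib, ← Finset.mul_sum, ← Finset.mul_sum,
      ← Finset.mul_sum, e0]
    ring
  rw [hy] at h1
  set y : ℝ := - (s ^ 2 / 2 * Q) + 2 * |s| ^ 3 * R with hyd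
  have hs2' : s ^ 2 = |s| ^ 2 := (sq_abs s).symm
  have hY : |y| ≤ 3 * K / 2 * a ^ 2 := by
    have b1 : s ^ 2 / 2 * Q ≤ K * a ^ 2 / 2 := by
      have : s ^ 2 / 2 * Q ≤ s ^ 2 / 2 * (K * m ^ 2) :=
        mul_le_mul_of_nonneg_left hQ1 (by positivity)
      rw [hs2'] at this ⊢
      calc _ ≤ _ := this
        _ = K * a ^ 2 / 2 := by rw [ha]; ring
    have b2 : 2 * |s| ^ 3 * R ≤ K * a ^ 2 := by
      have : 2 * |s| ^ 3 * R ≤ 2 * |s| ^ 3 * (K * m ^ 3) :=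
        mul_le_mul_of_nonneg_left hR1 (by positivity)
      calc _ ≤ _ := this
        _ = K * a ^ 2 * (2 * a) := by rw [ha]; ring
        _ ≤ K * a ^ 2 * 1 := mul_le_mul_of_nonneg_left (by linarith) (by positivity)
        _ = K * a ^ 2 := by ring
    have b3 : 0 ≤ s ^ 2 / 2 * Q := by positivity
    have b4 : 0 ≤ 2 * |s| ^ 3 * R := by positivity
    rw [abs_le]
    constructor <;> rw [hyd] <;> nlinarith
  have hY1 : |y| ≤ 1 := by
    refine hY.trans ?_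
    have : K * a * a ≤ 1 / 2 * (1 / 2) := mul_le_mul hKa ha2 ha0 (by norm_num)
    nlinarith
  have h2 := (abs_le.1 (Real.abs_exp_sub_one_sub_id_le hY1)).2
  have hy2 : y ^ 2 ≤ (3 * K * m ^ 2 / 2) ^ 2 * |s| ^ 3 := by
    have c1 : y ^ 2 ≤ (3 * K / 2 * a ^ 2) ^ 2 := by
      rw [← sq_abs y]; exact pow_le_pow_left₀ (abs_nonneg _) hY 2
    have c2 : (3 * K / 2 * a ^ 2) ^ 2 = (3 * K * m ^ 2 / 2) ^ 2 * |s| ^ 3 * |s| := by
      rw [ha]; ring
    rw [c2] at c1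
    refine c1.trans ?_
    have h0 : 0 ≤ (3 * K * m ^ 2 / 2) ^ 2 * |s| ^ 3 := by positivity
    calc (3 * K * m ^ 2 / 2) ^ 2 * |s| ^ 3 * |s| ≤ (3 * K * m ^ 2 / 2) ^ 2 * |s| ^ 3 * 1 :=
          mul_le_mul_of_nonneg_left hs2 h0
      _ = _ := mul_one _
  have hR2 : 2 * |s| ^ 3 * R ≤ 2 * K * m ^ 3 * |s| ^ 3 := by
    have : 2 * |s| ^ 3 * R ≤ 2 * |s| ^ 3 * (K * m ^ 3) :=
      mul_le_mul_of_nonneg_left hR1 (by positivity)
    linarith
  rw [hdet, hQ]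
  calc ∏ i, (1 + s * lam i) ≤ Real.exp y := h1
    _ ≤ 1 + y + y ^ 2 := by linarith
    _ ≤ _ := by
      have e : (2 * K * m ^ 3 + (3 * K * m ^ 2 / 2) ^ 2) * |s| ^ 3
          = 2 * K * m ^ 3 * |s| ^ 3 + (3 * K * m ^ 2 / 2) ^ 2 * |s| ^ 3 := by ring
      rw [e]
      linarith

end Claimed.Agent.Gmt
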