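import Claimed.Agent.Lib.Gmt.SimCalc

/-!
# Lib/Gmt [G7 Simons] `SimNFb`: the distance normal form near a regular boundary point.   (architect: helper257)

No minimality, no cone structure.  Three independent leaves.

## (B) `gmtSim_bd_local`:  `gmtBd S ∩ ball = {φ = 0} ∩ ball`
`φ x < 0` (`> 0`): a small ball around `x` lies in `{φ < 0}` (`{φ > 0}`), so `ball \ S` (`S ∩ ball`) is null.  `φ x = 0`: along `t ↦ x + t ∇φ(x)` the function `φ` changes sign
(derivative `|∇φ|² > 0`), so every ball around `x` contains nonempty open subsets of `{φ<0}` and of `{φ>0}`; open nonempty sets have positive volume.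

## (C) `gmtSim_sd_local`: the normal form IS the signed distance `gmtSimSd S` near `p`
`d` is `1`-Lipschitz on the convex set `ball p ρ` (`Convex.norm_image_sub_le_of_norm_fderiv_le`).  Let `x ∈ ball p (ρ/4)`; `|d x| = |d x - d p| ≤ |x - p| < ρ/4`.
`π x ∈ gmtBd S` (by (B)) and `|x - π x| = |d x|`, so `infDist x Σ ≤ |d x|`.  For `q ∈ Σ`: if `q ∈ ball p ρ` then `d q = 0` and `|d x| ≤ |x - q|`; otherwise `|x - q| ≥ 3ρ/4 > |d x|`.
Sign: `d x < 0 ⟹ φ < 0` near `x` `⟹ x ∈ gmtSimInt S`;  `d x ≥ 0 ⟹ x ∉ gmtSimInt S` (either `x ∈ Σ`, or `S` is null near `x`).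
-/

set_option autoImplicit false
open scoped ContDiff ENNReal RealInnerProductSpace Topology
open MeasureTheory Metric Set Filter

namespace Claimed.Agent.Gmt

variable {k : ℕ}

/-- (B) -/
theorem gmtSim_bd_local {S : Set (E k)} {p : E k} {r : ℝ} {φ : E k → ℝ}
    (hφ : ContDiffOn ℝ ∞ φ (ball p r)) (hφ' : ∀ y ∈ ball p r, fderiv ℝ φ y ≠ 0)
    (hS : (S ∩ ball p r : Set (E k)) =ᵐ[volume] ({y | y ∈ ball p r ∧ φ y < 0} : Set (E k)))
    {x : E k} (hx : x ∈ ball p r) :
    (x ∈ gmtBd S ↔ φ x = 0) ∧ (x ∈ gmtSimInt S ↔ φ x < 0) := by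
  set B := ball p r with hB
  set N : Set (E k) := {y | y ∈ B ∧ φ y < 0} with hN
  have hcont : ContinuousOn φ B := hφ.continuousOn
  have F1 : ∀ T : Set (E k), T ⊆ B → volume (S ∩ T) = volume (N ∩ T) := by
    intro T hT
    have e : S ∩ T = (S ∩ B) ∩ T := by
      rw [inter_assoc, inter_eq_right.2 hT]
    rw [e]
    exact measure_congr (hS.inter (ae_eq_refl T))
  have F2 : ∀ T : Set (E k), T ⊆ B → volume (T \ S) = volume (T \ N) := by
    intro T hT
    have e : T \ S = T \ (S ∩ B) := by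
      ext y
      simp only [Set.mem_sdiff, mem_inter_iff, not_and]
      exact ⟨fun h => ⟨h.1, fun h' => absurd h' h.2⟩, fun h => ⟨h.1, fun h' => h.2 h' (hT h.1)⟩⟩
    rw [e]
    exact measure_congr ((ae_eq_refl T).diff hS)
  have hOneg : IsOpen (B ∩ φ ⁻¹' Iio 0) := hcont.isOpen_inter_preimage isOpen_ball isOpen_Iio
  have hOpos : IsOpen (B ∩ φ ⁻¹' Ioi 0) := hcont.isOpen_inter_preimage isOpen_ball isOpen_Ioi
  rcases lt_trichotomy (φ x) 0 with hlt | heq | hgt
  · -- interior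
    obtain ⟨ε, hε, hsub⟩ := Metric.isOpen_iff.1 hOneg x ⟨hx, hlt⟩
    have h0 : volume (ball x ε \ S) = 0 := by
      rw [F2 _ (fun y hy => (hsub hy).1)]
      have : ball x ε \ N = ∅ := by
        rw [Set.sdiff_eq_empty]
        exact fun y hy => ⟨(hsub hy).1, (hsub hy).2⟩
      rw [this, measure_empty]
    refine ⟨⟨fun h => absurd h0 (h ε hε).2.ne', fun h => absurd h hlt.ne⟩,
      ⟨fun _ => hlt, fun _ => ⟨ε, hε, h0⟩⟩⟩
  · -- boundary
    have hbd : x ∈ gmtBd S := by
      intro ρ hρ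
      constructor
      · -- a point with φ < 0
        have hex : ∃ y ∈ ball x ρ ∩ B, φ y < 0 := by
          by_contra hcon
          push Not at hcon
          have hmin : IsLocalMin φ x := by
            filter_upwards [(isOpen_ball.inter isOpen_ball).mem_nhds
              (⟨mem_ball_self hρ, hx⟩ : x ∈ ball x ρ ∩ B)] with y hy
            rw [heq]
            exact hcon y hy
          exact hφ' x hx hmin.fderiv_eq_zero
        obtain ⟨y, hy, hyneg⟩ := hex
        have hopen : IsOpen (ball x ρ ∩ (B ∩ φ ⁻¹' Iio 0)) := isOpen_ball.inter hOneg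
        have hpos : 0 < volume (ball x ρ ∩ (B ∩ φ ⁻¹' Iio 0)) :=
          hopen.measure_pos volume ⟨y, hy.1, hy.2, hyneg⟩
        refine hpos.trans_le ?_
        calc volume (ball x ρ ∩ (B ∩ φ ⁻¹' Iio 0)) ≤ volume (N ∩ (ball x ρ ∩ B)) :=
              measure_mono fun z hz => ⟨⟨hz.2.1, hz.2.2⟩, hz.1, hz.2.1⟩
          _ = volume (S ∩ (ball x ρ ∩ B)) := (F1 _ inter_subset_right).symm
          _ ≤ volume (S ∩ ball x ρ) := measure_mono (inter_subset_inter_right _ inter_subset_left)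
      · have hex : ∃ y ∈ ball x ρ ∩ B, 0 < φ y := by
          by_contra hcon
          push Not at hcon
          have hmax : IsLocalMax φ x := by
            filter_upwards [(isOpen_ball.inter isOpen_ball).mem_nhds
              (⟨mem_ball_self hρ, hx⟩ : x ∈ ball x ρ ∩ B)] with y hy
            rw [heq]
            exact hcon y hy
          exact hφ' x hx hmax.fderiv_eq_zero
        obtain ⟨y, hy, hypos⟩ := hex
        have hopen : IsOpen (ball x ρ ∩ (B ∩ φ ⁻¹' Ioi 0)) := isOpen_ball.inter hOpos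
        have hpos : 0 < volume (ball x ρ ∩ (B ∩ φ ⁻¹' Ioi 0)) :=
          hopen.measure_pos volume ⟨y, hy.1, hy.2, hypos⟩
        refine hpos.trans_le ?_
        calc volume (ball x ρ ∩ (B ∩ φ ⁻¹' Ioi 0)) ≤ volume ((ball x ρ ∩ B) \ N) :=
              measure_mono fun z hz => ⟨⟨hz.1, hz.2.1⟩, fun hzN => lt_asymm hzN.2 hz.2.2⟩
          _ = volume ((ball x ρ ∩ B) \ S) := (F2 _ inter_subset_right).symm
          _ ≤ volume (ball x ρ \ S) := measure_mono (sdiff_subset_sdiff_left inter_subset_left)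
    refine ⟨⟨fun _ => heq, fun _ => hbd⟩, ⟨?_, fun h => absurd heq h.ne⟩⟩
    rintro ⟨ρ, hρ, h0⟩
    exact absurd h0 (hbd ρ hρ).2.ne'
  · -- exterior
    obtain ⟨ε, hε, hsub⟩ := Metric.isOpen_iff.1 hOpos x ⟨hx, hgt⟩
    have h0 : volume (S ∩ ball x ε) = 0 := by
      rw [F1 _ (fun y hy => (hsub hy).1)]
      have : N ∩ ball x ε = ∅ := by
        rw [eq_empty_iff_forall_notMem]
        rintro y ⟨hyN, hy⟩
        exact lt_asymm hyN.2 (hsub hy).2
      rw [this, measure_empty]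
    refine ⟨⟨fun h => absurd h0 (h ε hε).1.ne', fun h => absurd h hgt.ne'⟩,
      ⟨?_, fun h => absurd h (not_lt.2 hgt.le)⟩⟩
    rintro ⟨ρ, hρ, h1⟩
    exfalso
    have hpos : 0 < volume (ball x (min ε ρ)) := measure_ball_pos volume x (lt_min hε hρ)
    have hle : volume (ball x (min ε ρ)) ≤ volume (S ∩ ball x ε) + volume (ball x ρ \ S) := by
      refine (measure_mono ?_).trans (measure_union_le _ _)
      intro y hy
      by_cases hyS : y ∈ S
      · exact Or.inl ⟨hyS, ball_subset_ball (min_le_left _ _) hy⟩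
      · exact Or.inr ⟨ball_subset_ball (min_le_right _ _) hy, hyS⟩
    rw [h0, h1, add_zero] at hle
    exact absurd hle (not_le.2 hpos)

theorem gmtSim_norm_fderiv_eq (f : E k → ℝ) (x : E k) : ‖fderiv ℝ f x‖ = ‖gradient f x‖ := by
  unfold gradient
  rw [LinearIsometryEquiv.norm_map]

/-- (C) -/
theorem gmtSim_sd_local {S : Set (E k)} {p : E k} {r ρ : ℝ} {φ d : E k → ℝ} (hρ : 0 < ρ) (hρr : ρ ≤ r)
    (hp : φ p = 0)
    (hbd : ∀ x ∈ ball p r, (x ∈ gmtBd S ↔ φ x = 0) ∧ (x ∈ gmtSimInt S ↔ φ x < 0))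
    (hd : ContDiffOn ℝ ∞ d (ball p ρ))
    (hd' : ∀ x ∈ ball p ρ, ‖gradient d x‖ = 1 ∧ (d x < 0 ↔ φ x < 0) ∧ (d x = 0 ↔ φ x = 0) ∧
        gmtSimPi d x ∈ ball p r ∧ φ (gmtSimPi d x) = 0) :
    ∀ x ∈ ball p (ρ / 4), gmtSimSd S x = d x := by
  have hlip : ∀ x ∈ ball p ρ, ∀ y ∈ ball p ρ, |d y - d x| ≤ ‖y - x‖ := by
    intro x hx y hy
    have := Convex.norm_image_sub_le_of_norm_fderiv_le (𝕜 := ℝ) (f := d) (C := 1) (s := ball p ρ)
      (fun z hz => (hd.contDiffAt (isOpen_ball.mem_nhds hz)).differentiableAt (by simp))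
      (fun z hz => by rw [gmtSim_norm_fderiv_eq, (hd' z hz).1]) (convex_ball p ρ) hx hy
    rwa [one_mul, Real.norm_eq_abs] at this
  have hpρ : p ∈ ball p ρ := mem_ball_self hρ
  have hdp : d p = 0 := (hd' p hpρ).2.2.1.2 hp
  intro x hx
  have hxρ : x ∈ ball p ρ := ball_subset_ball (by linarith) hx
  have hxr : x ∈ ball p r := ball_subset_ball hρr hxρ
  have hxp : ‖x - p‖ < ρ / 4 := by rwa [mem_ball, dist_eq_norm] at hx
  have hdx : |d x| < ρ / 4 := by
    have := hlip p hpρ x hxρ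
    rw [hdp, sub_zero] at this
    linarith
  obtain ⟨hg, hneg, _, hπr, hπ0⟩ := hd' x hxρ
  have hπB : gmtSimPi d x ∈ gmtBd S := (hbd _ hπr).1.2 hπ0
  have hdist : dist x (gmtSimPi d x) = |d x| := by
    rw [dist_eq_norm]
    unfold gmtSimPi
    rw [sub_sub_cancel, norm_smul, hg, mul_one, Real.norm_eq_abs]
  have hinf : infDist x (gmtBd S) = |d x| := by
    apply le_antisymm
    · rw [← hdist]
      exact infDist_le_dist_of_mem hπB
    · rw [Metric.le_infDist ⟨_, hπB⟩]
      intro q hq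
      by_cases hqρ : q ∈ ball p ρ
      · have hq0 : d q = 0 := (hd' q hqρ).2.2.1.2 ((hbd q (ball_subset_ball hρr hqρ)).1.1 hq)
        have := hlip q hqρ x hxρ
        rw [hq0, sub_zero] at this
        rwa [dist_eq_norm]
      · rw [mem_ball, not_lt] at hqρ
        have h1 : dist q p ≤ dist q x + dist x p := dist_triangle q x p
        rw [mem_ball] at hx
        rw [dist_comm q x] at h1
        linarith
  unfold gmtSimSd
  by_cases hxI : x ∈ gmtSimInt S
  · rw [if_pos hxI, hinf]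
    have : d x < 0 := hneg.2 ((hbd x hxr).2.1 hxI)
    rw [abs_of_neg this, neg_neg]
  · rw [if_neg hxI, hinf]
    have : ¬ d x < 0 := fun h => hxI ((hbd x hxr).2.2 (hneg.1 h))
    rw [abs_of_nonneg (not_lt.1 this)]

end Claimed.Agent.Gmt
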