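import Claimed.Agent.Lib.Gmt.SimNFa
import Claimed.Agent.Lib.Gmt.SimNFb

/-!
# Lib/Gmt [G7 Simons] `SimNF`: the distance normal form near a regular boundary point.   (architect: helper257)

No minimality, no cone structure.  Three independent leaves.

## `gmtSim_nf`: assemble (A) `gmtSim_nf_local` (file `SimNFa`), (B) `gmtSim_bd_local`, (C) `gmtSim_sd_local` (file `SimNFb`)
Unfold `GmtReg S p`: `r, φ`.  (A) gives `ρ, d`; (B) on `ball p r`; (C): `gmtSimSd S = d` on `ball p (ρ/4)`.  Take the radius `ρ/16`.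
On the OPEN ball `ball p (ρ/4)` the two functions agree, so their gradients agree there (`Filter.EventuallyEq.fderiv_eq`), and smoothness transfers (`ContDiffOn.congr`).
For `x ∈ ball p (ρ/16)`: `|d x| = |d x - d p| ≤ |x - p|` (`d` is `1`-Lipschitz on the ball), so `|π x - p| ≤ 2|x - p| < ρ/8`; `φ(π x) = 0` gives `π x ∈ gmtBd S`, `d(π x) = 0`, `π(π x) = π x`, and
`∇d(π x) = n(π(π x)) = n(π x) = ∇d(x)` with `n = ∇φ/|∇φ|`.   `S ∩ ball = {d < 0} ∩ ball` a.e. from `d < 0 ↔ φ < 0`.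
-/

set_option autoImplicit false
open scoped ContDiff ENNReal RealInnerProductSpace Topology
open MeasureTheory Metric Set Filter

namespace Claimed.Agent.Gmt

variable {k : ℕ}

theorem gmtSim_abs_sd (S : Set (E k)) (x : E k) : |gmtSimSd S x| = infDist x (gmtBd S) := by
  unfold gmtSimSd
  split_ifs
  · rw [abs_neg, abs_of_nonneg infDist_nonneg]
  · rw [abs_of_nonneg infDist_nonneg]

theorem gmtSim_gradient_congr {U : Set (E k)} (hU : IsOpen U) {f g : E k → ℝ}
    (h : ∀ x ∈ U, f x = g x) {x : E k} (hx : x ∈ U) : gradient f x = gradient g x := by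
  have : f =ᶠ[𝓝 x] g := by
    filter_upwards [hU.mem_nhds hx] with y hy using h y hy
  unfold gradient
  rw [this.fderiv_eq]

/-- **the normal form**: near a regular boundary point the signed distance is smooth, solves the eikonal
equation, defines `S`, and is constant-gradient along its normal lines. -/
theorem gmtSim_nf {S : Set (E k)} {p : E k} (hp : GmtReg S p) :
    ∃ ρ > 0, ContDiffOn ℝ ∞ (gmtSimSd S) (ball p ρ) ∧
      ((S ∩ ball p ρ : Set (E k)) =ᵐ[volume] ({y | y ∈ ball p ρ ∧ gmtSimSd S y < 0} : Set (E k))) ∧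
      ∀ x ∈ ball p ρ, ‖gradient (gmtSimSd S) x‖ = 1 ∧
        gmtSimPi (gmtSimSd S) x ∈ gmtBd S ∧ ‖gmtSimPi (gmtSimSd S) x - p‖ ≤ 2 * ‖x - p‖ ∧
        gradient (gmtSimSd S) (gmtSimPi (gmtSimSd S) x) = gradient (gmtSimSd S) x := by
  obtain ⟨r, hr, φ, hφ, hp0, hφ', hS⟩ := hp
  obtain ⟨ρ, hρ, hρr, d, hd, hd'⟩ := gmtSim_nf_local hr hφ hp0 hφ'
  have hbd : ∀ x ∈ ball p r, (x ∈ gmtBd S ↔ φ x = 0) ∧ (x ∈ gmtSimInt S ↔ φ x < 0) :=
    fun x hx => gmtSim_bd_local hφ hφ' hS hx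
  have hsd : ∀ x ∈ ball p (ρ / 4), gmtSimSd S x = d x :=
    gmtSim_sd_local hρ hρr hp0 hbd hd
      (fun x hx => ⟨(hd' x hx).1, (hd' x hx).2.1, (hd' x hx).2.2.1, (hd' x hx).2.2.2.1,
        (hd' x hx).2.2.2.2.1⟩)
  have hgr : ∀ x ∈ ball p (ρ / 4), gradient (gmtSimSd S) x = gradient d x :=
    fun x hx => gmtSim_gradient_congr isOpen_ball hsd hx
  have hpi : ∀ x ∈ ball p (ρ / 4), gmtSimPi (gmtSimSd S) x = gmtSimPi d x := by
    intro x hx
    unfold gmtSimPi
    rw [hsd x hx, hgr x hx]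
  have hpB : p ∈ gmtBd S := (hbd p (mem_ball_self hr)).1.2 hp0
  have s1 : ball p (ρ / 16) ⊆ ball p (ρ / 4) := ball_subset_ball (by linarith)
  have s2 : ball p (ρ / 4) ⊆ ball p ρ := ball_subset_ball (by linarith)
  have s3 : ball p ρ ⊆ ball p r := ball_subset_ball hρr
  refine ⟨ρ / 16, by positivity, ?_, ?_, ?_⟩
  · exact (hd.mono (s1.trans s2)).congr fun x hx => hsd x (s1 hx)
  · have e1 : S ∩ ball p (ρ / 16) = (S ∩ ball p r) ∩ ball p (ρ / 16) := by
      rw [inter_assoc, inter_eq_right.2 (s1.trans (s2.trans s3))]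
    have e2 : ({y | y ∈ ball p (ρ / 16) ∧ gmtSimSd S y < 0} : Set (E k))
        = {y | y ∈ ball p r ∧ φ y < 0} ∩ ball p (ρ / 16) := by
      ext y
      constructor
      · rintro ⟨hy, hy0⟩
        refine ⟨⟨s3 (s2 (s1 hy)), ?_⟩, hy⟩
        rw [hsd y (s1 hy)] at hy0
        exact (hd' y (s2 (s1 hy))).2.1.1 hy0
      · rintro ⟨⟨_, hy0⟩, hy⟩
        refine ⟨hy, ?_⟩
        rw [hsd y (s1 hy)]
        exact (hd' y (s2 (s1 hy))).2.1.2 hy0
    rw [e1, e2]
    exact hS.inter (ae_eq_refl _)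
  · intro x hx
    have hx4 := s1 hx
    have hxρ := s2 hx4
    obtain ⟨hg, _, _, hπr, hπ0, hgrad⟩ := hd' x hxρ
    have hnorm : ‖gmtSimPi (gmtSimSd S) x - p‖ ≤ 2 * ‖x - p‖ := by
      have h1 : |gmtSimSd S x| ≤ ‖x - p‖ := by
        rw [gmtSim_abs_sd, ← dist_eq_norm]
        exact infDist_le_dist_of_mem hpB
      have h2 : gmtSimPi (gmtSimSd S) x - p = (x - p) - gmtSimSd S x • gradient (gmtSimSd S) x := by
        unfold gmtSimPi
        abel
      rw [h2]
      refine (norm_sub_le _ _).trans ?_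
      rw [norm_smul, hgr x hx4, hg, mul_one, Real.norm_eq_abs]
      linarith
    have hπ4 : gmtSimPi d x ∈ ball p (ρ / 4) := by
      rw [← hpi x hx4, mem_ball, dist_eq_norm]
      rw [mem_ball, dist_eq_norm] at hx
      linarith
    refine ⟨by rw [hgr x hx4, hg], ?_, hnorm, ?_⟩
    · rw [hpi x hx4]
      exact (hbd _ hπr).1.2 hπ0
    · rw [hpi x hx4, hgr _ hπ4, hgr x hx4, hgrad]
      obtain ⟨_, _, hz, _, _, hgrad'⟩ := hd' _ (s2 hπ4)
      have hd0 : d (gmtSimPi d x) = 0 := hz.2 hπ0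
      have hpp : gmtSimPi d (gmtSimPi d x) = gmtSimPi d x := by
        have : ∀ z : E k, d z = 0 → gmtSimPi d z = z := by
          intro z hz0
          unfold gmtSimPi
          rw [hz0, zero_smul, sub_zero]
        exact this _ hd0
      rw [hgrad', hpp]

end Claimed.Agent.Gmt
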