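import Claimed.Agent.Lib.Gmt.SimCalc

/-!
# Lib/Gmt [G7 Simons] `SimNFa`: the distance normal form near a regular boundary point.   (architect: helper257; proofs: helper77)   SORRY-FREE.

No minimality, no cone structure.  Three independent leaves.

## (A) `gmtSim_nf_local`  (pure calculus: inverse function theorem)
`φ` smooth on `ball p r`, `φ p = 0`, `∇φ ≠ 0`.  Put `n = ∇φ/|∇φ|` (smooth on the ball, `|n| = 1`, hence `⟪n y, Dn y w⟫ = 0`) and
`Ψ : E k × ℝ → E k × ℝ`, `Ψ (y, s) = (y + s n(y), φ y)`.  `DΨ(p,0)(v,σ) = (v + σ n(p), ∇φ(p)·v)` is injective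
(`v = -σ n`, `-σ |∇φ| = 0`), hence invertible (finite dimension: `LinearMap.injective_iff_surjective`,
`ContinuousLinearEquiv.ofBijective` / `LinearEquiv.toContinuousLinearEquiv`).  `ContDiffAt.toOpenPartialHomeomorph`, `ContDiffAt.to_localInverse` give a
smooth local inverse `(x,c) ↦ (Y(x,c), s(x,c))`.  Put `π x = Y(x,0)`, `d x = s(x,0)`: smooth near `p`, and
   `x = π x + d x • n(π x)`,  `φ(π x) = 0`,  `π x → p`.
* `∇d(x) = n(π x)`: differentiate the first identity in direction `v` and take the inner product with `n(π x)`: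
  `⟪n,v⟫ = ⟪n, Dπ v⟫ + ∇d·v + d ⟪n, Dn Dπ v⟫`; the last term vanishes (`|n| = 1`), the first because `φ∘π = 0` gives `∇φ(π x)·Dπ v = 0`.
  Hence `|∇d| = 1` and `π x = x - d x • ∇d x`.
* `d x = 0 ↔ φ x = 0`: `d x = 0 ⟹ x = π x`; conversely `φ x = 0 ⟹ Ψ(x,0) = (x,0)`, so by injectivity of `Ψ` near `(p,0)`: `(π x, d x) = (x, 0)`.
* sign: `φ x = φ(π x + d x n(π x)) - φ(π x) = d x · ⟪∇φ(ξ), n(π x)⟫` (mean value theorem on the segment) and `⟪∇φ(ξ), n(y)⟫ > 0` for `ξ, y` near `p` (continuity; value `|∇φ(p)|` at `(p,p)`).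

-/

set_option autoImplicit false
open scoped ContDiff ENNReal RealInnerProductSpace Topology
open MeasureTheory Metric Set Filter

namespace Claimed.Agent.Gmt

variable {k : ℕ}

theorem gmtSimNFa_grad_ne {φ : E k → ℝ} {y : E k} (h : fderiv ℝ φ y ≠ 0) : gradient φ y ≠ 0 := by
  intro h0
  apply h
  ext v
  rw [← gmtSim_inner_gradient, h0]; simp

/-- the unit normal field `∇φ/|∇φ|`. -/
noncomputable def gmtSimNFaN (φ : E k → ℝ) (y : E k) : E k := ‖gradient φ y‖⁻¹ • gradient φ y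

theorem gmtSimNFaN_norm {φ : E k → ℝ} {y : E k} (h : gradient φ y ≠ 0) : ‖gmtSimNFaN φ y‖ = 1 := by
  unfold gmtSimNFaN
  rw [norm_smul, norm_inv, norm_norm, inv_mul_cancel₀ (norm_ne_zero_iff.2 h)]

theorem gmtSimNFaN_contDiffOn {U : Set (E k)} (hU : IsOpen U) {φ : E k → ℝ}
    (hφ : ContDiffOn ℝ ∞ φ U) (h0 : ∀ y ∈ U, gradient φ y ≠ 0) :
    ContDiffOn ℝ ∞ (gmtSimNFaN φ) U := by
  have hg := gmtSim_contDiffOn_gradient hU hφ
  exact ((hg.norm ℝ h0).inv (fun y hy => norm_ne_zero_iff.2 (h0 y hy))).smul hg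

/-- the map `Ψ (y, s) = (y + s n(y), φ y)`. -/
noncomputable def gmtSimNFaPsi (φ : E k → ℝ) (w : E k × ℝ) : E k × ℝ :=
  (w.1 + w.2 • gmtSimNFaN φ w.1, φ w.1)

theorem gmtSimNFaPsi_contDiffAt {U : Set (E k)} (hU : IsOpen U) {φ : E k → ℝ}
    (hφ : ContDiffOn ℝ ∞ φ U) (h0 : ∀ y ∈ U, gradient φ y ≠ 0) {w : E k × ℝ} (hw : w.1 ∈ U) :
    ContDiffAt ℝ ∞ (gmtSimNFaPsi φ) w := by
  have hn : ContDiffAt ℝ ∞ (gmtSimNFaN φ) w.1 :=
    (gmtSimNFaN_contDiffOn hU hφ h0).contDiffAt (hU.mem_nhds hw)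
  have hp : ContDiffAt ℝ ∞ φ w.1 := hφ.contDiffAt (hU.mem_nhds hw)
  have h1 : ContDiffAt ℝ ∞ (fun w : E k × ℝ => gmtSimNFaN φ w.1) w := hn.comp w contDiffAt_fst
  have h2 : ContDiffAt ℝ ∞ (fun w : E k × ℝ => φ w.1) w := hp.comp w contDiffAt_fst
  exact (contDiffAt_fst.add (contDiffAt_snd.smul h1)).prodMk h2

theorem gmtSimNFaPsi_hasFDerivAt {U : Set (E k)} (hU : IsOpen U) {φ : E k → ℝ}
    (hφ : ContDiffOn ℝ ∞ φ U) (h0 : ∀ y ∈ U, gradient φ y ≠ 0) {p : E k} (hp : p ∈ U) :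
    HasFDerivAt (gmtSimNFaPsi φ)
      (((ContinuousLinearMap.fst ℝ (E k) ℝ) +
        (ContinuousLinearMap.snd ℝ (E k) ℝ).smulRight (gmtSimNFaN φ p)).prod
        ((fderiv ℝ φ p).comp (ContinuousLinearMap.fst ℝ (E k) ℝ))) (p, 0) := by
  have hn0 : HasFDerivAt (gmtSimNFaN φ) (fderiv ℝ (gmtSimNFaN φ) p) p :=
    (((gmtSimNFaN_contDiffOn hU hφ h0).contDiffAt (hU.mem_nhds hp)).differentiableAt
      (by simp)).hasFDerivAt
  have hp0 : HasFDerivAt φ (fderiv ℝ φ p) p :=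
    ((hφ.contDiffAt (hU.mem_nhds hp)).differentiableAt (by simp)).hasFDerivAt
  have hn : HasFDerivAt (fun w : E k × ℝ => gmtSimNFaN φ w.1)
      ((fderiv ℝ (gmtSimNFaN φ) p).comp (ContinuousLinearMap.fst ℝ (E k) ℝ)) (p, (0:ℝ)) :=
    HasFDerivAt.comp (g := gmtSimNFaN φ) (f := Prod.fst) (p, (0:ℝ)) hn0 hasFDerivAt_fst
  have hq : HasFDerivAt (fun w : E k × ℝ => φ w.1)
      ((fderiv ℝ φ p).comp (ContinuousLinearMap.fst ℝ (E k) ℝ)) (p, (0:ℝ)) :=
    HasFDerivAt.comp (g := φ) (f := Prod.fst) (p, (0:ℝ)) hp0 hasFDerivAt_fst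
  have hs := (hasFDerivAt_snd (𝕜 := ℝ) (p := (p, (0:ℝ)))).smul hn
  have h5 := (hasFDerivAt_fst (𝕜 := ℝ) (p := (p, (0:ℝ)))).add hs |>.prodMk hq
  have h6 : HasFDerivAt (gmtSimNFaPsi φ) _ (p, (0:ℝ)) := h5
  refine h6.congr_fderiv ?_
  ext w <;> simp

theorem gmtSimNFa_equiv {U : Set (E k)} (hU : IsOpen U) {φ : E k → ℝ}
    (hφ : ContDiffOn ℝ ∞ φ U) (h0 : ∀ y ∈ U, gradient φ y ≠ 0) {p : E k} (hp : p ∈ U) :
    ∃ L : (E k × ℝ) ≃L[ℝ] (E k × ℝ),
      HasFDerivAt (gmtSimNFaPsi φ) (L : (E k × ℝ) →L[ℝ] (E k × ℝ)) (p, 0) := by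
  have h := gmtSimNFaPsi_hasFDerivAt hU hφ h0 hp
  set L0 := (((ContinuousLinearMap.fst ℝ (E k) ℝ) +
        (ContinuousLinearMap.snd ℝ (E k) ℝ).smulRight (gmtSimNFaN φ p)).prod
        ((fderiv ℝ φ p).comp (ContinuousLinearMap.fst ℝ (E k) ℝ))) with hL0
  have hinj : Function.Injective (L0 : (E k × ℝ) →ₗ[ℝ] (E k × ℝ)) := by
    rw [← LinearMap.ker_eq_bot, LinearMap.ker_eq_bot']
    rintro ⟨v, σ⟩ hv
    have hv' : L0 (v, σ) = 0 := hv
    simp only [hL0, ContinuousLinearMap.prod_apply, add_apply,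
      ContinuousLinearMap.coe_fst', ContinuousLinearMap.smulRight_apply,
      ContinuousLinearMap.coe_snd', ContinuousLinearMap.coe_comp, Function.comp_apply,
      Prod.mk_eq_zero] at hv'
    obtain ⟨h1, h2⟩ := hv'
    have hv1 : v = -(σ • gmtSimNFaN φ p) := eq_neg_of_add_eq_zero_left h1
    have hgp := h0 p hp
    have h3 : fderiv ℝ φ p (gmtSimNFaN φ p) = ‖gradient φ p‖ := by
      rw [← gmtSim_inner_gradient]
      unfold gmtSimNFaN
      rw [inner_smul_right, real_inner_self_eq_norm_sq, sq, ← mul_assoc,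
        inv_mul_cancel₀ (norm_ne_zero_iff.2 hgp), one_mul]
    rw [hv1, map_neg, map_smul, h3, smul_eq_mul, neg_eq_zero, mul_eq_zero] at h2
    have hσ : σ = 0 := h2.resolve_right (norm_ne_zero_iff.2 hgp)
    rw [hσ] at hv1
    simp [hv1, hσ]
  have hsurj : Function.Surjective (L0 : (E k × ℝ) →ₗ[ℝ] (E k × ℝ)) :=
    LinearMap.injective_iff_surjective.1 hinj
  refine ⟨(LinearEquiv.ofBijective (L0 : (E k × ℝ) →ₗ[ℝ] (E k × ℝ))
    ⟨hinj, hsurj⟩).toContinuousLinearEquiv, ?_⟩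
  exact h

theorem gmtSimNFa_point {U : Set (E k)} (hU : IsOpen U) {φ : E k → ℝ}
    (hφ : ContDiffOn ℝ ∞ φ U) (h0 : ∀ y ∈ U, gradient φ y ≠ 0) {G : E k → E k × ℝ} {x : E k}
    (hG : DifferentiableAt ℝ G x)
    (hx : ∀ᶠ y in 𝓝 x, (G y).1 ∈ U ∧ gmtSimNFaPsi φ (G y) = (y, 0)) :
    gradient (fun y => (G y).2) x = gmtSimNFaN φ (G x).1 := by
  have hxU : (G x).1 ∈ U := hx.self_of_nhds.1
  have hπ : HasFDerivAt (fun y => (G y).1) (fderiv ℝ (fun y => (G y).1) x) x :=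
    hG.fst.hasFDerivAt
  have hd : HasFDerivAt (fun y => (G y).2) (fderiv ℝ (fun y => (G y).2) x) x :=
    hG.snd.hasFDerivAt
  set π' := fderiv ℝ (fun y => (G y).1) x with hπ'
  set d' := fderiv ℝ (fun y => (G y).2) x with hd'
  have hN : HasFDerivAt (gmtSimNFaN φ) (fderiv ℝ (gmtSimNFaN φ) (G x).1) (G x).1 :=
    (((gmtSimNFaN_contDiffOn hU hφ h0).contDiffAt (hU.mem_nhds hxU)).differentiableAt
      (by simp)).hasFDerivAt
  have hm : HasFDerivAt (fun y => gmtSimNFaN φ (G y).1)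
      ((fderiv ℝ (gmtSimNFaN φ) (G x).1).comp π') x :=
    HasFDerivAt.comp (g := gmtSimNFaN φ) (f := fun y => (G y).1) x hN hπ
  set m' := (fderiv ℝ (gmtSimNFaN φ) (G x).1).comp π' with hm'
  have hP : HasFDerivAt φ (fderiv ℝ φ (G x).1) (G x).1 :=
    ((hφ.contDiffAt (hU.mem_nhds hxU)).differentiableAt (by simp)).hasFDerivAt
  -- identity 1
  have e1 : (fun y => (G y).1 + (G y).2 • gmtSimNFaN φ (G y).1) =ᶠ[𝓝 x] fun y => y := by
    filter_upwards [hx] with y hy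
    exact congrArg Prod.fst hy.2
  have i1 := (hπ.add (hd.smul hm)).congr_of_eventuallyEq e1.symm
  have j1 := i1.unique (hasFDerivAt_id x)
  -- identity 2
  have e2 : (fun y => φ (G y).1) =ᶠ[𝓝 x] fun _ => (0:ℝ) := by
    filter_upwards [hx] with y hy
    exact congrArg Prod.snd hy.2
  have i2 := (HasFDerivAt.comp (g := φ) (f := fun y => (G y).1) x hP hπ).congr_of_eventuallyEq
    e2.symm
  have j2 := i2.unique (hasFDerivAt_const (0:ℝ) x)
  -- identity 3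
  have e3 : (fun y => ⟪gmtSimNFaN φ (G y).1, gmtSimNFaN φ (G y).1⟫) =ᶠ[𝓝 x] fun _ => (1:ℝ) := by
    filter_upwards [hx] with y hy
    rw [real_inner_self_eq_norm_sq, gmtSimNFaN_norm (h0 _ hy.1)]; norm_num
  have i3 := (hm.inner ℝ hm).congr_of_eventuallyEq e3.symm
  have j3 := i3.unique (hasFDerivAt_const (1:ℝ) x)
  refine ext_inner_right ℝ fun v => ?_
  rw [gmtSim_inner_gradient]
  have k1 := congrArg (fun T : E k →L[ℝ] E k => ⟪gmtSimNFaN φ (G x).1, T v⟫) j1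
  have k2 := congrArg (fun T : E k →L[ℝ] ℝ => T v) j2
  have k3 := congrArg (fun T : E k →L[ℝ] ℝ => T v) j3
  simp only [add_apply, smul_apply, ContinuousLinearMap.smulRight_apply,
    ContinuousLinearMap.coe_comp, Function.comp_apply, zero_apply,
    ContinuousLinearMap.id_apply, inner_add_right, inner_smul_right] at k1 k2 k3
  rw [fderivInnerCLM_apply] at k3
  simp only [ContinuousLinearMap.prod_apply] at k3
  rw [real_inner_comm (gmtSimNFaN φ (G x).1) (m' v)] at k3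
  have k3' : ⟪gmtSimNFaN φ (G x).1, m' v⟫ = 0 := by linarith
  have k4 : ⟪gmtSimNFaN φ (G x).1, gmtSimNFaN φ (G x).1⟫ = 1 := by
    rw [real_inner_self_eq_norm_sq, gmtSimNFaN_norm (h0 _ hxU)]; norm_num
  have k5 : ⟪gmtSimNFaN φ (G x).1, π' v⟫ = 0 := by
    unfold gmtSimNFaN
    rw [inner_smul_left, gmtSim_inner_gradient, k2]; simp
  rw [k3', k4, k5] at k1
  linarith

theorem gmtSimNFa_sign {p : E k} {ρ : ℝ} {φ : E k → ℝ} (hφ : ContDiffOn ℝ ∞ φ (ball p ρ))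
    (hpos : ∀ ξ ∈ ball p ρ, ∀ y ∈ ball p ρ, 0 < ⟪gradient φ ξ, gradient φ y⟫)
    {x y : E k} {s : ℝ} (hx : x ∈ ball p ρ) (hy : y ∈ ball p ρ)
    (hxy : y + s • gmtSimNFaN φ y = x) (hy0 : φ y = 0) :
    ∃ c > 0, φ x = s * c := by
  have hU : IsOpen (ball p ρ) := isOpen_ball
  obtain ⟨z, hz, hz'⟩ := domain_mvt (f := φ) (s := ball p ρ) (x := y) (y := x)
    (f' := fderiv ℝ φ)
    (fun w hw => (((hφ.contDiffAt (hU.mem_nhds hw)).differentiableAt
      (by simp)).hasFDerivAt).hasFDerivWithinAt) (convex_ball p ρ) hy hx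
  have hzU : z ∈ ball p ρ := (convex_ball p ρ).segment_subset hy hx hz
  have hgy : 0 < ‖gradient φ y‖ := by
    have := hpos y hy y hy
    rw [real_inner_self_eq_norm_sq] at this
    by_contra hc
    have h0 : ‖gradient φ y‖ = 0 := le_antisymm (not_lt.1 hc) (norm_nonneg _)
    rw [h0] at this; norm_num at this
  refine ⟨‖gradient φ y‖⁻¹ * ⟪gradient φ z, gradient φ y⟫,
    mul_pos (inv_pos.2 hgy) (hpos z hzU y hy), ?_⟩
  have h1 : x - y = s • gmtSimNFaN φ y := by rw [← hxy]; abel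
  rw [hy0, sub_zero, h1, map_smul, ← gmtSim_inner_gradient] at hz'
  rw [hz']
  unfold gmtSimNFaN
  rw [inner_smul_right, smul_eq_mul]

/-- (A) -/
theorem gmtSim_nf_local {p : E k} {r : ℝ} (hr : 0 < r) {φ : E k → ℝ}
    (hφ : ContDiffOn ℝ ∞ φ (ball p r)) (hp : φ p = 0) (hφ' : ∀ y ∈ ball p r, fderiv ℝ φ y ≠ 0) :
    ∃ ρ > 0, ρ ≤ r ∧ ∃ d : E k → ℝ, ContDiffOn ℝ ∞ d (ball p ρ) ∧
      ∀ x ∈ ball p ρ, ‖gradient d x‖ = 1 ∧ (d x < 0 ↔ φ x < 0) ∧ (d x = 0 ↔ φ x = 0) ∧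
        gmtSimPi d x ∈ ball p r ∧ φ (gmtSimPi d x) = 0 ∧
        gradient d x = ‖gradient φ (gmtSimPi d x)‖⁻¹ • gradient φ (gmtSimPi d x) := by
  have hU : IsOpen (ball p r) := isOpen_ball
  have hpU : p ∈ ball p r := mem_ball_self hr
  have h0 : ∀ y ∈ ball p r, gradient φ y ≠ 0 := fun y hy => gmtSimNFa_grad_ne (hφ' y hy)
  obtain ⟨L, hL⟩ := gmtSimNFa_equiv hU hφ h0 hpU
  have hΨ : ContDiffAt ℝ ∞ (gmtSimNFaPsi φ) (p, (0:ℝ)) := gmtSimNFaPsi_contDiffAt hU hφ h0 hpU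
  have hn1 : (∞ : WithTop ℕ∞) ≠ 0 := by simp
  set e := hΨ.toOpenPartialHomeomorph (gmtSimNFaPsi φ) hL hn1 with he
  have hecoe : (e : E k × ℝ → E k × ℝ) = gmtSimNFaPsi φ := hΨ.toOpenPartialHomeomorph_coe hL hn1
  have hsrc : (p, (0:ℝ)) ∈ e.source := hΨ.mem_toOpenPartialHomeomorph_source hL hn1
  have hΨp : gmtSimNFaPsi φ (p, 0) = (p, 0) := by simp [gmtSimNFaPsi, hp]
  have htgt : (p, (0:ℝ)) ∈ e.target := by
    have := e.map_source hsrc
    rwa [hecoe, hΨp] at this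
  have hGp : e.symm (p, 0) = (p, 0) := by
    have := e.left_inv hsrc
    rwa [hecoe, hΨp] at this
  set G : E k → E k × ℝ := fun x => e.symm (x, 0) with hG
  have hιc : ContinuousAt (fun x : E k => (x, (0:ℝ))) p := by fun_prop
  have hGt : Tendsto G (𝓝 p) (𝓝 (p, 0)) := by
    have h1 : ContinuousAt e.symm (p, 0) := e.symm.continuousAt htgt
    have h2 := ContinuousAt.comp (g := e.symm) (f := fun x : E k => (x, (0:ℝ))) h1 hιc
    have h3 : Tendsto G (𝓝 p) (𝓝 (G p)) := h2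
    rwa [show G p = (p, 0) from hGp] at h3
  -- positivity radius
  have hpos : ∀ᶠ q : E k × E k in 𝓝 (p, p), 0 < ⟪gradient φ q.1, gradient φ q.2⟫ := by
    have hgc : ContinuousAt (gradient φ) p :=
      ((gmtSim_contDiffOn_gradient hU hφ).continuousOn).continuousAt (hU.mem_nhds hpU)
    have h1 : ContinuousAt (fun q : E k × E k => gradient φ q.1) (p, p) :=
      ContinuousAt.comp (g := gradient φ) (f := Prod.fst) hgc continuousAt_fst
    have h2 : ContinuousAt (fun q : E k × E k => gradient φ q.2) (p, p) :=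
      ContinuousAt.comp (g := gradient φ) (f := Prod.snd) hgc continuousAt_snd
    have h3 : ContinuousAt (fun q : E k × E k => ⟪gradient φ q.1, gradient φ q.2⟫) (p, p) :=
      h1.inner h2
    refine h3.eventually (lt_mem_nhds ?_)
    show 0 < ⟪gradient φ p, gradient φ p⟫
    rw [real_inner_self_eq_norm_sq]
    have := norm_pos_iff.2 (h0 p hpU)
    positivity
  obtain ⟨ε, hε, hε'⟩ := Metric.eventually_nhds_iff_ball.1 hpos
  set ρ1 := min ε r with hρ1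
  have hρ1pos : 0 < ρ1 := lt_min hε hr
  have hρ1r : ball p ρ1 ⊆ ball p r := ball_subset_ball (min_le_right _ _)
  have hpos1 : ∀ ξ ∈ ball p ρ1, ∀ y ∈ ball p ρ1, 0 < ⟪gradient φ ξ, gradient φ y⟫ := by
    intro ξ hξ y hy
    refine hε' (ξ, y) ?_
    rw [← ball_prod_same]
    exact ⟨ball_subset_ball (min_le_left _ _) hξ, ball_subset_ball (min_le_left _ _) hy⟩
  -- good points of the source
  have hW : ∀ᶠ w in 𝓝 (p, (0:ℝ)), w.1 ∈ ball p ρ1 ∧ fderiv ℝ (gmtSimNFaPsi φ) w ∈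
      range ((↑) : ((E k × ℝ) ≃L[ℝ] (E k × ℝ)) → ((E k × ℝ) →L[ℝ] (E k × ℝ))) := by
    have h1 : ∀ᶠ w : E k × ℝ in 𝓝 (p, (0:ℝ)), w.1 ∈ ball p ρ1 :=
      continuousAt_fst.eventually (isOpen_ball.mem_nhds (mem_ball_self hρ1pos))
    have h2 : ContinuousAt (fderiv ℝ (gmtSimNFaPsi φ)) (p, (0:ℝ)) :=
      (hΨ.fderiv_right (m := 0) (by simp)).continuousAt
    have h3 := h2.eventually (by rw [hL.fderiv]; exact ContinuousLinearEquiv.nhds L)
    exact h1.and h3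
  have htg : ∀ᶠ x in 𝓝 p, (x, (0:ℝ)) ∈ e.target :=
    hιc.eventually (e.open_target.mem_nhds htgt)
  have hQ : ∀ᶠ x in 𝓝 p, ContDiffAt ℝ ∞ G x ∧ (G x).1 ∈ ball p ρ1 ∧
      gmtSimNFaPsi φ (G x) = (x, 0) ∧ x ∈ ball p ρ1 := by
    filter_upwards [hGt.eventually hW, htg, isOpen_ball.mem_nhds (mem_ball_self hρ1pos)]
      with x hx1 hx2 hx3
    obtain ⟨hx1a, L', hL'⟩ := hx1
    have hc : ContDiffAt ℝ ∞ (gmtSimNFaPsi φ) (G x) :=
      gmtSimNFaPsi_contDiffAt hU hφ h0 (hρ1r hx1a)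
    refine ⟨?_, hx1a, ?_, hx3⟩
    · have h1 : ContDiffAt ℝ ∞ e.symm (x, (0:ℝ)) := by
        refine e.contDiffAt_symm hx2 (f₀' := L') ?_ ?_
        · rw [hL', hecoe]
          exact (hc.differentiableAt (by simp)).hasFDerivAt
        · rw [hecoe]; exact hc
      exact ContDiffAt.comp (g := e.symm) (f := fun x : E k => (x, (0:ℝ))) x h1
        (contDiffAt_id.prodMk contDiffAt_const)
    · have := e.right_inv hx2
      rwa [hecoe] at this
  obtain ⟨ρ2, hρ2, hρ2'⟩ := Metric.eventually_nhds_iff_ball.1 hQ.eventually_nhds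
  refine ⟨min ρ2 r, lt_min hρ2 hr, min_le_right _ _, fun x => (G x).2, ?_, ?_⟩
  · intro x hx
    have := (hρ2' x (ball_subset_ball (min_le_left _ _) hx)).self_of_nhds.1
    exact this.snd.contDiffWithinAt
  · intro x hx
    have hxe := hρ2' x (ball_subset_ball (min_le_left _ _) hx)
    obtain ⟨hx1, hx2, hx3, hx4⟩ := hxe.self_of_nhds
    have hgr : gradient (fun y => (G y).2) x = gmtSimNFaN φ (G x).1 := by
      refine gmtSimNFa_point hU hφ h0 (hx1.differentiableAt (by simp)) ?_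
      filter_upwards [hxe] with y hy
      exact ⟨hρ1r hy.2.1, hy.2.2.1⟩
    have hx3a : (G x).1 + (G x).2 • gmtSimNFaN φ (G x).1 = x := congrArg Prod.fst hx3
    have hx3b : φ (G x).1 = 0 := congrArg Prod.snd hx3
    have hpi : gmtSimPi (fun y => (G y).2) x = (G x).1 := by
      unfold gmtSimPi
      rw [hgr]
      nth_rewrite 1 [← hx3a]
      abel
    obtain ⟨c, hc, hc'⟩ := gmtSimNFa_sign (hφ.mono hρ1r) hpos1 hx4 hx2 hx3a hx3b
    refine ⟨?_, ?_, ?_, ?_, ?_, ?_⟩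
    · rw [hgr]; exact gmtSimNFaN_norm (h0 _ (hρ1r hx2))
    · rw [hc']
      constructor
      · intro h; exact mul_neg_of_neg_of_pos h hc
      · intro h
        by_contra hcon
        exact absurd h (not_lt.2 (mul_nonneg (not_lt.1 hcon) hc.le))
    · rw [hc']
      constructor
      · intro h
        have h' : (G x).2 = 0 := h
        rw [h', zero_mul]
      · intro h; exact (mul_eq_zero.1 h).resolve_right hc.ne'
    · rw [hpi]; exact hρ1r hx2
    · rw [hpi]; exact hx3b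
    · rw [hpi, hgr]; rfl

end Claimed.Agent.Gmt
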