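import Claimed.Agent.Lib.Gmt.SimInt

/-!
# Lib/Gmt [G7 Simons] `SimRadA`: the radial test functions; `a = 0` for `3 ≤ k ≤ 7`.   (architect: helper257)

`ℓ x = log |x|`, `β = (k-5)/2` (`β² ≤ 1`), weight `w x = a x · |x|^(3-k)` (`zpow`), shells `A_j = {x | j ≤ ℓ x < j+1}`, `j : ℤ`.
1. `gmtSim_scaling`: `∫ g dμ = t^(k-1) ∫ g(t·) dμ` for a cone (`integral_gmtMu_gmtDil` with `x = 0`, and `gmtMu (gmtDil 0 t S) = gmtMu S` from `gmtMu_restrict_congr` on `univ`).
2. `gmtSim_shell`: `m_j := ∫_{A_j} w dμ = m_0` (scaling with `t = e^j`, `homA`: `a(tx) = t⁻² a(x)` on `Σ`; `μ` lives on `Σ`), `0 ≤ m_0 < ∞` (`w` is bounded on the part of `Σ` in the compact shell, `gmtMu_compact_ne_top`).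
3. `gmtSim_radial_test`: for `G ∈ C_c^∞(ℝ)`, `ψ = G ∘ ℓ = gmtSimRad G ∈ C_c^∞(E k \ 0)` and `∇ψ = G'(ℓ x) x/|x|²`, `|∇ψ|² = G'(ℓ)²/|x|²`.   (`ℓ = (1/2) log |x|²` is smooth off `0`; the support is contained in the compact shell `ℓ⁻¹(tsupport G)`.)
4. `G = e^{-βs} f(s)`: `G² = e^{-2βs} f²`, `G'² = e^{-2βs}(f' - βf)² ≤ e^{-2βs} (3 f'² + (β² + 1/2) f²)`  (`2|β f f'| ≤ f²/2 + 2β² f'²`, `β² ≤ 1`), and `e^{-2βℓ(x)}/|x|² = |x|^(3-k)`.
   `gmtSim_weighted` gives  `(3/2 - β²) ∫ f(ℓ)² w dμ ≤ 3 ∫ f'(ℓ)² w dμ`, hence `(1/2) ∫ f(ℓ)² w ≤ 3 ∫ f'(ℓ)² w`.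
5. `f = f₀(s/n)`, `f₀` a smooth bump: `f₀ = 1` on `[-1,1]`, support in `[-2,2]`, `|f₀'| ≤ C₀`.   `∫ f(ℓ)² w ≥ 2n m_0`, `∫ f'(ℓ)² w ≤ (C₀/n)² 4n m_0`.   So `n m_0 ≤ 12 C₀² m_0/n` for all `n`: `m_0 = 0`.
6. `w ≥ 0` continuous on `U`, `∫_{A_j} w dμ = 0` for all `j` `⟹ a = 0` `μ`-a.e. off `0` `⟹ a = 0` on `Σ \ 0`: if `a p > 0` then `a > 0` on a ball around `p`, which has positive `μ` measure (`gmtBd_iff_gmtMu`).

THIS FILE: steps 1, 2.
-/

set_option autoImplicit false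
open scoped ContDiff ENNReal RealInnerProductSpace Topology
open MeasureTheory Metric Set Filter

namespace Claimed.Agent.Gmt

variable {k : ℕ}

/-- 1. scaling of the perimeter measure of a cone. -/
theorem gmtSim_scaling {S : Set (E k)} (hS : MeasurableSet S) (hc : GmtCone S) {t : ℝ} (ht : 0 < t)
    (g : E k → ℝ) : t * ∫ x, g x ∂(gmtMu S) = t ^ k * ∫ x, g (t • x) ∂(gmtMu S) := by
  have h1 := integral_gmtMu_gmtDil hS 0 ht g
  have h2 : gmtMu (gmtDil 0 t S) = gmtMu S := by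
    have := gmtMu_restrict_congr isOpen_univ (measurableSet_gmtDil hS 0 t) hS
      (by simpa using hc t ht)
    simpa using this
  rw [h2] at h1
  simp only [zero_add] at h1
  exact h1.symm

/-- the weight. -/
noncomputable def gmtSimW (u : E k → ℝ) (x : E k) : ℝ := gmtSimA u x * ‖x‖ ^ (3 - (k : ℤ))

/-- the shell `{a ≤ log |x| < b}`. -/
def gmtSimShell (k : ℕ) (a b : ℝ) : Set (E k) := {x | x ≠ 0 ∧ a ≤ Real.log ‖x‖ ∧ Real.log ‖x‖ < b}

theorem gmtSimRad_measurableSet_shell (k : ℕ) (a b : ℝ) : MeasurableSet (gmtSimShell k a b) := by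
  have h1 : MeasurableSet {x : E k | x ≠ 0} := (measurableSet_singleton (0 : E k)).compl
  have hm : Measurable fun x : E k => Real.log ‖x‖ := Real.measurable_log.comp measurable_norm
  have h2 : MeasurableSet {x : E k | a ≤ Real.log ‖x‖} := measurableSet_le measurable_const hm
  have h3 : MeasurableSet {x : E k | Real.log ‖x‖ < b} := measurableSet_lt hm measurable_const
  exact h1.inter (h2.inter h3)

theorem gmtSimRad_W_continuousOn {S U : Set (E k)} {u : E k → ℝ} (hc : GmtSimTube S U u) :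
    ContinuousOn (gmtSimW u) U := by
  have h1 : ContinuousOn (gmtSimA u) U := (gmtSim_contDiffOn_A hc.opn hc.smooth).continuousOn
  refine h1.mul ?_
  intro x hx
  have hx0 : x ≠ 0 := fun h => hc.zero (h ▸ hx)
  have : ContinuousAt (fun x : E k => ‖x‖ ^ (3 - (k : ℤ))) x :=
    ContinuousAt.zpow₀ continuous_norm.continuousAt _ (Or.inl (norm_ne_zero_iff.mpr hx0))
  exact this.continuousWithinAt

theorem gmtSimRad_finCompacts {S : Set (E k)} (hmin : GmtMin univ S) :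
    IsFiniteMeasureOnCompacts (gmtMu S) :=
  ⟨fun _ hK => lt_top_iff_ne_top.2
    (gmtMu_compact_ne_top isOpen_univ (gmtSim_min_lf hmin) hK (subset_univ _))⟩

theorem gmtSimRad_shell_ae {S : Set (E k)} (hS : MeasurableSet S) (T : Set (E k)) :
    (T ∩ gmtBd S : Set (E k)) =ᵐ[gmtMu S] T := by
  have h0 := gmtMu_compl_gmtBd hS
  have h1 : ∀ᵐ x ∂(gmtMu S), x ∈ gmtBd S := by
    rw [ae_iff]; exact h0
  filter_upwards [h1] with x hx
  exact propext ⟨fun h => h.1, fun h => ⟨h, hx⟩⟩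

/-- the closed annulus containing a shell is compact. -/
theorem gmtSimRad_annulus_compact (k : ℕ) (a b : ℝ) :
    IsCompact {x : E k | Real.exp a ≤ ‖x‖ ∧ ‖x‖ ≤ Real.exp b} := by
  have h1 : IsClosed {x : E k | Real.exp a ≤ ‖x‖ ∧ ‖x‖ ≤ Real.exp b} :=
    (isClosed_le continuous_const continuous_norm).inter (isClosed_le continuous_norm continuous_const)
  refine (isCompact_closedBall (0 : E k) (Real.exp b)).of_isClosed_subset h1 ?_
  intro x hx
  rw [mem_closedBall_zero_iff]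
  exact hx.2

theorem gmtSimRad_shell_subset (k : ℕ) (a b : ℝ) :
    gmtSimShell k a b ⊆ {x : E k | Real.exp a ≤ ‖x‖ ∧ ‖x‖ ≤ Real.exp b} := by
  intro x hx
  have hpos : 0 < ‖x‖ := norm_pos_iff.mpr hx.1
  refine ⟨?_, ?_⟩
  · rw [← Real.le_log_iff_exp_le hpos]; exact hx.2.1
  · rw [← Real.log_le_iff_le_exp hpos]; exact hx.2.2.le

/-- integrability of the weight on shells (no cone hypothesis). -/
theorem gmtSimRad_integrableOn {S U : Set (E k)} {u : E k → ℝ} (hmin : GmtMin univ S)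
    (hc : GmtSimTube S U u) (a b : ℝ) :
    IntegrableOn (gmtSimW u) (gmtSimShell k a b) (gmtMu S) := by
  have := gmtSimRad_finCompacts hmin
  have hK : IsCompact ({x : E k | Real.exp a ≤ ‖x‖ ∧ ‖x‖ ≤ Real.exp b} ∩ gmtBd S) :=
    (gmtSimRad_annulus_compact k a b).inter_right (isClosed_gmtBd S)
  have hKU : ({x : E k | Real.exp a ≤ ‖x‖ ∧ ‖x‖ ≤ Real.exp b} ∩ gmtBd S) ⊆ U := by
    intro x hx
    refine hc.bd x hx.2 ?_
    intro h0
    have := hx.1.1
    rw [h0, norm_zero] at this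
    exact absurd this (not_le.mpr (Real.exp_pos a))
  have h1 : IntegrableOn (gmtSimW u)
      ({x : E k | Real.exp a ≤ ‖x‖ ∧ ‖x‖ ≤ Real.exp b} ∩ gmtBd S) (gmtMu S) :=
    ((gmtSimRad_W_continuousOn hc).mono hKU).integrableOn_compact hK
  have h2 : IntegrableOn (gmtSimW u) (gmtSimShell k a b ∩ gmtBd S) (gmtMu S) :=
    h1.mono_set (inter_subset_inter_left _ (gmtSimRad_shell_subset k a b))
  exact h2.congr_set_ae (gmtSimRad_shell_ae hmin.meas _).symm

theorem gmtSimRad_smul_mem_shell {t : ℝ} (ht : 0 < t) (a b : ℝ) (x : E k) :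
    t • x ∈ gmtSimShell k (Real.log t + a) (Real.log t + b) ↔ x ∈ gmtSimShell k a b := by
  unfold gmtSimShell
  simp only [mem_ofPred_eq, ne_eq, smul_eq_zero, ht.ne', false_or]
  by_cases hx : x = 0
  · simp [hx]
  · have hpos : ‖x‖ ≠ 0 := norm_ne_zero_iff.mpr hx
    rw [norm_smul, Real.norm_eq_abs, abs_of_pos ht, Real.log_mul ht.ne' hpos]
    simp

/-- 2. all unit shells have the same finite mass. -/
theorem gmtSim_shell {S U : Set (E k)} {u : E k → ℝ} (hmin : GmtMin univ S) (hcone : GmtCone S)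
    (hc : GmtSimCone S U u) :
    (∀ a b : ℝ, IntegrableOn (gmtSimW u) (gmtSimShell k a b) (gmtMu S)) ∧
    ∀ j : ℤ, ∫ x in gmtSimShell k j (j + 1), gmtSimW u x ∂(gmtMu S) =
      ∫ x in gmtSimShell k 0 1, gmtSimW u x ∂(gmtMu S) := by
  refine ⟨fun a b => gmtSimRad_integrableOn hmin hc.toGmtSimTube a b, fun j => ?_⟩
  obtain ⟨t, ht, hlog⟩ : ∃ t : ℝ, 0 < t ∧ Real.log t = j := ⟨Real.exp j, Real.exp_pos _, Real.log_exp _⟩
  have hsc := gmtSim_scaling hmin.meas hcone ht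
    ((gmtSimShell k j (j + 1)).indicator (gmtSimW u))
  rw [integral_indicator (gmtSimRad_measurableSet_shell k _ _)] at hsc
  have h1 : ∀ᵐ x ∂(gmtMu S), x ∈ gmtBd S := by
    rw [ae_iff]; exact gmtMu_compl_gmtBd hmin.meas
  have h2 : (fun x => (gmtSimShell k j (j + 1)).indicator (gmtSimW u) (t • x)) =ᵐ[gmtMu S]
      fun x => (t * (t ^ k)⁻¹) * (gmtSimShell k 0 1).indicator (gmtSimW u) x := by
    filter_upwards [h1] with x hx
    have hiff : t • x ∈ gmtSimShell k j (j + 1) ↔ x ∈ gmtSimShell k 0 1 := by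
      have := gmtSimRad_smul_mem_shell (k := k) ht 0 1 x
      rwa [hlog, add_zero] at this
    by_cases hxs : x ∈ gmtSimShell k 0 1
    · rw [indicator_of_mem (hiff.mpr hxs), indicator_of_mem hxs]
      unfold gmtSimW
      rw [hc.homA x hx hxs.1 t ht, norm_smul, Real.norm_eq_abs, abs_of_pos ht, mul_zpow,
        zpow_sub₀ ht.ne', zpow_natCast]
      have : t ^ (3 : ℤ) = t ^ 3 := by norm_cast
      rw [this]
      field_simp
    · rw [indicator_of_notMem (fun h => hxs (hiff.mp h)), indicator_of_notMem hxs, mul_zero]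
  rw [integral_congr_ae h2, integral_const_mul,
    integral_indicator (gmtSimRad_measurableSet_shell k _ _)] at hsc
  have h3 : t ^ k * (t * (t ^ k)⁻¹ * ∫ x in gmtSimShell k 0 1, gmtSimW u x ∂(gmtMu S)) =
      t * ∫ x in gmtSimShell k 0 1, gmtSimW u x ∂(gmtMu S) := by
    field_simp
  rw [h3] at hsc
  exact mul_left_cancel₀ ht.ne' hsc

end Claimed.Agent.Gmt
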