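import Claimed.Agent.Lib.Gmt.SimRadA

/-!
# Lib/Gmt [G7 Simons] `SimRadB`: the radial test functions; `a = 0` for `3 ≤ k ≤ 7`.   (architect: helper257)

`ℓ x = log |x|`, `β = (k-5)/2` (`β² ≤ 1`), weight `w x = a x · |x|^(3-k)` (`zpow`), shells `A_j = {x | j ≤ ℓ x < j+1}`, `j : ℤ`.
1. `gmtSim_scaling`: `∫ g dμ = t^(k-1) ∫ g(t·) dμ` for a cone (`integral_gmtMu_gmtDil` with `x = 0`, and `gmtMu (gmtDil 0 t S) = gmtMu S` from `gmtMu_restrict_congr` on `univ`).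
2. `gmtSim_shell`: `m_j := ∫_{A_j} w dμ = m_0` (scaling with `t = e^j`, `homA`: `a(tx) = t⁻² a(x)` on `Σ`; `μ` lives on `Σ`), `0 ≤ m_0 < ∞` (`w` is bounded on the part of `Σ` in the compact shell, `gmtMu_compact_ne_top`).
3. `gmtSim_radial_test`: for `G ∈ C_c^∞(ℝ)`, `ψ = G ∘ ℓ = gmtSimRad G ∈ C_c^∞(E k \ 0)` and `∇ψ = G'(ℓ x) x/|x|²`, `|∇ψ|² = G'(ℓ)²/|x|²`.   (`ℓ = (1/2) log |x|²` is smooth off `0`; the support is contained in the compact shell `ℓ⁻¹(tsupport G)`.)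
4. `G = e^{-βs} f(s)`: `G² = e^{-2βs} f²`, `G'² = e^{-2βs}(f' - βf)² ≤ e^{-2βs} (3 f'² + (β² + 1/2) f²)`  (`2|β f f'| ≤ f²/2 + 2β² f'²`, `β² ≤ 1`), and `e^{-2βℓ(x)}/|x|² = |x|^(3-k)`.
   `gmtSim_weighted` gives  `(3/2 - β²) ∫ f(ℓ)² w dμ ≤ 3 ∫ f'(ℓ)² w dμ`, hence `(1/2) ∫ f(ℓ)² w ≤ 3 ∫ f'(ℓ)² w`.
5. `f = f₀(s/n)`, `f₀` a smooth bump: `f₀ = 1` on `[-1,1]`, support in `[-2,2]`, `|f₀'| ≤ C₀`.   `∫ f(ℓ)² w ≥ 2n m_0`, `∫ f'(ℓ)² w ≤ (C₀/n)² 4n m_0`.   So `n m_0 ≤ 12 C₀² m_0/n` for all `n`: `m_0 = 0`.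
6. `w ≥ 0` continuous on `U`, `∫_{A_j} w dμ = 0` for all `j` `⟹ a = 0` `μ`-a.e. off `0` `⟹ a = 0` on `Σ \ 0`: if `a p > 0` then `a > 0` on a ball around `p`, which has positive `μ` measure (`gmtBd_iff_gmtMu`).

THIS FILE: steps 3, 4.
-/

set_option autoImplicit false
open scoped ContDiff ENNReal RealInnerProductSpace Topology
open MeasureTheory Metric Set Filter

namespace Claimed.Agent.Gmt

variable {k : ℕ}

open Classical in
/-- the radial function `G (log |x|)` (value `0` at the origin: `Real.log 0 = 0` is junk). -/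
noncomputable def gmtSimRad (G : ℝ → ℝ) (x : E k) : ℝ := if x = 0 then 0 else G (Real.log ‖x‖)

theorem gmtSimRad_zero (G : ℝ → ℝ) : gmtSimRad G (0 : E k) = 0 := by simp [gmtSimRad]

theorem gmtSimRad_of_ne (G : ℝ → ℝ) {x : E k} (hx : x ≠ 0) :
    gmtSimRad G x = G (Real.log ‖x‖) := by simp [gmtSimRad, hx]

theorem gmtSimRad_exists_R {G : ℝ → ℝ} (hc : HasCompactSupport G) :
    ∃ R : ℝ, 0 < R ∧ ∀ s, R < |s| → G s = 0 := by
  obtain ⟨R, hR⟩ := hc.isCompact.isBounded.subset_closedBall 0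
  refine ⟨max R 1, lt_max_of_lt_right one_pos, fun s hs => ?_⟩
  by_contra h
  have h1 : s ∈ tsupport G := subset_tsupport G h
  have h2 := hR h1
  rw [mem_closedBall_zero_iff, Real.norm_eq_abs] at h2
  exact absurd (lt_of_le_of_lt (le_max_left R 1) hs) (not_lt.mpr h2)

theorem gmtSimRad_support {G : ℝ → ℝ} {R : ℝ} (hR : ∀ s, R < |s| → G s = 0) :
    Function.support (gmtSimRad G : E k → ℝ) ⊆ gmtSimShell k (-R) (R + 1) := by
  intro x hx
  have hx0 : x ≠ 0 := by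
    intro h; apply hx; rw [h]; exact gmtSimRad_zero G
  have h1 : G (Real.log ‖x‖) ≠ 0 := by
    rw [← gmtSimRad_of_ne G hx0]; exact hx
  have h2 : |Real.log ‖x‖| ≤ R := by
    by_contra h
    exact h1 (hR _ (not_le.mp h))
  rw [abs_le] at h2
  exact ⟨hx0, h2.1, by linarith [h2.2]⟩

theorem gmtSimRad_eventuallyEq (G : ℝ → ℝ) {x : E k} (hx : x ≠ 0) :
    (gmtSimRad G : E k → ℝ) =ᶠ[𝓝 x] fun y => G (Real.log ‖y‖) := by
  filter_upwards [isOpen_compl_singleton.mem_nhds (show x ∈ ({0}ᶜ : Set (E k)) from hx)] with y hy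
  exact gmtSimRad_of_ne G hy

theorem gmtSimRad_hasFDerivAt_log {x : E k} (hx : x ≠ 0) :
    HasFDerivAt (fun y : E k => Real.log ‖y‖) ((‖x‖ ^ 2)⁻¹ • innerSL ℝ x) x := by
  have h1 : HasFDerivAt (fun y : E k => ‖y‖ ^ 2) (2 • innerSL ℝ x) x :=
    (hasStrictFDerivAt_norm_sq x).hasFDerivAt
  have hne : ‖x‖ ^ 2 ≠ 0 := by positivity
  have h2 := (h1.log hne).const_mul (1 / 2 : ℝ)
  have e1 : (fun y : E k => (1 / 2 : ℝ) * Real.log (‖y‖ ^ 2)) = fun y => Real.log ‖y‖ := by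
    funext y; rw [Real.log_pow]; push_cast; ring
  have e2 : (1 / 2 : ℝ) • ((‖x‖ ^ 2)⁻¹ • (2 • innerSL ℝ x : E k →L[ℝ] ℝ)) =
      (‖x‖ ^ 2)⁻¹ • innerSL ℝ x := by
    ext v
    simp
    ring
  rw [e1, e2] at h2
  exact h2

/-- 3. radial test functions. -/
theorem gmtSim_radial_test (k : ℕ) {G : ℝ → ℝ} (hG : ContDiff ℝ ∞ G) (hc : HasCompactSupport G) :
    GmtTestS0 ({0}ᶜ : Set (E k)) (gmtSimRad G) ∧
      ∀ x : E k, x ≠ 0 → ‖gradient (gmtSimRad G : E k → ℝ) x‖ ^ 2 =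
        deriv G (Real.log ‖x‖) ^ 2 / ‖x‖ ^ 2 := by
  obtain ⟨R, hR0, hR⟩ := gmtSimRad_exists_R hc
  have hsupp : tsupport (gmtSimRad G : E k → ℝ) ⊆
      {x : E k | Real.exp (-R) ≤ ‖x‖ ∧ ‖x‖ ≤ Real.exp (R + 1)} := by
    refine closure_minimal ((gmtSimRad_support hR).trans (gmtSimRad_shell_subset k _ _)) ?_
    exact (gmtSimRad_annulus_compact k _ _).isClosed
  have hsub : tsupport (gmtSimRad G : E k → ℝ) ⊆ ({0}ᶜ : Set (E k)) := by
    intro x hx h0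
    have := (hsupp hx).1
    rw [mem_singleton_iff.mp h0, norm_zero] at this
    exact absurd this (not_le.mpr (Real.exp_pos _))
  refine ⟨⟨?_, ?_, hsub⟩, ?_⟩
  · rw [contDiff_iff_contDiffAt]
    intro x
    by_cases hx : x = 0
    · have hx' : x ∉ tsupport (gmtSimRad G : E k → ℝ) := fun h => hsub h hx
      have : (gmtSimRad G : E k → ℝ) =ᶠ[𝓝 x] fun _ => 0 := notMem_tsupport_iff_eventuallyEq.mp hx'
      exact contDiffAt_const.congr_of_eventuallyEq this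
    · have h1 : ContDiffAt ℝ ∞ (fun y : E k => Real.log ‖y‖) x :=
        (contDiffAt_norm ℝ hx).log (norm_ne_zero_iff.mpr hx)
      exact (hG.contDiffAt.comp x h1).congr_of_eventuallyEq (gmtSimRad_eventuallyEq G hx)
  · exact (gmtSimRad_annulus_compact k _ _).of_isClosed_subset (isClosed_tsupport _) hsupp
  · intro x hx
    have hd : HasDerivAt G (deriv G (Real.log ‖x‖)) (Real.log ‖x‖) :=
      (hG.differentiable (by simp) _).hasDerivAt
    have h1 := hd.comp_hasFDerivAt x (gmtSimRad_hasFDerivAt_log hx)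
    have h2 : fderiv ℝ (gmtSimRad G : E k → ℝ) x =
        deriv G (Real.log ‖x‖) • ((‖x‖ ^ 2)⁻¹ • innerSL ℝ x) := by
      rw [(gmtSimRad_eventuallyEq G hx).fderiv_eq]
      exact h1.fderiv
    have hpos : 0 < ‖x‖ := norm_pos_iff.mpr hx
    unfold gradient
    rw [LinearIsometryEquiv.norm_map, h2, norm_smul, norm_smul, innerSL_apply_norm,
      Real.norm_eq_abs, Real.norm_eq_abs, mul_pow, mul_pow, sq_abs, sq_abs]
    field_simp

theorem gmtSimRad_measurable {g : ℝ → ℝ} (hg : Continuous g) :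
    Measurable (gmtSimRad g : E k → ℝ) := by
  classical
  unfold gmtSimRad
  exact Measurable.ite (measurableSet_singleton 0) measurable_const
    (hg.measurable.comp (Real.measurable_log.comp measurable_norm))

theorem gmtSimRad_W_nonneg (u : E k → ℝ) (x : E k) : 0 ≤ gmtSimW u x :=
  mul_nonneg (gmtSim_A_nonneg u x) (zpow_nonneg (norm_nonneg _) _)

theorem gmtSimRad_integrable {S U : Set (E k)} {u : E k → ℝ} (hmin : GmtMin univ S)
    (hc : GmtSimTube S U u) {g : ℝ → ℝ} (hg : Continuous g) (hgc : HasCompactSupport g) :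
    Integrable (fun x => gmtSimRad g x ^ 2 * gmtSimW u x) (gmtMu S) := by
  obtain ⟨R, hR0, hR⟩ := gmtSimRad_exists_R hgc
  obtain ⟨C, hC⟩ := hg.bounded_above_of_compact_support hgc
  have hb : ∀ x : E k, ‖gmtSimRad g x ^ 2‖ ≤ C ^ 2 := by
    intro x
    rw [norm_pow]
    have hC0 : 0 ≤ C := (norm_nonneg _).trans (hC 0)
    have : ‖gmtSimRad g x‖ ≤ C := by
      by_cases hx : x = 0
      · rw [hx, gmtSimRad_zero, norm_zero]; exact hC0
      · rw [gmtSimRad_of_ne g hx]; exact hC _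
    exact pow_le_pow_left₀ (norm_nonneg _) this 2
  have h1 : IntegrableOn (fun x => gmtSimRad g x ^ 2 * gmtSimW u x) (gmtSimShell k (-R) (R + 1))
      (gmtMu S) :=
    Integrable.bdd_mul (c := C ^ 2) (gmtSimRad_integrableOn hmin hc _ _)
      ((gmtSimRad_measurable hg).pow_const 2).aestronglyMeasurable (Eventually.of_forall hb)
  refine (integrableOn_iff_integrable_of_support_subset ?_).mp h1
  intro x hx
  apply gmtSimRad_support hR
  intro h0
  apply hx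
  show gmtSimRad g x ^ 2 * gmtSimW u x = 0
  rw [h0]; ring

theorem gmtSimRad_exp_zpow {β : ℝ} (hβ : β = ((k : ℝ) - 5) / 2) {x : E k} (hx : x ≠ 0) :
    Real.exp (-β * Real.log ‖x‖) ^ 2 / ‖x‖ ^ 2 = ‖x‖ ^ (3 - (k : ℤ)) := by
  have hpos : 0 < ‖x‖ := norm_pos_iff.mpr hx
  have h1 : ‖x‖ ^ 2 = Real.exp ((2 : ℕ) * Real.log ‖x‖) := by
    rw [Real.exp_nat_mul, Real.exp_log hpos]
  rw [← Real.rpow_intCast, Real.rpow_def_of_pos hpos, h1, ← Real.exp_nat_mul, ← Real.exp_sub]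
  congr 1
  push_cast
  rw [hβ]
  ring

/-- 4. the one dimensional inequality. -/
theorem gmtSim_radial_ineq {S U : Set (E k)} {u : E k → ℝ} (hk : 3 ≤ k) (hk' : k ≤ 7)
    (hmin : GmtMin univ S) (hc : GmtSimCone S U u) {f : ℝ → ℝ} (hf : ContDiff ℝ ∞ f)
    (hfc : HasCompactSupport f) :
    ∫ x, gmtSimRad f x ^ 2 * gmtSimW u x ∂(gmtMu S) ≤
      6 * ∫ x, gmtSimRad (deriv f) x ^ 2 * gmtSimW u x ∂(gmtMu S) := by
  obtain ⟨β, hβ⟩ : ∃ β : ℝ, β = ((k : ℝ) - 5) / 2 := ⟨_, rfl⟩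
  have hβ1 : β ^ 2 ≤ 1 := by
    have h1 : (3 : ℝ) ≤ k := by exact_mod_cast hk
    have h2 : (k : ℝ) ≤ 7 := by exact_mod_cast hk'
    rw [hβ]; nlinarith
  obtain ⟨G, hGdef⟩ : ∃ G : ℝ → ℝ, G = fun s => Real.exp (-β * s) * f s := ⟨_, rfl⟩
  have hG : ContDiff ℝ ∞ G := by
    rw [hGdef]
    exact (Real.contDiff_exp.comp (contDiff_const.mul contDiff_id)).mul hf
  have hGc : HasCompactSupport G := by
    rw [hGdef]; exact hfc.mul_left
  have hdf : Differentiable ℝ f := hf.differentiable (by simp)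
  have hdG : ∀ s, deriv G s = Real.exp (-β * s) * (deriv f s - β * f s) := by
    intro s
    have h1 : HasDerivAt (fun s => Real.exp (-β * s)) (Real.exp (-β * s) * (-β * 1)) s :=
      ((hasDerivAt_id s).const_mul (-β)).exp
    have h2 : HasDerivAt (fun s => Real.exp (-β * s) * f s)
        (Real.exp (-β * s) * (-β * 1) * f s + Real.exp (-β * s) * deriv f s) s :=
      h1.mul (hdf s).hasDerivAt
    rw [hGdef, h2.deriv]
    ring
  obtain ⟨hT, hgrad⟩ := gmtSim_radial_test k hG hGc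
  have hw := gmtSim_weighted hmin hc hT
  have e1 : ∀ x, gmtSimA u x * gmtSimRad G x ^ 2 / ‖x‖ ^ 2 = gmtSimRad f x ^ 2 * gmtSimW u x := by
    intro x
    by_cases hx : x = 0
    · rw [hx, gmtSimRad_zero, gmtSimRad_zero]; simp
    · rw [gmtSimRad_of_ne G hx, gmtSimRad_of_ne f hx, hGdef]
      unfold gmtSimW
      rw [← gmtSimRad_exp_zpow hβ hx]
      ring
  have e2 : ∀ x, gmtSimA u x * ‖gradient (gmtSimRad G : E k → ℝ) x‖ ^ 2 =
      gmtSimRad (fun s => deriv f s - β * f s) x ^ 2 * gmtSimW u x := by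
    intro x
    by_cases hx : x = 0
    · have hx' : x ∉ tsupport (gmtSimRad G : E k → ℝ) := fun h => hT.sub h hx
      have h0 : (gmtSimRad G : E k → ℝ) =ᶠ[𝓝 x] fun _ => 0 :=
        notMem_tsupport_iff_eventuallyEq.mp hx'
      have h1 : gradient (gmtSimRad G : E k → ℝ) x = 0 := by
        unfold gradient
        rw [h0.fderiv_eq]
        simp
      rw [h1, hx, gmtSimRad_zero]; simp
    · rw [hgrad x hx, gmtSimRad_of_ne _ hx, hdG]
      unfold gmtSimW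
      rw [← gmtSimRad_exp_zpow hβ hx]
      ring
  simp only [e1, e2] at hw
  have hlin : ∀ x : E k, gmtSimRad (fun s => deriv f s - β * f s) x =
      gmtSimRad (deriv f) x - β * gmtSimRad f x := by
    intro x
    by_cases hx : x = 0
    · rw [hx, gmtSimRad_zero, gmtSimRad_zero, gmtSimRad_zero]; ring
    · rw [gmtSimRad_of_ne _ hx, gmtSimRad_of_ne _ hx, gmtSimRad_of_ne _ hx]
  have hcd : Continuous (deriv f) := hf.continuous_deriv (by simp)
  have i0 := gmtSimRad_integrable hmin hc.toGmtSimTube hf.continuous hfc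
  have i1 := gmtSimRad_integrable hmin hc.toGmtSimTube hcd hfc.deriv
  have i2 := gmtSimRad_integrable hmin hc.toGmtSimTube
    (hcd.sub (continuous_const.mul hf.continuous))
    (g := fun s => deriv f s - β * f s) (hfc.deriv.sub hfc.mul_left)
  have hle : ∫ x, gmtSimRad (fun s => deriv f s - β * f s) x ^ 2 * gmtSimW u x ∂(gmtMu S) ≤
      ∫ x, (3 * (gmtSimRad (deriv f) x ^ 2 * gmtSimW u x) +
        (β ^ 2 + 1 / 2) * (gmtSimRad f x ^ 2 * gmtSimW u x)) ∂(gmtMu S) := by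
    refine integral_mono i2 ((i1.const_mul 3).add (i0.const_mul _)) fun x => ?_
    show gmtSimRad (fun s => deriv f s - β * f s) x ^ 2 * gmtSimW u x ≤
      3 * (gmtSimRad (deriv f) x ^ 2 * gmtSimW u x) +
        (β ^ 2 + 1 / 2) * (gmtSimRad f x ^ 2 * gmtSimW u x)
    rw [hlin]
    have hW := gmtSimRad_W_nonneg u x
    obtain ⟨a, ha⟩ : ∃ a : ℝ, a = gmtSimRad (deriv f) x := ⟨_, rfl⟩
    obtain ⟨b, hb⟩ : ∃ b : ℝ, b = gmtSimRad f x := ⟨_, rfl⟩
    rw [← ha, ← hb]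
    have key : (a - β * b) ^ 2 ≤ 3 * a ^ 2 + (β ^ 2 + 1 / 2) * b ^ 2 := by
      have h1 : 0 ≤ (b + 2 * β * a) ^ 2 := sq_nonneg _
      have h2 : 0 ≤ (1 - β ^ 2) * a ^ 2 := mul_nonneg (by linarith) (sq_nonneg _)
      nlinarith
    calc (a - β * b) ^ 2 * gmtSimW u x ≤ (3 * a ^ 2 + (β ^ 2 + 1 / 2) * b ^ 2) * gmtSimW u x :=
          mul_le_mul_of_nonneg_right key hW
      _ = _ := by ring
  rw [integral_add (i1.const_mul 3) (i0.const_mul _), integral_const_mul, integral_const_mul] at hle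
  have h0 : 0 ≤ ∫ x, gmtSimRad f x ^ 2 * gmtSimW u x ∂(gmtMu S) :=
    integral_nonneg fun x => mul_nonneg (sq_nonneg _) (gmtSimRad_W_nonneg u x)
  nlinarith

end Claimed.Agent.Gmt
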