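import Claimed.Agent.Lib.Gmt.SimNF

/-!
# Lib/Gmt [G7 Simons] `SimTube`: the tube of a minimal cone.   (architect: helper257)

`u = gmtSimSd S`,  `U = ⋃_{p ∈ Σ \ 0} ball p (ρ_p)` with `ρ_p ≤ min (ρ of gmtSim_nf) (|p|/4) / 2` (so that `π x` stays in the ball of `gmtSim_nf`, and `π x ≠ 0`).
* `opn zero bd smooth eik proj grad_proj`: local statements, directly from `gmtSim_nf` (`π x ∈ Σ \ 0 ⊆ U`; `u (π x) = 0` by `gmtSim_sd_eq_zero`).
* `neg`, `nu`: local a.e. statements; pass to a countable subcover (`TopologicalSpace.isOpen_iUnion_countable` / Lindelöf), `nu` from `gmtSim_dep_nu` with `φ = u`.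
* `hom`: differentiate `t ↦ u (t • x) = t u x` at `t = 1`.
* `homA`: `u ∘ (t • ·) = t • u` everywhere; `ContinuousLinearEquiv.comp_right_fderiv` (unconditional) twice gives `∇u (t x) = ∇u x`, `h (t x) = t⁻¹ h x`.
* `harm`: `gmtSim_dep_el` with `φ = u` on a small ball; `‖∇u‖⁻¹ • ∇u = ∇u` near the point (`Filter.EventuallyEq.fderiv_eq`).
-/

set_option autoImplicit false
open scoped ContDiff ENNReal RealInnerProductSpace Topology
open MeasureTheory Metric Set Filter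

namespace Claimed.Agent.Gmt

variable {k : ℕ}

theorem gmtSim_bd_smul {S : Set (E k)} (hc : GmtCone S) {t : ℝ} (ht : 0 < t) (x : E k) :
    t • x ∈ gmtBd S ↔ x ∈ gmtBd S := by
  have h1 : gmtBd (gmtDil 0 t S) = gmtBd S := gmtBd_congr (hc t ht)
  rw [gmtBd_gmtDil S 0 ht] at h1
  have h2 : x ∈ gmtDil 0 t (gmtBd S) ↔ t • x ∈ gmtBd S := by
    show 0 + t • x ∈ gmtBd S ↔ _
    rw [zero_add]
  rw [← h2, h1]

theorem gmtSim_int_smul {S : Set (E k)} (hc : GmtCone S) {t : ℝ} (ht : 0 < t) (x : E k) :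
    t • x ∈ gmtSimInt S ↔ x ∈ gmtSimInt S := by
  have hpos : ENNReal.ofReal (t ^ k)⁻¹ ≠ 0 := by
    rw [Ne, ENNReal.ofReal_eq_zero, not_le]
    positivity
  have key : ∀ r : ℝ, volume (ball x r \ S) = 0 ↔ volume (ball (t • x) (t * r) \ S) = 0 := by
    intro r
    have e2 : ball x r \ gmtDil 0 t S = gmtDil 0 t (ball (0 + t • x) (t * r) \ S) := by
      rw [← gmtDil_ball 0 x ht r]
      rfl
    have e3 : volume (ball x r \ S) = volume (ball x r \ gmtDil 0 t S) :=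
      measure_congr ((ae_eq_refl _).diff (hc t ht).symm)
    rw [e3, e2, volume_gmtDil _ 0 ht, zero_add]
    simp only [mul_eq_zero, hpos, false_or]
  constructor
  · rintro ⟨r, hr, h⟩
    refine ⟨r / t, by positivity, (key _).2 ?_⟩
    rwa [mul_div_cancel₀ r ht.ne']
  · rintro ⟨r, hr, h⟩
    exact ⟨t * r, by positivity, (key r).1 h⟩

open scoped Pointwise in
theorem gmtSim_infDist_smul {S : Set (E k)} (hc : GmtCone S) {t : ℝ} (ht : 0 < t) (x : E k) :
    infDist (t • x) (gmtBd S) = t * infDist x (gmtBd S) := by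
  have hset : gmtBd S = t • gmtBd S := by
    ext y
    rw [Set.mem_smul_set_iff_inv_smul_mem₀ ht.ne', gmtSim_bd_smul hc (inv_pos.2 ht)]
  conv_lhs => rw [hset]
  rw [infDist_smul₀ ht.ne', Real.norm_eq_abs, abs_of_pos ht]

theorem gmtSim_sd_smul {S : Set (E k)} (hc : GmtCone S) {t : ℝ} (ht : 0 < t) (x : E k) :
    gmtSimSd S (t • x) = t * gmtSimSd S x := by
  have hinf := gmtSim_infDist_smul hc ht x
  unfold gmtSimSd
  by_cases h : x ∈ gmtSimInt S
  · rw [if_pos h, if_pos ((gmtSim_int_smul hc ht x).2 h), hinf]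
    ring
  · rw [if_neg h, if_neg (fun h' => h ((gmtSim_int_smul hc ht x).1 h')), hinf]

theorem gmtSim_sd_eq_zero {S : Set (E k)} (hne : (gmtBd S).Nonempty) (x : E k) :
    gmtSimSd S x = 0 ↔ x ∈ gmtBd S := by
  rw [← abs_eq_zero, gmtSim_abs_sd, (isClosed_gmtBd S).mem_iff_infDist_zero hne]

/-- homogeneity of degree `-2` of `a = |D²u|²` for a `1`-homogeneous `u` (unconditional). -/
theorem gmtSim_A_smul {u : E k → ℝ} {t : ℝ} (ht : 0 < t) (hu : ∀ x, u (t • x) = t * u x) (x : E k) :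
    gmtSimA u (t • x) = (t ^ 2)⁻¹ * gmtSimA u x := by
  have h1 : (fun y => u (t • y)) = t • u := by
    funext y
    rw [hu y]
    rfl
  have h2 : ∀ y, fderiv ℝ u (t • y) = fderiv ℝ u y := by
    intro y
    have e1 : fderiv ℝ (fun y => u (t • y)) y = t • fderiv ℝ u (t • y) := fderiv_comp_smul t
    have e2 : fderiv ℝ (t • u) y = t • fderiv ℝ u y := by
      rw [fderiv_const_smul_field]
      rfl
    rw [h1, e2] at e1
    exact (smul_right_injective _ ht.ne' e1).symm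
  have h3 : (fun y => gradient u (t • y)) = gradient u := by
    funext y
    unfold gradient
    rw [h2 y]
  have h4 : gmtSimH u (t • x) = t⁻¹ • gmtSimH u x := by
    have e1 : fderiv ℝ (fun y => gradient u (t • y)) x = t • fderiv ℝ (gradient u) (t • x) :=
      fderiv_comp_smul t
    rw [h3] at e1
    unfold gmtSimH
    rw [e1, smul_smul, inv_mul_cancel₀ ht.ne', one_smul]
  unfold gmtSimA
  rw [h4, Finset.mul_sum]
  refine Finset.sum_congr rfl fun i _ => ?_
  rw [_root_.smul_apply, norm_smul, mul_pow, Real.norm_eq_abs, sq_abs, inv_pow]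

theorem gmtSim_tube_exists {S : Set (E k)} (hS : MeasurableSet S)
    (hreg : ∀ x ∈ gmtBd S, x ≠ 0 → GmtReg S x) :
    ∃ U : Set (E k), GmtSimTube S U (gmtSimSd S) := by
  have hnf : ∀ i : {p : E k // p ∈ gmtBd S ∧ p ≠ 0}, _ := fun i => gmtSim_nf (hreg i.1 i.2.1 i.2.2)
  choose ρ hρ hsm hae hloc using hnf
  have hσ : ∀ i : {p : E k // p ∈ gmtBd S ∧ p ≠ 0}, 0 < min (ρ i) (‖i.1‖ / 4) := fun i =>
    lt_min (hρ i) (by have := norm_pos_iff.2 i.2.2; positivity)
  set B : {p : E k // p ∈ gmtBd S ∧ p ≠ 0} → Set (E k) := fun i => ball i.1 (min (ρ i) (‖i.1‖ / 4))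
    with hB
  have hBρ : ∀ i, B i ⊆ ball i.1 (ρ i) := fun i => ball_subset_ball (min_le_left _ _)
  have hBo : ∀ i, IsOpen (B i) := fun i => isOpen_ball
  have hbdU : ∀ x ∈ gmtBd S, x ≠ 0 → x ∈ ⋃ i, B i := fun x hx hx0 =>
    mem_iUnion.2 ⟨⟨x, hx, hx0⟩, mem_ball_self (hσ ⟨x, hx, hx0⟩)⟩
  have haeB : ∀ i, (S ∩ B i : Set (E k)) =ᵐ[volume]
      ({y | y ∈ B i ∧ gmtSimSd S y < 0} : Set (E k)) := by
    intro i
    have e1 : S ∩ B i = (S ∩ ball i.1 (ρ i)) ∩ B i := by
      rw [inter_assoc, inter_eq_right.2 (hBρ i)]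
    have e2 : ({y | y ∈ B i ∧ gmtSimSd S y < 0} : Set (E k))
        = {y | y ∈ ball i.1 (ρ i) ∧ gmtSimSd S y < 0} ∩ B i := by
      ext y
      exact ⟨fun h => ⟨⟨hBρ i h.1, h.2⟩, h.1⟩, fun h => ⟨h.2, h.1.2⟩⟩
    rw [e1, e2]
    exact (hae i).inter (ae_eq_refl _)
  obtain ⟨T, hT, hTU⟩ := TopologicalSpace.isOpen_iUnion_countable B hBo
  refine ⟨⋃ i, B i, ?_⟩
  refine
    { opn := isOpen_iUnion hBo
      zero := ?_
      bd := hbdU
      smooth := ?_
      eik := ?_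
      zero_iff := ?_
      neg := ?_
      proj := ?_
      grad_proj := ?_
      nu := ?_ }
  · intro h0
    obtain ⟨i, hi⟩ := mem_iUnion.1 h0
    have h1 : dist (0 : E k) i.1 < ‖i.1‖ / 4 := lt_of_lt_of_le hi (min_le_right _ _)
    rw [dist_zero_left] at h1
    have := norm_nonneg i.1
    linarith
  · intro x hx
    obtain ⟨i, hi⟩ := mem_iUnion.1 hx
    exact ((hsm i).contDiffAt (isOpen_ball.mem_nhds (hBρ i hi))).contDiffWithinAt
  · intro x hx
    obtain ⟨i, hi⟩ := mem_iUnion.1 hx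
    exact (hloc i x (hBρ i hi)).1
  · intro x hx
    obtain ⟨i, hi⟩ := mem_iUnion.1 hx
    exact gmtSim_sd_eq_zero ⟨i.1, i.2.1⟩ x
  · rw [← hTU]
    have e1 : S ∩ ⋃ i ∈ T, B i = ⋃ i ∈ T, S ∩ B i := by
      rw [inter_iUnion₂]
    have e2 : ({x | x ∈ ⋃ i ∈ T, B i ∧ gmtSimSd S x < 0} : Set (E k))
        = ⋃ i ∈ T, {y | y ∈ B i ∧ gmtSimSd S y < 0} := by
      ext y
      simp only [mem_iUnion, mem_ofPred_eq, exists_prop]
      constructor
      · rintro ⟨⟨i, hiT, hi⟩, hy⟩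
        exact ⟨i, hiT, hi, hy⟩
      · rintro ⟨i, hiT, hi, hy⟩
        exact ⟨⟨i, hiT, hi⟩, hy⟩
    rw [e1, e2]
    exact Filter.EventuallyEq.countable_bUnion hT (fun i _ => haeB i)
  · intro x hx
    obtain ⟨i, hi⟩ := mem_iUnion.1 hx
    obtain ⟨_, hπ, hn, _⟩ := hloc i x (hBρ i hi)
    have hne : gmtSimPi (gmtSimSd S) x ≠ 0 := by
      intro h0
      rw [h0, zero_sub, norm_neg] at hn
      have h1 : dist x i.1 < ‖i.1‖ / 4 := lt_of_lt_of_le hi (min_le_right _ _)
      rw [dist_eq_norm] at h1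
      have := norm_pos_iff.2 i.2.2
      linarith
    exact ⟨hbdU _ hπ hne, (gmtSim_sd_eq_zero ⟨_, hπ⟩ _).2 hπ⟩
  · intro x hx
    obtain ⟨i, hi⟩ := mem_iUnion.1 hx
    exact (hloc i x (hBρ i hi)).2.2.2
  · rw [← hTU, ae_restrict_biUnion_iff _ hT]
    intro i _
    have h1 := gmtSim_dep_nu i.1 _ (hσ i) (gmtSimSd S) ((hsm i).mono (hBρ i))
      (fun y hy h0 => by
        have := (hloc i y (hBρ i hy)).1
        rw [← gmtSim_norm_fderiv_eq, h0, norm_zero] at this
        exact zero_ne_one this) hS (haeB i)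
    filter_upwards [h1, ae_restrict_mem (measurableSet_ball : MeasurableSet (B i))] with y hy hyB
    rw [hy, (hloc i y (hBρ i hyB)).1, inv_one, one_smul]

/-- **existence of the tube of a minimal cone.** -/
theorem gmtSim_cone_exists {S : Set (E k)} (hmin : GmtMin univ S) (hc : GmtCone S)
    (hreg : ∀ x ∈ gmtBd S, x ≠ 0 → GmtReg S x) :
    ∃ (U : Set (E k)) (u : E k → ℝ), GmtSimCone S U u := by
  obtain ⟨U, hU⟩ := gmtSim_tube_exists hmin.meas hreg
  refine ⟨U, gmtSimSd S, { toGmtSimTube := hU, hom := ?_, homA := ?_, harm := ?_ }⟩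
  · intro x hx
    have hd : DifferentiableAt ℝ (gmtSimSd S) x :=
      (hU.smooth.contDiffAt (hU.opn.mem_nhds hx)).differentiableAt (by simp)
    have h1 : HasDerivAt (fun t : ℝ => gmtSimSd S (t • x)) (fderiv ℝ (gmtSimSd S) x x) 1 := by
      have hx1 : HasDerivAt (fun t : ℝ => t • x) x 1 := by
        simpa using (hasDerivAt_id (1 : ℝ)).smul_const x
      have hd' : HasFDerivAt (gmtSimSd S) (fderiv ℝ (gmtSimSd S) x) ((1 : ℝ) • x) := by
        rw [one_smul]
        exact hd.hasFDerivAt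
      exact hd'.comp_hasDerivAt 1 hx1
    have h2 : HasDerivAt (fun t : ℝ => t * gmtSimSd S x) (gmtSimSd S x) 1 := by
      simpa using (hasDerivAt_id (1 : ℝ)).mul_const (gmtSimSd S x)
    have h3 : (fun t : ℝ => t * gmtSimSd S x) =ᶠ[𝓝 1] fun t : ℝ => gmtSimSd S (t • x) := by
      filter_upwards [lt_mem_nhds (zero_lt_one' ℝ)] with t ht using (gmtSim_sd_smul hc ht x).symm
    rw [real_inner_comm, gmtSim_inner_gradient]
    exact (h1.congr_of_eventuallyEq h3).unique h2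
  · intro x _ _ t ht
    exact gmtSim_A_smul ht (fun y => gmtSim_sd_smul hc ht y) x
  · intro x hx hx0
    obtain ⟨r, hr, hsub⟩ := Metric.isOpen_iff.1 hU.opn x hx
    have hae : (S ∩ ball x r : Set (E k)) =ᵐ[volume]
        ({y | y ∈ ball x r ∧ gmtSimSd S y < 0} : Set (E k)) := by
      have e1 : S ∩ ball x r = (S ∩ U) ∩ ball x r := by
        rw [inter_assoc, inter_eq_right.2 hsub]
      have e2 : ({y | y ∈ ball x r ∧ gmtSimSd S y < 0} : Set (E k))
          = {y | y ∈ U ∧ gmtSimSd S y < 0} ∩ ball x r := by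
        ext y
        exact ⟨fun h => ⟨⟨hsub h.1, h.2⟩, h.1⟩, fun h => ⟨h.2, h.1.2⟩⟩
      rw [e1, e2]
      exact hU.neg.inter (ae_eq_refl _)
    have h1 := gmtSim_dep_el isOpen_univ hmin x r hr (subset_univ _) (gmtSimSd S)
      (hU.smooth.mono hsub)
      (fun y hy h0 => by
        have := hU.eik y (hsub hy)
        rw [← gmtSim_norm_fderiv_eq, h0, norm_zero] at this
        exact zero_ne_one this) hae x (mem_ball_self hr) hx0
    have he : (fun z => ‖gradient (gmtSimSd S) z‖⁻¹ • gradient (gmtSimSd S) z)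
        =ᶠ[𝓝 x] gradient (gmtSimSd S) := by
      filter_upwards [hU.opn.mem_nhds hx] with z hz
      rw [hU.eik z hz, inv_one, one_smul]
    unfold gmtDiv at h1 ⊢
    rw [he.fderiv_eq] at h1
    exact h1

end Claimed.Agent.Gmt
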