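import Claimed.Agent.Lib.Gmt.SimCalc
import Claimed.Agent.Lib.Gmt.RbHalf

/-!
# Lib/Gmt [G7 Simons] `SimTwoA`: perimeter minimising cones in the plane are half planes.   (architect: helper257)

`S ⊆ E 2` minimising cone, `0 ∈ Σ`, flat near every point of `Σ \ 0` (`GmtSimFlat S`, free of charge in the plane: `gmtSim_A_zero_two`, `gmtSim_flat_local`).
`J` = rotation by `π/2`.   `gmtSimRay v` = arc length measure on the open ray `(0,∞) v`.

1. `gmtSim_half_mu`: for a unit vector `e`: `gmtMu (H_e)` = arc length on the line `ℝ Je`, `ν = e`.   By `gmtMu_gmtNu_unique` (`U = univ`) it suffices to prove Gauss-Green: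
   `∫_{H_e} div T = ∫_ℝ ⟪T(s Je), e⟫ ds`.   The map `(s,t) ↦ s Je + t e` is a linear isometry `ℝ × ℝ → E 2`, measure preserving; `div T = ∂_s ⟪T,Je⟫ + ∂_t ⟪T,e⟫` (trace in the orthonormal basis `Je, e`);
   Fubini; `∫_ℝ ∂_s(...) ds = 0` (compact support), `∫_{t<0} ∂_t ⟪T,e⟫ dt = ⟪T,e⟫(s,0)`.
2. `gmtSim_two_rays`: `F = Σ ∩ sphere 0 1` is finite (compact; every point is isolated: in `ball p ρ` the boundary is `e^⊥ ∩ ball p ρ`, by `gmtSim_mem_bd_of_half` and its converse), and `Σ \ 0 = ⋃_{v ∈ F} (0,∞) v` (`gmtSim_bd_smul`).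
3. `gmtSim_two_mu`: `μ` restricted to `{0}ᶜ` is `Σ_{v∈F} gmtSimRay v`, with `ν = e_v` on the ray, `e_v = ± J v`.   Local statement (`Measure.ext_iff_of_iUnion_eq_univ`-type argument with a countable cover of `{0}ᶜ`):
   off `Σ` both sides vanish near the point; near `q = t v` use flatness at `q` (the cone property transports flatness along the ray), `gmtMu_restrict_congr`, `gmtNu_congr` and 1.      `μ {0} = 0` by `gmtSim_scaling`-type homogeneity (`gmtMu_gmtDil`) and finiteness.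
4. `gmtSim_two_density`: `μ (closedBall 0 1) ≤ π`.   For a.e. `r`: compare `S` with `S ∪ ball 0 r` and `S \ ball 0 r` in `W = ball 0 (r+1)` (`gmtP_union_ball_le`, `gmtP_diff_ball_le`, `gmtMu_open`):
   `μ(closedBall 0 r) ≤ d/dr |B_r \ S| = 2r |B_1 \ S|` and `≤ 2r |B_1 ∩ S|` (cone: `|B_r ∩ S| = r² |B_1 ∩ S|`, `volume_gmtDil`).   Add: `2 μ(closedBall 0 r) ≤ 2 r |B_1| = 2π r` (`EuclideanSpace.volume_ball_fin_two`); scaling.
   With 3: `card F = μ(closedBall 0 1) ≤ π < 4`.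
5. `gmtSim_two_balance`: `Σ_{v∈F} v = 0`.   `gmt_min_fv` with `X = η(|x|²) b`, `η ∈ C_c^∞(ℝ)`, `η = 1` near `0`, `b` a constant vector.   On the ray `v`: `div X - ⟪ν, DX ν⟫ = ⟪DX v, v⟫ = d/ds ⟪X(sv), v⟫` (orthonormal basis `v, e_v`), whose integral over `(0,∞)` is `-⟪b, v⟫`.
6. `gmtSim_two_parity`: `Σ_{v∈F} ⟪e_v, Jv⟫ = 0`, hence `card F` is even.   `gmt_gauss_green` with `T = ρ(|x|²) Jx`, `ρ ∈ C_c^∞((0,∞))`, `ρ ≥ 0`, `ρ ≠ 0`: `div T = 0` (`⟪x, Jx⟫ = 0`, `tr J = 0`), `⟪T, ν⟫ = ρ(s²) s ⟪Jv, e_v⟫` on the ray.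
7. `card F ∈ {0,1,2,3}`, even, `≠ 0` (`gmtSim_exists_bd_ne_zero`): `F = {v, v'}`, `v' = -v` by 5.   So `Σ ⊆ ℝ v = e_v^⊥`; `gmtSim_half_of_bd_subset`.

THIS FILE: step 1.
-/

set_option autoImplicit false
open scoped ContDiff ENNReal RealInnerProductSpace Topology
open MeasureTheory Metric Set Filter

namespace Claimed.Agent.Gmt

/-- rotation by `π/2` in the plane. -/
noncomputable def gmtSimJ (v : E 2) : E 2 := !₂[- v 1, v 0]

/-- arc length on the open ray `(0,∞) v` (`|v| = 1`). -/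
noncomputable def gmtSimRay (v : E 2) : Measure (E 2) :=
  Measure.map (fun s : ℝ => s • v) (volume.restrict (Ioi 0))

theorem gmtSimA2_om_one : gmtOm 1 = 2 := by
  unfold gmtOm
  rw [EuclideanSpace.volume_ball]
  have h : Real.Gamma ((1 : ℝ) / 2 + 1) = Real.sqrt Real.pi / 2 := by
    rw [Real.Gamma_add_one (by norm_num), Real.Gamma_one_half_eq]
    ring
  have hpi : Real.sqrt Real.pi ≠ 0 := (Real.sqrt_pos.2 Real.pi_pos).ne'
  simp only [Fintype.card_fin, Nat.cast_one, pow_one, h, ENNReal.ofReal_one, one_mul]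
  rw [ENNReal.toReal_ofReal (by positivity)]
  field_simp

theorem gmtSimA2_inner_J (e : E 2) : ⟪gmtSimJ e, e⟫ = 0 := by
  rw [gmtSim_inner_eq_sum, Fin.sum_univ_two]
  simp [gmtSimJ]
  ring

theorem gmtSimA2_norm_J (e : E 2) : ‖gmtSimJ e‖ = ‖e‖ := by
  rw [EuclideanSpace.norm_eq, EuclideanSpace.norm_eq, Fin.sum_univ_two, Fin.sum_univ_two]
  simp [gmtSimJ]
  ring_nf

/-- decomposition in the orthonormal basis `Je, e`. -/
theorem gmtSimA2_decomp {e : E 2} (he : ‖e‖ = 1) (y : E 2) :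
    y = ⟪y, gmtSimJ e⟫ • gmtSimJ e + ⟪y, e⟫ • e := by
  have h1 : e 0 ^ 2 + e 1 ^ 2 = 1 := by
    have := EuclideanSpace.norm_sq_eq e
    rw [he, Fin.sum_univ_two] at this
    simpa using this.symm
  rw [gmtSim_inner_eq_sum, gmtSim_inner_eq_sum, Fin.sum_univ_two, Fin.sum_univ_two]
  ext i
  fin_cases i
  · simp [gmtSimJ]
    linear_combination (- y 0) * h1
  · simp [gmtSimJ]
    linear_combination (- y 1) * h1

theorem gmtSimA2_half_eq {e p : E 2} (hp : ⟪p, e⟫ = 0) : gmtHalf p e = gmtHalf 0 e := by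
  ext y
  unfold gmtHalf
  simp only [Set.mem_ofPred_eq, inner_sub_left, hp, sub_zero]

/-- 1. the perimeter measure of a half plane. -/
theorem gmtSim_half_mu {e : E 2} (he : ‖e‖ = 1) :
    gmtMu (gmtHalf 0 e) = Measure.map (fun s : ℝ => s • gmtSimJ e) volume ∧
      gmtNu (gmtHalf 0 e) =ᵐ[gmtMu (gmtHalf 0 e)] fun _ => e := by
  refine ⟨?_, gmtNu_gmtHalf 0 he⟩
  set w := gmtSimJ e with hw
  have hw1 : ‖w‖ = 1 := by rw [hw, gmtSimA2_norm_J, he]
  have hwe : ⟪w, e⟫ = 0 := gmtSimA2_inner_J e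
  set μ := gmtMu (gmtHalf 0 e) with hμ
  have hf : Measurable (fun s : ℝ => s • w) := (continuous_id.smul continuous_const).measurable
  have hg : Measurable (fun y : E 2 => ⟪y, w⟫) := (continuous_id.inner continuous_const).measurable
  have hline : ∀ᵐ y ∂μ, ⟪y, e⟫ = 0 := by
    have h0 := gmtMu_gmtHalf_compl (0 : E 2) he
    have : {y : E 2 | ⟪y - 0, e⟫ ≠ 0} = {y : E 2 | ⟪y, e⟫ = 0}ᶜ := by
      ext y; simp
    rw [this] at h0
    exact mem_ae_iff.2 h0
  have hline' : ∀ᵐ y ∂μ, y = ⟪y, w⟫ • w := by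
    filter_upwards [hline] with y hy
    have := gmtSimA2_decomp he y
    rw [hy, zero_smul, add_zero] at this
    exact this
  have hIoo : ∀ a b : ℝ, Measure.map (fun y : E 2 => ⟪y, w⟫) μ (Ioo a b) = ENNReal.ofReal (b - a) := by
    intro a b
    rcases le_or_gt b a with hab | hab
    · rw [Ioo_eq_empty (not_lt.2 hab), measure_empty, ENNReal.ofReal_of_nonpos (by linarith)]
    rw [Measure.map_apply hg measurableSet_Ioo]
    set c : ℝ := (a + b) / 2 with hc
    set r : ℝ := (b - a) / 2 with hr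
    have hr0 : 0 < r := by rw [hr]; linarith
    have e1 : ((fun y : E 2 => ⟪y, w⟫) ⁻¹' Ioo a b : Set (E 2)) =ᵐ[μ] ball (c • w) r := by
      filter_upwards [hline'] with y hy
      apply propext
      show ⟪y, w⟫ ∈ Ioo a b ↔ y ∈ ball (c • w) r
      rw [mem_ball, dist_eq_norm]
      conv_rhs => rw [hy]
      rw [← sub_smul, norm_smul, hw1, mul_one, Real.norm_eq_abs, abs_lt, mem_Ioo, hc, hr]
      constructor
      · rintro ⟨h1, h2⟩; constructor <;> linarith
      · rintro ⟨h1, h2⟩; constructor <;> linarith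
    rw [measure_congr e1, hμ, gmtMu_open _ isOpen_ball]
    have hp : ⟪c • w, e⟫ = 0 := by rw [inner_smul_left, hwe, mul_zero]
    rw [← gmtSimA2_half_eq hp, gmtP_half_ball (by norm_num) (c • w) he hr0]
    congr 1
    simp only [Nat.add_one_sub_one, gmtSimA2_om_one, pow_one, hr]
    ring
  have hloc : IsLocallyFiniteMeasure (Measure.map (fun y : E 2 => ⟪y, w⟫) μ) :=
    ⟨fun x => ⟨Ioo (x - 1) (x + 1), Ioo_mem_nhds (by linarith) (by linarith), by
      rw [hIoo]; exact ENNReal.ofReal_lt_top⟩⟩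
  have hvol : Measure.map (fun y : E 2 => ⟪y, w⟫) μ = volume :=
    Real.measure_ext_Ioo_rat fun a b => by rw [hIoo, Real.volume_Ioo]
  rw [← hvol, Measure.map_map hf hg]
  have e2 : ((fun s : ℝ => s • w) ∘ fun y : E 2 => ⟪y, w⟫) =ᵐ[μ] id := by
    filter_upwards [hline'] with y hy
    exact hy.symm
  rw [Measure.map_congr e2, Measure.map_id]

end Claimed.Agent.Gmt
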