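import Claimed.Agent.Lib.Gmt.SimTwoA
import Claimed.Agent.Lib.Gmt.SimFlatB
import Claimed.Agent.Lib.Gmt.SimTube
import Claimed.Agent.Lib.Gmt.SimTwoC

/-!
# Lib/Gmt [G7 Simons] `SimTwoB`: perimeter minimising cones in the plane are half planes.   (architect: helper257)

`S ⊆ E 2` minimising cone, `0 ∈ Σ`, flat near every point of `Σ \ 0` (`GmtSimFlat S`, free of charge in the plane: `gmtSim_A_zero_two`, `gmtSim_flat_local`).
`J` = rotation by `π/2`.   `gmtSimRay v` = arc length measure on the open ray `(0,∞) v`.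

1. `gmtSim_half_mu`: for a unit vector `e`: `gmtMu (H_e)` = arc length on the line `ℝ Je`, `ν = e`.   By `gmtMu_gmtNu_unique` (`U = univ`) it suffices to prove Gauss-Green:
   `∫_{H_e} div T = ∫_ℝ ⟪T(s Je), e⟫ ds`.   The map `(s,t) ↦ s Je + t e` is a linear isometry `ℝ × ℝ → E 2`, measure preserving; `div T = ∂_s ⟪T,Je⟫ + ∂_t ⟪T,e⟫` (trace in the orthonormal basis `Je, e`);
   Fubini; `∫_ℝ ∂_s(...) ds = 0` (compact support), `∫_{t<0} ∂_t ⟪T,e⟫ dt = ⟪T,e⟫(s,0)`.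
2. `gmtSim_two_rays`: `F = Σ ∩ sphere 0 1` is finite (compact; every point is isolated: in `ball p ρ` the boundary is `e^⊥ ∩ ball p ρ`, by `gmtSim_mem_bd_of_half` and its converse), and `Σ \ 0 = ⋃_{v ∈ F} (0,∞) v` (`gmtSim_bd_smul`).
3. `gmtSim_two_mu`: `μ` restricted to `{0}ᶜ` is `Σ_{v∈F} gmtSimRay v`, with `ν = e_v` on the ray, `e_v = ± J v`.   Local statement (`Measure.ext_iff_of_iUnion_eq_univ`-type argument with a countable cover of `{0}ᶜ`):
   off `Σ` both sides vanish near the point; near `q = t v` use flatness at `q` (the cone property transports flatness along the ray), `gmtMu_restrict_congr`, `gmtNu_congr` and 1.      `μ {0} = 0` by `gmtSim_scaling`-type homogeneity (`gmtMu_gmtDil`) and finiteness.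
4. `gmtSim_two_density`: `μ (closedBall 0 1) ≤ π`.   For a.e. `r`: compare `S` with `S ∪ ball 0 r` and `S \ ball 0 r` in `W = ball 0 (r+1)` (`gmtP_union_ball_le`, `gmtP_diff_ball_le`, `gmtMu_open`):
   `μ(closedBall 0 r) ≤ d/dr |B_r \ S| = 2r |B_1 \ S|` and `≤ 2r |B_1 ∩ S|` (cone: `|B_r ∩ S| = r² |B_1 ∩ S|`, `volume_gmtDil`).   Add: `2 μ(closedBall 0 r) ≤ 2 r |B_1| = 2π r` (`EuclideanSpace.volume_ball_fin_two`); scaling.
   With 3: `card F = μ(closedBall 0 1) ≤ π < 4`.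
5. `gmtSim_two_balance`: `Σ_{v∈F} v = 0`.   `gmt_min_fv` with `X = η(|x|²) b`, `η ∈ C_c^∞(ℝ)`, `η = 1` near `0`, `b` a constant vector.   On the ray `v`: `div X - ⟪ν, DX ν⟫ = ⟪DX v, v⟫ = d/ds ⟪X(sv), v⟫` (orthonormal basis `v, e_v`), whose integral over `(0,∞)` is `-⟪b, v⟫`.
6. `gmtSim_two_parity`: `Σ_{v∈F} ⟪e_v, Jv⟫ = 0`, hence `card F` is even.   `gmt_gauss_green` with `T = ρ(|x|²) Jx`, `ρ ∈ C_c^∞((0,∞))`, `ρ ≥ 0`, `ρ ≠ 0`: `div T = 0` (`⟪x, Jx⟫ = 0`, `tr J = 0`), `⟪T, ν⟫ = ρ(s²) s ⟪Jv, e_v⟫` on the ray.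
7. `card F ∈ {0,1,2,3}`, even, `≠ 0` (`gmtSim_exists_bd_ne_zero`): `F = {v, v'}`, `v' = -v` by 5.   So `Σ ⊆ ℝ v = e_v^⊥`; `gmtSim_half_of_bd_subset`.

THIS FILE: steps 2, 3.
-/

set_option autoImplicit false
open scoped ContDiff ENNReal RealInnerProductSpace Topology
open MeasureTheory Metric Set Filter

namespace Claimed.Agent.Gmt

/-- locality of the boundary with respect to a.e. equality in an open set (one direction). -/
theorem gmtSimB_bd_local_aux {k : ℕ} {S S' W : Set (E k)} (hW : IsOpen W)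
    (h : (S ∩ W : Set (E k)) =ᵐ[volume] (S' ∩ W : Set (E k))) {x : E k} (hx : x ∈ W)
    (hxS : x ∈ gmtBd S) : x ∈ gmtBd S' := by
  intro r hr
  obtain ⟨δ, hδ, hsub⟩ := Metric.isOpen_iff.1 hW x hx
  have hr' : 0 < min r δ := lt_min hr hδ
  have hB : ball x (min r δ) ⊆ W := (ball_subset_ball (min_le_right _ _)).trans hsub
  have hBr : ball x (min r δ) ⊆ ball x r := ball_subset_ball (min_le_left _ _)
  obtain ⟨h1, h2⟩ := hxS _ hr'
  have e1 : ∀ D : Set (E k), D ∩ ball x (min r δ) = (D ∩ W) ∩ ball x (min r δ) := fun D => by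
    rw [inter_assoc, inter_eq_right.2 hB]
  have e2 : ∀ D : Set (E k), ball x (min r δ) \ D = ball x (min r δ) \ (D ∩ W) := fun D => by
    ext y
    constructor
    · rintro ⟨hy, hyD⟩; exact ⟨hy, fun h' => hyD h'.1⟩
    · rintro ⟨hy, hyD⟩; exact ⟨hy, fun h' => hyD ⟨h', hB hy⟩⟩
  constructor
  · refine lt_of_lt_of_le ?_ (measure_mono (inter_subset_inter_right S' hBr))
    have e3 : volume ((S ∩ W) ∩ ball x (min r δ)) = volume ((S' ∩ W) ∩ ball x (min r δ)) :=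
      measure_congr (h.inter (ae_eq_refl _))
    rw [e1 S', ← e3, ← e1 S]
    exact h1
  · refine lt_of_lt_of_le ?_ (measure_mono (sdiff_subset_sdiff_left hBr))
    have e3 : volume (ball x (min r δ) \ (S ∩ W)) = volume (ball x (min r δ) \ (S' ∩ W)) :=
      measure_congr ((ae_eq_refl (ball x (min r δ) : Set (E k))).diff h)
    rw [e2 S', ← e3, ← e2 S]
    exact h2

theorem gmtSimB_bd_local {k : ℕ} {S S' W : Set (E k)} (hW : IsOpen W)
    (h : (S ∩ W : Set (E k)) =ᵐ[volume] (S' ∩ W : Set (E k))) {x : E k} (hx : x ∈ W) :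
    x ∈ gmtBd S ↔ x ∈ gmtBd S' :=
  ⟨gmtSimB_bd_local_aux hW h hx, gmtSimB_bd_local_aux hW h.symm hx⟩

/-- unit vectors of the plane orthogonal to the same unit vector are equal or opposite. -/
theorem gmtSimB_pm {e p q : E 2} (he : ‖e‖ = 1) (hp : ‖p‖ = 1) (hq : ‖q‖ = 1) (hpe : ⟪p, e⟫ = 0)
    (hqe : ⟪q, e⟫ = 0) : q = p ∨ q = -p := by
  have h1 := gmtSimA2_decomp he p
  have h2 := gmtSimA2_decomp he q
  rw [hpe, zero_smul, add_zero] at h1
  rw [hqe, zero_smul, add_zero] at h2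
  have hw : ‖gmtSimJ e‖ = 1 := by rw [gmtSimA2_norm_J, he]
  set a := ⟪p, gmtSimJ e⟫
  set b := ⟪q, gmtSimJ e⟫
  have ha : |a| = 1 := by
    have := congrArg norm h1
    rw [norm_smul, hw, mul_one, hp, Real.norm_eq_abs] at this
    exact this.symm
  have hb : |b| = 1 := by
    have := congrArg norm h2
    rw [norm_smul, hw, mul_one, hq, Real.norm_eq_abs] at this
    exact this.symm
  rcases (abs_eq (by norm_num : (0 : ℝ) ≤ 1)).1 ha with ha | ha <;>
    rcases (abs_eq (by norm_num : (0 : ℝ) ≤ 1)).1 hb with hb | hb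
  · left; rw [h1, h2, ha, hb]
  · right; rw [h1, h2, ha, hb]; simp
  · right; rw [h1, h2, ha, hb]; simp
  · left; rw [h1, h2, ha, hb]

/-- 2. the boundary is a finite union of rays. -/
theorem gmtSim_two_rays {S : Set (E 2)} (hS : MeasurableSet S) (hcone : GmtCone S)
    (hflat : GmtSimFlat S) :
    ∃ F : Finset (E 2), (∀ v ∈ F, ‖v‖ = 1) ∧
      ∀ x : E 2, x ≠ 0 → (x ∈ gmtBd S ↔ ∃ v ∈ F, ∃ t : ℝ, 0 < t ∧ x = t • v) := by
  have hC : IsCompact (gmtBd S ∩ sphere (0 : E 2) 1) :=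
    (isCompact_sphere (0 : E 2) 1).inter_left (isClosed_gmtBd S)
  have hloc : ∀ p : E 2, ∃ ρ : ℝ, 0 < ρ ∧ (p ∈ gmtBd S ∩ sphere (0 : E 2) 1 →
      gmtBd S ∩ sphere (0 : E 2) 1 ∩ ball p ρ ⊆ {p, -p}) := by
    intro p
    by_cases hp : p ∈ gmtBd S ∩ sphere (0 : E 2) 1
    · have hp1 : ‖p‖ = 1 := by simpa using hp.2
      have hp0 : p ≠ 0 := fun h => by rw [h, norm_zero] at hp1; exact zero_ne_one hp1
      obtain ⟨e, he, hpe, ρ, hρ, hSe⟩ := hflat p hp.1 hp0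
      refine ⟨ρ, hρ, fun _ q hq => ?_⟩
      have hq1 : ‖q‖ = 1 := by simpa using hq.1.2
      have hqH := (gmtSimB_bd_local isOpen_ball hSe hq.2).1 hq.1.1
      rw [gmtBd_gmtHalf (by norm_num) 0 he] at hqH
      have hqe : ⟪q, e⟫ = 0 := by simpa using hqH
      exact gmtSimB_pm he hp1 hq1 hpe hqe
    · exact ⟨1, one_pos, fun h => absurd h hp⟩
  choose ρ hρ0 hρ using hloc
  obtain ⟨t, htC, hcov⟩ := hC.elim_nhds_subcover (fun p => ball p (ρ p))
    (fun p _ => ball_mem_nhds p (hρ0 p))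
  have hfin : (gmtBd S ∩ sphere (0 : E 2) 1).Finite := by
    refine Set.Finite.subset (s := ⋃ p ∈ t, ({p, -p} : Set (E 2))) ?_ ?_
    · exact Set.Finite.biUnion t.finite_toSet fun p _ => by simp
    · intro q hq
      obtain ⟨p, hp, hqp⟩ := mem_iUnion₂.1 (hcov hq)
      exact mem_iUnion₂.2 ⟨p, hp, hρ p (htC p hp) ⟨hq, hqp⟩⟩
  refine ⟨hfin.toFinset, fun v hv => ?_, fun x hx => ⟨fun hxS => ?_, ?_⟩⟩
  · have := (hfin.mem_toFinset.1 hv).2
    simpa using this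
  · have hn : 0 < ‖x‖ := norm_pos_iff.2 hx
    refine ⟨‖x‖⁻¹ • x, hfin.mem_toFinset.2 ⟨(gmtSim_bd_smul hcone (inv_pos.2 hn) x).2 hxS, ?_⟩,
      ‖x‖, hn, ?_⟩
    · rw [mem_sphere, dist_zero_right, norm_smul, norm_inv, norm_norm, inv_mul_cancel₀ hn.ne']
    · rw [smul_smul, mul_inv_cancel₀ hn.ne', one_smul]
  · rintro ⟨v, hv, s, hs, rfl⟩
    exact (gmtSim_bd_smul hcone hs v).2 (hfin.mem_toFinset.1 hv).1

theorem gmtSimB_dil_null {k : ℕ} {t : ℝ} (ht : 0 < t) (D : Set (E k)) :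
    volume (gmtDil 0 t D) = 0 ↔ volume D = 0 := by
  rw [volume_gmtDil D 0 ht, mul_eq_zero]
  have : ENNReal.ofReal (t ^ k)⁻¹ ≠ 0 := by
    rw [Ne, ENNReal.ofReal_eq_zero, not_le]
    positivity
  simp [this]

theorem gmtSimB_dil_ae {k : ℕ} {t : ℝ} (ht : 0 < t) {A B : Set (E k)}
    (h : (gmtDil 0 t A : Set (E k)) =ᵐ[volume] (gmtDil 0 t B : Set (E k))) : A =ᵐ[volume] B := by
  rw [ae_eq_set] at h ⊢
  have e1 : gmtDil (0 : E k) t A \ gmtDil 0 t B = gmtDil 0 t (A \ B) := rfl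
  have e2 : gmtDil (0 : E k) t B \ gmtDil 0 t A = gmtDil 0 t (B \ A) := rfl
  rw [e1, e2, gmtSimB_dil_null ht, gmtSimB_dil_null ht] at h
  exact h

/-- flatness is transported along the ray. -/
theorem gmtSimB_flat_scale {k : ℕ} {S : Set (E k)} (hcone : GmtCone S) {v e : E k} {ρ : ℝ}
    (h : (S ∩ ball v ρ : Set (E k)) =ᵐ[volume] (gmtHalf 0 e ∩ ball v ρ : Set (E k))) {t : ℝ}
    (ht : 0 < t) :
    (S ∩ ball (t • v) (t * ρ) : Set (E k)) =ᵐ[volume]
      (gmtHalf 0 e ∩ ball (t • v) (t * ρ) : Set (E k)) := by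
  apply gmtSimB_dil_ae ht
  have hb : gmtDil (0 : E k) t (ball (t • v) (t * ρ)) = ball v ρ := by
    have := gmtDil_ball (0 : E k) v ht ρ
    rwa [zero_add] at this
  have e1 : ∀ D : Set (E k), gmtDil (0 : E k) t (D ∩ ball (t • v) (t * ρ))
      = gmtDil 0 t D ∩ ball v ρ := fun D => by
    rw [← hb]; rfl
  rw [e1, e1, gmtDil_gmtHalf 0 e ht]
  exact ((hcone t ht).inter (ae_eq_refl _)).trans h

/-- the open ray. -/
def gmtSimRaySet (v : E 2) : Set (E 2) := {x | ∃ t : ℝ, 0 < t ∧ x = t • v}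

/-- an open neighbourhood of the ray. -/
def gmtSimRayNhd (v : E 2) (ρ : ℝ) : Set (E 2) :=
  ⋃ q : {q : ℚ // 0 < q}, ball (((q : ℚ) : ℝ) • v) (((q : ℚ) : ℝ) * ρ)

theorem gmtSimRayNhd_isOpen (v : E 2) (ρ : ℝ) : IsOpen (gmtSimRayNhd v ρ) :=
  isOpen_iUnion fun _ => isOpen_ball

theorem gmtSimRaySet_subset {v : E 2} (hv : ‖v‖ = 1) {ρ : ℝ} (hρ : 0 < ρ) :
    gmtSimRaySet v ⊆ gmtSimRayNhd v ρ := by
  rintro x ⟨t, ht, rfl⟩
  obtain ⟨q, hq1, hq2⟩ := exists_rat_btwn (show t < t + t * ρ by nlinarith)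
  have hq0 : (0 : ℝ) < q := ht.trans hq1
  refine mem_iUnion.2 ⟨⟨q, by exact_mod_cast hq0⟩, ?_⟩
  rw [mem_ball, dist_eq_norm, ← sub_smul, norm_smul, hv, mul_one, Real.norm_eq_abs, abs_lt]
  constructor <;> nlinarith

theorem gmtSimRayNhd_ae {S : Set (E 2)} (hcone : GmtCone S) {v e : E 2} {ρ : ℝ}
    (h : (S ∩ ball v ρ : Set (E 2)) =ᵐ[volume] (gmtHalf 0 e ∩ ball v ρ : Set (E 2))) :
    (S ∩ gmtSimRayNhd v ρ : Set (E 2)) =ᵐ[volume] (gmtHalf 0 e ∩ gmtSimRayNhd v ρ : Set (E 2)) := by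
  unfold gmtSimRayNhd
  rw [inter_iUnion, inter_iUnion]
  exact Filter.EventuallyEq.countable_iUnion fun q =>
    gmtSimB_flat_scale hcone h (by exact_mod_cast q.2)

theorem gmtSimRaySet_eq {v : E 2} (hv : ‖v‖ = 1) :
    gmtSimRaySet v = {x | x = ⟪x, v⟫ • v} ∩ {x | 0 < ⟪x, v⟫} := by
  have hvv : ⟪v, v⟫ = 1 := by rw [real_inner_self_eq_norm_sq, hv]; norm_num
  ext x
  constructor
  · rintro ⟨t, ht, rfl⟩
    have : ⟪t • v, v⟫ = t := by rw [inner_smul_left, hvv]; simp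
    exact ⟨by show t • v = ⟪t • v, v⟫ • v; rw [this], by show 0 < ⟪t • v, v⟫; rw [this]; exact ht⟩
  · rintro ⟨h1, h2⟩
    exact ⟨⟪x, v⟫, h2, h1⟩

theorem gmtSimRaySet_measurable {v : E 2} (hv : ‖v‖ = 1) : MeasurableSet (gmtSimRaySet v) := by
  rw [gmtSimRaySet_eq hv]
  have c1 : Continuous fun x : E 2 => ⟪x, v⟫ := continuous_id.inner continuous_const
  exact (isClosed_eq continuous_id (c1.smul continuous_const)).measurableSet.inter
    (isOpen_lt continuous_const c1).measurableSet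

theorem gmtSimRaySet_preimage {v : E 2} (hv : ‖v‖ = 1) :
    (fun s : ℝ => s • v) ⁻¹' gmtSimRaySet v = Ioi 0 := by
  have hv0 : v ≠ 0 := fun h => by rw [h, norm_zero] at hv; exact zero_ne_one hv
  ext s
  constructor
  · rintro ⟨t, ht, hst⟩
    have : s = t := smul_left_injective ℝ hv0 hst
    rw [this]; exact ht
  · intro hs
    exact ⟨s, hs, rfl⟩

theorem gmtSimB_map_line {v w : E 2} (h : v = w ∨ v = -w) :
    Measure.map (fun s : ℝ => s • w) volume = Measure.map (fun s : ℝ => s • v) volume := by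
  rcases h with rfl | rfl
  · rfl
  · have hf : Measurable (fun s : ℝ => s • (-w)) :=
      (continuous_id.smul continuous_const).measurable
    have e : (fun s : ℝ => s • w) = (fun s : ℝ => s • (-w)) ∘ Neg.neg := by
      funext s; simp
    rw [e, ← Measure.map_map hf measurable_neg, Measure.map_neg_eq_self]

/-- structure of `μ`, `ν` along one ray. -/
theorem gmtSimB_ray {S : Set (E 2)} (hS : GmtLF S univ) (hcone : GmtCone S) {v e : E 2} {ρ : ℝ}
    (hv : ‖v‖ = 1) (he : ‖e‖ = 1) (hve : ⟪v, e⟫ = 0) (hρ : 0 < ρ)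
    (h : (S ∩ ball v ρ : Set (E 2)) =ᵐ[volume] (gmtHalf 0 e ∩ ball v ρ : Set (E 2))) :
    (gmtMu S).restrict (gmtSimRaySet v) = gmtSimRay v ∧
      ∀ᵐ x ∂(gmtSimRay v), gmtNu S x = e := by
  have hO := gmtSimRayNhd_isOpen v ρ
  have hae := gmtSimRayNhd_ae hcone h
  have hsub := gmtSimRaySet_subset hv hρ
  have h1 := gmtMu_restrict_congr hO hS.1 (measurableSet_gmtHalf 0 e) hae
  have hf : Measurable (fun s : ℝ => s • v) := (continuous_id.smul continuous_const).measurable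
  have hpm : v = gmtSimJ e ∨ v = - gmtSimJ e :=
    gmtSimB_pm he (by rw [gmtSimA2_norm_J, he]) hv (gmtSimA2_inner_J e) hve
  have h2 : (gmtMu S).restrict (gmtSimRaySet v) = gmtSimRay v := by
    rw [← Measure.restrict_restrict_of_subset hsub, h1, Measure.restrict_restrict_of_subset hsub,
      (gmtSim_half_mu he).1, gmtSimB_map_line hpm,
      Measure.restrict_map hf (gmtSimRaySet_measurable hv), gmtSimRaySet_preimage hv]
    rfl
  refine ⟨h2, ?_⟩
  have hLF : GmtLF S (gmtSimRayNhd v ρ) :=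
    ⟨hS.1, fun W hW => hS.2 W ⟨hW.1, hW.2.1, subset_univ _⟩⟩
  have h3 := gmtNu_congr hO hLF (measurableSet_gmtHalf 0 e) hae
  have h4 : gmtNu (gmtHalf 0 e) =ᵐ[(gmtMu S).restrict (gmtSimRayNhd v ρ)] fun _ => e := by
    rw [h1]
    exact ae_restrict_of_ae (gmtSim_half_mu he).2
  have h5 : ∀ᵐ x ∂((gmtMu S).restrict (gmtSimRayNhd v ρ)), gmtNu S x = e := h3.trans h4
  rw [← h2]
  exact ae_mono (Measure.restrict_mono hsub le_rfl) h5

theorem gmtSimB_mu_zero {S : Set (E 2)} (hS : GmtLF S univ) (hcone : GmtCone S) :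
    gmtMu S {0} = 0 := by
  have h := gmtMu_gmtDil hS.1 (0 : E 2) (two_pos) {0}
  rw [gmtSimC_mu_dil hS.1 hcone two_pos] at h
  have e : gmtDil (0 : E 2) 2 {0} = {0} := by
    ext z
    have h' : z ∈ gmtDil (0 : E 2) 2 {0} ↔ (0 : E 2) + (2 : ℝ) • z ∈ ({0} : Set (E 2)) := Iff.rfl
    rw [h', zero_add, mem_singleton_iff, mem_singleton_iff, smul_eq_zero]
    simp
  rw [e] at h
  have hfin : gmtMu S {0} ≠ ⊤ :=
    gmtMu_compact_ne_top isOpen_univ hS isCompact_singleton (subset_univ _)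
  have h2 := congrArg ENNReal.toReal h
  rw [ENNReal.toReal_mul, ENNReal.toReal_mul, ENNReal.toReal_ofReal (by norm_num),
    ENNReal.toReal_ofReal (by norm_num)] at h2
  have h3 : (gmtMu S {0}).toReal = 0 := by linarith
  rcases (ENNReal.toReal_eq_zero_iff _).1 h3 with h4 | h4
  · exact h4
  · exact absurd h4 hfin

theorem gmtSimRaySet_disjoint {v w : E 2} (hv : ‖v‖ = 1) (hw : ‖w‖ = 1) (hvw : v ≠ w) :
    Disjoint (gmtSimRaySet v) (gmtSimRaySet w) := by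
  rw [Set.disjoint_left]
  rintro x ⟨t, ht, rfl⟩ ⟨s, hs, hts⟩
  have h1 := congrArg norm hts
  rw [norm_smul, norm_smul, hv, hw, mul_one, mul_one, Real.norm_eq_abs, Real.norm_eq_abs,
    abs_of_pos ht, abs_of_pos hs] at h1
  rw [h1] at hts
  exact hvw (smul_right_injective (E 2) hs.ne' hts)

/-- 3. structure of the perimeter measure and of the normal. -/
theorem gmtSim_two_mu {S : Set (E 2)} (hS : GmtLF S univ) (hcone : GmtCone S)
    (hflat : GmtSimFlat S) {F : Finset (E 2)} (hF : ∀ v ∈ F, ‖v‖ = 1)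
    (hF' : ∀ x : E 2, x ≠ 0 → (x ∈ gmtBd S ↔ ∃ v ∈ F, ∃ t : ℝ, 0 < t ∧ x = t • v)) :
    gmtMu S = ∑ v ∈ F, gmtSimRay v ∧
      ∃ σ : E 2 → ℝ, (∀ v ∈ F, σ v = 1 ∨ σ v = -1) ∧
        (∀ v ∈ F, ∀ᵐ x ∂(gmtSimRay v), gmtNu S x = σ v • gmtSimJ v) ∧
        ∀ v ∈ F, ∃ ρ > 0, (S ∩ ball v ρ : Set (E 2)) =ᵐ[volume]
          (gmtHalf 0 (σ v • gmtSimJ v) ∩ ball v ρ : Set (E 2)) := by
  have hdata : ∀ v : E 2, ∃ (e : E 2) (ρ : ℝ), v ∈ F → ‖e‖ = 1 ∧ ⟪v, e⟫ = 0 ∧ 0 < ρ ∧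
      (S ∩ ball v ρ : Set (E 2)) =ᵐ[volume] (gmtHalf 0 e ∩ ball v ρ : Set (E 2)) := by
    intro v
    by_cases hv : v ∈ F
    · have hv0 : v ≠ 0 := fun h => by
        have := hF v hv
        rw [h, norm_zero] at this
        exact zero_ne_one this
      have hvS : v ∈ gmtBd S := (hF' v hv0).2 ⟨v, hv, 1, one_pos, (one_smul _ _).symm⟩
      obtain ⟨e, he, hve, ρ, hρ, h⟩ := hflat v hvS hv0
      exact ⟨e, ρ, fun _ => ⟨he, hve, hρ, h⟩⟩
    · exact ⟨0, 0, fun h => absurd h hv⟩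
  choose e ρ hd using hdata
  have hray := fun v (hv : v ∈ F) =>
    gmtSimB_ray hS hcone (hF v hv) (hd v hv).1 (hd v hv).2.1 (hd v hv).2.2.1 (hd v hv).2.2.2
  have he : ∀ v ∈ F, e v = ⟪e v, gmtSimJ v⟫ • gmtSimJ v := by
    intro v hv
    have := gmtSimA2_decomp (hF v hv) (e v)
    rw [real_inner_comm v (e v), (hd v hv).2.1, zero_smul, add_zero] at this
    exact this
  refine ⟨?_, fun v => ⟪e v, gmtSimJ v⟫, fun v hv => ?_, fun v hv => ?_, fun v hv => ?_⟩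
  · -- the measure
    have hnull : gmtMu S (⋃ v ∈ F, gmtSimRaySet v)ᶜ = 0 := by
      have hsub : (⋃ v ∈ F, gmtSimRaySet v)ᶜ ⊆ (gmtBd S)ᶜ ∪ {0} := by
        intro x hx
        by_cases hx0 : x = 0
        · exact Or.inr hx0
        · refine Or.inl fun hxS => hx ?_
          obtain ⟨v, hv, t, ht, hxt⟩ := (hF' x hx0).1 hxS
          exact mem_iUnion₂.2 ⟨v, hv, t, ht, hxt⟩
      refine measure_mono_null hsub (measure_union_null (gmtMu_compl_gmtBd hS.1)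
        (gmtSimB_mu_zero hS hcone))
    ext A hA
    rw [Measure.finsetSum_apply]
    have h1 : gmtMu S A = gmtMu S (A ∩ ⋃ v ∈ F, gmtSimRaySet v) :=
      (measure_inter_conull hnull).symm
    have h2 : A ∩ ⋃ v ∈ F, gmtSimRaySet v = ⋃ v ∈ F, A ∩ gmtSimRaySet v := by
      rw [inter_iUnion₂]
    rw [h1, h2, measure_biUnion_finset]
    · refine Finset.sum_congr rfl fun v hv => ?_
      rw [← (hray v hv).1, Measure.restrict_apply hA]
    · intro v hv w hw hvw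
      exact (gmtSimRaySet_disjoint (hF v hv) (hF w hw) hvw).mono inter_subset_right
        inter_subset_right
    · intro v hv
      exact hA.inter (gmtSimRaySet_measurable (hF v hv))
  · have h1 := congrArg norm (he v hv)
    rw [norm_smul, gmtSimA2_norm_J, hF v hv, mul_one, (hd v hv).1, Real.norm_eq_abs] at h1
    exact (abs_eq (by norm_num : (0 : ℝ) ≤ 1)).1 h1.symm
  · rw [← he v hv]
    exact (hray v hv).2
  · rw [← he v hv]
    exact ⟨ρ v, (hd v hv).2.2.1, (hd v hv).2.2.2⟩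

end Claimed.Agent.Gmt
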