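import Claimed.Agent.Lib.Gmt.Fv
import Claimed.Agent.Lib.Gmt.SimJac

/-!
# Lib/Gmt [G7 Simons] `SimVar`: the stability inequality and the tangential divergence theorem.   (architect: helper257)

Built on helper184's deformation package `FvA`-`Fv` (black boxes: `gmt_flow_diffeo`, `GmtFlowOK`, `gmtPer_flow_le`, `gmtPer_flow_zero`, `gmtMu_integrableOn`, `gmt_min_fv`).

## (A) `gmtSim_flow_ineq`:  `∫_W |ν| dμ ≤ ∫_W |cof(DΦ_t) ν| dμ`  for a minimiser
`S' = gmtFlow X t '' S` is measurable (`ht.meas`), `S Δ S' ⊆ tsupport X` (`ht.sd`), a compact subset of `W`: `GmtCD S S' W`.   `gmtPer_flow_le`, `gmtPer_flow_zero` with `A = fun _ => gmtEu k` (`gmtInt_eu`),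
`√(gmtEu c c) = ‖c‖`; `hmin.min W S'`.
## (B) `gmtSim_stab`:  `∫ a ζ² dμ ≤ ∫ |∇^Σ ζ|² dμ`
`X = ζ ∇u` (`gmtSim_test_smul`), `W = ball 0 R ⊇ tsupport ζ`.   `DX = ∇u ⊗ ∇ζ + ζ h` on `U` (`= gmtSimR1 (∇u) (∇ζ) + ζ • gmtSimH u`), `DX = 0` off `tsupport ζ`.
`μ`-a.e. on `tsupport ζ ⊆ U` (`μ` lives on `Σ`: `gmtMu_compl_gmtBd`): `ν = ∇u` (`nu`), `|∇u| = 1`, `h` symmetric (`gmtSim_H_symm`), `h∇u = 0` (`gmtSim_H_gradient`), `tr h = Δu = 0` (`harm`, `zero_iff`, `gmtSim_div_eq_tr`).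
`gmtSim_cof_normal` with `M = sup (|∇ζ|, |ζ|, ‖h‖)` over the compact set `tsupport ζ`;  off `tsupport ζ`: `cof = 1` (`gmtSim_cof_one`).   So by (A), for small `t > 0`:
 `0 ≤ ∫_W (|cof ν| - |ν|) dμ ≤ t²/2 ∫ (|∇^Σζ|² - ζ² a) dμ + C t³ μ(tsupport ζ)`; divide by `t²`, let `t → 0+`.
## (C) `gmtSim_ibp`: `gmt_min_fv` with `ν = ∇u` `μ`-a.e. on `tsupport Y ⊆ U`.
-/

set_option autoImplicit false
open scoped ContDiff ENNReal RealInnerProductSpace Topology
open MeasureTheory Metric Set Filter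

namespace Claimed.Agent.Gmt

variable {k : ℕ}

theorem gmtSimV_sqrt_eu (c : E k) : Real.sqrt (gmtEu k c c) = ‖c‖ := by
  unfold gmtEu
  rw [innerSL_apply_apply, real_inner_self_eq_norm_sq, Real.sqrt_sq (norm_nonneg _)]

theorem gmtSimV_flowD_of_fderiv_zero {X : E k → E k} {x : E k} (h : fderiv ℝ X x = 0) (t : ℝ) :
    gmtFlowD X t x = 1 := by
  unfold gmtFlowD
  rw [h]
  ext y
  simp

theorem gmtSimV_flowNu_zero (X : E k → E k) (S : Set (E k)) (x : E k) :
    gmtFlowNu X 0 S x = gmtNu S x := by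
  have e : gmtFlowD X 0 x = 1 := by
    unfold gmtFlowD
    ext y
    simp
  unfold gmtFlowNu
  rw [e]
  exact gmtSim_cof_one _

/-- (A) -/
theorem gmtSim_flow_ineq {U W S : Set (E k)} (hU : IsOpen U) (hS : GmtMin U S) (hW : GmtCC W U)
    {X : E k → E k} (hX : GmtTestS W X) {t : ℝ} (ht : GmtFlowOK X t) :
    ∫ x in W, ‖gmtNu S x‖ ∂(gmtMu S) ≤ ∫ x in W, ‖gmtFlowNu X t S x‖ ∂(gmtMu S) := by
  have hLF : GmtLF S U := gmtSim_min_lf hS
  have hle := gmtPer_flow_le hU (gmtInt_eu U) hLF hW hX ht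
  have hz := gmtPer_flow_zero hU (gmtInt_eu U) hLF hW X
  have e1 : ∀ s, gmtFlowPer (fun _ => gmtEu k) X S W s = ∫ x in W, ‖gmtFlowNu X s S x‖ ∂(gmtMu S) :=
    fun s => by
      unfold gmtFlowPer
      simp only [gmtSimV_sqrt_eu]
  rw [e1] at hle hz
  simp only [gmtSimV_flowNu_zero] at hz
  have hfin : gmtPer (fun _ => gmtEu k) (gmtFlow X t '' S) W ≠ ⊤ :=
    ne_top_of_le_ne_top ENNReal.ofReal_ne_top hle
  have hmin := hS.min W (gmtFlow X t '' S) hW (ht.meas S hS.meas)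
    ⟨tsupport X, hX.cpt, hX.sub, ht.sd S⟩ hfin
  simp only [integral_zero, sub_zero] at hmin
  rw [hz, ENNReal.toReal_ofReal (integral_nonneg fun x => norm_nonneg _)] at hmin
  refine hmin.trans ?_
  have := ENNReal.toReal_mono ENNReal.ofReal_ne_top hle
  rwa [ENNReal.toReal_ofReal (integral_nonneg fun x => norm_nonneg _)] at this

/-- (C) **tangential divergence theorem.** -/
theorem gmtSim_ibp {S U : Set (E k)} {u : E k → ℝ} (hmin : GmtMin univ S) (hc : GmtSimTube S U u)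
    {Y : E k → E k} (hY : GmtTestS U Y) :
    ∫ x, (gmtDiv Y x - ⟪fderiv ℝ Y x (gradient u x), gradient u x⟫) ∂(gmtMu S) = 0 := by
  have h := gmt_min_fv isOpen_univ hmin (X := Y) ⟨hY.smooth, hY.cpt, subset_univ _⟩
  rw [← h]
  have hnu := (ae_restrict_iff' hc.opn.measurableSet).1 hc.nu
  refine integral_congr_ae ?_
  filter_upwards [hnu] with x hx
  by_cases hxU : x ∈ U
  · rw [hx hxU, real_inner_comm]
  · have : fderiv ℝ Y x = 0 := fderiv_of_notMem_tsupport ℝ (fun h' => hxU (hY.sub h'))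
    rw [this]
    simp

theorem gmtSimV_fderiv {U : Set (E k)} (hU : IsOpen U) {u ζ : E k → ℝ} (hu : ContDiffOn ℝ ∞ u U)
    (hζ : ContDiff ℝ ∞ ζ) {x : E k} (hx : x ∈ U) :
    fderiv ℝ (fun y => ζ y • gradient u y) x =
      gmtSimR1 (gradient u x) (gradient ζ x) + ζ x • gmtSimH u x := by
  have hg : DifferentiableAt ℝ (gradient u) x :=
    ((gmtSim_contDiffOn_gradient hU hu).contDiffAt (hU.mem_nhds hx)).differentiableAt (by simp)
  have hz : DifferentiableAt ℝ ζ x := hζ.differentiable (by simp) x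
  rw [fderiv_fun_smul hz hg]
  ext1 v
  simp [gmtSimJ_r1_apply, gmtSimH, add_comm]

theorem gmtSimV_elem {F c τ : ℝ} (hτ : 0 < τ) (hc : 0 ≤ c)
    (h : ∀ t, 0 < t → t < τ → 0 ≤ t ^ 2 / 2 * F + c * t ^ 3) : 0 ≤ F := by
  by_contra hF
  push Not at hF
  set t := min (τ / 2) (-F / (4 * (c + 1))) with ht
  have ht0 : 0 < t := lt_min (by linarith) (div_pos (by linarith) (by linarith))
  have ht1 : t < τ := lt_of_le_of_lt (min_le_left _ _) (by linarith)
  have ht2 : t * (4 * (c + 1)) ≤ -F := by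
    have := min_le_right (τ / 2) (-F / (4 * (c + 1)))
    rwa [← ht, le_div_iff₀ (by linarith)] at this
  have h1 := h t ht0 ht1
  have h2 : 0 ≤ F / 2 + c * t := by
    have h3 : 0 ≤ t ^ 2 * (F / 2 + c * t) := by
      have e : t ^ 2 * (F / 2 + c * t) = t ^ 2 / 2 * F + c * t ^ 3 := by ring
      rw [e]; exact h1
    exact nonneg_of_mul_nonneg_right h3 (by positivity)
  nlinarith

theorem gmtSimV_cs {K : Set (E k)} (hK : IsCompact K) {g : E k → ℝ} (h : ∀ x, x ∉ K → g x = 0) :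
    HasCompactSupport g ∧ tsupport g ⊆ K := by
  refine ⟨HasCompactSupport.intro hK h, closure_minimal (fun x hx => ?_) hK.isClosed⟩
  by_contra hxK
  exact hx (h x hxK)

theorem gmtSimV_gradient_zero {ζ : E k → ℝ} {x : E k} (hx : x ∉ tsupport ζ) : gradient ζ x = 0 := by
  unfold gradient
  rw [fderiv_of_notMem_tsupport ℝ hx, map_zero]

theorem gmtSimV_lf_mono {S U : Set (E k)} (h : GmtLF S univ) : GmtLF S U :=
  ⟨h.1, fun W hW => h.2 W ⟨hW.1, hW.2.1, subset_univ _⟩⟩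

theorem gmtSimV_ae {S U : Set (E k)} {u : E k → ℝ} (hS : MeasurableSet S) (hc : GmtSimTube S U u) :
    ∀ᵐ x ∂(gmtMu S), x ∈ U → gmtNu S x = gradient u x ∧ u x = 0 := by
  have hnu := (ae_restrict_iff' hc.opn.measurableSet).1 hc.nu
  have hbd : ∀ᵐ x ∂(gmtMu S), x ∈ gmtBd S := by
    have := gmtMu_compl_gmtBd hS
    exact mem_ae_iff.2 this
  filter_upwards [hnu, hbd] with x h1 h2 hxU
  exact ⟨h1 hxU, (hc.zero_iff x hxU).2 h2⟩

theorem gmtSimV_continuousOn_Tg {U : Set (E k)} (hU : IsOpen U) {u f g : E k → ℝ}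
    (hu : ContDiffOn ℝ ∞ u U) (hf : ContDiffOn ℝ ∞ f U) (hg : ContDiffOn ℝ ∞ g U) :
    ContDiffOn ℝ ∞ (gmtSimTg u f g) U := by
  unfold gmtSimTg
  have h1 := gmtSim_contDiffOn_gradient hU hu
  have h2 := gmtSim_contDiffOn_gradient hU hf
  have h3 := gmtSim_contDiffOn_gradient hU hg
  exact (h2.inner ℝ h3).sub ((h2.inner ℝ h1).mul (h3.inner ℝ h1))

/-- the pointwise second order bound. -/
theorem gmtSimV_pointwise {S U : Set (E k)} {u : E k → ℝ} (hS : MeasurableSet S)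
    (hc : GmtSimCone S U u) {ζ : E k → ℝ} (hζ : GmtTestS0 U ζ) :
    ∃ C t₁ : ℝ, 0 ≤ C ∧ 0 < t₁ ∧ ∀ t : ℝ, 0 ≤ t → t ≤ t₁ → ∀ᵐ x ∂(gmtMu S),
      ‖gmtFlowNu (fun y => ζ y • gradient u y) t S x‖ - ‖gmtNu S x‖ ≤
        t ^ 2 / 2 * (gmtSimTg u ζ ζ x - gmtSimA u x * ζ x ^ 2) + C * t ^ 3 := by
  have hU := hc.opn
  have hKc : IsCompact (tsupport ζ) := hζ.cpt
  have hgζ : Continuous (gradient ζ) := by
    have := gmtSim_contDiffOn_gradient isOpen_univ hζ.smooth.contDiffOn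
    exact (contDiffOn_univ.1 this).continuous
  obtain ⟨M1, hM1⟩ := hKc.exists_bound_of_continuousOn hgζ.continuousOn
  obtain ⟨M2, hM2⟩ := hKc.exists_bound_of_continuousOn hζ.smooth.continuous.continuousOn
  obtain ⟨M3, hM3⟩ := hKc.exists_bound_of_continuousOn
    ((gmtSim_contDiffOn_H hU hc.smooth).continuousOn.mono hζ.sub)
  obtain ⟨C, t₁, ht₁, Hcof⟩ := gmtSim_cof_normal k (max M1 (max M2 M3))
  refine ⟨|C|, t₁, abs_nonneg _, ht₁, fun t ht0 ht1 => ?_⟩
  have ht3 : 0 ≤ t ^ 3 := by positivity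
  filter_upwards [gmtSimV_ae hS hc.toGmtSimTube] with x hx
  by_cases hxK : x ∈ tsupport ζ
  · have hxU := hζ.sub hxK
    obtain ⟨hν, hu0⟩ := hx hxU
    have hN1 : ‖gradient u x‖ = 1 := hc.eik x hxU
    have htr : gmtSimTr (gmtSimH u x) = 0 := by
      have := hc.harm x hxU hu0
      rwa [gmtSim_div_eq_tr] at this
    have h1 := (Hcof (gradient u x) (gradient ζ x) (ζ x) (gmtSimH u x) hN1
      (gmtSim_H_symm hU hc.smooth hxU) (gmtSim_H_gradient hU hc.smooth hc.eik hxU) htr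
      ((hM1 x hxK).trans (le_max_left _ _))
      ((hM2 x hxK).trans ((le_max_left _ _).trans (le_max_right _ _)))
      ((hM3 x hxK).trans ((le_max_right _ _).trans (le_max_right _ _))) t ht0 ht1).2
    have e1 : gmtFlowNu (fun y => ζ y • gradient u y) t S x
        = gmtCof (1 + t • (gmtSimR1 (gradient u x) (gradient ζ x) + ζ x • gmtSimH u x))
          (gradient u x) := by
      unfold gmtFlowNu gmtFlowD
      rw [gmtSimV_fderiv hU hc.smooth hζ.smooth hxU, hν]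
      rfl
    have e2 : gmtSimTg u ζ ζ x - gmtSimA u x * ζ x ^ 2
        = ‖gradient ζ x‖ ^ 2 - ⟪gradient ζ x, gradient u x⟫ ^ 2
          - ζ x ^ 2 * ∑ i, ‖gmtSimH u x (eb i)‖ ^ 2 := by
      unfold gmtSimTg gmtSimA
      rw [real_inner_self_eq_norm_sq]
      ring
    rw [e1, e2, hν, hN1]
    have h2 : C * t ^ 3 ≤ |C| * t ^ 3 := mul_le_mul_of_nonneg_right (le_abs_self _) ht3
    linarith
  · have hxX : x ∉ tsupport (fun y => ζ y • gradient u y) :=
      fun h => hxK (tsupport_smul_subset_left ζ _ h)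
    have e1 : gmtFlowNu (fun y => ζ y • gradient u y) t S x = gmtNu S x := by
      unfold gmtFlowNu
      rw [gmtSimV_flowD_of_fderiv_zero (fderiv_of_notMem_tsupport ℝ hxX)]
      exact gmtSim_cof_one _
    have e2 : gmtSimTg u ζ ζ x - gmtSimA u x * ζ x ^ 2 = 0 := by
      unfold gmtSimTg
      rw [gmtSimV_gradient_zero hxK, image_eq_zero_of_notMem_tsupport hxK]
      simp
    rw [e1, e2]
    have : 0 ≤ |C| * t ^ 3 := by positivity
    linarith

/-- (B) **stability inequality.** -/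
theorem gmtSim_stab {S U : Set (E k)} {u : E k → ℝ} (hmin : GmtMin univ S) (hc : GmtSimCone S U u)
    {ζ : E k → ℝ} (hζ : GmtTestS0 U ζ) :
    ∫ x, gmtSimA u x * ζ x ^ 2 ∂(gmtMu S) ≤ ∫ x, gmtSimTg u ζ ζ x ∂(gmtMu S) := by
  have hU := hc.opn
  have hLF : GmtLF S univ := gmtSim_min_lf hmin
  have hLFU : GmtLF S U := gmtSimV_lf_mono hLF
  have hXU : GmtTestS U (fun x => ζ x • gradient u x) :=
    gmtSim_test_smul hU (gmtSim_contDiffOn_gradient hU hc.smooth) hζ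
  have hKc : IsCompact (tsupport ζ) := hζ.cpt
  obtain ⟨W, hW, hKW⟩ := gmt_exists_cc hKc isOpen_univ (subset_univ _)
  have hXW : GmtTestS W (fun x => ζ x • gradient u x) :=
    ⟨hXU.smooth, hXU.cpt, (tsupport_smul_subset_left ζ _).trans hKW⟩
  obtain ⟨t₀, ht₀, hflow⟩ := gmt_flow_diffeo hXW
  obtain ⟨C, t₁, hC, ht₁, Hpt⟩ := gmtSimV_pointwise hmin.meas hc hζ
  -- integrability
  have z1 : ∀ x, x ∉ tsupport ζ → gmtSimTg u ζ ζ x = 0 := fun x hx => by
    unfold gmtSimTg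
    rw [gmtSimV_gradient_zero hx]
    simp
  have z2 : ∀ x, x ∉ tsupport ζ → gmtSimA u x * ζ x ^ 2 = 0 := fun x hx => by
    rw [image_eq_zero_of_notMem_tsupport hx]
    simp
  have hI1 : Integrable (gmtSimTg u ζ ζ) (gmtMu S) :=
    gmtSim_integrable hU hLFU
      (gmtSimV_continuousOn_Tg hU hc.smooth hζ.smooth.contDiffOn hζ.smooth.contDiffOn).continuousOn
      (gmtSimV_cs hKc z1).1 ((gmtSimV_cs hKc z1).2.trans hζ.sub)
  have hI2 : Integrable (fun x => gmtSimA u x * ζ x ^ 2) (gmtMu S) :=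
    gmtSim_integrable hU hLFU
      ((gmtSim_contDiffOn_A hU hc.smooth).continuousOn.mul
        (hζ.smooth.continuous.pow 2).continuousOn)
      (gmtSimV_cs hKc z2).1 ((gmtSimV_cs hKc z2).2.trans hζ.sub)
  have hI12 : Integrable (fun x => gmtSimTg u ζ ζ x - gmtSimA u x * ζ x ^ 2) (gmtMu S) :=
    hI1.sub hI2
  have hfinW : IsFiniteMeasure ((gmtMu S).restrict W) := gmtMu_restrict_finite isOpen_univ hLF hW
  have hIν : IntegrableOn (fun x => ‖gmtNu S x‖) W (gmtMu S) :=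
    gmtMu_integrableOn isOpen_univ hLF hW (measurable_gmtNu S).norm.aestronglyMeasurable (C := 1)
      (fun x _ => by rw [abs_of_nonneg (norm_nonneg _)]; exact norm_gmtNu_le_one S x)
  have key : 0 ≤ ∫ x, (gmtSimTg u ζ ζ x - gmtSimA u x * ζ x ^ 2) ∂(gmtMu S) := by
    refine gmtSimV_elem (c := C * ((gmtMu S).restrict W).real univ) (lt_min ht₀ ht₁)
      (mul_nonneg hC measureReal_nonneg) fun t ht0 ht => ?_
    have hOK := hflow t (by rw [abs_of_pos ht0]; exact ht.trans_le (min_le_left _ _))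
    have hA := gmtSim_flow_ineq isOpen_univ hmin hW hXW hOK
    obtain ⟨Cb, hCb⟩ := gmtFlowNu_bdd hXW hOK
    have hIF : IntegrableOn (fun x => ‖gmtFlowNu (fun y => ζ y • gradient u y) t S x‖) W
        (gmtMu S) :=
      gmtMu_integrableOn isOpen_univ hLF hW
        (gmtFlowNu_measurable hXW.smooth hOK S).norm.aestronglyMeasurable (C := Cb)
        (fun x _ => by rw [abs_of_nonneg (norm_nonneg _)]; exact hCb S x)
    have h1 : ∫ x in W, (‖gmtFlowNu (fun y => ζ y • gradient u y) t S x‖ - ‖gmtNu S x‖)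
          ∂(gmtMu S) ≤
        ∫ x in W, (t ^ 2 / 2 * (gmtSimTg u ζ ζ x - gmtSimA u x * ζ x ^ 2) + C * t ^ 3)
          ∂(gmtMu S) := by
      refine integral_mono_ae (hIF.sub hIν) ?_
        (ae_restrict_of_ae (Hpt t ht0.le (ht.le.trans (min_le_right _ _))))
      exact ((hI12.integrableOn).const_mul _).add (integrable_const _)
    rw [integral_sub hIF hIν, integral_add ((hI12.integrableOn).const_mul _)
      (integrable_const _), integral_const_mul, integral_const, smul_eq_mul] at h1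
    have e : ∫ x in W, (gmtSimTg u ζ ζ x - gmtSimA u x * ζ x ^ 2) ∂(gmtMu S)
        = ∫ x, (gmtSimTg u ζ ζ x - gmtSimA u x * ζ x ^ 2) ∂(gmtMu S) :=
      setIntegral_eq_integral_of_forall_compl_eq_zero (fun x hx => by
        rw [z1 x (fun h => hx (hKW h)), z2 x (fun h => hx (hKW h)), sub_zero])
    rw [e] at h1
    have e2 : C * ((gmtMu S).restrict W).real univ * t ^ 3
        = ((gmtMu S).restrict W).real univ * (C * t ^ 3) := by ring
    rw [e2]
    linarith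
  rw [integral_sub hI1 hI2] at key
  linarith

end Claimed.Agent.Gmt
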