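import Claimed.Agent.Lib.Gmt.CoC
import Claimed.Agent.Lib.Gmt.IFp
import Claimed.Agent.Lib.Gmt.FlCoord2

/-!
# Lib/Gmt G6 SPLITTING [part A]: splitting off a line; rotations; products.   (architect: helper184)

PLAN OF PROOFS
* `gmt_split_last`.  Identify `E (n+1) ≃ E n × ℝ` (measure preserving: `gmtJoin`, `gmtHor`, `gmtVer`; `EuclideanSpace.volume_preserving_measurableEquiv`, `MeasureTheory.volume_preserving_piFinSuccAbove`/`Fin.snoc` variants).  `u = χ_C`, `v(z) = ∫_0^1 u(z,s) ds`.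
  `∫_K ∫_a^b |u(z,t) - v(z)| dt dz ≤ ∫_K ∫_a^b ∫_0^1 |u(z,t) - u(z,s)| ds dt dz = ∫ dτ ∫∫ 1_{..} |u(z,t) - u(z,t+τ)| dz dt = 0` (Tonelli, `s = t + τ`, invariance for every `τ`).
  So `u = v∘pr` a.e.; `v ∈ {0,1}` a.e.; `C' = {v > 1/2}`.
* `gmt_exists_rot`: extend `w/‖w‖` to an orthonormal basis (`Orthonormal.exists_orthonormalBasis_extension_of_card_eq` / `exists_orthonormalBasis_extension`), reindex so that it is the last vector, `OrthonormalBasis.equiv`;
  or use the reflection in `(w/‖w‖ - e)^⊥` (`reflection_sub`-type lemma: `reflection (ℝ ∙ (v - w))ᗮ v = w` for `‖v‖ = ‖w‖`: Mathlib `reflection_sub`).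
* rotations: `gmtRot O C = gmtBlow O 0 1 C = O '' C`; everything follows from `FrB-FrD`.
* products: Fubini for null sets (`Measure.ae_ae_of_ae_prod`, `measure_prod_null`): `gmtTimesR X =ᵐ gmtTimesR Y ↔ X =ᵐ Y`.   `gmtProdInt (Euclid) 1 = Euclid` by `‖y‖² = ‖gmtHor y‖² + (gmtVer y)²` polarised.
  `gmtSpine_timesR_le`: `gmtHorL` maps `gmtSpine (C' × ℝ)` into `gmtSpine C'` with kernel inside `ℝ e_last`; rank-nullity (`LinearMap.finrank_range_add_finrank_ker`).
-/

set_option autoImplicit false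
open scoped ContDiff ENNReal RealInnerProductSpace Topology
open MeasureTheory Metric Set Filter

namespace Claimed.Agent.Gmt

variable {m n : ℕ}

theorem gmt_spa_join_add (z : E n) (t s : ℝ) : gmtJoin z t + s • gmtEn n = gmtJoin z (t + s) := by
  rw [fl_join_eq, fl_join_eq, add_smul, add_assoc]

/-- a.e. dichotomy on a line. -/
theorem gmt_spa_dich {D : Set ℝ} (h : ∀ᵐ t : ℝ, ∀ᵐ s : ℝ, (s ∈ D ↔ t ∈ D)) :
    (∀ᵐ s : ℝ, s ∈ D) ∨ (∀ᵐ s : ℝ, s ∉ D) := by
  by_cases h0 : ∀ᵐ s : ℝ, s ∉ D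
  · exact Or.inr h0
  · left
    have h1 : ∃ᶠ s in ae (volume : Measure ℝ), s ∈ D := by
      intro hc
      exact h0 hc
    obtain ⟨t, ht, ht'⟩ := (h1.and_eventually h).exists
    filter_upwards [ht'] with s hs
    exact hs.2 ht

/-- SPLITTING: a set invariant in the last direction is a cylinder. -/
theorem gmt_split_last {C : Set (E (n + 1))} (hC : MeasurableSet C)
    (h : gmtEn n ∈ gmtSpine C) :
    ∃ C' : Set (E n), MeasurableSet C' ∧ C =ᵐ[volume] gmtTimesR C' := by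
  have h0 : ∀ τ : ℝ, GmtInv C (τ • gmtEn n) := mem_gmtSpine.1 h
  -- the set in product coordinates
  set D : Set (E n × ℝ) := (fun p : E n × ℝ => gmtJoin p.1 p.2) ⁻¹' C with hD
  have hDm : MeasurableSet D := fl_measurable_join hC
  have h1 : ∀ τ : ℝ, ∀ᵐ q : E n × ℝ ∂((volume : Measure (E n)).prod (volume : Measure ℝ)),
      ((q.1, q.2 + τ) ∈ D ↔ q ∈ D) := by
    intro τ
    have h2 : ∀ᵐ y : E (n + 1), (y + τ • gmtEn n ∈ C ↔ y ∈ C) := by
      have := h0 τ
      filter_upwards [this] with y hy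
      exact iff_of_eq hy
    have h3 := (fl_measurePreserving_join (n := n)).quasiMeasurePreserving.ae h2
    filter_upwards [h3] with q hq
    rw [gmt_spa_join_add] at hq
    exact hq
  have hmeas : MeasurableSet {x : (E n × ℝ) × ℝ | ((x.1.1, x.1.2 + x.2) ∈ D ↔ x.1 ∈ D)} := by
    have hA : MeasurableSet {x : (E n × ℝ) × ℝ | (x.1.1, x.1.2 + x.2) ∈ D} := by
      have : Measurable (fun x : (E n × ℝ) × ℝ => (x.1.1, x.1.2 + x.2)) := by fun_prop
      exact this hDm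
    have hB : MeasurableSet {x : (E n × ℝ) × ℝ | x.1 ∈ D} := measurable_fst hDm
    exact MeasurableSet.iff hA hB
  have h4 : ∀ᵐ q : E n × ℝ ∂((volume : Measure (E n)).prod (volume : Measure ℝ)),
      ∀ᵐ τ : ℝ, ((q.1, q.2 + τ) ∈ D ↔ q ∈ D) :=
    (Measure.ae_ae_comm (p := fun (q : E n × ℝ) (τ : ℝ) => ((q.1, q.2 + τ) ∈ D ↔ q ∈ D)) hmeas).2
      (Eventually.of_forall h1)
  have h5 : ∀ᵐ z : E n, ∀ᵐ t : ℝ, ∀ᵐ τ : ℝ, ((z, t + τ) ∈ D ↔ (z, t) ∈ D) :=
    Measure.ae_ae_of_ae_prod h4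
  have h6 : ∀ᵐ z : E n, (∀ᵐ s : ℝ, (z, s) ∈ D) ∨ (∀ᵐ s : ℝ, (z, s) ∉ D) := by
    filter_upwards [h5] with z hz
    apply gmt_spa_dich (D := {s | (z, s) ∈ D})
    filter_upwards [hz] with t ht
    have := (quasiMeasurePreserving_add_left (volume : Measure ℝ) (-t)).ae ht
    filter_upwards [this] with s hs
    simpa using hs
  refine ⟨{z | ∀ᵐ s : ℝ, (z, s) ∈ D}, ?_, ?_⟩
  · have h7 := measurable_measure_prodMk_left (ν := (volume : Measure ℝ)) hDm.compl
    exact h7 (measurableSet_singleton 0)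
  · set C' : Set (E n) := {z | ∀ᵐ s : ℝ, (z, s) ∈ D} with hC'
    have hC'm : MeasurableSet C' := by
      have h7 := measurable_measure_prodMk_left (ν := (volume : Measure ℝ)) hDm.compl
      exact h7 (measurableSet_singleton 0)
    have h8 : ∀ᵐ z : E n, ∀ᵐ s : ℝ, ((z, s) ∈ D ↔ z ∈ C') := by
      filter_upwards [h6] with z hz
      rcases hz with hz | hz
      · filter_upwards [hz] with s hs
        exact ⟨fun _ => hz, fun _ => hs⟩
      · have hz' : z ∉ C' := by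
          intro hc
          have hc' : ∀ᵐ s : ℝ, (z, s) ∈ D := hc
          have : ∀ᵐ s : ℝ, False := by
            filter_upwards [hz, hc'] with s h1 h2
            exact h1 h2
          exact this.exists.choose_spec
        filter_upwards [hz] with s hs
        exact ⟨fun h => absurd h hs, fun h => absurd h hz'⟩
    have hm2 : MeasurableSet {x : E n × ℝ | (x ∈ D ↔ x.1 ∈ C')} :=
      MeasurableSet.iff hDm (measurable_fst hC'm)
    have h9 : ∀ᵐ q : E n × ℝ ∂((volume : Measure (E n)).prod (volume : Measure ℝ)),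
        (q ∈ D ↔ q.1 ∈ C') := (Measure.ae_prod_iff_ae_ae hm2).2 h8
    have h10 := (fl_measurePreserving (n := n)).quasiMeasurePreserving.ae h9
    filter_upwards [h10] with y hy
    have hy' : (gmtJoin (gmtHor y) (gmtVer y) ∈ C ↔ gmtHor y ∈ C') := hy
    rw [fl_join_hor_ver] at hy'
    exact propext hy'

theorem gmt_exists_rot (w : E (n + 1)) :
    ∃ O : E (n + 1) ≃ₗᵢ[ℝ] E (n + 1), O w = ‖w‖ • gmtEn n := by
  refine ⟨(ℝ ∙ (w - ‖w‖ • gmtEn n))ᗮ.reflection, ?_⟩
  apply Submodule.reflection_sub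
  rw [norm_smul, norm_norm]
  simp

/-! ### rotations -/

/-- the rotated set `O '' C`. -/
def gmtRot (O : E m ≃ₗᵢ[ℝ] E m) (C : Set (E m)) : Set (E m) :=
  gmtBlow O.toContinuousLinearEquiv 0 1 C

theorem mem_gmtRot (O : E m ≃ₗᵢ[ℝ] E m) (C : Set (E m)) (y : E m) :
    y ∈ gmtRot O C ↔ O.symm y ∈ C := by
  simp [gmtRot, gmtBlow, gmtAff]

theorem measurableSet_gmtRot (O : E m ≃ₗᵢ[ℝ] E m) {C : Set (E m)} (hC : MeasurableSet C) :
    MeasurableSet (gmtRot O C) := measurableSet_gmtBlow _ _ _ hC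

theorem gmtRot_min (hm : 1 ≤ m) (O : E m ≃ₗᵢ[ℝ] E m) {C : Set (E m)} (hC : GmtMin univ C) :
    GmtMin univ (gmtRot O C) := by
  have h := gmt_blow_min hm O 0 one_pos hC
  rw [gmtBlow_univ] at h
  exact h

theorem gmt_spa_rot_congr (O : E m ≃ₗᵢ[ℝ] E m) {X Y : Set (E m)} (h : X =ᵐ[volume] Y) :
    (gmtRot O X : Set (E m)) =ᵐ[volume] gmtRot O Y := gmtBlow_congr _ _ one_pos h

theorem gmt_spa_rot_rot (O : E m ≃ₗᵢ[ℝ] E m) (X : Set (E m)) :
    gmtRot O.symm (gmtRot O X) = X := by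
  ext y
  simp [mem_gmtRot]

theorem gmt_spa_rot_congr_iff (O : E m ≃ₗᵢ[ℝ] E m) {X Y : Set (E m)} :
    (gmtRot O X : Set (E m)) =ᵐ[volume] gmtRot O Y ↔ X =ᵐ[volume] Y := by
  refine ⟨fun h => ?_, gmt_spa_rot_congr O⟩
  have := gmt_spa_rot_congr O.symm h
  rwa [gmt_spa_rot_rot, gmt_spa_rot_rot] at this

theorem gmtRot_cone (O : E m ≃ₗᵢ[ℝ] E m) {C : Set (E m)} (hC : GmtCone C) :
    GmtCone (gmtRot O C) := by
  intro ρ hρ
  have h1 : gmtDil 0 ρ (gmtRot O C) = gmtRot O (gmtDil 0 ρ C) := by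
    ext y
    simp [mem_gmtRot, gmtDil]
  rw [h1]
  exact gmt_spa_rot_congr O (hC ρ hρ)

theorem gmtRot_sing (O : E m ≃ₗᵢ[ℝ] E m) (C : Set (E m)) (y : E m) :
    y ∈ gmtSing (gmtRot O C) univ ↔ O.symm y ∈ gmtSing C univ := by
  have h := gmtSing_gmtBlow O.toContinuousLinearEquiv 0 one_pos C univ
  rw [gmtBlow_univ] at h
  have h2 : gmtSing (gmtRot O C) univ = gmtRot O (gmtSing C univ) := h
  rw [h2, mem_gmtRot]

theorem gmt_spa_inv_rot (O : E m ≃ₗᵢ[ℝ] E m) (C : Set (E m)) (v : E m) :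
    GmtInv (gmtRot O C) (O v) ↔ GmtInv C v := by
  unfold GmtInv
  have h1 : {y | y + O v ∈ gmtRot O C} = gmtRot O {x | x + v ∈ C} := by
    ext y
    simp [mem_gmtRot]
  rw [h1, gmt_spa_rot_congr_iff]

theorem mem_gmtSpine_gmtRot (O : E m ≃ₗᵢ[ℝ] E m) (C : Set (E m)) (w : E m) :
    O w ∈ gmtSpine (gmtRot O C) ↔ w ∈ gmtSpine C := by
  rw [mem_gmtSpine, mem_gmtSpine]
  refine forall_congr' fun t => ?_
  rw [← map_smul, gmt_spa_inv_rot]

theorem finrank_gmtSpine_gmtRot (O : E m ≃ₗᵢ[ℝ] E m) (C : Set (E m)) :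
    Module.finrank ℝ (gmtSpine (gmtRot O C)) = Module.finrank ℝ (gmtSpine C) := by
  have h1 : gmtSpine (gmtRot O C) = (gmtSpine C).map (O.toLinearEquiv : E m →ₗ[ℝ] E m) := by
    ext y
    rw [Submodule.mem_map]
    constructor
    · intro hy
      refine ⟨O.symm y, ?_, by simp⟩
      rw [← mem_gmtSpine_gmtRot O]
      simpa using hy
    · rintro ⟨x, hx, rfl⟩
      exact (mem_gmtSpine_gmtRot O C x).2 hx
  rw [h1]
  exact LinearEquiv.finrank_map_eq O.toLinearEquiv (gmtSpine C)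

/-! ### cylinders -/

theorem gmt_spa_vol_timesR (Z : Set (E n)) (hZ : MeasurableSet Z) :
    volume (gmtTimesR Z : Set (E (n + 1))) = 0 ↔ volume Z = 0 := by
  have h1 : (gmtTimesR Z : Set (E (n + 1))) =
      (fun y : E (n + 1) => (gmtHor y, gmtVer y)) ⁻¹' (Z ×ˢ (univ : Set ℝ)) := by
    ext y
    simp [gmtTimesR]
  rw [h1, (fl_measurePreserving (n := n)).measure_preimage (hZ.prod MeasurableSet.univ).nullMeasurableSet,
    Measure.prod_prod]
  simp

theorem gmtTimesR_ae_iff {X Y : Set (E n)} (hX : MeasurableSet X) (hY : MeasurableSet Y) :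
    (gmtTimesR X : Set (E (n + 1))) =ᵐ[volume] gmtTimesR Y ↔ X =ᵐ[volume] Y := by
  rw [← MeasureTheory.measure_symmDiff_eq_zero_iff, ← MeasureTheory.measure_symmDiff_eq_zero_iff]
  have h2 : symmDiff (gmtTimesR X : Set (E (n + 1))) (gmtTimesR Y) = gmtTimesR (symmDiff X Y) := rfl
  rw [h2, gmt_spa_vol_timesR _ (hX.symmDiff hY)]

theorem gmtProdInt_eu :
    gmtProdInt (fun _ : E n => gmtEu n) (fun _ => 1) = fun _ => gmtEu (n + 1) := by
  funext y
  ext ξ η
  have h1 : ⟪ξ, η⟫ = ⟪gmtHor ξ, gmtHor η⟫ + gmtVer ξ * gmtVer η := by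
    simp only [PiLp.inner_apply, Fin.sum_univ_castSucc, fl_hor_apply, fl_ver_apply]
    simp [mul_comm]
  simp only [gmtProdInt, gmtEu, add_apply, smul_apply,
    ContinuousLinearMap.bilinearComp_apply, ContinuousLinearMap.smulRight_apply,
    one_smul, smul_eq_mul]
  exact h1.symm

theorem gmt_spa_data : GmtData (univ : Set (E n)) (fun _ => gmtEu n) (fun _ => 0) where
  opn := isOpen_univ
  int :=
    { smooth := contDiffOn_const
      symm := fun _ _ ξ η => real_inner_comm η ξ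
      pos := fun _ _ _ hξ => real_inner_self_pos.2 hξ }
  f := contDiffOn_const

theorem gmtTimesR_min {C' : Set (E n)} (h : GmtMin univ (gmtTimesR C')) : GmtMin univ C' := by
  have h1 := gmt_lam_prod (S := C') (gmt_spa_data (n := n)) (fun _ => 1) contDiffOn_const
    (fun _ _ => one_pos)
  rw [gmtProdInt_eu] at h1
  exact h1.2 h

theorem gmtTimesR_cone {C' : Set (E n)} (hC' : MeasurableSet C') (h : GmtCone (gmtTimesR C')) :
    GmtCone C' := by
  intro ρ hρ
  have h1 : gmtDil 0 ρ (gmtTimesR C' : Set (E (n + 1))) = gmtTimesR (gmtDil 0 ρ C') := by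
    ext y
    simp [gmtDil, gmtTimesR, gmtHor]
  have h2 := h ρ hρ
  rw [h1] at h2
  have hm : MeasurableSet (gmtDil 0 ρ C') := by
    have : Measurable (fun y : E n => (0 : E n) + ρ • y) := by fun_prop
    exact this hC'
  exact (gmtTimesR_ae_iff hm hC').1 h2

theorem gmtTimesR_sing {C' : Set (E n)} (h : (0 : E (n + 1)) ∈ gmtSing (gmtTimesR C') univ) :
    (0 : E n) ∈ gmtSing C' univ := by
  have h1 := gmt_sing_prod (univ : Set (E n)) C'
  have h2 : (gmtTimesR (univ : Set (E n)) : Set (E (n + 1))) = univ := rfl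
  rw [h2] at h1
  rw [h1] at h
  have h3 : gmtHor (0 : E (n + 1)) ∈ gmtSing C' univ := h
  simpa [gmtHor] using h3

theorem gmt_spa_hor_spine {C' : Set (E n)} (hC' : MeasurableSet C') {w : E (n + 1)}
    (hw : w ∈ gmtSpine (gmtTimesR C')) : gmtHor w ∈ gmtSpine C' := by
  rw [mem_gmtSpine] at hw ⊢
  intro t
  have h1 := hw t
  unfold GmtInv at h1 ⊢
  have h2 : {y : E (n + 1) | y + t • w ∈ gmtTimesR C'} = gmtTimesR {x | x + t • gmtHor w ∈ C'} := by
    ext y
    simp [gmtTimesR, gmtHor]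
  rw [h2] at h1
  have hm : MeasurableSet {x : E n | x + t • gmtHor w ∈ C'} := by
    have : Measurable (fun x : E n => x + t • gmtHor w) := by fun_prop
    exact this hC'
  exact (gmtTimesR_ae_iff hm hC').1 h1

theorem gmtSpine_timesR_le {C' : Set (E n)} (hC' : MeasurableSet C') :
    Module.finrank ℝ (gmtSpine (gmtTimesR C')) ≤ Module.finrank ℝ (gmtSpine C') + 1 := by
  set S := gmtSpine (gmtTimesR C' : Set (E (n + 1))) with hS
  set f : S →ₗ[ℝ] E n := ((gmtHorL n : E (n + 1) →L[ℝ] E n) : E (n + 1) →ₗ[ℝ] E n).comp S.subtype with hf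
  have h1 := LinearMap.finrank_range_add_finrank_ker f
  have h2 : Module.finrank ℝ (LinearMap.range f) ≤ Module.finrank ℝ (gmtSpine C') := by
    apply Submodule.finrank_mono
    rintro _ ⟨x, rfl⟩
    exact gmt_spa_hor_spine hC' x.2
  have h3 : Module.finrank ℝ (LinearMap.ker f) ≤ 1 := by
    -- the kernel embeds in `ℝ` by the last coordinate
    set g : LinearMap.ker f →ₗ[ℝ] ℝ :=
      ((gmtVerL n : E (n + 1) →L[ℝ] ℝ) : E (n + 1) →ₗ[ℝ] ℝ).comp (S.subtype.comp (LinearMap.ker f).subtype) with hg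
    have hinj : Function.Injective g := by
      rw [← LinearMap.ker_eq_bot, LinearMap.ker_eq_bot']
      intro x hx
      have hx1 : gmtHor (x.1.1 : E (n + 1)) = 0 := x.2
      have hx2 : gmtVer (x.1.1 : E (n + 1)) = 0 := hx
      have hx3 := fl_join_hor_ver (x.1.1 : E (n + 1))
      rw [hx1, hx2] at hx3
      have hx4 : (x.1.1 : E (n + 1)) = 0 := by
        rw [← hx3, fl_join_eq]
        simp
      apply Subtype.ext
      apply Subtype.ext
      exact hx4
    have := LinearMap.finrank_le_finrank_of_injective hinj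
    simpa using this
  omega

end Claimed.Agent.Gmt
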