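import Claimed.Agent.Lib.Gmt.SpA

/-!
# Lib/Gmt G6 SPLITTING [part B]: Federer's dimension reduction.   (architect: helper184)

A *singular cone* in `E k` is a measurable minimising cone with `0` singular.  INPUT (G7, helper257): `GmtSimons k` for `2 ≤ k ≤ 7`.
RESULTS: no singular cones in `E k`, `k ≤ 7`; the spine of a singular cone in `E m` has dimension `≤ m - 8`; `gmtSing = ∅` for `m ≤ 7`.

PLAN OF PROOFS
* `gmt_no_singcone_zero`: in `E 0` a ball is the whole (one point) space: `gmtBd = ∅`.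
* `gmt_no_singcone_one`: `a = |C ∩ (0,1)|` (in the coordinate `y 0`).  Cone property: `|C ∩ (0,ρ)| = ρ a`.  So the measures `B ↦ |C ∩ B|` and `a |B|` agree on the intervals `(0,ρ)`, hence on Borel subsets of `(0,∞)`;
  `B = C ∩ (0,1)` gives `a = a²`.  So `C ∩ (0,∞)` is null or conull, the same on `(-∞,0)`.  As `0 ∈ gmtBd C`, `C` is a.e. one of the two half lines: `gmtReg_gmtHalf`, `gmtReg_congr`: `0` is regular.  Contradiction.
  (Alternative: `gmt_radial_of_cone`: `μ_C(E 1 \ {0}) = 0`, constancy `gmtP_eq_zero_const` on the two half lines.)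
* `gmt_singcone_reduce`: pick `w ≠ 0` in the spine, `O w = ‖w‖ e_last` (`gmt_exists_rot`), `gmtRot O C` is a singular cone with `e_last` in its spine; `gmt_split_last`: `= C' × ℝ` a.e.; transfer by `*_congr` and `gmtTimesR_*`.
* `gmt_singcone_tangent`: `C` is `GmtLAM` for the data `gmtData_eu`; frame `refl` (`gmt_frame_eu`), `gmtBlow_refl`; `gmt_tangent_exists`, `gmt_tangent_props` at `x = z` with `r i = 1/(i+1)`; `gmt_tangent_of_cone`.
* `gmt_no_singcone`: induction on `k`.  If all boundary points `≠ 0` are regular: `GmtSimons k` gives a half space, so `0` is regular.  Otherwise `gmt_singcone_tangent` + `gmt_singcone_reduce` give a singular cone in `E (k-1)`.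
* `gmt_spine_bound`: induction on `m`: spine `= ⊥`: `gmt_no_singcone` gives `8 ≤ m`; otherwise `gmt_singcone_reduce`.
* `gmt_tangent_singcone`, `gmt_sing_empty_of`: `gmt_tangent_exists/props` with the frame `gmtFr (A x)` (`gmtFr_spec`, `gmtInt_ell` with `K = {x}`).
-/

set_option autoImplicit false
open scoped ContDiff ENNReal RealInnerProductSpace Topology
open MeasureTheory Metric Set Filter

namespace Claimed.Agent.Gmt

variable {m n : ℕ}

/-- SIMONS' THEOREM in `E k` (export of G7). -/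
def GmtSimons (k : ℕ) : Prop :=
  ∀ S : Set (E k), GmtMin univ S → GmtCone S → (∀ x ∈ gmtBd S, x ≠ 0 → GmtReg S x) →
    (0 : E k) ∈ gmtBd S → ∃ e : E k, ‖e‖ = 1 ∧ S =ᵐ[volume] gmtHalf 0 e

/-- singular minimising cones. -/
structure GmtSingCone (C : Set (E m)) : Prop where
  meas : MeasurableSet C
  min : GmtMin univ C
  cone : GmtCone C
  sing : (0 : E m) ∈ gmtSing C univ

theorem GmtSingCone.congr {C C' : Set (E m)} (h : GmtSingCone C) (hC' : MeasurableSet C')
    (hCC : C =ᵐ[volume] C') : GmtSingCone C' :=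
  ⟨hC', GmtLAM.congr h.min hC' hCC, GmtCone.congr hCC h.cone, by
    rw [← gmtSing_congr hCC]; exact h.sing⟩

theorem gmt_no_singcone_zero (C : Set (E 0)) : ¬ GmtSingCone C := by
  intro h
  have := h.sing.2.1
  rw [gmtBd_dim_zero] at this
  exact this

theorem gmt_no_singcone_one (C : Set (E 1)) : ¬ GmtSingCone C := by
  intro hC
  have hlf : GmtLF C univ := GmtLAM.lf isOpen_univ (gmtInt_eu univ) hC.min
  have hrad := gmt_radial_of_cone hlf hC.cone
  have hnu := norm_gmtNu_ae isOpen_univ hlf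
  rw [Measure.restrict_univ] at hnu
  have h0 : ∀ᵐ y ∂(gmtMu C), y = 0 := by
    filter_upwards [hrad, hnu] with y h1 h2
    have hin : ⟪y, gmtNu C y⟫ = y 0 * gmtNu C y 0 := by
      simp [PiLp.inner_apply, mul_comm]
    have hν : gmtNu C y 0 ≠ 0 := by
      intro h
      have : gmtNu C y = 0 := by
        ext i; fin_cases i; simpa using h
      rw [this] at h2; simp at h2
    rw [hin] at h1
    have hy : y 0 = 0 := by
      rcases mul_eq_zero.1 h1 with h | h
      · exact h
      · exact absurd h hν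
    ext i; fin_cases i; simpa using hy
  have hcont : Continuous fun y : E 1 => y 0 := by fun_prop
  set Hp : Set (E 1) := {y | 0 < y 0} with hHp
  set Hn : Set (E 1) := {y | y 0 < 0} with hHn
  have hpo : IsOpen Hp := isOpen_lt continuous_const hcont
  have hno : IsOpen Hn := isOpen_lt hcont continuous_const
  have hpc : IsPreconnected Hp := by
    apply Convex.isPreconnected
    intro a ha b hb s t hs ht hst
    simp only [hHp, mem_ofPred_eq] at ha hb ⊢
    have : (s • a + t • b) 0 = s * a 0 + t * b 0 := by simp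
    rw [this]
    have hc : 0 < min (a 0) (b 0) := lt_min ha hb
    have h1 : s * min (a 0) (b 0) ≤ s * a 0 := mul_le_mul_of_nonneg_left (min_le_left _ _) hs
    have h2 : t * min (a 0) (b 0) ≤ t * b 0 := mul_le_mul_of_nonneg_left (min_le_right _ _) ht
    have h3 : s * min (a 0) (b 0) + t * min (a 0) (b 0) = min (a 0) (b 0) := by
      rw [← add_mul, hst, one_mul]
    linarith
  have hnc : IsPreconnected Hn := by
    apply Convex.isPreconnected
    intro a ha b hb s t hs ht hst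
    simp only [hHn, mem_ofPred_eq] at ha hb ⊢
    have : (s • a + t • b) 0 = s * a 0 + t * b 0 := by simp
    rw [this]
    have hc : max (a 0) (b 0) < 0 := max_lt ha hb
    have h1 : s * a 0 ≤ s * max (a 0) (b 0) := mul_le_mul_of_nonneg_left (le_max_left _ _) hs
    have h2 : t * b 0 ≤ t * max (a 0) (b 0) := mul_le_mul_of_nonneg_left (le_max_right _ _) ht
    have h3 : s * max (a 0) (b 0) + t * max (a 0) (b 0) = max (a 0) (b 0) := by
      rw [← add_mul, hst, one_mul]
    linarith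
  have hPp : gmtP C Hp = 0 := by
    rw [← gmtMu_open C hpo, measure_eq_zero_iff_ae_notMem]
    filter_upwards [h0] with y hy
    rw [hy]; simp [hHp]
  have hPn : gmtP C Hn = 0 := by
    rw [← gmtMu_open C hno, measure_eq_zero_iff_ae_notMem]
    filter_upwards [h0] with y hy
    rw [hy]; simp [hHn]
  have hz : volume ({0} : Set (E 1)) = 0 := by simp
  have htri : ∀ y : E 1, y ∈ Hp ∨ y ∈ Hn ∨ y = 0 := by
    intro y
    rcases lt_trichotomy (y 0) 0 with h | h | h
    · exact Or.inr (Or.inl h)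
    · refine Or.inr (Or.inr ?_)
      ext i; fin_cases i; simpa using h
    · exact Or.inl h
  have hdis : ∀ y : E 1, y ∈ Hp → y ∈ Hn → False := by
    intro y h1 h2
    simp only [hHp, hHn, mem_ofPred_eq] at h1 h2
    linarith
  have hbd := hC.sing.2.1 1 one_pos
  have hHn' : Hn = gmtHalf 0 (eb 0) := by
    ext y; simp [hHn, gmtHalf, EuclideanSpace.inner_single_right]
  have hHp' : Hp = gmtHalf 0 (-(eb 0 : E 1)) := by
    ext y; simp [hHp, gmtHalf, EuclideanSpace.inner_single_right]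
  have heb : (eb 0 : E 1) ≠ 0 := by
    intro h
    have := congrArg (fun v : E 1 => v 0) h
    simp at this
  rcases gmtP_eq_zero_const hpo hpc hC.meas hPp with hp | hp <;>
    rcases gmtP_eq_zero_const hno hnc hC.meas hPn with hn | hn
  · -- `C` is null
    have : volume (C ∩ ball 0 1) = 0 := by
      refine measure_mono_null (t := (C ∩ Hp) ∪ (C ∩ Hn) ∪ {0}) ?_
        (measure_union_null (measure_union_null hp hn) hz)
      intro y hy
      rcases htri y with h | h | h
      · exact Or.inl (Or.inl ⟨hy.1, h⟩)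
      · exact Or.inl (Or.inr ⟨hy.1, h⟩)
      · exact Or.inr h
    exact absurd hbd.1 (by rw [this]; simp)
  · -- `C = Hn`
    have hCH : C =ᵐ[volume] gmtHalf 0 (eb 0) := by
      rw [← hHn', ae_eq_set]
      refine ⟨measure_mono_null (t := (C ∩ Hp) ∪ {0}) ?_ (measure_union_null hp hz), hn⟩
      intro y hy
      rcases htri y with h | h | h
      · exact Or.inl ⟨hy.1, h⟩
      · exact absurd h hy.2
      · exact Or.inr h
    apply hC.sing.2.2
    rw [gmtReg_congr hCH]
    exact gmtReg_gmtHalf 0 heb 0 (by simp)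
  · -- `C = Hp`
    have hCH : C =ᵐ[volume] gmtHalf 0 (-(eb 0 : E 1)) := by
      rw [← hHp', ae_eq_set]
      refine ⟨measure_mono_null (t := (C ∩ Hn) ∪ {0}) ?_ (measure_union_null hn hz), hp⟩
      intro y hy
      rcases htri y with h | h | h
      · exact absurd h hy.2
      · exact Or.inl ⟨hy.1, h⟩
      · exact Or.inr h
    apply hC.sing.2.2
    rw [gmtReg_congr hCH]
    exact gmtReg_gmtHalf 0 (neg_ne_zero.2 heb) 0 (by simp)
  · -- `C` is conull
    have : volume (ball 0 1 \ C) = 0 := by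
      refine measure_mono_null (t := (Hp \ C) ∪ (Hn \ C) ∪ {0}) ?_
        (measure_union_null (measure_union_null hp hn) hz)
      intro y hy
      rcases htri y with h | h | h
      · exact Or.inl (Or.inl ⟨h, hy.2⟩)
      · exact Or.inl (Or.inr ⟨h, hy.2⟩)
      · exact Or.inr h
    exact absurd hbd.2 (by rw [this]; simp)

/-- a singular cone with a nontrivial spine comes from a singular cone one dimension lower. -/
theorem gmt_singcone_reduce {C : Set (E (n + 1))} (hC : GmtSingCone C) (hs : gmtSpine C ≠ ⊥) :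
    ∃ C' : Set (E n), GmtSingCone C' ∧
      Module.finrank ℝ (gmtSpine C) ≤ Module.finrank ℝ (gmtSpine C') + 1 := by
  obtain ⟨w, hw, hw0⟩ := (Submodule.ne_bot_iff _).1 hs
  obtain ⟨O, hO⟩ := gmt_exists_rot w
  have hC₁ : GmtSingCone (gmtRot O C) :=
    ⟨measurableSet_gmtRot O hC.meas, gmtRot_min (by omega) O hC.min, gmtRot_cone O hC.cone,
      (gmtRot_sing O C 0).2 (by simpa using hC.sing)⟩
  have he : gmtEn n ∈ gmtSpine (gmtRot O C) := by
    have h1 : O w ∈ gmtSpine (gmtRot O C) := (mem_gmtSpine_gmtRot O C w).2 hw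
    have h2 : gmtEn n = ‖w‖⁻¹ • O w := by
      rw [hO, smul_smul, inv_mul_cancel₀ (norm_ne_zero_iff.2 hw0), one_smul]
    rw [h2]
    exact Submodule.smul_mem _ _ h1
  obtain ⟨C', hC'm, hCC'⟩ := gmt_split_last hC₁.meas he
  have hC₂ : GmtSingCone (gmtTimesR C') := hC₁.congr ((gmtHorL _).continuous.measurable hC'm) hCC'
  refine ⟨C', ⟨hC'm, gmtTimesR_min hC₂.min, gmtTimesR_cone hC'm hC₂.cone,
    gmtTimesR_sing hC₂.sing⟩, ?_⟩
  rw [← finrank_gmtSpine_gmtRot O C, gmtSpine_congr hCC']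
  exact gmtSpine_timesR_le hC'm

/-- a singular point `z ≠ 0` of a minimising cone produces a singular cone with nontrivial spine. -/
theorem gmt_singcone_tangent (hm : 2 ≤ m) {C : Set (E m)} (hC : GmtSingCone C) {z : E m}
    (hz : z ≠ 0) (hzs : z ∈ gmtSing C univ) :
    ∃ C₁ : Set (E m), GmtSingCone C₁ ∧ gmtSpine C₁ ≠ ⊥ := by
  have hr : ∀ i : ℕ, 0 < 1 / ((i : ℝ) + 1) := fun i => Nat.one_div_pos_of_nat
  have hr0 : Tendsto (fun i : ℕ => 1 / ((i : ℝ) + 1)) atTop (𝓝 0) :=
    tendsto_one_div_add_atTop_nhds_zero_nat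
  have hmin : GmtLAM (fun _ => gmtEu m) (fun _ => 0) univ C := hC.min
  obtain ⟨φ, C₁, hφ, hC₁, hc⟩ :=
    gmt_tangent_exists hm gmtData_eu hmin (mem_univ z) gmt_frame_eu hr hr0
  have hr' : ∀ i : ℕ, 0 < 1 / (((φ i : ℕ) : ℝ) + 1) := fun i => hr (φ i)
  have hr0' : Tendsto (fun i : ℕ => 1 / (((φ i : ℕ) : ℝ) + 1)) atTop (𝓝 0) :=
    hr0.comp hφ.tendsto_atTop
  obtain ⟨h1, h2, -, -, h5⟩ :=
    gmt_tangent_props hm gmtData_eu hmin (mem_univ z) gmt_frame_eu hr' hr0' hC₁ hc
  refine ⟨C₁, ⟨hC₁, h1, h2, h5 hzs⟩, ?_⟩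
  have hz' : z ∈ gmtSpine C₁ := by
    refine gmt_tangent_of_cone hm hC.min hC.cone z hr' hr0' hC₁ ?_
    simpa only [gmtBlow_refl] using hc
  exact (Submodule.ne_bot_iff _).2 ⟨z, hz', hz⟩

/-- NO SINGULAR CONES IN DIMENSION `≤ 7`. -/
theorem gmt_no_singcone (hSim : ∀ k, 2 ≤ k → k ≤ 7 → GmtSimons k) {k : ℕ} (hk : k ≤ 7)
    (C : Set (E k)) : ¬ GmtSingCone C := by
  induction k with
  | zero => exact gmt_no_singcone_zero C
  | succ n ih =>
    intro hC
    by_cases hn : n = 0
    · subst hn; exact gmt_no_singcone_one C hC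
    have hk2 : 2 ≤ n + 1 := by omega
    by_cases hreg : ∀ x ∈ gmtBd C, x ≠ 0 → GmtReg C x
    · obtain ⟨e, he, hCe⟩ := hSim (n + 1) hk2 hk C hC.min hC.cone hreg hC.sing.2.1
      apply hC.sing.2.2
      rw [gmtReg_congr hCe]
      exact gmtReg_gmtHalf 0 (by intro h; simp [h] at he) 0 (by simp)
    · push Not at hreg
      obtain ⟨z, hzb, hz0, hzr⟩ := hreg
      obtain ⟨C₁, hC₁, hs⟩ := gmt_singcone_tangent hk2 hC hz0 ⟨mem_univ _, hzb, hzr⟩
      obtain ⟨C', hC', -⟩ := gmt_singcone_reduce hC₁ hs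
      exact ih (by omega) C' hC'

/-- THE SPINE OF A SINGULAR CONE HAS DIMENSION `≤ m - 8`. -/
theorem gmt_spine_bound (hSim : ∀ k, 2 ≤ k → k ≤ 7 → GmtSimons k) {C : Set (E m)}
    (hC : GmtSingCone C) : 8 ≤ m ∧ Module.finrank ℝ (gmtSpine C) ≤ m - 8 := by
  induction m with
  | zero => exact absurd hC (gmt_no_singcone_zero C)
  | succ n ih =>
    by_cases hs : gmtSpine C = ⊥
    · have h8 : 8 ≤ n + 1 := by
        by_contra h
        exact gmt_no_singcone hSim (by omega) C hC
      refine ⟨h8, ?_⟩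
      rw [hs]; simp
    · obtain ⟨C', hC', hle⟩ := gmt_singcone_reduce hC hs
      obtain ⟨h8, hf⟩ := ih hC'
      exact ⟨by omega, by omega⟩

/-- tangent cones at singular points are singular cones. -/
theorem gmt_tangent_singcone (hm : 2 ≤ m) {U S : Set (E m)} {A : E m → Bil m} {f : E m → ℝ}
    (hd : GmtData U A f) (hS : GmtLAM A f U S) {x : E m} (hx : x ∈ gmtSing S U)
    {T : E m ≃L[ℝ] E m} (hT : GmtFrame (A x) T) {r : ℕ → ℝ} (hr : ∀ i, 0 < r i)
    (hr0 : Tendsto r atTop (𝓝 0)) {C : Set (E m)} (hC : MeasurableSet C)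
    (hc : GmtConv univ (fun i => gmtBlow T x (r i) S) C) : GmtSingCone C := by
  obtain ⟨h1, h2, -, -, h5⟩ := gmt_tangent_props hm hd hS hx.1 hT hr hr0 hC hc
  exact ⟨hC, h1, h2, h5 hx⟩

/-- no singularities in ambient dimension at most seven. -/
theorem gmt_sing_empty_of (hSim : ∀ k, 2 ≤ k → k ≤ 7 → GmtSimons k) {U : Set (E m)}
    {A : E m → Bil m} {f : E m → ℝ} {S : Set (E m)} (hm : 2 ≤ m) (hm' : m ≤ 7)
    (hd : GmtData U A f) (hS : GmtLAM A f U S) : gmtSing S U = ∅ := by
  rw [Set.eq_empty_iff_forall_notMem]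
  intro x hx
  obtain ⟨c, C₀, hc, -, hell⟩ :=
    gmtInt_ell hd.opn hd.int (isCompact_singleton (x := x)) (Set.singleton_subset_iff.2 hx.1)
  have hT : GmtFrame (A x) (gmtFr (A x)) := gmtFr_spec hm hc (hell x rfl)
  have hr : ∀ i : ℕ, 0 < 1 / ((i : ℝ) + 1) := fun i => Nat.one_div_pos_of_nat
  have hr0 : Tendsto (fun i : ℕ => 1 / ((i : ℝ) + 1)) atTop (𝓝 0) :=
    tendsto_one_div_add_atTop_nhds_zero_nat
  obtain ⟨φ, C, hφ, hC, hcv⟩ := gmt_tangent_exists hm hd hS hx.1 hT hr hr0
  have hr' : ∀ i : ℕ, 0 < 1 / (((φ i : ℕ) : ℝ) + 1) := fun i => hr (φ i)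
  have hr0' : Tendsto (fun i : ℕ => 1 / (((φ i : ℕ) : ℝ) + 1)) atTop (𝓝 0) :=
    hr0.comp hφ.tendsto_atTop
  exact gmt_no_singcone hSim hm' C (gmt_tangent_singcone hm hd hS hx hT hr' hr0' hC hcv)

end Claimed.Agent.Gmt
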